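import Mathlib

/-!
# P219: real-variable algebra of the bubble `w = √(ε (2 - k2 ε)) / (f + ε)` for all `k2 ≥ 0`

`wb k2 ε (f x) = bub k2 f ε x` of `End/Defs.lean` by `rfl`.  `N = 1 / (f + ε)`.
-/

namespace Vale.Agent.P219.End.Alg

open Real MeasureTheory Set

/-- the bubble as function of the value `f` of the potential -/
noncomputable def wb (k2 ε f : ℝ) : ℝ := √(ε * (2 - k2 * ε)) / (f + ε)

/-- zeroth component of the map to the sphere -/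
noncomputable def th0 (k2 ε f : ℝ) : ℝ := (ε - f + k2 * ε * f) / (f + ε)

theorem cf_pos {k2 ε : ℝ} (hε : 0 < ε) (h2 : k2 * ε < 2) : 0 < ε * (2 - k2 * ε) := by
  have : 0 < 2 - k2 * ε := by linarith
  positivity

theorem sqrt_cf_pos {k2 ε : ℝ} (hε : 0 < ε) (h2 : k2 * ε < 2) : 0 < √(ε * (2 - k2 * ε)) :=
  Real.sqrt_pos.mpr (cf_pos hε h2)

theorem wb_pos {k2 ε f : ℝ} (hε : 0 < ε) (h2 : k2 * ε < 2) (hf : 0 ≤ f) : 0 < wb k2 ε f := by
  have h1 := sqrt_cf_pos hε h2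
  unfold wb; positivity

theorem wb_nonneg {k2 ε f : ℝ} (hε : 0 ≤ ε) (hf : 0 ≤ f) : 0 ≤ wb k2 ε f := by
  unfold wb; positivity

theorem wb_sq {k2 ε f : ℝ} (hε : 0 < ε) (h2 : k2 * ε ≤ 2) :
    wb k2 ε f ^ 2 = ε * (2 - k2 * ε) * (1 / (f + ε)) ^ 2 := by
  unfold wb
  have : 0 ≤ 2 - k2 * ε := by linarith
  rw [div_pow, Real.sq_sqrt (by positivity), one_div, inv_pow, div_eq_mul_inv]

/-- pointwise identity of the zero order terms, `N = 1 / (f + ε)` -/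
theorem zero_order {k2 ε f : ℝ} (hε : 0 < ε) (h2 : k2 * ε ≤ 2) (hf : 0 ≤ f) :
    -k2 - wb k2 ε f ^ 2 - (1 / (f + ε)) ^ 2 * (2 * f + k2 * f ^ 2)
      + 2 * (1 / (f + ε)) * (1 + k2 * f) = 0 := by
  have h : 0 < f + ε := by positivity
  rw [wb_sq hε h2]
  field_simp
  ring

/-- complete square -/
theorem zero_order_sq {k2 ε f H m n : ℝ} (hε : 0 < ε) (h2 : k2 * ε ≤ 2) (hf : 0 ≤ f) :
    (H ^ 2 / m ^ 2 - k2) - wb k2 ε f ^ 2
      - (1 / (f + ε)) ^ 2 * ((2 * f + k2 * f ^ 2) - n ^ 2)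
      - 2 * (H / m) * (1 / (f + ε)) * n
      + 2 * (1 / (f + ε)) * (1 + k2 * f) = (H / m - n / (f + ε)) ^ 2 := by
  have h := zero_order hε h2 hf
  have e : n / (f + ε) = (1 / (f + ε)) * n := by ring
  have e2 : (H / m) ^ 2 = H ^ 2 / m ^ 2 := by rw [div_pow]
  rw [e, ← e2]
  linear_combination h

/-- exact defect identity at a point: `Guu = G(u,u)`, `GuF = G(u,F)`, `GFF = G(F,F)`,
`Ggg = w^(m-2) G(g,g)` for `u = g w^((m-2)/2)`, `Gψ = G(u² β, F)`, `β = (2/m)/(F+ε)`. -/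
theorem defect_pointwise {k2 ε f H m n u Guu GuF GFF Ggg Gψ : ℝ} (hε : 0 < ε)
    (h2 : k2 * ε ≤ 2) (hf : 0 ≤ f) (hm : 2 < m)
    (hFF : GFF = (2 * f + k2 * f ^ 2) - n ^ 2)
    (hgg : Ggg = Guu + (m - 2) * (1 / (f + ε)) * u * GuF
      + ((m - 2) / 2) ^ 2 * (1 / (f + ε)) ^ 2 * u ^ 2 * GFF)
    (hψ : Gψ = 2 * u * ((2 / m) / (f + ε)) * GuF
      - (2 / m) * (1 / (f + ε)) ^ 2 * u ^ 2 * GFF) :
    4 / (m * (m - 2)) * Guu + (H ^ 2 / m ^ 2 - k2) * u ^ 2 - u ^ 2 * wb k2 ε f ^ 2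
      = 4 / (m * (m - 2)) * Ggg + u ^ 2 * (H / m - n / (f + ε)) ^ 2
        + (H * (u ^ 2 * ((2 / m) / (f + ε))) * n
          - m * (1 + k2 * f) * (u ^ 2 * ((2 / m) / (f + ε))) - Gψ) := by
  have h0 := zero_order_sq (H := H) (m := m) (n := n) hε h2 hf
  have hm0 : m ≠ 0 := by linarith
  have hm2 : m - 2 ≠ 0 := by linarith
  have e1 : (2 / m) / (f + ε) = (2 / m) * (1 / (f + ε)) := by ring
  rw [e1] at hψ ⊢
  set N := 1 / (f + ε)
  rw [← h0, hψ, hgg, hFF]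
  field_simp
  ring

/-- `θ₀² + w² |DF|² = 1` -/
theorem th_sq {k2 ε f : ℝ} (hε : 0 < ε) (h2 : k2 * ε ≤ 2) (hf : 0 ≤ f) :
    th0 k2 ε f ^ 2 + wb k2 ε f ^ 2 * (2 * f + k2 * f ^ 2) = 1 := by
  have h : 0 < f + ε := by positivity
  rw [wb_sq hε h2]
  unfold th0
  field_simp
  ring

theorem abs_th0_le_one {k2 ε f : ℝ} (hk : 0 ≤ k2) (hε : 0 < ε) (h2 : k2 * ε ≤ 2)
    (hf : 0 ≤ f) : |th0 k2 ε f| ≤ 1 := by
  have h := th_sq hε h2 hf
  rw [← sq_le_one_iff_abs_le_one]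
  have : 0 ≤ wb k2 ε f ^ 2 * (2 * f + k2 * f ^ 2) := by positivity
  linarith

theorem wb_sq_mul_le_one {k2 ε f : ℝ} (hε : 0 < ε) (h2 : k2 * ε ≤ 2) (hf : 0 ≤ f) :
    wb k2 ε f ^ 2 * (2 * f + k2 * f ^ 2) ≤ 1 := by
  have h := th_sq hε h2 hf
  have := sq_nonneg (th0 k2 ε f)
  linarith

/-- alternative form of `θ₀` -/
theorem th0_eq {k2 ε f : ℝ} (hε : 0 < ε) (hf : 0 ≤ f) :
    th0 k2 ε f = (1 + k2 * f) - (1 / (f + ε)) * (2 * f + k2 * f ^ 2) := by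
  have h : 0 < f + ε := by positivity
  unfold th0
  field_simp
  ring

/-- derivative of the bubble in `f` -/
theorem hasDerivAt_wb_f {k2 ε f : ℝ} (hε : 0 < ε) (hf : 0 ≤ f) :
    HasDerivAt (wb k2 ε) (-(wb k2 ε f / (f + ε))) f := by
  have h : 0 < f + ε := by positivity
  unfold wb
  have h1 : HasDerivAt (fun x : ℝ => x + ε) 1 f := by
    simpa using (hasDerivAt_id f).add_const ε
  have h2 := (h1.inv h.ne').const_mul (√(ε * (2 - k2 * ε)))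
  refine h2.congr_deriv ?_
  field_simp

/-- derivative of `θ₀` in `f` : `-w²` -/
theorem hasDerivAt_th0_f {k2 ε f : ℝ} (hε : 0 < ε) (h2 : k2 * ε ≤ 2) (hf : 0 ≤ f) :
    HasDerivAt (th0 k2 ε) (-(wb k2 ε f ^ 2)) f := by
  have h : 0 < f + ε := by positivity
  rw [wb_sq hε h2]
  have h1 : HasDerivAt (fun x : ℝ => x + ε) 1 f := by
    simpa using (hasDerivAt_id f).add_const ε
  have h3 : HasDerivAt (fun x : ℝ => ε - x + k2 * ε * x) (-1 + k2 * ε) f := by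
    have ha : HasDerivAt (fun x : ℝ => ε - x) (-1) f := by
      simpa using (hasDerivAt_id f).const_sub ε
    have hb : HasDerivAt (fun x : ℝ => k2 * ε * x) (k2 * ε) f := by
      simpa using (hasDerivAt_id f).const_mul (k2 * ε)
    exact ha.add hb
  refine (h3.div h1 h.ne').congr_deriv ?_
  field_simp
  ring

/-- derivative of the bubble in the scale: `∂_ε w = -θ₀ w / (ε (2 - k2 ε))` -/
theorem hasDerivAt_wb_eps {k2 ε f : ℝ} (hε : 0 < ε) (h2 : k2 * ε < 2) (hf : 0 ≤ f) :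
    HasDerivAt (fun ε => wb k2 ε f)
      (-(th0 k2 ε f * wb k2 ε f / (ε * (2 - k2 * ε)))) ε := by
  have h : 0 < f + ε := by positivity
  have hc := cf_pos hε h2
  have h1 : HasDerivAt (fun x : ℝ => x * (2 - k2 * x)) (2 - 2 * k2 * ε) ε := by
    have ha : HasDerivAt (fun x : ℝ => 2 - k2 * x) (-k2) ε := by
      simpa using ((hasDerivAt_id ε).const_mul k2).const_sub 2
    refine ((hasDerivAt_id ε).mul ha).congr_deriv ?_
    simp only [id]; ring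
  have h3 := h1.sqrt hc.ne'
  have h4 : HasDerivAt (fun x : ℝ => f + x) 1 ε := by
    simpa using (hasDerivAt_id ε).const_add f
  unfold wb
  refine (h3.div h4 h.ne').congr_deriv ?_
  unfold th0
  have hs := sqrt_cf_pos hε h2
  have hsq : √(ε * (2 - k2 * ε)) ^ 2 = ε * (2 - k2 * ε) := Real.sq_sqrt hc.le
  have h22 : 0 < 2 - k2 * ε := by linarith
  set r := √(ε * (2 - k2 * ε))
  have hr := hs.ne'
  have e1 : (2 - 2 * k2 * ε) / (2 * r) = (1 - k2 * ε) * r / (ε * (2 - k2 * ε)) := by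
    rw [← hsq]
    field_simp
  rw [e1]
  field_simp
  ring

/-- derivative of `w^m` in the scale (real power) -/
theorem hasDerivAt_wb_rpow_eps (m : ℝ) {k2 ε f : ℝ} (hε : 0 < ε) (h2 : k2 * ε < 2)
    (hf : 0 ≤ f) :
    HasDerivAt (fun ε => wb k2 ε f ^ m)
      (-(m * th0 k2 ε f * wb k2 ε f ^ m / (ε * (2 - k2 * ε)))) ε := by
  have hw := wb_pos hε h2 hf
  have h := (hasDerivAt_wb_eps hε h2 hf).rpow_const (p := m) (Or.inl hw.ne')
  refine h.congr_deriv ?_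
  have e : wb k2 ε f ^ m = wb k2 ε f ^ (m - 1) * wb k2 ε f := by
    rw [← Real.rpow_add_one hw.ne']; ring_nf
  rw [e]; ring

/-- derivative of `w^m` in `f` (real power) -/
theorem hasDerivAt_wb_rpow_f (m : ℝ) {k2 ε f : ℝ} (hε : 0 < ε) (h2 : k2 * ε < 2)
    (hf : 0 ≤ f) :
    HasDerivAt (fun f => wb k2 ε f ^ m) (-(m * wb k2 ε f ^ m / (f + ε))) f := by
  have hw := wb_pos hε h2 hf
  have h := (hasDerivAt_wb_f (k2 := k2) hε hf).rpow_const (p := m) (Or.inl hw.ne')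
  refine h.congr_deriv ?_
  have e : wb k2 ε f ^ m = wb k2 ε f ^ (m - 1) * wb k2 ε f := by
    rw [← Real.rpow_add_one hw.ne']; ring_nf
  rw [e]; ring

/-- exact pointwise form of the bubble monotonicity: `W = w^m`, `GΦF = G(Φ,F)`; the left side is
the integrand of `D_c[Φ w^m]`, the first term on the right is `ε (2 - k2 ε) ∂_ε (Φ w^m)`. -/
theorem mono_pointwise {k2 ε f H m n Φ W GΦF GFF : ℝ} (hε : 0 < ε) (hf : 0 ≤ f)
    (hFF : GFF = (2 * f + k2 * f ^ 2) - n ^ 2) :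
    H * (Φ * W) * n - m * (1 + k2 * f) * (Φ * W)
        - (W * GΦF - Φ * (m * W * (1 / (f + ε)) * GFF))
      = -(m * th0 k2 ε f * (Φ * W)) + Φ * W * (H * n - m * n ^ 2 / (f + ε))
        - W * GΦF := by
  have h := th0_eq (k2 := k2) hε hf
  have e : m * n ^ 2 / (f + ε) = m * (1 / (f + ε)) * n ^ 2 := by ring
  rw [h, hFF, e]
  ring

/-- completing the square in the monotonicity -/
theorem square_bound {ε f H m n : ℝ} (hε : 0 < ε) (hf : 0 ≤ f) (hm : 0 < m) :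
    H * n - m * n ^ 2 / (f + ε) ≤ H ^ 2 * (f + ε) / (4 * m) := by
  have h : 0 < f + ε := by positivity
  rw [← sub_nonneg]
  have : H ^ 2 * (f + ε) / (4 * m) - (H * n - m * n ^ 2 / (f + ε))
      = m / (f + ε) * (n - H * (f + ε) / (2 * m)) ^ 2 := by
    field_simp
    ring
  rw [this]
  positivity

/-- `w (f + ε) = √(ε (2 - k2 ε))` -/
theorem wb_mul {k2 ε f : ℝ} (hε : 0 < ε) (hf : 0 ≤ f) :
    wb k2 ε f * (f + ε) = √(ε * (2 - k2 * ε)) := by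
  have h : 0 < f + ε := by positivity
  unfold wb
  field_simp

/-- the error term of the monotonicity: `w^m (f+ε) = w^(m-1) √(ε(2-k2 ε))` -/
theorem wb_rpow_mul (m : ℝ) {k2 ε f : ℝ} (hε : 0 < ε) (h2 : k2 * ε < 2) (hf : 0 ≤ f) :
    wb k2 ε f ^ m * (f + ε) = wb k2 ε f ^ (m - 1) * √(ε * (2 - k2 * ε)) := by
  have hw := wb_pos hε h2 hf
  rw [← wb_mul (k2 := k2) hε hf, ← mul_assoc, ← Real.rpow_add_one hw.ne']
  ring_nf

theorem sqrt_cf_le {k2 ε : ℝ} (hk : 0 ≤ k2) :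
    √(ε * (2 - k2 * ε)) ≤ √(2 * ε) := by
  apply Real.sqrt_le_sqrt
  nlinarith [mul_nonneg hk (sq_nonneg ε)]

theorem wb_le {k2 ε f : ℝ} (hk : 0 ≤ k2) (hε : 0 < ε) (hf : 0 ≤ f) :
    wb k2 ε f ≤ √(2 * ε) / (f + ε) := by
  have h : 0 < f + ε := by positivity
  exact div_le_div_of_nonneg_right (sqrt_cf_le hk) h.le

/-- `w² ≤ 2 / ε` -/
theorem wb_sq_le {k2 ε f : ℝ} (hk : 0 ≤ k2) (hε : 0 < ε) (h2 : k2 * ε ≤ 2) (hf : 0 ≤ f) :
    wb k2 ε f ^ 2 ≤ 2 / ε := by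
  have h : 0 < f + ε := by positivity
  rw [wb_sq hε h2]
  have e : ε * (2 - k2 * ε) * (1 / (f + ε)) ^ 2 ≤ 2 * ε * (1 / ε) ^ 2 := by
    have h3 : 1 / (f + ε) ≤ 1 / ε := by
      apply one_div_le_one_div_of_le hε; linarith
    have h4 : ε * (2 - k2 * ε) ≤ 2 * ε := by nlinarith [mul_nonneg hk (sq_nonneg ε)]
    have h5 : 0 ≤ ε * (2 - k2 * ε) := mul_nonneg hε.le (by linarith)
    gcongr
  refine e.trans (le_of_eq ?_)
  field_simp

/-- comparison of scales, squared: `w_{ε1}² ≤ L w_ε²` for `ε ≤ ε1 ≤ L ε` -/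
theorem wb_sq_scale_le {k2 ε ε1 f L : ℝ} (hk : 0 ≤ k2) (hε : 0 < ε) (h1 : ε ≤ ε1)
    (hL : ε1 ≤ L * ε) (h2 : k2 * ε1 ≤ 2) (hf : 0 ≤ f) :
    wb k2 ε1 f ^ 2 ≤ L * wb k2 ε f ^ 2 := by
  have hε1 : 0 < ε1 := hε.trans_le h1
  have h : 0 < f + ε := by positivity
  have h22 : k2 * ε ≤ 2 := (mul_le_mul_of_nonneg_left h1 hk).trans h2
  rw [wb_sq hε1 h2, wb_sq hε h22]
  have ha : 1 / (f + ε1) ≤ 1 / (f + ε) := by
    apply one_div_le_one_div_of_le h; linarith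
  have hb : 2 - k2 * ε1 ≤ 2 - k2 * ε := by
    nlinarith [mul_le_mul_of_nonneg_left h1 hk]
  have hc : 0 ≤ 2 - k2 * ε1 := by linarith
  have hd : 0 ≤ 2 - k2 * ε := by linarith
  have hp : 0 < f + ε1 := by positivity
  have hLε : 0 ≤ L * ε := hε1.le.trans hL
  calc ε1 * (2 - k2 * ε1) * (1 / (f + ε1)) ^ 2
      ≤ (L * ε) * (2 - k2 * ε) * (1 / (f + ε)) ^ 2 := by gcongr
    _ = _ := by ring

/-- comparison of centres: if `√f' ≤ a √f + D`, `1 ≤ a` and `(1+1/e) D² ≤ e a² ε` then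
`w(f) ≤ (1+e) a² w(f')` -/
theorem wb_center_le {k2 ε f f' D a e : ℝ} (hε : 0 < ε) (hf : 0 ≤ f) (hf' : 0 ≤ f')
    (he : 0 < e) (ha : 1 ≤ a) (h : √f' ≤ a * √f + D)
    (hD2 : (1 + 1 / e) * D ^ 2 ≤ e * a ^ 2 * ε) :
    wb k2 ε f ≤ (1 + e) * a ^ 2 * wb k2 ε f' := by
  have hd : 0 < f + ε := by positivity
  have hd' : 0 < f' + ε := by positivity
  have h1 : f' ≤ (a * √f + D) ^ 2 := by
    calc f' = √f' ^ 2 := (Real.sq_sqrt hf').symm
      _ ≤ _ := by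
        have := Real.sqrt_nonneg f'
        gcongr
  have h2 : (a * √f + D) ^ 2 ≤ (1 + e) * (a ^ 2 * f) + (1 + 1 / e) * D ^ 2 := by
    have e0 : (1 + e) * (a ^ 2 * f) + (1 + 1 / e) * D ^ 2 - (a * √f + D) ^ 2
        = (e * (a * √f) - D) ^ 2 / e := by
      have hs : f = √f ^ 2 := (Real.sq_sqrt hf).symm
      rw [hs]
      simp only [Real.sqrt_sq (Real.sqrt_nonneg f)]
      field_simp
      ring
    have : 0 ≤ (e * (a * √f) - D) ^ 2 / e := by positivity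
    linarith
  have h3 : f' + ε ≤ (1 + e) * a ^ 2 * (f + ε) := by
    have ha2 : 1 ≤ a ^ 2 := by nlinarith
    nlinarith [mul_le_mul_of_nonneg_right ha2 hε.le]
  unfold wb
  rw [← mul_div_assoc, div_le_div_iff₀ hd hd']
  have hnn : 0 ≤ √(ε * (2 - k2 * ε)) := Real.sqrt_nonneg _
  nlinarith [mul_le_mul_of_nonneg_left h3 hnn]

end Vale.Agent.P219.End.Alg
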