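import Vale.Agent.P219.End.Basic

/-!
# P219 / End : bubbles with their scale, the functional `J`, the truncated kernel (definitions)
-/

open MeasureTheory Set Metric
open scoped ENNReal ContDiff Topology

namespace Vale.Agent.P219.End

variable {n : ℕ}

namespace Lim

variable (L : Lim n)

/-- the bubble of centre `c` and scale `s` (`ε = s² / 2`): `s √(1 - k2 s²/4) / (F + s²/2)` -/
noncomputable def ws (c : E n) (s : ℝ) (x : E n) : ℝ := L.w c (s ^ 2 / 2) x

/-- `√(2 F)`, the distance if `k2 = 0` -/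
noncomputable def ds (c x : E n) : ℝ := √(2 * L.F c x)

/-- admissible scales -/
def Ad (s : ℝ) : Prop := 0 < s ∧ s ≤ 1 ∧ L.k2 * s ^ 2 ≤ 1

/-- `J_Φ(c, s) = ∫ Φ w^m`, as a function of the scale `s` (`= L.J Φ c (s ^ 2 / 2)` by `rfl`) -/
noncomputable def Js (Φ : E n → ℝ) (c : E n) (s : ℝ) : ℝ :=
  ∫ z, Φ z.1 * L.ws c s z.1 ^ L.m ∂L.V

/-- the truncated kernel, comparable with `min (d^(1-m)) (S^m d^(1-2m))` -/
noncomputable def kS (S d : ℝ) : ℝ := (S / (S + d)) ^ L.m * d ^ (1 - L.m)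

/-- smooth positive functions -/
def SP (u : E n → ℝ) : Prop := ContDiff ℝ ∞ u ∧ ∀ x, 0 < u x

/-- `g = u / w^((m-2)/2)` in the frame `(c, s)` -/
noncomputable def gs (c : E n) (s : ℝ) (u : E n → ℝ) (x : E n) : ℝ :=
  u x / L.ws c s x ^ ((L.m - 2) / 2)

theorem Js_eq (Φ : E n → ℝ) (c : E n) (s : ℝ) : L.Js Φ c s = L.J Φ c (s ^ 2 / 2) := rfl

end Lim

end Vale.Agent.P219.End
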