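import Mathlib

namespace Vale.Agent.P219.End

/-! Power inequalities for the averaging step: even and odd parts of `(1 + y) ^ c`. -/

open Finset

lemma rpow_le_lin {x b : ℝ} (hx : 0 < x) (h0 : 0 ≤ b) (h1 : b ≤ 1) : x ^ b ≤ 1 - b + b * x := by
  have h := Real.geom_mean_le_arith_mean2_weighted (w₁ := 1 - b) (w₂ := b) (p₁ := 1) (p₂ := x)
    (by linarith) h0 zero_le_one hx.le (by ring)
  simpa using h

lemma rpow_le_sq {x b : ℝ} (hx : 0 < x) (h0 : 0 ≤ b) (h1 : b ≤ 2) :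
    x ^ b ≤ 1 - b / 2 + b / 2 * x ^ 2 := by
  have h := rpow_le_lin (x := x ^ 2) (b := b / 2) (by positivity) (by linarith) (by linarith)
  have h2 : (x ^ 2) ^ (b / 2) = x ^ b := by
    rw [← Real.rpow_natCast, ← Real.rpow_mul hx.le]
    congr 1
    push_cast
    ring
  rwa [h2] at h

/-- first order bounds for `(1 + y)^{-b}` -/
lemma rpow_neg_bounds {y b : ℝ} (hy : |y| ≤ 1 / 2) (h0 : 0 ≤ b) (h1 : b ≤ 1) :
    1 - b * y ≤ (1 + y) ^ (-b) ∧ (1 + y) ^ (-b) ≤ 1 - b * y + 2 * b * y ^ 2 := by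
  obtain ⟨hy1, hy2⟩ := abs_le.1 hy
  have hp : 0 < 1 + y := by linarith
  have hle : (1 + y) ^ b ≤ 1 + b * y := by
    have := rpow_le_lin hp h0 h1
    linarith
  have hb0 : 0 < (1 + y) ^ b := Real.rpow_pos_of_pos hp b
  constructor
  · rw [Real.rpow_neg hp.le]
    rw [le_inv_comm₀ (by nlinarith) hb0] 
    refine hle.trans ?_
    rw [le_inv_comm₀ (by nlinarith) (by nlinarith)]
    rw [inv_eq_one_div, le_div_iff₀ (by nlinarith)]
    nlinarith [sq_nonneg (b * y)]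
  · have h2 := rpow_le_lin (x := (1 + y)⁻¹) (by positivity) h0 h1
    rw [Real.inv_rpow hp.le, ← Real.rpow_neg hp.le] at h2
    refine h2.trans ?_
    have h3 : (1 + y)⁻¹ ≤ 1 - y + 2 * y ^ 2 := by
      rw [inv_eq_one_div, div_le_iff₀ hp]
      nlinarith [mul_nonneg (sq_nonneg y) (show 0 ≤ 1 + 2 * y by linarith)]
    nlinarith [mul_le_mul_of_nonneg_left h3 h0]

/-- the even part of `(1 + y)^c`, second order -/
lemma rpow_even {c : ℝ} (h0 : 0 < c) (h1 : c < 1) {y : ℝ} (hy : |y| ≤ 1 / 2) :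
    (1 + y) ^ c + (1 - y) ^ c ≤ 2 - c * (1 - c) * y ^ 2 + |y| ^ 3 := by
  have key : ∀ y : ℝ, 0 ≤ y → y ≤ 1 / 2 →
      (1 + y) ^ c + (1 - y) ^ c ≤ 2 - c * (1 - c) * y ^ 2 + c * y ^ 3 := by
    intro y hy0 hy1
    set f : ℝ → ℝ := fun y => 2 - c * (1 - c) * y ^ 2 + c * y ^ 3 - (1 + y) ^ c - (1 - y) ^ c
      with hf
    have hd : ∀ x ∈ Set.Icc (0 : ℝ) (1 / 2), HasDerivAt f
        (-(c * (1 - c) * (2 * x)) + c * (3 * x ^ 2) - c * (1 + x) ^ (c - 1)
          + c * (1 - x) ^ (c - 1)) x := by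
      intro x hx
      have e1 : HasDerivAt (fun y : ℝ => (1 + y) ^ c) (c * (1 + x) ^ (c - 1)) x := by
        have := ((hasDerivAt_id x).const_add 1).rpow_const (p := c)
          (Or.inl (by simp only [id]; linarith [hx.1]))
        simpa using this
      have e2 : HasDerivAt (fun y : ℝ => (1 - y) ^ c) (-(c * (1 - x) ^ (c - 1))) x := by
        have := ((hasDerivAt_id x).const_sub 1).rpow_const (p := c)
          (Or.inl (by simp only [id]; linarith [hx.2]))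
        simpa using this
      have e3 : HasDerivAt (fun y : ℝ => 2 - c * (1 - c) * y ^ 2) (-(c * (1 - c) * (2 * x))) x := by
        have := ((hasDerivAt_pow 2 x).const_mul (c * (1 - c))).const_sub 2
        simpa using this
      have e4 : HasDerivAt (fun y : ℝ => c * y ^ 3) (c * (3 * x ^ 2)) x := by
        have := (hasDerivAt_pow 3 x).const_mul c
        simpa using this
      have e5 := ((e3.add e4).sub e1).sub e2
      exact e5.congr_deriv (by ring)
    have hm : MonotoneOn f (Set.Icc 0 (1 / 2)) := by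
      refine monotoneOn_of_deriv_nonneg (convex_Icc _ _)
        (fun x hx => (hd x hx).continuousAt.continuousWithinAt) ?_ ?_
      · intro x hx
        rw [interior_Icc] at hx
        exact (hd x ⟨hx.1.le, hx.2.le⟩).differentiableAt.differentiableWithinAt
      · intro x hx
        rw [interior_Icc] at hx
        rw [(hd x ⟨hx.1.le, hx.2.le⟩).deriv]
        have hx1 : |x| ≤ 1 / 2 := by rw [abs_of_pos hx.1]; exact hx.2.le
        have b1 := (rpow_neg_bounds (y := x) (b := 1 - c) hx1 (by linarith) (by linarith)).2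
        have b2 := (rpow_neg_bounds (y := -x) (b := 1 - c) (by rwa [abs_neg]) (by linarith)
          (by linarith)).1
        have n1 : -(1 - c) = c - 1 := by ring
        rw [n1] at b1 b2
        have n2 : 1 + -x = 1 - x := by ring
        rw [n2] at b2
        have b3 : 0 ≤ (1 - x) ^ (c - 1) - (1 + x) ^ (c - 1) - 2 * (1 - c) * x
            + 2 * (1 - c) * x ^ 2 := by linarith
        have b4 := mul_nonneg h0.le b3
        nlinarith [mul_nonneg h0.le (sq_nonneg x), mul_nonneg (mul_nonneg h0.le h0.le) (sq_nonneg x)]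
    have h2 := hm (Set.left_mem_Icc.2 (by norm_num)) ⟨hy0, hy1⟩ hy0
    simp only [hf] at h2
    norm_num at h2
    linarith
  have h3 := key |y| (abs_nonneg y) hy
  have h4 : (1 + |y|) ^ c + (1 - |y|) ^ c = (1 + y) ^ c + (1 - y) ^ c := by
    rcases abs_cases y with ⟨h, _⟩ | ⟨h, _⟩
    · rw [h]
    · rw [h, add_comm]
      congr 2 <;> ring
  rw [h4, sq_abs] at h3
  have h5 : c * |y| ^ 3 ≤ |y| ^ 3 := by
    have : 0 ≤ |y| ^ 3 := by positivity
    nlinarith
  linarith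

/-- the odd part of `(1 + y)^{-b}`, first order -/
lemma rpow_odd {b : ℝ} (h0 : 0 ≤ b) (h1 : b ≤ 1) {y : ℝ} (hy : |y| ≤ 1 / 2) :
    |(1 + y) ^ (-b) - (1 - y) ^ (-b) + 2 * b * y| ≤ 2 * y ^ 2 := by
  have b1 := rpow_neg_bounds (y := y) hy h0 h1
  have b2 := rpow_neg_bounds (y := -y) (by rwa [abs_neg]) h0 h1
  have n2 : 1 + -y = 1 - y := by ring
  rw [n2] at b2
  rw [abs_le]
  constructor <;> nlinarith [sq_nonneg y, mul_nonneg h0 (sq_nonneg y)]

/-- the even part of `(1 + y)^{-b}`, `b ≤ 2` -/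
lemma rpow_even' {b : ℝ} (h0 : 0 ≤ b) (h1 : b ≤ 2) {y : ℝ} (hy : |y| ≤ 1 / 2) :
    (1 + y) ^ (-b) + (1 - y) ^ (-b) ≤ 2 + 11 * y ^ 2 := by
  obtain ⟨hy1, hy2⟩ := abs_le.1 hy
  have hp : 0 < 1 + y := by linarith
  have hm : 0 < 1 - y := by linarith
  have e1 := rpow_le_sq (x := (1 + y)⁻¹) (by positivity) h0 h1
  have e2 := rpow_le_sq (x := (1 - y)⁻¹) (by positivity) h0 h1
  rw [Real.inv_rpow hp.le, ← Real.rpow_neg hp.le] at e1
  rw [Real.inv_rpow hm.le, ← Real.rpow_neg hm.le] at e2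
  have e3 : ((1 + y)⁻¹) ^ 2 + ((1 - y)⁻¹) ^ 2 ≤ 2 + 11 * y ^ 2 := by
    have hy4 : y ^ 2 ≤ 1 / 4 := by nlinarith
    have : ((1 + y)⁻¹) ^ 2 + ((1 - y)⁻¹) ^ 2 = (2 + 2 * y ^ 2) / (1 - y ^ 2) ^ 2 := by
      have h3 : (1 - y ^ 2) = (1 + y) * (1 - y) := by ring
      rw [h3]
      field_simp
      ring
    rw [this, div_le_iff₀ (by nlinarith [sq_nonneg (1 - y ^ 2)])]
    nlinarith [mul_nonneg (sq_nonneg y) (sub_nonneg.2 hy4), mul_nonneg (mul_nonneg (sq_nonneg y) (sub_nonneg.2 hy4)) (sub_nonneg.2 hy4), mul_nonneg (sq_nonneg y) (sq_nonneg y), sq_nonneg (y^3)]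
  nlinarith [mul_le_mul_of_nonneg_left e3 (show 0 ≤ b / 2 by linarith), sq_nonneg y, mul_nonneg (show 0 ≤ 2 - b by linarith) (sq_nonneg y)]

end Vale.Agent.P219.End
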