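import Vale.Agent.P219.End.Ident2
import Vale.Agent.P219.End.Bub
import Vale.Agent.P219.End.TiltPow

/-!
# P219 / End : averaging

Near minimizers of `E + λ ∫ u²` have a small defect in some frame (statement B6a of the skeleton).
The test functions are the tilts `u (1 ± t θ_i)`, `θ_i` from the conformal barycentre of `u^{2*}`.
-/

open MeasureTheory Set Metric
open scoped ENNReal ContDiff Topology

namespace Vale.Agent.P219.End

variable {n : ℕ}

theorem rpow_ge_sub {c x : ℝ} (h0 : 0 ≤ c) (h1 : c ≤ 1) (hx : |x| ≤ 1 / 2) :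
    1 + c * x - x ^ 2 ≤ (1 + x) ^ c := by
  obtain ⟨hx1, hx2⟩ := abs_le.1 hx
  have hp : 0 < 1 + x := by linarith
  have h := (rpow_neg_bounds (y := x) (b := 1 - c) hx (by linarith) (by linarith)).1
  have e : (1 + x) ^ c = (1 + x) * (1 + x) ^ (-(1 - c)) := by
    nth_rewrite 2 [← Real.rpow_one (1 + x)]
    rw [← Real.rpow_add hp]
    congr 1
    ring
  rw [e]
  have h3 := mul_le_mul_of_nonneg_left h hp.le
  nlinarith [mul_nonneg h0 (sq_nonneg x)]

theorem exp_neg_le {x : ℝ} (hx : 0 ≤ x) : Real.exp (-x) ≤ 1 - x + x ^ 2 / 2 := by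
  have h : MonotoneOn (fun x : ℝ => 1 - x + x ^ 2 / 2 - Real.exp (-x)) (Set.Ici 0) := by
    have hd : ∀ x : ℝ, HasDerivAt (fun x : ℝ => 1 - x + x ^ 2 / 2 - Real.exp (-x))
        (-1 + x + Real.exp (-x)) x := by
      intro x
      have e1 := ((hasDerivAt_id x).const_sub 1).add ((hasDerivAt_pow 2 x).div_const 2)
      have e2 := (Real.hasDerivAt_exp (-x)).comp x (hasDerivAt_neg x)
      exact (e1.sub e2).congr_deriv (by simp)
    refine monotoneOn_of_deriv_nonneg (convex_Ici _)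
      (fun x _ => (hd x).continuousAt.continuousWithinAt)
      (fun x _ => (hd x).differentiableAt.differentiableWithinAt) ?_
    intro x hx
    rw [(hd x).deriv]
    have := Real.add_one_le_exp (-x)
    linarith
  have h2 := h (Set.mem_Ici.2 le_rfl) (Set.mem_Ici.2 hx) hx
  simp only at h2
  norm_num at h2
  linarith

/-- third order lower bound -/
theorem one_add_rpow_ge {q y : ℝ} (h2 : 2 ≤ q) (h6 : q ≤ 6) (hy : |y| ≤ 1 / 2) :
    1 + q * y + q * (q - 1) / 2 * y ^ 2 - 40 * |y| ^ 3 ≤ (1 + y) ^ q := by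
  obtain ⟨hy1, hy2⟩ := abs_le.1 hy
  rcases le_total 0 y with h0 | h0
  · rw [abs_of_nonneg h0]
    set f : ℝ → ℝ := fun y => (1 + y) ^ q - (1 + q * y + q * (q - 1) / 2 * y ^ 2) with hf
    have hd : ∀ x ∈ Set.Icc (0 : ℝ) (1 / 2), HasDerivAt f
        (q * (1 + x) ^ (q - 1) - (q + q * (q - 1) * x)) x := by
      intro x hx
      have e1 : HasDerivAt (fun y : ℝ => (1 + y) ^ q) (q * (1 + x) ^ (q - 1)) x := by
        have := ((hasDerivAt_id x).const_add 1).rpow_const (p := q)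
          (Or.inl (by simp only [id]; linarith [hx.1]))
        simpa using this
      have e2 : HasDerivAt (fun y : ℝ => 1 + q * y + q * (q - 1) / 2 * y ^ 2)
          (q + q * (q - 1) * x) x := by
        have := (((hasDerivAt_id x).const_mul q).const_add 1).add
          ((hasDerivAt_pow 2 x).const_mul (q * (q - 1) / 2))
        exact this.congr_deriv (by simp; ring)
      exact e1.sub e2
    have hm : MonotoneOn f (Set.Icc 0 (1 / 2)) := by
      refine monotoneOn_of_deriv_nonneg (convex_Icc _ _)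
        (fun x hx => (hd x hx).continuousAt.continuousWithinAt) ?_ ?_
      · intro x hx
        rw [interior_Icc] at hx
        exact (hd x ⟨hx.1.le, hx.2.le⟩).differentiableAt.differentiableWithinAt
      · intro x hx
        rw [interior_Icc] at hx
        rw [(hd x ⟨hx.1.le, hx.2.le⟩).deriv]
        have h3 := one_add_mul_self_le_rpow_one_add (s := x) (p := q - 1) (by linarith [hx.1])
          (by linarith)
        nlinarith [hx.1]
    have h3 := hm (Set.left_mem_Icc.2 (by norm_num)) ⟨h0, hy2⟩ h0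
    simp only [hf] at h3
    norm_num at h3
    have : 0 ≤ y ^ 3 := by positivity
    linarith
  · rw [abs_of_nonpos h0]
    obtain ⟨s, rfl⟩ : ∃ s, y = -s := ⟨-y, by ring⟩
    have hs0 : 0 ≤ s := by linarith
    have hs1 : s ≤ 1 / 2 := by linarith
    set f : ℝ → ℝ := fun s => (1 - s) ^ q - (1 - q * s + q * (q - 1) / 2 * s ^ 2 - 40 * s ^ 3)
      with hf
    have hd : ∀ x ∈ Set.Icc (0 : ℝ) (1 / 2), HasDerivAt f
        (-(q * (1 - x) ^ (q - 1)) - (-q + q * (q - 1) * x - 120 * x ^ 2)) x := by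
      intro x hx
      have e1 : HasDerivAt (fun y : ℝ => (1 - y) ^ q) (-(q * (1 - x) ^ (q - 1))) x := by
        have := ((hasDerivAt_id x).const_sub 1).rpow_const (p := q)
          (Or.inl (by simp only [id]; linarith [hx.2]))
        simpa using this
      have e2 : HasDerivAt (fun s : ℝ => 1 - q * s + q * (q - 1) / 2 * s ^ 2 - 40 * s ^ 3)
          (-q + q * (q - 1) * x - 120 * x ^ 2) x := by
        have := ((((hasDerivAt_id x).const_mul q).const_sub 1).add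
          ((hasDerivAt_pow 2 x).const_mul (q * (q - 1) / 2))).sub ((hasDerivAt_pow 3 x).const_mul 40)
        exact this.congr_deriv (by simp; ring)
      exact e1.sub e2
    have hm : MonotoneOn f (Set.Icc 0 (1 / 2)) := by
      refine monotoneOn_of_deriv_nonneg (convex_Icc _ _)
        (fun x hx => (hd x hx).continuousAt.continuousWithinAt) ?_ ?_
      · intro x hx
        rw [interior_Icc] at hx
        exact (hd x ⟨hx.1.le, hx.2.le⟩).differentiableAt.differentiableWithinAt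
      · intro x hx
        rw [interior_Icc] at hx
        rw [(hd x ⟨hx.1.le, hx.2.le⟩).deriv]
        obtain ⟨hx0, hx1⟩ := hx
        have hp : 0 < 1 - x := by linarith
        have h3 : (1 - x) ^ (q - 1) ≤ Real.exp (-((q - 1) * x)) := by
          rw [Real.rpow_def_of_pos hp]
          refine Real.exp_le_exp.2 ?_
          have h4 : Real.log (1 - x) ≤ -x := by
            have := Real.log_le_sub_one_of_pos hp
            linarith
          nlinarith
        have h4 := exp_neg_le (x := (q - 1) * x) (mul_nonneg (by linarith) hx0.le)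
        have h5 : ((q - 1) * x) ^ 2 / 2 ≤ 25 / 2 * x ^ 2 := by
          have : (q - 1) ^ 2 ≤ 25 := by nlinarith
          nlinarith [sq_nonneg x]
        nlinarith [sq_nonneg x]
    have h3 := hm (Set.left_mem_Icc.2 (by norm_num)) ⟨hs0, hs1⟩ hs0
    simp only [hf] at h3
    norm_num at h3
    have e3 : 1 + -s = 1 - s := by ring
    rw [e3]
    have e4 : - -s = s := by ring
    rw [e4]
    nlinarith

/-- `∑ θ_i² = 1` implies `∑ θ_i ∇θ_i = 0` -/
theorem sum_theta_D {A : E n → E n →L[ℝ] E n} {ι : Type*} [Fintype ι] {θ : ι → E n → ℝ}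
    (hθ : ∀ i, ContDiff ℝ 1 (θ i)) (h1 : ∀ x, ∑ i, θ i x ^ 2 = 1) (x : E n) :
    ∑ i, θ i x • D A (θ i) x = 0 := by
  refine ext_inner_right ℝ fun y => ?_
  rw [sum_inner, inner_zero_left]
  have h2 : HasFDerivAt (fun x => ∑ i, θ i x ^ 2) (∑ i, (2 * θ i x) • fderiv ℝ (θ i) x) x := by
    refine HasFDerivAt.fun_sum fun i _ => ?_
    have := ((hθ i).differentiable (by norm_num) x).hasFDerivAt.pow 2
    simpa using this
  have h3 : (∑ i, (2 * θ i x) • fderiv ℝ (θ i) x) = 0 := by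
    have e : (fun x => ∑ i, θ i x ^ 2) = fun _ => (1 : ℝ) := funext h1
    rw [e] at h2
    exact h2.unique (hasFDerivAt_const 1 x)
  have h4 := congrArg (fun T : E n →L[ℝ] ℝ => T (A x y)) h3
  simp only [_root_.sum_apply, _root_.smul_apply, smul_eq_mul, _root_.zero_apply] at h4
  have h5 : ∀ i, inner ℝ (θ i x • D A (θ i) x) y = θ i x * fderiv ℝ (θ i) x (A x y) := by
    intro i
    rw [real_inner_smul_left, inner_D]
  simp only [h5]
  have h6 : ∑ i, 2 * θ i x * fderiv ℝ (θ i) x (A x y) =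
      2 * ∑ i, θ i x * fderiv ℝ (θ i) x (A x y) := by
    rw [Finset.mul_sum]
    exact Finset.sum_congr rfl fun i _ => by ring
  rw [h6] at h4
  linarith

/-- tilted function -/
noncomputable def tl (t : ℝ) (θ u : E n → ℝ) (x : E n) : ℝ := u x * (1 + t * θ x)

theorem tl_smooth {k : WithTop ℕ∞} {θ u : E n → ℝ} (t : ℝ) (hu : ContDiff ℝ k u) (hθ : ContDiff ℝ k θ) :
    ContDiff ℝ k (tl t θ u) :=
  hu.mul (contDiff_const.add (contDiff_const.mul hθ))

namespace Lim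

variable (L : Lim n)

theorem G_tl {θ u : E n → ℝ} (t : ℝ) (hu : ContDiff ℝ 1 u) (hθ : ContDiff ℝ 1 θ) (z : E n × E n) :
    L.G (tl t θ u) (tl t θ u) z = (1 + t * θ z.1) ^ 2 * L.G u u z +
      2 * u z.1 * t * (1 + t * θ z.1) * L.G u θ z + (u z.1 * t) ^ 2 * L.G θ θ z := by
  have hud := hu.differentiable (by norm_num) z.1
  have hθd := hθ.differentiable (by norm_num) z.1
  have e : D L.A (tl t θ u) z.1 =
      u z.1 • (t • D L.A θ z.1) + (1 + t * θ z.1) • D L.A u z.1 := by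
    unfold tl
    have h1 : D L.A (fun y => 1 + t * θ y) z.1 = t • D L.A θ z.1 := by
      rw [D_add (u := fun _ => (1 : ℝ)) (v := fun y => t * θ y) (differentiableAt_const _)
        (hθd.const_mul t), D_const, D_const_mul t hθd, zero_add]
    rw [D_mul (v := fun y => 1 + t * θ y) hud ((hθd.const_mul t).const_add 1), h1]
  show gv _ _ _ = _ * gv _ _ _ + _ * gv _ _ _ + _ * gv _ _ _
  rw [e]
  simp only [gv_add_left, gv_add_right, gv_smul_left, gv_smul_right]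
  rw [gv_comm (D L.A θ z.1) (D L.A u z.1)]
  ring

/-- energy density with zero order coefficient `b` -/
noncomputable def ed (b : ℝ) (u : E n → ℝ) (z : E n × E n) : ℝ :=
  4 / (L.m * (L.m - 2)) * L.G u u z + b * u z.1 ^ 2

theorem ed_cont (b : ℝ) {u : E n → ℝ} (hu : ContDiff ℝ 1 u) : Continuous (L.ed b u) := by
  have h1 := L.G_cont hu hu
  have h2 : Continuous fun z : E n × E n => u z.1 := hu.continuous.comp continuous_fst
  unfold ed
  fun_prop

/-- energy with zero order coefficient `b` -/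
noncomputable def Eb (b : ℝ) (u : E n → ℝ) : ℝ := ∫ z, L.ed b u z ∂L.V

theorem Eb_eq (b : ℝ) {u : E n → ℝ} (hu : ContDiff ℝ 1 u) :
    L.Eb b u = 4 / (L.m * (L.m - 2)) * (∫ z, L.G u u z ∂L.V) + b * ∫ z, u z.1 ^ 2 ∂L.V := by
  have h1 := L.integrable_of_cont (L.G_cont hu hu)
  have h2 : Integrable (fun z : E n × E n => u z.1 ^ 2) L.V :=
    L.integrable_of_cont ((hu.continuous.comp continuous_fst).pow 2)
  unfold Eb ed
  rw [integral_add (h1.const_mul _) (h2.const_mul _), integral_const_mul, integral_const_mul]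

theorem En_eq_Eb (lam : ℝ) {u : E n → ℝ} (hu : ContDiff ℝ 1 u) :
    L.En u + lam * (∫ z, u z.1 ^ 2 ∂L.V) = L.Eb (L.H0 ^ 2 / L.m ^ 2 - L.k2 + lam) u := by
  rw [L.Eb_eq _ hu]
  unfold En
  ring

/-- parallelogram identity for the tilts, summed over a partition `∑ θ_i² = 1` -/
theorem ed_tilt {ι : Type*} [Fintype ι] {θ : ι → E n → ℝ} (hθ : ∀ i, ContDiff ℝ 1 (θ i))
    (h1 : ∀ x, ∑ i, θ i x ^ 2 = 1) (b t : ℝ) {u : E n → ℝ} (hu : ContDiff ℝ 1 u) (z : E n × E n) :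
    ∑ i, (L.ed b (tl t (θ i) u) z + L.ed b (tl (-t) (θ i) u) z) =
      2 * (Fintype.card ι) * L.ed b u z + 2 * t ^ 2 * (L.ed b u z +
        4 / (L.m * (L.m - 2)) * (u z.1 ^ 2 * ∑ i, L.G (θ i) (θ i) z)) := by
  set a : ℝ := 4 / (L.m * (L.m - 2)) with ha
  have e1 : ∀ i, L.ed b (tl t (θ i) u) z + L.ed b (tl (-t) (θ i) u) z =
      2 * L.ed b u z + 2 * t ^ 2 * L.ed b u z * θ i z.1 ^ 2 +
        4 * t ^ 2 * a * u z.1 * (θ i z.1 * L.G u (θ i) z) +
        2 * t ^ 2 * a * u z.1 ^ 2 * L.G (θ i) (θ i) z := by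
    intro i
    unfold ed
    rw [L.G_tl t hu (hθ i), L.G_tl (-t) hu (hθ i)]
    unfold tl
    ring
  have e2 : ∑ i, θ i z.1 * L.G u (θ i) z = 0 := by
    have h2 := sum_theta_D (A := L.A) hθ h1 z.1
    have h3 : gv (∑ i, θ i z.1 • D L.A (θ i) z.1) (D L.A u z.1) z.2 = 0 := by
      rw [h2, gv_zero_left]
    rw [gv_sum_left] at h3
    rw [← h3]
    refine Finset.sum_congr rfl fun i _ => ?_
    rw [gv_smul_left, gv_comm]
    rfl
  simp only [e1, Finset.sum_add_distrib, ← Finset.mul_sum, e2, h1]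
  rw [Finset.sum_const, Finset.card_univ, nsmul_eq_mul]
  ring

/-- the same, integrated -/
theorem Eb_tilt {ι : Type*} [Fintype ι] {θ : ι → E n → ℝ} (hθ : ∀ i, ContDiff ℝ 1 (θ i))
    (h1 : ∀ x, ∑ i, θ i x ^ 2 = 1) {c : E n} {ε : ℝ} (hε : 0 < ε)
    (hG : ∀ᵐ z ∂L.V, ∑ i, L.G (θ i) (θ i) z ≤ L.m * L.w c ε z.1 ^ 2)
    (b t : ℝ) {u : E n → ℝ} (hu : ContDiff ℝ 1 u) :
    ∑ i, (L.Eb b (tl t (θ i) u) + L.Eb b (tl (-t) (θ i) u)) ≤
      2 * (Fintype.card ι) * L.Eb b u + 2 * t ^ 2 * (L.Eb b u +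
        4 / (L.m - 2) * ∫ z, u z.1 ^ 2 * L.w c ε z.1 ^ 2 ∂L.V) := by
  have hi : ∀ s : ℝ, ∀ i, Integrable (L.ed b (tl s (θ i) u)) L.V := fun s i =>
    L.integrable_of_cont (L.ed_cont b (tl_smooth s hu (hθ i)))
  have hi2 : ∀ i, Integrable (fun z => L.ed b (tl t (θ i) u) z + L.ed b (tl (-t) (θ i) u) z) L.V :=
    fun i => (hi t i).add (hi (-t) i)
  have e1 : ∑ i, (L.Eb b (tl t (θ i) u) + L.Eb b (tl (-t) (θ i) u)) =
      ∫ z, ∑ i, (L.ed b (tl t (θ i) u) z + L.ed b (tl (-t) (θ i) u) z) ∂L.V := by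
    rw [integral_finsetSum _ fun i _ => hi2 i]
    refine Finset.sum_congr rfl fun i _ => ?_
    unfold Eb
    exact (integral_add (hi t i) (hi (-t) i)).symm
  have cu : Continuous fun z : E n × E n => u z.1 := hu.continuous.comp continuous_fst
  have cw : Continuous fun z : E n × E n => L.w c ε z.1 :=
    (L.w_smooth hε).continuous.comp continuous_fst
  have iu := L.integrable_of_cont (L.ed_cont b hu)
  have iw : Integrable (fun z : E n × E n => u z.1 ^ 2 * L.w c ε z.1 ^ 2) L.V :=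
    L.integrable_of_cont ((cu.pow 2).mul (cw.pow 2))
  have iw2 : Integrable (fun z : E n × E n => 4 / (L.m - 2) * (u z.1 ^ 2 * L.w c ε z.1 ^ 2)) L.V :=
    iw.const_mul _
  have i3 : Integrable (fun z : E n × E n => L.ed b u z +
      4 / (L.m - 2) * (u z.1 ^ 2 * L.w c ε z.1 ^ 2)) L.V := iu.add iw2
  have e2 : 2 * (Fintype.card ι) * L.Eb b u + 2 * t ^ 2 * (L.Eb b u +
        4 / (L.m - 2) * ∫ z, u z.1 ^ 2 * L.w c ε z.1 ^ 2 ∂L.V) =
      ∫ z, (2 * (Fintype.card ι) * L.ed b u z + 2 * t ^ 2 * (L.ed b u z +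
        4 / (L.m - 2) * (u z.1 ^ 2 * L.w c ε z.1 ^ 2))) ∂L.V := by
    rw [integral_add (iu.const_mul _) (i3.const_mul _), integral_const_mul,
      integral_const_mul, integral_add iu iw2, integral_const_mul]
    rfl
  rw [e1, e2]
  refine integral_mono_ae (integrable_finsetSum _ fun i _ => hi2 i)
    ((iu.const_mul _).add (i3.const_mul _)) ?_
  filter_upwards [hG] with z hz
  show ∑ i, (L.ed b (tl t (θ i) u) z + L.ed b (tl (-t) (θ i) u) z) ≤
    2 * (Fintype.card ι) * L.ed b u z + 2 * t ^ 2 * (L.ed b u z +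
        4 / (L.m - 2) * (u z.1 ^ 2 * L.w c ε z.1 ^ 2))
  rw [L.ed_tilt hθ h1 b t hu z]
  have hm := L.m_pos
  have hm2 := L.m_sub_pos
  have h3 : 4 / (L.m * (L.m - 2)) * (u z.1 ^ 2 * ∑ i, L.G (θ i) (θ i) z) ≤
      4 / (L.m - 2) * (u z.1 ^ 2 * L.w c ε z.1 ^ 2) := by
    calc 4 / (L.m * (L.m - 2)) * (u z.1 ^ 2 * ∑ i, L.G (θ i) (θ i) z)
        ≤ 4 / (L.m * (L.m - 2)) * (u z.1 ^ 2 * (L.m * L.w c ε z.1 ^ 2)) := by gcongr
      _ = 4 / (L.m - 2) * (u z.1 ^ 2 * L.w c ε z.1 ^ 2) := by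
        field_simp
  have h4 := mul_le_mul_of_nonneg_left h3 (show 0 ≤ 2 * t ^ 2 by positivity)
  linarith

theorem avn_two_lt_ps : 2 < L.ps := by
  have := L.m_sub_pos
  unfold ps
  rw [lt_div_iff₀ this]
  linarith

theorem avn_ps_le_six : L.ps ≤ 6 := by
  have := L.m_sub_pos
  have := L.three_le
  unfold ps
  rw [div_le_iff₀ (by assumption)]
  linarith

theorem avn_ps_pos : 0 < L.ps := by linarith [L.avn_two_lt_ps]

theorem avn_ps_sub : L.ps - 2 = 4 / (L.m - 2) := by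
  have := L.m_sub_pos
  unfold ps
  field_simp
  ring

theorem avn_rpow_ps_smooth {u : E n → ℝ} (hu : SP u) : ContDiff ℝ ∞ fun x => u x ^ L.ps :=
  hu.1.rpow_const_of_ne fun x => (hu.2 x).ne'

theorem avn_SP_cont {u : E n → ℝ} (hu : SP u) : Continuous fun z : E n × E n => u z.1 :=
  hu.1.continuous.comp continuous_fst

theorem avn_rpow_ps_cont {u : E n → ℝ} (hu : SP u) : Continuous fun z : E n × E n => u z.1 ^ L.ps :=
  (L.avn_rpow_ps_smooth hu).continuous.comp continuous_fst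

theorem intPs_pos {u : E n → ℝ} (hu : SP u) : 0 < ∫ z, u z.1 ^ L.ps ∂L.V := by
  have h0 : ∀ z : E n × E n, 0 < u z.1 ^ L.ps := fun z => Real.rpow_pos_of_pos (hu.2 z.1) _
  rw [integral_pos_iff_support_of_nonneg (fun z => (h0 z).le)
    (L.integrable_of_cont (L.avn_rpow_ps_cont hu))]
  have h1 : (Function.support fun z : E n × E n => u z.1 ^ L.ps) = univ :=
    eq_univ_of_forall fun z => (h0 z).ne'
  rw [h1]
  exact Measure.measure_univ_pos.2 L.V_ne

theorem ed_smul (b c : ℝ) {v : E n → ℝ} (hv : ContDiff ℝ 1 v) (z : E n × E n) :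
    L.ed b (fun x => c * v x) z = c ^ 2 * L.ed b v z := by
  unfold ed
  have e : L.G (fun x => c * v x) (fun x => c * v x) z = c ^ 2 * L.G v v z := by
    show gv _ _ _ = _ * gv _ _ _
    rw [D_const_mul c (hv.differentiable (by norm_num) _), gv_smul_left, gv_smul_right]
    ring
  rw [e]
  ring

theorem Eb_smul (b c : ℝ) {v : E n → ℝ} (hv : ContDiff ℝ 1 v) :
    L.Eb b (fun x => c * v x) = c ^ 2 * L.Eb b v := by
  unfold Eb
  rw [← integral_const_mul]
  exact integral_congr_ae (Filter.Eventually.of_forall fun z => L.ed_smul b c hv z)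

/-- scaling of the near minimality -/
theorem near_scale {b e τ : ℝ} (hmin : ∀ v : E n → ℝ, SP v → ∫ z, v z.1 ^ L.ps ∂L.V = 1 →
      e ≤ L.Eb b v + τ) {v : E n → ℝ} (hv : SP v) :
    (e - τ) * (∫ z, v z.1 ^ L.ps ∂L.V) ^ (2 / L.ps) ≤ L.Eb b v := by
  set N := ∫ z, v z.1 ^ L.ps ∂L.V with hN
  have hN0 : 0 < N := L.intPs_pos hv
  have hq := L.avn_ps_pos
  set c : ℝ := N ^ (-(1 / L.ps)) with hc
  have hc0 : 0 < c := Real.rpow_pos_of_pos hN0 _
  have hcv : SP fun x => c * v x := ⟨contDiff_const.mul hv.1, fun x => mul_pos hc0 (hv.2 x)⟩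
  have h1 : ∫ z, (fun x => c * v x) z.1 ^ L.ps ∂L.V = 1 := by
    have e1 : ∀ z : E n × E n, (c * v z.1) ^ L.ps = N⁻¹ * v z.1 ^ L.ps := by
      intro z
      rw [Real.mul_rpow hc0.le (hv.2 z.1).le, hc, ← Real.rpow_mul hN0.le]
      have : -(1 / L.ps) * L.ps = -1 := by field_simp
      rw [this, Real.rpow_neg_one]
    show ∫ z, (c * v z.1) ^ L.ps ∂L.V = 1
    simp only [e1]
    rw [integral_const_mul, ← hN]
    exact inv_mul_cancel₀ hN0.ne'
  have h2 := hmin _ hcv h1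
  rw [L.Eb_smul b c (hv.1.of_le one_le_inf)] at h2
  have h3 : c ^ 2 * N ^ (2 / L.ps) = 1 := by
    have e1 : c ^ 2 = N ^ (-(2 / L.ps)) := by
      rw [hc, ← Real.rpow_natCast, ← Real.rpow_mul hN0.le]
      congr 1
      push_cast
      ring
    rw [e1, ← Real.rpow_add hN0, neg_add_cancel, Real.rpow_zero]
  have h4 : 0 < N ^ (2 / L.ps) := Real.rpow_pos_of_pos hN0 _
  have h5 := mul_le_mul_of_nonneg_right (show e - τ ≤ c ^ 2 * L.Eb b v by linarith) h4.le
  calc (e - τ) * N ^ (2 / L.ps) ≤ c ^ 2 * L.Eb b v * N ^ (2 / L.ps) := h5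
    _ = (c ^ 2 * N ^ (2 / L.ps)) * L.Eb b v := by ring
    _ = L.Eb b v := by rw [h3, one_mul]

/-- lower bound for the norm of a tilt -/
theorem tilt_norm {u θ : E n → ℝ} (hu : SP u) (hθ : Continuous θ) (hb : ∀ x, |θ x| ≤ 1)
    (h1 : ∫ z, u z.1 ^ L.ps ∂L.V = 1) (h0 : ∫ z, θ z.1 * u z.1 ^ L.ps ∂L.V = 0) {t : ℝ}
    (ht : |t| ≤ 1 / 6) :
    1 + (L.ps - 1) * t ^ 2 * (∫ z, θ z.1 ^ 2 * u z.1 ^ L.ps ∂L.V) - 121 * |t| ^ 3 ≤
      (∫ z, tl t θ u z.1 ^ L.ps ∂L.V) ^ (2 / L.ps) := by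
  have hq2 := L.avn_two_lt_ps
  have hq6 := L.avn_ps_le_six
  set q := L.ps with hq
  have cu := L.avn_rpow_ps_cont hu
  rw [← hq] at cu
  have cθ : Continuous fun z : E n × E n => θ z.1 := hθ.comp continuous_fst
  set p := ∫ z, θ z.1 ^ 2 * u z.1 ^ q ∂L.V with hp
  have up : ∀ x, 0 < u x ^ q := fun x => Real.rpow_pos_of_pos (hu.2 x) _
  have hθ2 : ∀ x, θ x ^ 2 ≤ 1 := fun x => by
    rw [← sq_abs]
    exact pow_le_one₀ (abs_nonneg _) (hb x)
  have hp0 : 0 ≤ p := L.integral_nonneg_of fun z _ _ => mul_nonneg (sq_nonneg _) (up z.1).le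
  have hp1 : p ≤ 1 := by
    rw [← h1]
    refine L.integral_mono_of ((cθ.pow 2).mul cu) cu fun z _ _ => ?_
    exact mul_le_of_le_one_left (up z.1).le (hθ2 z.1)
  have ht0 := abs_nonneg t
  have hty : ∀ x, |t * θ x| ≤ |t| := fun x => by
    rw [abs_mul]
    exact mul_le_of_le_one_right ht0 (hb x)
  set x : ℝ := q * (q - 1) / 2 * t ^ 2 * p - 40 * |t| ^ 3 with hx
  have hN : 1 + x ≤ ∫ z, tl t θ u z.1 ^ q ∂L.V := by
    have e1 : 1 + x = ∫ z, (u z.1 ^ q + q * t * (θ z.1 * u z.1 ^ q) +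
        q * (q - 1) / 2 * t ^ 2 * (θ z.1 ^ 2 * u z.1 ^ q) - 40 * |t| ^ 3 * u z.1 ^ q) ∂L.V := by
      have i1 : Integrable (fun z : E n × E n => u z.1 ^ q) L.V := L.integrable_of_cont cu
      have i2 : Integrable (fun z : E n × E n => q * t * (θ z.1 * u z.1 ^ q)) L.V :=
        (L.integrable_of_cont (cθ.mul cu)).const_mul _
      have i3 : Integrable (fun z : E n × E n => q * (q - 1) / 2 * t ^ 2 * (θ z.1 ^ 2 * u z.1 ^ q)) L.V :=
        (L.integrable_of_cont ((cθ.pow 2).mul cu)).const_mul _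
      have i4 : Integrable (fun z : E n × E n => 40 * |t| ^ 3 * u z.1 ^ q) L.V := i1.const_mul _
      have i12 : Integrable (fun z : E n × E n => u z.1 ^ q + q * t * (θ z.1 * u z.1 ^ q)) L.V :=
        i1.add i2
      have i123 : Integrable (fun z : E n × E n => u z.1 ^ q + q * t * (θ z.1 * u z.1 ^ q) +
        q * (q - 1) / 2 * t ^ 2 * (θ z.1 ^ 2 * u z.1 ^ q)) L.V := i12.add i3
      rw [integral_sub i123 i4, integral_add i12 i3, integral_add i1 i2, integral_const_mul,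
        integral_const_mul, integral_const_mul, h1, h0, ← hp, hx]
      ring
    rw [e1]
    have c1 : Continuous fun z : E n × E n => tl t θ u z.1 ^ q := by
      have h3 : Continuous fun z : E n × E n => tl t θ u z.1 := by
        unfold tl
        exact (avn_SP_cont hu).mul (continuous_const.add (continuous_const.mul cθ))
      exact h3.rpow_const fun z => Or.inr (by linarith)
    refine L.integral_mono_of (((cu.add (continuous_const.mul (cθ.mul cu))).add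
      (continuous_const.mul ((cθ.pow 2).mul cu))).sub (continuous_const.mul cu)) c1 fun z _ _ => ?_
    have hy := hty z.1
    have hy2 : |t * θ z.1| ≤ 1 / 2 := by linarith
    have h3 := one_add_rpow_ge hq2.le hq6 hy2
    have h4 : |t * θ z.1| ^ 3 ≤ |t| ^ 3 := pow_le_pow_left₀ (abs_nonneg _) hy 3
    have h5 : 1 + q * (t * θ z.1) + q * (q - 1) / 2 * (t * θ z.1) ^ 2 - 40 * |t| ^ 3 ≤
        (1 + t * θ z.1) ^ q := by linarith
    have h6 := mul_le_mul_of_nonneg_left h5 (up z.1).le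
    have h7 : 0 ≤ 1 + t * θ z.1 := by linarith [(abs_le.1 hy2).1]
    have e2 : tl t θ u z.1 ^ q = u z.1 ^ q * (1 + t * θ z.1) ^ q := by
      unfold tl
      exact Real.mul_rpow (hu.2 z.1).le h7
    rw [e2]
    refine le_trans (le_of_eq ?_) h6
    ring
  have t3 : |t| ^ 3 ≤ 1 / 6 * t ^ 2 := by
    have : |t| ^ 3 = |t| * t ^ 2 := by
      rw [← sq_abs t]
      ring
    rw [this]
    exact mul_le_mul_of_nonneg_right ht (sq_nonneg t)
  have t2 : t ^ 2 ≤ 1 / 36 := by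
    rw [← sq_abs t]
    nlinarith
  have t30 : 0 ≤ |t| ^ 3 := by positivity
  have qq : q * (q - 1) / 2 ≤ 15 := by nlinarith
  have qq0 : 0 ≤ q * (q - 1) / 2 := by nlinarith
  have hx1 : x ≤ 15 * t ^ 2 := by
    have h3 : q * (q - 1) / 2 * t ^ 2 * p ≤ 15 * t ^ 2 := by
      have h4 : q * (q - 1) / 2 * t ^ 2 ≤ 15 * t ^ 2 := mul_le_mul_of_nonneg_right qq (sq_nonneg t)
      have h5 : 0 ≤ q * (q - 1) / 2 * t ^ 2 := mul_nonneg qq0 (sq_nonneg t)
      nlinarith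
    linarith
  have hx2 : -(40 * |t| ^ 3) ≤ x := by
    have h5 : 0 ≤ q * (q - 1) / 2 * t ^ 2 * p := mul_nonneg (mul_nonneg qq0 (sq_nonneg t)) hp0
    linarith
  have hxa : |x| ≤ 22 * t ^ 2 := by
    rw [abs_le]
    constructor <;> nlinarith [sq_nonneg t]
  have hxh : |x| ≤ 1 / 2 := by
    rw [abs_le]
    constructor <;> nlinarith [sq_nonneg t]
  have hxs : x ^ 2 ≤ 81 * |t| ^ 3 := by
    have h3 : x ^ 2 ≤ (22 * t ^ 2) ^ 2 := by
      rw [← sq_abs x]
      exact pow_le_pow_left₀ (abs_nonneg _) hxa 2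
    have h4 : (22 * t ^ 2) ^ 2 = 484 * (|t| * |t| ^ 3) := by
      rw [← sq_abs t]
      ring
    rw [h4] at h3
    have h5 : |t| * |t| ^ 3 ≤ 1 / 6 * |t| ^ 3 := mul_le_mul_of_nonneg_right ht t30
    linarith
  have c0 : 0 ≤ 2 / q := by positivity
  have c1 : 2 / q ≤ 1 := by
    rw [div_le_one (by linarith)]
    linarith
  have h3 := rpow_ge_sub c0 c1 hxh
  have h4 : (1 + x) ^ (2 / q) ≤ (∫ z, tl t θ u z.1 ^ q ∂L.V) ^ (2 / q) :=
    Real.rpow_le_rpow (by linarith [(abs_le.1 hxh).1]) hN c0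
  refine le_trans ?_ (h3.trans h4)
  have h5 : 2 / q * x = (q - 1) * t ^ 2 * p - 2 / q * (40 * |t| ^ 3) := by
    rw [hx]
    field_simp
  have h6 : 2 / q * (40 * |t| ^ 3) ≤ 40 * |t| ^ 3 := mul_le_of_le_one_left (by positivity) c1
  linarith

/-- the averaging inequality -/
theorem avg_ineq {b τ : ℝ} (hτ : 0 ≤ τ) {u : E n → ℝ} (hu : SP u)
    (h1 : ∫ z, u z.1 ^ L.ps ∂L.V = 1)
    (hmin : ∀ v : E n → ℝ, SP v → ∫ z, v z.1 ^ L.ps ∂L.V = 1 → L.Eb b u ≤ L.Eb b v + τ)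
    (he : τ ≤ L.Eb b u) {t : ℝ} (ht0 : 0 < t) (ht : t ≤ 1 / 6) :
    ∃ c ∈ L.K, ∃ ε : ℝ, 0 < ε ∧ L.k2 * ε < 2 ∧
      (L.ps - 2) * (L.Eb b u - ∫ z, u z.1 ^ 2 * L.w c ε z.1 ^ 2 ∂L.V) ≤
        121 * (n + 1) * t * L.Eb b u + τ * ((n + 1) / t ^ 2 + (L.ps - 1)) := by
  obtain ⟨c, hc, ε, hε, hk, θ, hθ, hs, hG, hi⟩ := L.bary (fun x => u x ^ L.ps)
    (L.avn_rpow_ps_smooth hu) fun x => Real.rpow_pos_of_pos (hu.2 x) _
  refine ⟨c, hc, ε, hε, hk, ?_⟩
  have hθ1 : ∀ i, ContDiff ℝ 1 (θ i) := fun i => (hθ i).of_le one_le_inf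
  have hθb : ∀ i x, |θ i x| ≤ 1 := by
    intro i x
    have h2 : θ i x ^ 2 ≤ 1 := by
      rw [← hs x]
      exact Finset.single_le_sum (f := fun i => θ i x ^ 2) (fun j _ => sq_nonneg _) (Finset.mem_univ i)
    exact (sq_le_one_iff_abs_le_one _).1 h2
  set e := L.Eb b u with hedef
  set W := ∫ z, u z.1 ^ 2 * L.w c ε z.1 ^ 2 ∂L.V with hW
  set p : Fin (n + 1) → ℝ := fun i => ∫ z, θ i z.1 ^ 2 * u z.1 ^ L.ps ∂L.V with hp
  have hsum : ∑ i, p i = 1 := by
    rw [hp, ← h1]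
    have cu := L.avn_rpow_ps_cont hu
    show ∑ i, (∫ z, θ i z.1 ^ 2 * u z.1 ^ L.ps ∂L.V) = _
    have ii : ∀ i, Integrable (fun z : E n × E n => θ i z.1 ^ 2 * u z.1 ^ L.ps) L.V := fun i =>
      L.integrable_of_cont ((((hθ i).continuous.comp continuous_fst).pow 2).mul cu)
    rw [← integral_finsetSum _ fun i _ => ii i]
    refine integral_congr_ae (Filter.Eventually.of_forall fun z => ?_)
    show ∑ i, θ i z.1 ^ 2 * u z.1 ^ L.ps = u z.1 ^ L.ps
    rw [← Finset.sum_mul, hs, one_mul]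
  have hlow : ∀ s : ℝ, |s| = t → ∀ i,
      (e - τ) * (1 + (L.ps - 1) * t ^ 2 * p i - 121 * t ^ 3) ≤ L.Eb b (tl s (θ i) u) := by
    intro s hst i
    have h3 := L.tilt_norm hu (hθ i).continuous (hθb i) h1 (hi i) (t := s) (by rw [hst]; exact ht)
    have hs2 : s ^ 2 = t ^ 2 := by rw [← sq_abs, hst]
    rw [hst, hs2] at h3
    have hsp : SP (tl s (θ i) u) := by
      refine ⟨tl_smooth s hu.1 (hθ i), fun x => mul_pos (hu.2 x) ?_⟩
      have h4 : |s * θ i x| ≤ 1 / 6 := by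
        rw [abs_mul, hst]
        exact (mul_le_of_le_one_right ht0.le (hθb i x)).trans ht
      linarith [(abs_le.1 h4).1]
    have h4 := L.near_scale hmin hsp
    exact (mul_le_mul_of_nonneg_left h3 (sub_nonneg.2 he)).trans h4
  have hup := L.Eb_tilt hθ1 hs hε (c := c) hG b t (hu.1.of_le one_le_inf)
  have h5 : ∑ i : Fin (n + 1), 2 * ((e - τ) * (1 + (L.ps - 1) * t ^ 2 * p i - 121 * t ^ 3)) ≤
      ∑ i, (L.Eb b (tl t (θ i) u) + L.Eb b (tl (-t) (θ i) u)) := by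
    refine Finset.sum_le_sum fun i _ => ?_
    have h6 := hlow t (abs_of_pos ht0) i
    have h7 := hlow (-t) (by rw [abs_neg, abs_of_pos ht0]) i
    linarith
  have h6 : ∑ i : Fin (n + 1), 2 * ((e - τ) * (1 + (L.ps - 1) * t ^ 2 * p i - 121 * t ^ 3)) =
      (e - τ) * (2 * (n + 1) + 2 * (L.ps - 1) * t ^ 2 - 242 * (n + 1) * t ^ 3) := by
    have e1 : ∀ i, 2 * ((e - τ) * (1 + (L.ps - 1) * t ^ 2 * p i - 121 * t ^ 3)) =
        2 * (e - τ) * (1 - 121 * t ^ 3) + 2 * (e - τ) * (L.ps - 1) * t ^ 2 * p i := fun i => by ring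
    simp only [e1, Finset.sum_add_distrib, ← Finset.mul_sum, hsum]
    rw [Finset.sum_const, Finset.card_univ, Fintype.card_fin, nsmul_eq_mul]
    push_cast
    ring
  have h7 := h5.trans hup
  rw [h6, Fintype.card_fin, ← L.avn_ps_sub, ← hedef, ← hW] at h7
  push_cast at h7
  have t2 : 0 < t ^ 2 := by positivity
  have h8 : t ^ 2 * ((L.ps - 2) * (e - W)) ≤
      t ^ 2 * (121 * (n + 1) * t * e + τ * ((n + 1) / t ^ 2 + (L.ps - 1))) := by
    have e2 : t ^ 2 * (121 * (n + 1) * t * e + τ * ((n + 1) / t ^ 2 + (L.ps - 1))) =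
        121 * (n + 1) * t ^ 3 * e + τ * ((n + 1) + (L.ps - 1) * t ^ 2) := by
      field_simp
    rw [e2]
    have h9 : 0 ≤ τ * (121 * (n + 1) * t ^ 3) := by positivity
    nlinarith
  exact le_of_mul_le_mul_left h8 t2

/-- B6a near minimizers of `E + λ R` have a frame of small defect -/
theorem near_min (lam : ℝ) (hlam : 0 < lam) (δ : ℝ) (hδ : 0 < δ) : ∃ τ > 0, ∀ u : E n → ℝ, SP u →
    ∫ z, u z.1 ^ L.ps ∂L.V = 1 →
    (∀ v : E n → ℝ, SP v → ∫ z, v z.1 ^ L.ps ∂L.V = 1 →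
      L.En u + lam * (∫ z, u z.1 ^ 2 ∂L.V) ≤ L.En v + lam * (∫ z, v z.1 ^ 2 ∂L.V) + τ) →
    ∃ c ∈ L.K, ∃ ε : ℝ, 0 < ε ∧ L.k2 * ε < 2 ∧ L.Def c ε u ≤ δ ∧ ∫ z, u z.1 ^ 2 ∂L.V ≤ δ := by
  set b : ℝ := L.H0 ^ 2 / L.m ^ 2 - L.k2 + lam with hb
  -- a constant competitor
  obtain ⟨u₀, hu₀, hu1⟩ : ∃ u₀ : ℝ, 0 < u₀ ∧ ∫ _z : E n × E n, u₀ ^ L.ps ∂L.V = 1 := by
    have h0 := L.intPs_pos (u := fun _ => 1) ⟨contDiff_const, fun _ => one_pos⟩
    have hN : 0 < L.V.real univ := by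
      simpa using h0
    refine ⟨(L.V.real univ) ^ (-(1 / L.ps)), Real.rpow_pos_of_pos hN _, ?_⟩
    rw [integral_const, ← Real.rpow_mul hN.le]
    have hq := L.avn_ps_pos
    have : -(1 / L.ps) * L.ps = -1 := by field_simp
    rw [this, Real.rpow_neg_one, smul_eq_mul]
    exact mul_inv_cancel₀ hN.ne'
  set M : ℝ := |L.Eb b (fun _ => u₀)| + 1 with hM
  have hM0 : 0 < M := by positivity
  set δ' : ℝ := min δ (lam * δ) with hδ'
  have hδ0 : 0 < δ' := lt_min hδ (mul_pos hlam hδ)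
  have hκ : 0 < L.ps - 2 := by linarith [L.avn_two_lt_ps]
  set K : ℝ := 121 * (n + 1) with hK
  have hK0 : 0 < K := by positivity
  set t : ℝ := min (1 / 6) ((L.ps - 2) * δ' / (2 * K * M)) with ht
  have ht0 : 0 < t := lt_min (by norm_num) (by positivity)
  have ht1 : t ≤ 1 / 6 := min_le_left _ _
  have ht2 : K * t * M ≤ (L.ps - 2) * δ' / 2 := by
    have h1 : t ≤ (L.ps - 2) * δ' / (2 * K * M) := min_le_right _ _
    rw [le_div_iff₀ (by positivity)] at h1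
    linarith
  set Q : ℝ := (n + 1) / t ^ 2 + (L.ps - 1) with hQ
  have hQ0 : 0 < Q := by
    have : 0 < L.ps - 1 := by linarith
    positivity
  set τ : ℝ := min (min 1 δ') ((L.ps - 2) * δ' / (2 * Q)) with hτ
  have hτ0 : 0 < τ := lt_min (lt_min one_pos hδ0) (by positivity)
  have hτ1 : τ ≤ 1 := (min_le_left _ _).trans (min_le_left _ _)
  have hτ2 : τ ≤ δ' := (min_le_left _ _).trans (min_le_right _ _)
  have hτ3 : τ * Q ≤ (L.ps - 2) * δ' / 2 := by
    have h1 : τ ≤ (L.ps - 2) * δ' / (2 * Q) := min_le_right _ _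
    rw [le_div_iff₀ (by positivity)] at h1
    linarith
  refine ⟨τ, hτ0, fun u hu h1 hmin => ?_⟩
  have hu' : ContDiff ℝ 1 u := hu.1.of_le one_le_inf
  have hmin' : ∀ v : E n → ℝ, SP v → ∫ z, v z.1 ^ L.ps ∂L.V = 1 → L.Eb b u ≤ L.Eb b v + τ := by
    intro v hv h2
    have h3 := hmin v hv h2
    rwa [L.En_eq_Eb lam hu', L.En_eq_Eb lam (hv.1.of_le one_le_inf)] at h3
  -- it is enough to bound `E + λ R - ∫ u² w²`
  suffices h : ∃ c ∈ L.K, ∃ ε : ℝ, 0 < ε ∧ L.k2 * ε < 2 ∧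
      L.Eb b u - ∫ z, u z.1 ^ 2 * L.w c ε z.1 ^ 2 ∂L.V ≤ δ' by
    obtain ⟨c, hc, ε, hε, hk, h⟩ := h
    refine ⟨c, hc, ε, hε, hk, ?_⟩
    have h2 := L.Def_nonneg hc hε hk hu.1
    have h3 : 0 ≤ ∫ z, u z.1 ^ 2 ∂L.V := L.integral_nonneg_of fun z _ _ => sq_nonneg _
    rw [hb, ← L.En_eq_Eb lam hu'] at h
    have h4 : L.Def c ε u + lam * (∫ z, u z.1 ^ 2 ∂L.V) ≤ δ' := by
      unfold Def
      linarith
    have h5 := mul_nonneg hlam.le h3
    have h6 : δ' ≤ δ := min_le_left _ _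
    have h7 : δ' ≤ lam * δ := min_le_right _ _
    refine ⟨by linarith, ?_⟩
    have h8 : lam * (∫ z, u z.1 ^ 2 ∂L.V) ≤ lam * δ := by linarith
    exact le_of_mul_le_mul_left h8 hlam
  rcases lt_or_ge (L.Eb b u) τ with hlt | hge
  · obtain ⟨c, hc, ε, hε, hk, -⟩ := L.bary (fun _ => 1) contDiff_const fun _ => one_pos
    refine ⟨c, hc, ε, hε, hk, ?_⟩
    have h3 : 0 ≤ ∫ z, u z.1 ^ 2 * L.w c ε z.1 ^ 2 ∂L.V :=
      L.integral_nonneg_of fun z _ _ => mul_nonneg (sq_nonneg _) (sq_nonneg _)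
    linarith
  · obtain ⟨c, hc, ε, hε, hk, h⟩ := L.avg_ineq hτ0.le hu h1 hmin' hge ht0 ht1
    refine ⟨c, hc, ε, hε, hk, ?_⟩
    have he0 : 0 ≤ L.Eb b u := hτ0.le.trans hge
    have heM : L.Eb b u ≤ M := by
      have h2 := hmin' (fun _ => u₀) ⟨contDiff_const, fun _ => hu₀⟩ hu1
      have h3 := le_abs_self (L.Eb b fun _ => u₀)
      linarith
    have h4 : K * t * L.Eb b u ≤ K * t * M := mul_le_mul_of_nonneg_left heM (by positivity)
    have h5 : (L.ps - 2) * (L.Eb b u - ∫ z, u z.1 ^ 2 * L.w c ε z.1 ^ 2 ∂L.V) ≤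
        (L.ps - 2) * δ' := by
      rw [← hK, ← hQ] at h
      linarith
    exact le_of_mul_le_mul_left h5 hκ

end Lim

end Vale.Agent.P219.End
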