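import Vale.Agent.P219.End.Ident

/-!
# P219 / End : derivative in ε of the bubble integral `J_Φ(c, ε) = ∫ Φ w_{c,ε}^m dμ`

Exact formula for the derivative in `ε`, monotonicity, upper density.
-/

open MeasureTheory Set Metric Filter
open scoped ContDiff Topology

namespace Vale.Agent.P219.End

variable {n : ℕ}

/-- derivative of `w^m` in `ε` -/
theorem hasDerivAt_bm {k2 m f ε : ℝ} (hf : 0 ≤ f) (hε : 0 < ε) (hk : k2 * ε < 2) :
    HasDerivAt (fun ε => (√(ε * (2 - k2 * ε)) / (f + ε)) ^ m)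
      (m * (√(ε * (2 - k2 * ε)) / (f + ε)) ^ m * (f * (1 - k2 * ε) - ε) /
        ((f + ε) * (ε * (2 - k2 * ε)))) ε := by
  have h2 : 0 < f + ε := by linarith
  have hq : 0 < ε * (2 - k2 * ε) := mul_pos hε (by linarith)
  have hb : 0 < √(ε * (2 - k2 * ε)) / (f + ε) := div_pos (Real.sqrt_pos.2 hq) h2
  have h0 : HasDerivAt (fun ε : ℝ => ε * (2 - k2 * ε)) (2 - 2 * k2 * ε) ε := by
    have h := (hasDerivAt_id ε).mul (((hasDerivAt_id ε).const_mul k2).const_sub 2)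
    refine h.congr_deriv ?_
    simp only [id_eq]
    ring
  have h1 := (h0.sqrt hq.ne').fun_div ((hasDerivAt_id ε).const_add f) (by simpa using h2.ne')
  have h4 := h1.rpow_const (p := m) (Or.inl (by simpa using hb.ne'))
  refine h4.congr_deriv ?_
  simp only [id_eq]
  rw [Real.rpow_sub_one hb.ne']
  have hs : √(ε * (2 - k2 * ε)) ≠ 0 := (Real.sqrt_pos.2 hq).ne'
  have hss : √(ε * (2 - k2 * ε)) ^ 2 = ε * (2 - k2 * ε) := Real.sq_sqrt hq.le
  have h2k : 2 - k2 * ε ≠ 0 := by linarith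
  have hε' := hε.ne'
  generalize hS : √(ε * (2 - k2 * ε)) = S at *
  generalize (S / (f + ε)) ^ m = Q
  field_simp
  rw [hss]
  ring

/-- the pointwise algebra of the derivative formula; `ff = |∇F|²`, `gff = ff - nc²` -/
theorem bub_alg {m Φ q F ε k2 H gf nc ff : ℝ} (hG : 0 < F + ε) (hε : 0 < ε) (hk : k2 * ε < 2)
    (hf : ff = 2 * F + k2 * F ^ 2) :
    Φ * (m * q * (F * (1 - k2 * ε) - ε) / ((F + ε) * (ε * (2 - k2 * ε)))) =
      (ε * (2 - k2 * ε))⁻¹ * ((H * (Φ * q) * nc - m * (1 + k2 * F) * (Φ * q) -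
        (q * gf - (m * (Φ * q) / (F + ε)) * (ff - nc ^ 2))) + q * gf +
        Φ * q * (m * nc ^ 2 / (F + ε) - H * nc)) := by
  have h1 : F + ε ≠ 0 := hG.ne'
  have h2 : 2 - k2 * ε ≠ 0 := by linarith
  have h3 := hε.ne'
  rw [hf]
  field_simp
  ring

namespace Lim

variable (L : Lim n)

section

variable {c : E n} {ε : ℝ} (hε : 0 < ε) (hk : L.k2 * ε < 2)

include hε hk in
theorem wm_smooth {Φ : E n → ℝ} {k : WithTop ℕ∞} (hΦ : ContDiff ℝ k Φ) (hk' : k ≤ ∞) (r : ℝ) :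
    ContDiff ℝ k fun x => Φ x * L.w c ε x ^ r :=
  hΦ.mul ((L.w_rpow_smooth hε hk r).of_le hk')

include hε hk in
theorem G_wm {Φ : E n → ℝ} (hΦ : ContDiff ℝ 1 Φ) (z : E n × E n) :
    L.G (fun x => Φ x * L.w c ε x ^ L.m) (L.F c) z =
      L.w c ε z.1 ^ L.m * L.G Φ (L.F c) z -
        (L.m * (Φ z.1 * L.w c ε z.1 ^ L.m) / (L.F c z.1 + ε)) *
          (‖D L.A (L.F c) z.1‖ ^ 2 - L.nc c z ^ 2) := by
  have h1 := hΦ.differentiable (by norm_num) z.1
  have h2 : DifferentiableAt ℝ (fun y => L.w c ε y ^ L.m) z.1 :=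
    (L.w_rpow_smooth hε hk L.m).differentiable (by norm_num) z.1
  have e1 : L.G (fun x => Φ x * L.w c ε x ^ L.m) (L.F c) z =
      gv (D L.A (fun x => Φ x * L.w c ε x ^ L.m) z.1) (D L.A (L.F c) z.1) z.2 := rfl
  have e2 : gv (D L.A (L.F c) z.1) (D L.A (L.F c) z.1) z.2 =
      ‖D L.A (L.F c) z.1‖ ^ 2 - L.nc c z ^ 2 := gv_self _ _
  have e3 : L.G Φ (L.F c) z = gv (D L.A Φ z.1) (D L.A (L.F c) z.1) z.2 := rfl
  rw [e1, D_mul h1 h2, L.D_w_rpow hε hk, gv_add_left, gv_smul_left, gv_smul_left, gv_smul_left,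
    e2, e3]
  ring

/-- the integrand of the derivative of `J` -/
noncomputable def dJ (Φ : E n → ℝ) (c : E n) (ε : ℝ) (x : E n) : ℝ :=
  Φ x * (L.m * L.w c ε x ^ L.m * (L.F c x * (1 - L.k2 * ε) - ε) /
    ((L.F c x + ε) * (ε * (2 - L.k2 * ε))))

include hε hk in
theorem dJ_eq {Φ : E n → ℝ} (hΦ : ContDiff ℝ 1 Φ) (z : E n × E n) :
    L.dJ Φ c ε z.1 = (ε * (2 - L.k2 * ε))⁻¹ *
      (L.dl c (fun x => Φ x * L.w c ε x ^ L.m) z + L.w c ε z.1 ^ L.m * L.G Φ (L.F c) z +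
        Φ z.1 * L.w c ε z.1 ^ L.m *
          (L.m * L.nc c z ^ 2 / (L.F c z.1 + ε) - L.H0 * L.nc c z)) := by
  unfold dJ dl
  rw [L.G_wm hε hk hΦ]
  exact bub_alg (L.Fe_pos hε z.1) hε hk (L.grad c z.1)

theorem dJ_contOn {Φ : E n → ℝ} (hΦ : Continuous Φ) (c : E n) :
    ContinuousOn (fun p : ℝ × E n => L.dJ Φ c p.1 p.2) ({ε | 0 < ε ∧ L.k2 * ε < 2} ×ˢ univ) := by
  have hF : Continuous fun p : ℝ × E n => L.F c p.2 := (L.Fc_cont c).comp continuous_snd
  have h1 : Continuous fun p : ℝ × E n => p.1 * (2 - L.k2 * p.1) := by fun_prop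
  have h2 : ∀ p ∈ ({ε | 0 < ε ∧ L.k2 * ε < 2} ×ˢ univ : Set (ℝ × E n)), 0 < p.1 * (2 - L.k2 * p.1) := by
    rintro p ⟨⟨h3, h4⟩, -⟩
    exact mul_pos h3 (by linarith)
  have h3 : ∀ p ∈ ({ε | 0 < ε ∧ L.k2 * ε < 2} ×ˢ univ : Set (ℝ × E n)), 0 < L.F c p.2 + p.1 := by
    rintro p ⟨⟨h3, h4⟩, -⟩
    exact L.Fe_pos h3 p.2
  have h4 : ContinuousOn (fun p : ℝ × E n => L.w c p.1 p.2)
      ({ε | 0 < ε ∧ L.k2 * ε < 2} ×ˢ univ) := by
    unfold w bub
    exact (h1.sqrt.continuousOn).div (by fun_prop) fun p hp => (h3 p hp).ne'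
  have h5 : ContinuousOn (fun p : ℝ × E n => L.w c p.1 p.2 ^ L.m)
      ({ε | 0 < ε ∧ L.k2 * ε < 2} ×ˢ univ) :=
    h4.rpow_const fun p hp => Or.inl (L.w_pos hp.1.1 hp.1.2 p.2).ne'
  unfold dJ
  refine (hΦ.comp continuous_snd).continuousOn.mul ?_
  refine ((continuousOn_const.mul h5).mul (by fun_prop)).div (by fun_prop) fun p hp => ?_
  exact mul_ne_zero (h3 p hp).ne' (h2 p hp).ne'

include hε hk in
/-- differentiation under the integral sign -/
theorem hasDerivAt_J {Φ : E n → ℝ} (hΦ : Continuous Φ) :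
    HasDerivAt (fun ε => L.J Φ c ε) (∫ z, L.dJ Φ c ε z.1 ∂L.V) ε := by
  -- a compact neighbourhood of `ε`
  obtain ⟨δ, hδ, hδ'⟩ : ∃ δ > 0, closedBall ε δ ⊆ {ε | 0 < ε ∧ L.k2 * ε < 2} := by
    have hopen : IsOpen {ε : ℝ | 0 < ε ∧ L.k2 * ε < 2} :=
      (isOpen_lt continuous_const continuous_id).inter
        (isOpen_lt (continuous_const.mul continuous_id) continuous_const)
    exact (nhds_basis_closedBall.mem_iff).1 (hopen.mem_nhds ⟨hε, hk⟩)
  have hcomp : IsCompact (closedBall ε δ ×ˢ L.K) := (isCompact_closedBall ε δ).prod L.K_compact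
  have hsub : closedBall ε δ ×ˢ L.K ⊆ ({ε | 0 < ε ∧ L.k2 * ε < 2} ×ˢ univ : Set (ℝ × E n)) :=
    prod_mono hδ' (subset_univ _)
  obtain ⟨B, hB⟩ := hcomp.exists_bound_of_continuousOn ((L.dJ_contOn hΦ c).mono hsub)
  have hmeas : ∀ ε', 0 < ε' → L.k2 * ε' < 2 →
      Continuous fun z : E n × E n => Φ z.1 * L.w c ε' z.1 ^ L.m := by
    intro ε' h1 h2
    exact (hΦ.comp continuous_fst).mul ((L.w_rpow_smooth h1 h2 L.m).continuous.comp continuous_fst)
  have hmain := hasDerivAt_integral_of_dominated_loc_of_deriv_le (μ := L.V)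
    (F := fun ε z => Φ z.1 * L.w c ε z.1 ^ L.m) (F' := fun ε z => L.dJ Φ c ε z.1)
    (x₀ := ε) (s := ball ε δ) (bound := fun _ => B) (ball_mem_nhds ε hδ)
    (by
      filter_upwards [ball_mem_nhds ε hδ] with x hx
      have := hδ' (ball_subset_closedBall hx)
      exact (hmeas x this.1 this.2).aestronglyMeasurable)
    (L.integrable_of_cont (hmeas ε hε hk))
    (by
      have h1 : Continuous fun z : E n × E n => L.dJ Φ c ε z.1 := by
        have h2 : Continuous fun x => L.dJ Φ c ε x := by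
          rw [← continuousOn_univ]
          exact (L.dJ_contOn hΦ c).comp (f := fun x : E n => (ε, x)) (by fun_prop)
            fun x _ => ⟨⟨hε, hk⟩, mem_univ _⟩
        exact h2.comp continuous_fst
      exact h1.aestronglyMeasurable)
    (by
      filter_upwards [L.V_supp] with z hz x hx
      exact hB (x, z.1) ⟨ball_subset_closedBall hx, hz.1⟩)
    (integrable_const _)
    (by
      refine Eventually.of_forall fun z x hx => ?_
      have h3 := hδ' (ball_subset_closedBall hx)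
      exact (hasDerivAt_bm (m := L.m) (L.F_nonneg c z.1) h3.1 h3.2).const_mul (Φ z.1))
  exact hmain.2

include hε hk in
/-- THE EXACT DERIVATIVE FORMULA -/
theorem dJ_int {Φ : E n → ℝ} (hΦ : ContDiff ℝ 1 Φ) :
    ∫ z, L.dJ Φ c ε z.1 ∂L.V = (ε * (2 - L.k2 * ε))⁻¹ *
      (L.Dl c (fun x => Φ x * L.w c ε x ^ L.m) +
        ∫ z, L.w c ε z.1 ^ L.m * L.G Φ (L.F c) z ∂L.V +
        ∫ z, Φ z.1 * L.w c ε z.1 ^ L.m *
          (L.m * L.nc c z ^ 2 / (L.F c z.1 + ε) - L.H0 * L.nc c z) ∂L.V) := by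
  have h1i : (1 : WithTop ℕ∞) ≤ ∞ := by exact_mod_cast le_top
  have cw : Continuous fun z : E n × E n => L.w c ε z.1 ^ L.m :=
    (L.w_rpow_smooth hε hk L.m).continuous.comp continuous_fst
  have cΦ : Continuous fun z : E n × E n => Φ z.1 := hΦ.continuous.comp continuous_fst
  have cF : Continuous fun z : E n × E n => L.F c z.1 := (L.Fc_cont c).comp continuous_fst
  have cn := L.nc_cont c
  have i1 := L.dl_integrable c (L.wm_smooth hε hk hΦ h1i L.m (c := c))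
  have i2 : Integrable (fun z : E n × E n => L.w c ε z.1 ^ L.m * L.G Φ (L.F c) z) L.V :=
    L.integrable_of_cont (cw.mul (L.G_cont hΦ (L.Fc_smooth1 c)))
  have i3 : Integrable (fun z : E n × E n => Φ z.1 * L.w c ε z.1 ^ L.m *
      (L.m * L.nc c z ^ 2 / (L.F c z.1 + ε) - L.H0 * L.nc c z)) L.V :=
    L.integrable_of_cont ((cΦ.mul cw).mul (((continuous_const.mul (cn.pow 2)).div
      (cF.add continuous_const) fun z => (L.Fe_pos hε z.1).ne').sub (continuous_const.mul cn)))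
  have i12 : Integrable (fun z : E n × E n => L.dl c (fun x => Φ x * L.w c ε x ^ L.m) z +
      L.w c ε z.1 ^ L.m * L.G Φ (L.F c) z) L.V := i1.add i2
  rw [Dl_eq, ← integral_add i1 i2, ← integral_add i12 i3, ← integral_const_mul]
  refine integral_congr_ae (Eventually.of_forall fun z => ?_)
  exact L.dJ_eq hε hk hΦ z

end

end Lim

end Vale.Agent.P219.End
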