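import Vale.Agent.P219.End.Bub
import Vale.Agent.P219.End.BubEps

/-!
# P219 / End : derivative of `J_Φ(c, s)` in the scale `s`
-/

open MeasureTheory Set Metric Filter
open scoped ContDiff Topology

namespace Vale.Agent.P219.End

variable {n : ℕ}

namespace Lim

variable (L : Lim n)

/-- B3a -/
theorem hasDerivAt_Js {s : ℝ} (hs : 0 < s) (hs' : L.k2 * s ^ 2 < 4) (c : E n) {Φ : E n → ℝ}
    (hΦ : ContDiff ℝ ∞ Φ) : HasDerivAt (L.Js Φ c)
      (1 / (s * (1 - L.k2 * s ^ 2 / 4)) * (L.Dl c (fun x => Φ x * L.ws c s x ^ L.m) -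
        (∫ z, Φ z.1 * L.ws c s z.1 ^ L.m * (L.H0 * L.nc c z -
          2 * L.m * L.nc c z ^ 2 / (s ^ 2 + 2 * L.F c z.1)) ∂L.V) +
        ∫ z, L.ws c s z.1 ^ L.m * L.G Φ (L.F c) z ∂L.V)) s := by
  have hε : 0 < s ^ 2 / 2 := by positivity
  have hk : L.k2 * (s ^ 2 / 2) < 2 := by linarith
  have h1 := L.hasDerivAt_J (c := c) hε hk hΦ.continuous
  rw [L.dJ_int hε hk (hΦ.of_le (by exact_mod_cast le_top))] at h1
  have h2 : HasDerivAt (fun s : ℝ => s ^ 2 / 2) s s := by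
    refine ((hasDerivAt_pow 2 s).div_const 2).congr_deriv ?_
    simp
  have h3 := h1.comp s h2
  have h4 : 1 - L.k2 * s ^ 2 / 4 ≠ 0 := by linarith
  have e1 : ∫ z, Φ z.1 * L.w c (s ^ 2 / 2) z.1 ^ L.m *
      (L.m * L.nc c z ^ 2 / (L.F c z.1 + s ^ 2 / 2) - L.H0 * L.nc c z) ∂L.V =
      -∫ z, Φ z.1 * L.ws c s z.1 ^ L.m * (L.H0 * L.nc c z -
          2 * L.m * L.nc c z ^ 2 / (s ^ 2 + 2 * L.F c z.1)) ∂L.V := by
    rw [← integral_neg]
    refine integral_congr_ae (Eventually.of_forall fun z => ?_)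
    have h5 : L.F c z.1 + s ^ 2 / 2 ≠ 0 := (L.Fe_pos hε z.1).ne'
    have e2 : L.m * L.nc c z ^ 2 / (L.F c z.1 + s ^ 2 / 2) =
        2 * L.m * L.nc c z ^ 2 / (s ^ 2 + 2 * L.F c z.1) := by
      have h6 : s ^ 2 + 2 * L.F c z.1 ≠ 0 := by
        intro h
        apply h5
        linarith
      rw [div_eq_div_iff h5 h6]
      ring
    simp only [ws, e2]
    ring
  have h6 : HasDerivAt (L.Js Φ c) _ s := h3
  refine h6.congr_deriv ?_
  rw [e1]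
  have e3 : (s ^ 2 / 2 * (2 - L.k2 * (s ^ 2 / 2)))⁻¹ * s = 1 / (s * (1 - L.k2 * s ^ 2 / 4)) := by
    have h7 : 2 - L.k2 * (s ^ 2 / 2) ≠ 0 := by linarith
    have hs0 := hs.ne'
    have h8 : s ^ 2 / 2 * (2 - L.k2 * (s ^ 2 / 2)) = s * (s * (1 - L.k2 * s ^ 2 / 4)) := by ring
    rw [h8]
    field_simp
  rw [← e3]
  simp only [ws]
  ring

end Lim

end Vale.Agent.P219.End
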