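import Vale.Agent.P219.End.Ident

/-!
# P219 / End : bubble monotonicity, exact derivative of `ε ↦ ∫ Φ w_{c,ε}^m`
-/

open MeasureTheory Set Metric
open scoped ContDiff Topology

namespace Vale.Agent.P219.End

variable {n : ℕ}

namespace Lim

variable (L : Lim n)

/-- `a² = ε (2 - k2 ε)` -/
noncomputable def a2 (ε : ℝ) : ℝ := ε * (2 - L.k2 * ε)

theorem a2_pos {ε : ℝ} (hε : 0 < ε) (hk : L.k2 * ε < 2) : 0 < L.a2 ε :=
  mul_pos hε (by linarith)

theorem a2_le (ε : ℝ) : L.a2 ε ≤ 2 * ε := by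
  unfold a2
  nlinarith [mul_nonneg L.k2_nonneg (sq_nonneg ε)]

theorem le_a2 {ε : ℝ} (hε : 0 < ε) (hk : L.k2 * ε ≤ 1) : ε ≤ L.a2 ε := by
  unfold a2
  nlinarith

/-- admissible parameters -/
def Adm : Set ℝ := {ε | 0 < ε ∧ L.k2 * ε < 2}

theorem Adm_open : IsOpen L.Adm :=
  (isOpen_lt continuous_const continuous_id).inter
    (isOpen_lt (continuous_const.mul continuous_id) continuous_const)

/-- derivative under the integral sign for jointly continuous families -/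
theorem hasDerivAt_int {f f' : ℝ → E n × E n → ℝ} {I : Set ℝ} (hI : IsOpen I)
    (hf : ∀ ε ∈ I, Continuous (f ε))
    (hf' : ContinuousOn (fun q : ℝ × (E n × E n) => f' q.1 q.2) (I ×ˢ univ))
    (hd : ∀ ε ∈ I, ∀ z, HasDerivAt (fun e => f e z) (f' ε z) ε) {ε : ℝ} (hε : ε ∈ I) :
    HasDerivAt (fun e => ∫ z, f e z ∂L.V) (∫ z, f' ε z ∂L.V) ε := by
  obtain ⟨δ, hδ, hball⟩ := Metric.nhds_basis_closedBall.mem_iff.1 (hI.mem_nhds hε)
  have hK : IsCompact (closedBall ε δ ×ˢ (L.K ×ˢ sphere (0 : E n) 1)) :=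
    (isCompact_closedBall ε δ).prod (L.K_compact.prod (isCompact_sphere 0 1))
  obtain ⟨C, hC⟩ := hK.exists_bound_of_continuousOn (hf'.mono (by
    rintro ⟨e, z⟩ hq
    exact ⟨hball hq.1, mem_univ _⟩))
  have hcont : ∀ e ∈ I, Continuous (f' e) := by
    intro e he
    have h1 : Continuous fun z : E n × E n => ((e, z) : ℝ × (E n × E n)) := by fun_prop
    have h2 := hf'.comp_continuous h1 (fun z => ⟨he, mem_univ _⟩)
    exact h2
  have h := hasDerivAt_integral_of_dominated_loc_of_deriv_le (μ := L.V)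
    (F := f) (F' := f') (x₀ := ε) (s := ball ε δ) (bound := fun _ => C)
    (ball_mem_nhds ε hδ)
    (by
      filter_upwards [hI.mem_nhds hε] with e he
      exact (hf e he).aestronglyMeasurable)
    (L.integrable_of_cont (hf ε hε))
    (hcont ε hε).aestronglyMeasurable
    (by
      filter_upwards [L.V_supp] with z hz e he
      exact hC (e, z) ⟨ball_subset_closedBall he, hz.1, by simpa using hz.2⟩)
    (integrable_const _)
    (Filter.Eventually.of_forall fun z e he => hd e (hball (ball_subset_closedBall he)) z)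
  exact h.2

/-- pointwise derivative of the bubble power -/
theorem hasDerivAt_w_rpow {c x : E n} {ε : ℝ} (hε : 0 < ε) (hk : L.k2 * ε < 2) :
    HasDerivAt (fun e => L.w c e x ^ L.m)
      (L.m * L.w c ε x ^ L.m * (((1 - L.k2 * ε) * L.F c x - ε) /
        (L.a2 ε * (L.F c x + ε)))) ε := by
  have hp := L.Fe_pos (c := c) hε x
  have ha := L.a2_pos hε hk
  have hw := L.w_pos (c := c) hε hk x
  have h1 : HasDerivAt (fun e : ℝ => e * (2 - L.k2 * e)) (2 - 2 * L.k2 * ε) ε := by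
    have h := (hasDerivAt_id ε).mul (((hasDerivAt_id ε).const_mul L.k2).const_sub 2)
    refine (h.congr_deriv ?_)
    simp only [id]
    ring
  have h2 : HasDerivAt (fun e : ℝ => √(e * (2 - L.k2 * e)))
      ((2 - 2 * L.k2 * ε) / (2 * √(ε * (2 - L.k2 * ε)))) ε := h1.sqrt ha.ne'
  have h3 : HasDerivAt (fun e : ℝ => L.F c x + e) 1 ε := (hasDerivAt_id ε).const_add _
  have h4 := (h2.div h3 hp.ne').rpow_const (p := L.m) (Or.inl hw.ne')
  refine h4.congr_deriv ?_
  have hs : 0 < √(ε * (2 - L.k2 * ε)) := Real.sqrt_pos.2 ha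
  have hss : √(ε * (2 - L.k2 * ε)) ^ 2 = L.a2 ε := Real.sq_sqrt ha.le
  have e1 : √(ε * (2 - L.k2 * ε)) / (L.F c x + ε) = L.w c ε x := rfl
  have e2 : L.w c ε x ^ L.m = L.w c ε x ^ (L.m - 1) * L.w c ε x := by
    rw [Real.rpow_sub_one hw.ne', div_mul_cancel₀ _ hw.ne']
  have e3 : L.w c ε x * (L.F c x + ε) = √(ε * (2 - L.k2 * ε)) := by
    rw [← e1, div_mul_cancel₀ _ hp.ne']
  simp only [Pi.div_apply]
  rw [e1, e2]
  set s := √(ε * (2 - L.k2 * ε)) with hs'
  rw [← hss]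
  have e4 : L.w c ε x = s / (L.F c x + ε) := rfl
  rw [e4]
  field_simp
  have e5 : s ^ 2 = ε * (2 - L.k2 * ε) := hss
  rw [e5]
  ring

/-- the derivative of the integrand, in closed form -/
noncomputable def jd (Φ : E n → ℝ) (c : E n) (ε : ℝ) (z : E n × E n) : ℝ :=
  Φ z.1 * (L.m * L.w c ε z.1 ^ L.m * (((1 - L.k2 * ε) * L.F c z.1 - ε) /
        (L.a2 ε * (L.F c z.1 + ε))))

theorem w_joint (c : E n) (r : ℝ) : ContinuousOn
    (fun q : ℝ × (E n × E n) => L.w c q.1 q.2.1 ^ r) (L.Adm ×ˢ univ) := by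
  have hF : Continuous fun q : ℝ × (E n × E n) => L.F c q.2.1 :=
    (L.Fc_cont c).comp (continuous_fst.comp continuous_snd)
  refine ContinuousOn.rpow_const ?_ ?_
  · unfold w bub
    refine ContinuousOn.div ?_ ?_ ?_
    · exact Continuous.continuousOn (by fun_prop)
    · exact (hF.add continuous_fst).continuousOn
    · rintro ⟨e, z⟩ ⟨he, -⟩
      exact (L.Fe_pos (c := c) he.1 z.1).ne'
  · rintro ⟨e, z⟩ ⟨he, -⟩
    exact Or.inl (L.w_pos (c := c) he.1 he.2 z.1).ne'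

theorem jd_joint {Φ : E n → ℝ} (hΦ : Continuous Φ) (c : E n) : ContinuousOn
    (fun q : ℝ × (E n × E n) => L.jd Φ c q.1 q.2) (L.Adm ×ˢ univ) := by
  have hF : Continuous fun q : ℝ × (E n × E n) => L.F c q.2.1 :=
    (L.Fc_cont c).comp (continuous_fst.comp continuous_snd)
  have hP : Continuous fun q : ℝ × (E n × E n) => Φ q.2.1 :=
    hΦ.comp (continuous_fst.comp continuous_snd)
  unfold jd
  refine hP.continuousOn.mul ((continuousOn_const.mul (L.w_joint c L.m)).mul ?_)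
  refine ContinuousOn.div ?_ ?_ ?_
  · exact Continuous.continuousOn (by fun_prop)
  · unfold a2
    exact Continuous.continuousOn (by fun_prop)
  · rintro ⟨e, z⟩ ⟨he, -⟩
    exact (mul_pos (L.a2_pos he.1 he.2) (L.Fe_pos (c := c) he.1 z.1)).ne'

theorem hasDerivAt_Jb' {Φ : E n → ℝ} (hΦ : Continuous Φ) (c : E n) {ε : ℝ} (hε : 0 < ε)
    (hk : L.k2 * ε < 2) : HasDerivAt (L.J Φ c) (∫ z, L.jd Φ c ε z ∂L.V) ε := by
  refine L.hasDerivAt_int (f := fun e z => Φ z.1 * L.w c e z.1 ^ L.m) (f' := L.jd Φ c)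
    (I := L.Adm) L.Adm_open ?_ (L.jd_joint hΦ c) ?_ ⟨hε, hk⟩
  · intro e he
    have h1 : Continuous fun x => L.w c e x ^ L.m := (L.w_rpow_smooth he.1 he.2 L.m).continuous
    exact (hΦ.comp continuous_fst).mul (h1.comp continuous_fst)
  · intro e he z
    exact (L.hasDerivAt_w_rpow he.1 he.2).const_mul (Φ z.1)

/-- the density of the non-`Dl` part of the monotonicity formula -/
noncomputable def mp (Φ : E n → ℝ) (c : E n) (ε : ℝ) (z : E n × E n) : ℝ :=
  L.w c ε z.1 ^ L.m * (L.H0 * Φ z.1 * L.nc c z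
    - L.m * Φ z.1 * L.nc c z ^ 2 / (L.F c z.1 + ε) - L.G Φ (L.F c) z)

theorem mp_cont {Φ : E n → ℝ} (hΦ : ContDiff ℝ 1 Φ) (c : E n) {ε : ℝ} (hε : 0 < ε)
    (hk : L.k2 * ε < 2) : Continuous (L.mp Φ c ε) := by
  have h1 : Continuous fun z : E n × E n => L.w c ε z.1 ^ L.m :=
    (L.w_rpow_smooth hε hk L.m).continuous.comp continuous_fst
  have h2 := L.nc_cont c
  have h3 := L.G_cont hΦ (L.Fc_smooth1 c)
  have h4 : Continuous fun z : E n × E n => Φ z.1 := hΦ.continuous.comp continuous_fst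
  have h5 : Continuous fun z : E n × E n => L.F c z.1 + ε :=
    ((L.Fc_cont c).comp continuous_fst).add continuous_const
  unfold mp
  refine h1.mul (((((continuous_const.mul h4).mul h2)).sub ?_).sub h3)
  exact (((continuous_const.mul h4).mul (h2.pow 2))).div h5
    fun z => (L.Fe_pos (c := c) hε z.1).ne'

/-- pointwise form of the exact monotonicity formula -/
theorem a2_jd {Φ : E n → ℝ} (hΦ : ContDiff ℝ 1 Φ) (c : E n) {ε : ℝ} (hε : 0 < ε)
    (hk : L.k2 * ε < 2) (z : E n × E n) :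
    L.a2 ε * L.jd Φ c ε z = L.dl c (fun x => Φ x * L.w c ε x ^ L.m) z - L.mp Φ c ε z := by
  have hp := L.Fe_pos (c := c) hε z.1
  have ha := L.a2_pos hε hk
  have hwd : DifferentiableAt ℝ (fun x => L.w c ε x ^ L.m) z.1 :=
    ((L.w_rpow_smooth hε hk L.m).differentiable (by norm_num)) z.1
  have hG : L.G (fun x => Φ x * L.w c ε x ^ L.m) (L.F c) z =
      L.w c ε z.1 ^ L.m * L.G Φ (L.F c) z
        - L.m * Φ z.1 * (L.w c ε z.1 ^ L.m / (L.F c z.1 + ε)) *
          (2 * L.F c z.1 + L.k2 * L.F c z.1 ^ 2 - L.nc c z ^ 2) := by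
    rw [← L.G_FF c z]
    show gv _ _ _ = _ * gv _ _ _ - _ * gv _ _ _
    rw [D_mul (hΦ.differentiable (by norm_num) z.1) hwd, L.D_w_rpow hε hk, gv_add_left,
      gv_smul_left, gv_smul_left, gv_smul_left]
    ring
  simp only [dl, mp, jd, hG]
  field_simp
  ring

/-- **exact bubble monotonicity formula** -/
theorem hasDerivAt_Jb {Φ : E n → ℝ} (hΦ : ContDiff ℝ 1 Φ) (c : E n) {ε : ℝ} (hε : 0 < ε)
    (hk : L.k2 * ε < 2) : HasDerivAt (L.J Φ c)
      ((L.a2 ε)⁻¹ * (L.Dl c (fun x => Φ x * L.w c ε x ^ L.m) - ∫ z, L.mp Φ c ε z ∂L.V)) ε := by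
  have ha := L.a2_pos hε hk
  refine (L.hasDerivAt_Jb' hΦ.continuous c hε hk).congr_deriv ?_
  have hψ : ContDiff ℝ 1 (fun x => Φ x * L.w c ε x ^ L.m) :=
    hΦ.mul ((L.w_rpow_smooth hε hk L.m).of_le (by exact_mod_cast le_top))
  rw [Dl_eq, ← integral_sub (L.dl_integrable c hψ) (L.integrable_of_cont (L.mp_cont hΦ c hε hk)),
    ← integral_const_mul]
  refine integral_congr_ae (Filter.Eventually.of_forall fun z => ?_)
  simp only
  rw [← L.a2_jd hΦ c hε hk z, inv_mul_cancel_left₀ ha.ne']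

end Lim

end Vale.Agent.P219.End
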