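import Vale.Agent.P219.End.BM1

/-!
# P219 / End : bubble monotonicity (integrated, one-sided) and the upper density bound
-/

open MeasureTheory Set Metric
open scoped ContDiff Topology

namespace Vale.Agent.P219.End

variable {n : ℕ}

namespace Lim

variable (L : Lim n)

/-- continuity of parametric integrals of jointly continuous families -/
theorem continuousOn_int {f : ℝ → E n × E n → ℝ} {I : Set ℝ} (hI : IsOpen I)
    (hf : ContinuousOn (fun q : ℝ × (E n × E n) => f q.1 q.2) (I ×ˢ univ)) :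
    ContinuousOn (fun e => ∫ z, f e z ∂L.V) I := by
  intro ε hε
  obtain ⟨δ, hδ, hball⟩ := Metric.nhds_basis_closedBall.mem_iff.1 (hI.mem_nhds hε)
  have hK : IsCompact (closedBall ε δ ×ˢ (L.K ×ˢ sphere (0 : E n) 1)) :=
    (isCompact_closedBall ε δ).prod (L.K_compact.prod (isCompact_sphere 0 1))
  obtain ⟨C, hC⟩ := hK.exists_bound_of_continuousOn (hf.mono (by
    rintro ⟨e, z⟩ hq
    exact ⟨hball hq.1, mem_univ _⟩))
  have hcont : ∀ e ∈ I, Continuous (f e) := by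
    intro e he
    have h1 : Continuous fun z : E n × E n => ((e, z) : ℝ × (E n × E n)) := by fun_prop
    exact hf.comp_continuous h1 (fun z => ⟨he, mem_univ _⟩)
  refine (continuousAt_of_dominated (bound := fun _ => C) ?_ ?_ (integrable_const _) ?_)
    |>.continuousWithinAt
  · filter_upwards [hI.mem_nhds hε] with e he
    exact (hcont e he).aestronglyMeasurable
  · filter_upwards [closedBall_mem_nhds ε hδ] with e he
    filter_upwards [L.V_supp] with z hz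
    exact hC (e, z) ⟨he, hz.1, by simpa using hz.2⟩
  · refine Filter.Eventually.of_forall fun z => ?_
    have h1 : ContinuousOn (fun e : ℝ => f e z) I := by
      have h2 : Continuous fun e : ℝ => ((e, z) : ℝ × (E n × E n)) := by fun_prop
      exact hf.comp h2.continuousOn (fun e he => ⟨he, mem_univ _⟩)
    exact h1.continuousAt (hI.mem_nhds hε)

/-- the error density of the one-sided bubble monotonicity -/
noncomputable def er (Φ : E n → ℝ) (c : E n) (ε : ℝ) : ℝ :=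
  L.H0 ^ 2 / (4 * L.m) * (√(L.a2 ε))⁻¹ * ∫ z, Φ z.1 * L.w c ε z.1 ^ (L.m - 1) ∂L.V +
    (L.a2 ε)⁻¹ * ∫ z, L.w c ε z.1 ^ L.m * |L.G Φ (L.F c) z| ∂L.V

theorem er_cont {Φ : E n → ℝ} (hΦ : ContDiff ℝ 1 Φ) (c : E n) : ContinuousOn (L.er Φ c) L.Adm := by
  have hP : Continuous fun q : ℝ × (E n × E n) => Φ q.2.1 :=
    hΦ.continuous.comp (continuous_fst.comp continuous_snd)
  have hG : Continuous fun q : ℝ × (E n × E n) => |L.G Φ (L.F c) q.2| :=
    ((L.G_cont hΦ (L.Fc_smooth1 c)).comp continuous_snd).abs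
  have ha : Continuous L.a2 := by unfold a2; fun_prop
  have hi1 : ContinuousOn (fun ε => (√(L.a2 ε))⁻¹) L.Adm :=
    ha.sqrt.continuousOn.inv₀ fun e he => (Real.sqrt_pos.2 (L.a2_pos he.1 he.2)).ne'
  have hi2 : ContinuousOn (fun ε => (L.a2 ε)⁻¹) L.Adm :=
    ha.continuousOn.inv₀ fun e he => (L.a2_pos he.1 he.2).ne'
  have h1 := L.continuousOn_int (f := fun e z => Φ z.1 * L.w c e z.1 ^ (L.m - 1)) L.Adm_open
    (hP.continuousOn.mul (L.w_joint c (L.m - 1)))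
  have h2 := L.continuousOn_int (f := fun e z => L.w c e z.1 ^ L.m * |L.G Φ (L.F c) z|) L.Adm_open
    ((L.w_joint c L.m).mul hG.continuousOn)
  unfold er
  exact ((continuousOn_const.mul hi1).mul h1).add (hi2.mul h2)

/-- the square completion -/
theorem sq_bound_eps {H m F nc : ℝ} (hm : 0 < m) (hF : 0 < F) :
    H * nc - m * nc ^ 2 / F ≤ H ^ 2 * F / (4 * m) := by
  have h : H ^ 2 * F / (4 * m) - (H * nc - m * nc ^ 2 / F)
      = m / F * (nc - H * F / (2 * m)) ^ 2 := by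
    field_simp
    ring
  have h2 : 0 ≤ m / F * (nc - H * F / (2 * m)) ^ 2 := by positivity
  linarith

/-- bound of the non-`Dl` part -/
theorem int_mp_le {Φ : E n → ℝ} (hΦ : ContDiff ℝ 1 Φ) (h0 : ∀ x, 0 ≤ Φ x) (c : E n) {ε : ℝ}
    (hε : 0 < ε) (hk : L.k2 * ε < 2) :
    ∫ z, L.mp Φ c ε z ∂L.V ≤ L.a2 ε * L.er Φ c ε := by
  have ha := L.a2_pos hε hk
  have hs : 0 < √(L.a2 ε) := Real.sqrt_pos.2 ha
  have hm := L.m_pos
  have hc1 : Continuous fun z : E n × E n => Φ z.1 * L.w c ε z.1 ^ (L.m - 1) :=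
    (hΦ.continuous.comp continuous_fst).mul
      ((L.w_rpow_smooth hε hk (L.m - 1)).continuous.comp continuous_fst)
  have hc2 : Continuous fun z : E n × E n => L.w c ε z.1 ^ L.m * |L.G Φ (L.F c) z| :=
    ((L.w_rpow_smooth hε hk L.m).continuous.comp continuous_fst).mul
      (L.G_cont hΦ (L.Fc_smooth1 c)).abs
  have e1 : L.a2 ε * L.er Φ c ε = ∫ z, (L.H0 ^ 2 / (4 * L.m) * √(L.a2 ε) *
      (Φ z.1 * L.w c ε z.1 ^ (L.m - 1)) + L.w c ε z.1 ^ L.m * |L.G Φ (L.F c) z|) ∂L.V := by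
    have i1 : Integrable (fun z : E n × E n => L.H0 ^ 2 / (4 * L.m) * √(L.a2 ε) *
        (Φ z.1 * L.w c ε z.1 ^ (L.m - 1))) L.V := L.integrable_of_cont (continuous_const.mul hc1)
    rw [integral_add i1 (L.integrable_of_cont hc2), integral_const_mul]
    unfold er
    have e2 : L.a2 ε * (√(L.a2 ε))⁻¹ = √(L.a2 ε) := by
      nth_rewrite 1 [← Real.mul_self_sqrt ha.le]
      rw [mul_assoc, mul_inv_cancel₀ hs.ne', mul_one]
    rw [mul_add, mul_inv_cancel_left₀ ha.ne']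
    congr 1
    calc L.a2 ε * (L.H0 ^ 2 / (4 * L.m) * (√(L.a2 ε))⁻¹ *
          ∫ z, Φ z.1 * L.w c ε z.1 ^ (L.m - 1) ∂L.V)
        = L.H0 ^ 2 / (4 * L.m) * (L.a2 ε * (√(L.a2 ε))⁻¹) *
          ∫ z, Φ z.1 * L.w c ε z.1 ^ (L.m - 1) ∂L.V := by ring
      _ = _ := by rw [e2]
  rw [e1]
  refine L.integral_mono_of (L.mp_cont hΦ c hε hk) ((continuous_const.mul hc1).add hc2) ?_
  intro z _ _
  have hp := L.Fe_pos (c := c) hε z.1
  have hw := L.w_pos (c := c) hε hk z.1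
  have hwm : 0 < L.w c ε z.1 ^ L.m := Real.rpow_pos_of_pos hw _
  have e3 : L.w c ε z.1 ^ L.m * (L.F c z.1 + ε) = √(L.a2 ε) * L.w c ε z.1 ^ (L.m - 1) := by
    have e4 : L.w c ε z.1 * (L.F c z.1 + ε) = √(L.a2 ε) := by
      unfold w bub a2
      rw [div_mul_cancel₀ _ hp.ne']
    rw [← e4, Real.rpow_sub_one hw.ne']
    field_simp
  have h1 := mul_le_mul_of_nonneg_left (sq_bound_eps (H := L.H0) (nc := L.nc c z) hm hp)
    (mul_nonneg hwm.le (h0 z.1))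
  have h2 : -(L.G Φ (L.F c) z) ≤ |L.G Φ (L.F c) z| := neg_le_abs _
  have h3 := mul_le_mul_of_nonneg_left h2 hwm.le
  have e5 : L.w c ε z.1 ^ L.m * Φ z.1 * (L.H0 ^ 2 * (L.F c z.1 + ε) / (4 * L.m))
      = L.H0 ^ 2 / (4 * L.m) * √(L.a2 ε) * (Φ z.1 * L.w c ε z.1 ^ (L.m - 1)) := by
    calc _ = L.H0 ^ 2 / (4 * L.m) * Φ z.1 * (L.w c ε z.1 ^ L.m * (L.F c z.1 + ε)) := by ring
      _ = _ := by rw [e3]; ring
  have e6 : L.mp Φ c ε z = L.w c ε z.1 ^ L.m * Φ z.1 *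
      (L.H0 * L.nc c z - L.m * L.nc c z ^ 2 / (L.F c z.1 + ε)) +
      L.w c ε z.1 ^ L.m * (-(L.G Φ (L.F c) z)) := by
    unfold mp
    ring
  rw [e6]
  linarith

/-- **one-sided bubble monotonicity**, differential form -/
theorem deriv_J_ge {c : E n} (hc : c ∈ L.K) {Φ : E n → ℝ} (hΦ : ContDiff ℝ ∞ Φ)
    (h0 : ∀ x, 0 ≤ Φ x) {ε : ℝ} (hε : 0 < ε) (hk : L.k2 * ε < 2) :
    ∃ J' : ℝ, HasDerivAt (L.J Φ c) J' ε ∧ -(L.er Φ c ε) ≤ J' := by
  have ha := L.a2_pos hε hk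
  have hΦ1 : ContDiff ℝ 1 Φ := hΦ.of_le (by exact_mod_cast le_top)
  refine ⟨_, L.hasDerivAt_Jb hΦ1 c hε hk, ?_⟩
  have h1 : 0 ≤ L.Dl c (fun x => Φ x * L.w c ε x ^ L.m) :=
    L.Dl_nonneg hc (hΦ.mul (L.w_rpow_smooth hε hk L.m)) fun x =>
      mul_nonneg (h0 x) (Real.rpow_nonneg (L.w_pos hε hk x).le _)
  have h2 := L.int_mp_le hΦ1 h0 c hε hk
  rw [le_inv_mul_iff₀ ha]
  linarith

/-- **one-sided bubble monotonicity**, integrated form -/
theorem J_mono {c : E n} (hc : c ∈ L.K) {Φ : E n → ℝ} (hΦ : ContDiff ℝ ∞ Φ)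
    (h0 : ∀ x, 0 ≤ Φ x) {e1 e2 : ℝ} (h1 : 0 < e1) (h12 : e1 ≤ e2) (hk : L.k2 * e2 < 2) :
    L.J Φ c e1 ≤ L.J Φ c e2 + ∫ e in e1..e2, L.er Φ c e := by
  have hΦ1 : ContDiff ℝ 1 Φ := hΦ.of_le (by exact_mod_cast le_top)
  have hsub : Icc e1 e2 ⊆ L.Adm := fun e he => ⟨h1.trans_le he.1,
    (mul_le_mul_of_nonneg_left he.2 L.k2_nonneg).trans_lt hk⟩
  have hd : ∀ e ∈ Icc e1 e2, HasDerivAt (fun e => -(L.J Φ c e))
      (-((L.a2 e)⁻¹ * (L.Dl c (fun x => Φ x * L.w c e x ^ L.m) - ∫ z, L.mp Φ c e z ∂L.V))) e :=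
    fun e he => (L.hasDerivAt_Jb hΦ1 c (hsub he).1 (hsub he).2).fun_neg
  have hmain := intervalIntegral.sub_le_integral_of_hasDeriv_right_of_le (g := fun e => -(L.J Φ c e))
    (φ := L.er Φ c) h12
    (fun e he => (hd e he).continuousAt.continuousWithinAt)
    (fun e he => (hd e (Ioo_subset_Icc_self he)).hasDerivWithinAt)
    (((L.er_cont hΦ1 c).mono hsub).integrableOn_Icc)
    (fun e he => by
      obtain ⟨J', hJ', hle⟩ := L.deriv_J_ge hc hΦ h0 (hsub (Ioo_subset_Icc_self he)).1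
        (hsub (Ioo_subset_Icc_self he)).2
      have := hJ'.unique (L.hasDerivAt_Jb hΦ1 c (hsub (Ioo_subset_Icc_self he)).1
        (hsub (Ioo_subset_Icc_self he)).2)
      rw [← this]
      linarith)
  linarith

/-- exact integrated form -/
theorem J_sub {c : E n} {Φ : E n → ℝ} (hΦ : ContDiff ℝ 1 Φ)
    {e1 e2 : ℝ} (h1 : 0 < e1) (h12 : e1 ≤ e2) (hk : L.k2 * e2 < 2) :
    ∫ e in e1..e2, (∫ z, L.jd Φ c e z ∂L.V) = L.J Φ c e2 - L.J Φ c e1 := by
  have hsub : Icc e1 e2 ⊆ L.Adm := fun e he => ⟨h1.trans_le he.1,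
    (mul_le_mul_of_nonneg_left he.2 L.k2_nonneg).trans_lt hk⟩
  have hcont := (L.continuousOn_int L.Adm_open (L.jd_joint hΦ.continuous c)).mono hsub
  refine intervalIntegral.integral_eq_sub_of_hasDerivAt (fun e he => ?_) ?_
  · rw [uIcc_of_le h12] at he
    exact L.hasDerivAt_Jb' hΦ.continuous c (hsub he).1 (hsub he).2
  · exact (hcont.mono (by rw [uIcc_of_le h12])).intervalIntegrable

end Lim

end Vale.Agent.P219.End
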