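import Vale.Agent.P219.End.BM2

/-!
# P219 / End : uniform bounds of the bubble integrals and upper density (`ε` form)
-/

open MeasureTheory Set Metric
open scoped ContDiff Topology

namespace Vale.Agent.P219.End

variable {n : ℕ}

namespace Lim

variable (L : Lim n)

theorem G_const_left (a : ℝ) (u : E n → ℝ) (z : E n × E n) : L.G (fun _ => a) u z = 0 := by
  have e1 : L.G (fun _ => a) u z = gv (D L.A (fun _ => a) z.1) (D L.A u z.1) z.2 := rfl
  rw [e1, D_const, gv_zero_left]

/-- `w^(m-1) ≤ w^m + 1` -/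
theorem w_rpow_sub_le {c x : E n} {ε : ℝ} (hε : 0 < ε) (hk : L.k2 * ε < 2) :
    L.w c ε x ^ (L.m - 1) ≤ L.w c ε x ^ L.m + 1 := by
  have hw := L.w_pos (c := c) hε hk x
  have hm := L.three_le
  rcases le_total (L.w c ε x) 1 with h | h
  · have h1 := Real.rpow_le_one hw.le h (show 0 ≤ L.m - 1 by linarith)
    have h2 := Real.rpow_nonneg hw.le L.m
    linarith
  · have h1 := Real.rpow_le_rpow_of_exponent_le h (show L.m - 1 ≤ L.m by linarith)
    linarith

/-- the error for `Φ = 1` -/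
theorem er_one_le (c : E n) {ε : ℝ} (hε : 0 < ε) (hk : L.k2 * ε ≤ 1) :
    L.er (fun _ => 1) c ε ≤
      L.H0 ^ 2 / (4 * L.m) * (√ε)⁻¹ * (L.J (fun _ => 1) c ε + L.V.real univ) := by
  have hk' : L.k2 * ε < 2 := by linarith
  have hm := L.m_pos
  have hcw : ∀ r : ℝ, Continuous fun z : E n × E n => L.w c ε z.1 ^ r := fun r =>
    (L.w_rpow_smooth hε hk' r).continuous.comp continuous_fst
  have e1 : L.er (fun _ => 1) c ε = L.H0 ^ 2 / (4 * L.m) * (√(L.a2 ε))⁻¹ *
      ∫ z, L.w c ε z.1 ^ (L.m - 1) ∂L.V := by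
    unfold er
    simp [G_const_left]
  have e2 : L.J (fun _ => 1) c ε + L.V.real univ = ∫ z, (L.w c ε z.1 ^ L.m + 1) ∂L.V := by
    rw [integral_add (L.integrable_of_cont (hcw _)) (integrable_const _)]
    unfold J
    simp
  have h1 : ∫ z, L.w c ε z.1 ^ (L.m - 1) ∂L.V ≤ ∫ z, (L.w c ε z.1 ^ L.m + 1) ∂L.V :=
    L.integral_mono_of (hcw _) ((hcw _).add continuous_const) fun z _ _ =>
      L.w_rpow_sub_le hε hk'
  have h2 : 0 ≤ ∫ z, L.w c ε z.1 ^ (L.m - 1) ∂L.V := L.integral_nonneg_of fun z _ _ =>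
    Real.rpow_nonneg (L.w_pos hε hk' _).le _
  have h3 : (√(L.a2 ε))⁻¹ ≤ (√ε)⁻¹ := by
    have := Real.sqrt_pos.2 hε
    gcongr
    exact L.le_a2 hε hk
  have hβ : 0 ≤ L.H0 ^ 2 / (4 * L.m) := by positivity
  rw [e1, e2]
  have h4 : 0 ≤ (√(L.a2 ε))⁻¹ := by positivity
  gcongr

/-- the modified bubble integral is monotone -/
theorem Y_mono {c : E n} (hc : c ∈ L.K) {e1 e2 : ℝ} (h1 : 0 < e1) (h12 : e1 ≤ e2)
    (hk : L.k2 * e2 ≤ 1) :
    Real.exp (L.H0 ^ 2 / (2 * L.m) * √e1) * (L.J (fun _ => 1) c e1 + L.V.real univ) ≤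
      Real.exp (L.H0 ^ 2 / (2 * L.m) * √e2) * (L.J (fun _ => 1) c e2 + L.V.real univ) := by
  have hm := L.m_pos
  set β : ℝ := L.H0 ^ 2 / (2 * L.m) with hβ
  have hP : ContDiff ℝ ∞ fun _ : E n => (1 : ℝ) := contDiff_const
  have hk' : ∀ e, e1 ≤ e → e ≤ e2 → L.k2 * e ≤ 1 := fun e _ he =>
    (mul_le_mul_of_nonneg_left he L.k2_nonneg).trans hk
  have hder : ∀ e ∈ Icc e1 e2, ∃ Y' : ℝ, HasDerivAt (fun e => Real.exp (β * √e) *
      (L.J (fun _ => 1) c e + L.V.real univ)) Y' e ∧ 0 ≤ Y' := by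
    intro e he
    have he0 : 0 < e := h1.trans_le he.1
    have hke := hk' e he.1 he.2
    obtain ⟨J', hJ', hle⟩ := L.deriv_J_ge hc hP (fun _ => zero_le_one) he0 (by linarith)
    have hs : 0 < √e := Real.sqrt_pos.2 he0
    have hd1 : HasDerivAt (fun e => Real.exp (β * √e)) (Real.exp (β * √e) * (β * (1 / (2 * √e)))) e :=
      ((Real.hasDerivAt_sqrt he0.ne').const_mul β).exp
    refine ⟨_, hd1.mul (hJ'.add_const _), ?_⟩
    have h5 := L.er_one_le c he0 hke
    have h6 : Real.exp (β * √e) * (β * (1 / (2 * √e))) * (L.J (fun _ => 1) c e + L.V.real univ) +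
        Real.exp (β * √e) * J' = Real.exp (β * √e) * (L.H0 ^ 2 / (4 * L.m) * (√e)⁻¹ *
          (L.J (fun _ => 1) c e + L.V.real univ) + J') := by
      rw [hβ]
      field_simp
      ring
    rw [h6]
    refine mul_nonneg (Real.exp_pos _).le ?_
    linarith
  have hmono : MonotoneOn (fun e => Real.exp (β * √e) *
      (L.J (fun _ => 1) c e + L.V.real univ)) (Icc e1 e2) := by
    refine monotoneOn_of_deriv_nonneg (convex_Icc _ _) (fun e he => ?_) (fun e he => ?_)
      (fun e he => ?_)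
    · obtain ⟨Y', hY, -⟩ := hder e he
      exact hY.continuousAt.continuousWithinAt
    · obtain ⟨Y', hY, -⟩ := hder e (interior_subset he)
      exact hY.differentiableAt.differentiableWithinAt
    · obtain ⟨Y', hY, h0⟩ := hder e (interior_subset he)
      rw [hY.deriv]
      exact h0
  exact hmono (left_mem_Icc.2 h12) (right_mem_Icc.2 h12) h12

theorem w_le (c x : E n) {ε : ℝ} (hε : 0 < ε) : L.w c ε x ≤ √(2 / ε) := by
  have h1 : L.w c ε x ≤ √(2 * ε) / ε := by
    unfold w bub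
    have h2 : ε * (2 - L.k2 * ε) ≤ 2 * ε := L.a2_le ε
    have h3 := L.F_nonneg c x
    have h4 : ε ≤ L.F c x + ε := by linarith
    gcongr
  refine h1.trans (le_of_eq ?_)
  rw [eq_comm, Real.sqrt_eq_iff_mul_self_eq (by positivity) (by positivity), div_mul_div_comm,
    Real.mul_self_sqrt (by positivity)]
  field_simp

theorem w_ge {c x : E n} {ε a : ℝ} (hε : 0 < ε) (hk : L.k2 * ε ≤ 1) (ha : L.F c x ≤ a) :
    √ε / (a + ε) ≤ L.w c ε x := by
  unfold w bub
  have h2 : ε ≤ ε * (2 - L.k2 * ε) := L.le_a2 hε hk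
  have h3 := L.F_nonneg c x
  have h4 : 0 < L.F c x + ε := by linarith
  gcongr

/-- the reference scale -/
noncomputable def es : ℝ := 1 / (1 + L.k2)

theorem es_pos : 0 < L.es := by
  have := L.k2_nonneg
  unfold es
  positivity

theorem es_le_one : L.es ≤ 1 := by
  have := L.k2_nonneg
  unfold es
  rw [div_le_one (by positivity)]
  linarith

theorem k2_es : L.k2 * L.es ≤ 1 := by
  have := L.k2_nonneg
  unfold es
  rw [mul_one_div, div_le_one (by positivity)]
  linarith

/-- bound of the bubble integrals -/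
noncomputable def Cb : ℝ := Real.exp (L.H0 ^ 2 / (2 * L.m)) *
  (√(2 / L.es) ^ L.m * L.V.real univ + L.V.real univ)

theorem V_univ_pos : 0 < L.V.real univ := by
  have := L.V_fin
  rw [measureReal_def, ENNReal.toReal_pos_iff]
  exact ⟨by simpa [pos_iff_ne_zero] using L.V_ne, measure_lt_top _ _⟩

theorem Cb_pos : 0 < L.Cb := by
  have h1 := L.V_univ_pos
  have h2 := L.es_pos
  unfold Cb
  positivity

/-- **uniform bound of the bubble integrals** -/
theorem J_one_le {c : E n} (hc : c ∈ L.K) {ε : ℝ} (hε : 0 < ε) (hε' : ε ≤ L.es) :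
    ∫ z, L.w c ε z.1 ^ L.m ∂L.V ≤ L.Cb := by
  have hes := L.es_pos
  have hm := L.m_pos
  have h1 := L.Y_mono hc hε hε' L.k2_es
  have hv := L.V_univ_pos
  have e1 : L.J (fun _ => 1) c ε = ∫ z, L.w c ε z.1 ^ L.m ∂L.V := by
    unfold J
    simp
  have hk' : L.k2 * L.es < 2 := by linarith [L.k2_es]
  have h2 : L.J (fun _ => 1) c L.es ≤ √(2 / L.es) ^ L.m * L.V.real univ := by
    have h3 : L.J (fun _ => 1) c L.es ≤ ∫ _z, √(2 / L.es) ^ L.m ∂L.V := by
      unfold J
      refine L.integral_mono_of (continuous_const.mul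
        ((L.w_rpow_smooth hes hk' L.m).continuous.comp continuous_fst)) continuous_const
        fun z _ _ => ?_
      rw [one_mul]
      exact Real.rpow_le_rpow (L.w_pos hes hk' _).le (L.w_le c z.1 hes) hm.le
    refine h3.trans (le_of_eq ?_)
    rw [integral_const, smul_eq_mul, mul_comm]
  have h0 : 0 ≤ L.J (fun _ => 1) c ε := by
    have hk : L.k2 * ε < 2 := (mul_le_mul_of_nonneg_left hε' L.k2_nonneg).trans_lt hk'
    exact L.integral_nonneg_of fun z _ _ =>
      mul_nonneg zero_le_one (Real.rpow_nonneg (L.w_pos hε hk _).le _)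
  have h3 : (1 : ℝ) ≤ Real.exp (L.H0 ^ 2 / (2 * L.m) * √ε) := Real.one_le_exp (by positivity)
  have h4 : Real.exp (L.H0 ^ 2 / (2 * L.m) * √L.es) ≤ Real.exp (L.H0 ^ 2 / (2 * L.m)) := by
    rw [Real.exp_le_exp]
    have h5 : √L.es ≤ 1 := Real.sqrt_le_one.2 L.es_le_one
    exact mul_le_of_le_one_right (by positivity) h5
  have h5 : L.J (fun _ => 1) c ε + L.V.real univ ≤
      Real.exp (L.H0 ^ 2 / (2 * L.m) * √ε) * (L.J (fun _ => 1) c ε + L.V.real univ) :=
    le_mul_of_one_le_left (by positivity) h3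
  have h6 : Real.exp (L.H0 ^ 2 / (2 * L.m) * √L.es) * (L.J (fun _ => 1) c L.es + L.V.real univ) ≤
      L.Cb := by
    have h7 : 0 ≤ L.J (fun _ => 1) c L.es := L.integral_nonneg_of fun z _ _ =>
      mul_nonneg zero_le_one (Real.rpow_nonneg (L.w_pos hes hk' _).le _)
    unfold Cb
    gcongr
  rw [← e1]
  linarith

/-- constant of the upper density bound -/
noncomputable def Cu : ℝ := L.Cb * 4 ^ (L.m / 2) + L.V.real univ * L.es ^ (-(L.m / 2))

theorem Cu_pos : 0 < L.Cu := by
  have h1 := L.V_univ_pos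
  have h2 := L.es_pos
  have h3 := L.Cb_pos
  unfold Cu
  positivity

/-- **upper density**, `ε` form -/
theorem upper {c : E n} (hc : c ∈ L.K) {a : ℝ} (ha : 0 < a) :
    L.V.real {z | L.F c z.1 ≤ a} ≤ L.Cu * a ^ (L.m / 2) := by
  have := L.V_fin
  have hm := L.m_pos
  have hes := L.es_pos
  have hv := L.V_univ_pos
  have hCb := L.Cb_pos
  have hap : 0 < a ^ (L.m / 2) := Real.rpow_pos_of_pos ha _
  rcases le_total a L.es with h | h
  · have hk : L.k2 * a ≤ 1 := (mul_le_mul_of_nonneg_left h L.k2_nonneg).trans L.k2_es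
    have h1 := L.J_one_le hc ha h
    set S : Set (E n × E n) := {z | L.F c z.1 ≤ a} with hS
    have hSm : MeasurableSet S :=
      (isClosed_le ((L.Fc_cont c).comp continuous_fst) continuous_const).measurableSet
    have hcw : Continuous fun z : E n × E n => L.w c a z.1 ^ L.m :=
      (L.w_rpow_smooth ha (by linarith) L.m).continuous.comp continuous_fst
    have h2 : (4 * a) ^ (-(L.m / 2)) * L.V.real S ≤ ∫ z in S, L.w c a z.1 ^ L.m ∂L.V := by
      have h3 : ∫ _z in S, (4 * a) ^ (-(L.m / 2)) ∂L.V ≤ ∫ z in S, L.w c a z.1 ^ L.m ∂L.V := by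
        refine setIntegral_mono_on (integrableOn_const (measure_ne_top _ _))
          (L.integrable_of_cont hcw).integrableOn hSm fun z hz => ?_
        have h4 := L.w_ge ha hk (show L.F c z.1 ≤ a from hz)
        have h5 : (4 * a) ^ (-(L.m / 2)) = (√a / (a + a)) ^ L.m := by
          have h6 : √a / (a + a) = (4 * a) ^ (-(1 / 2 : ℝ)) := by
            rw [Real.rpow_neg (by positivity), ← Real.sqrt_eq_rpow, div_eq_iff (by positivity),
              Real.sqrt_mul (by norm_num), show √(4 : ℝ) = 2 by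
                rw [show (4 : ℝ) = 2 ^ 2 by norm_num]; exact Real.sqrt_sq (by norm_num)]
            have h7 := Real.mul_self_sqrt ha.le
            have h8 : 0 < √a := Real.sqrt_pos.2 ha
            field_simp
            linarith
          rw [h6, ← Real.rpow_mul (by positivity)]
          congr 1
          ring
        rw [h5]
        exact Real.rpow_le_rpow (by positivity) h4 hm.le
      rw [setIntegral_const, smul_eq_mul, mul_comm] at h3
      exact h3
    have h3 : ∫ z in S, L.w c a z.1 ^ L.m ∂L.V ≤ ∫ z, L.w c a z.1 ^ L.m ∂L.V :=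
      setIntegral_le_integral (L.integrable_of_cont hcw) (Filter.Eventually.of_forall fun z =>
        Real.rpow_nonneg (L.w_pos ha (by linarith) _).le _)
    have h4 : (4 * a) ^ (-(L.m / 2)) * L.V.real S ≤ L.Cb := by linarith
    have h5 : L.V.real S ≤ L.Cb * (4 * a) ^ (L.m / 2) := by
      rw [Real.rpow_neg (by positivity), inv_mul_le_iff₀ (by positivity)] at h4
      linarith
    rw [Real.mul_rpow (by norm_num) ha.le] at h5
    refine h5.trans ?_
    unfold Cu
    have h6 : 0 ≤ L.V.real univ * L.es ^ (-(L.m / 2)) * a ^ (L.m / 2) := by positivity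
    nlinarith
  · have h1 : L.V.real {z | L.F c z.1 ≤ a} ≤ L.V.real univ := measureReal_mono (subset_univ _)
    have h2 : 1 ≤ L.es ^ (-(L.m / 2)) * a ^ (L.m / 2) := by
      rw [Real.rpow_neg hes.le, ← Real.inv_rpow hes.le, ← Real.mul_rpow (by positivity) ha.le]
      refine Real.one_le_rpow ?_ (by positivity)
      rw [inv_mul_eq_div, one_le_div hes]
      exact h
    have h3 : 0 ≤ L.Cb * 4 ^ (L.m / 2) * a ^ (L.m / 2) := by positivity
    unfold Cu
    nlinarith

end Lim

end Vale.Agent.P219.End
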