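import Vale.Agent.P219.End.BM3
import Vale.Agent.P219.End.Bub

/-!
# P219 / End : upper density (leaf B3b), in the scale `s`
-/

open MeasureTheory Set Metric
open scoped ContDiff Topology

namespace Vale.Agent.P219.End

variable {n : ℕ}

namespace Lim

variable (L : Lim n)

theorem Ad.es {s : ℝ} (hs : L.Ad s) : 0 < s ^ 2 / 2 ∧ s ^ 2 / 2 ≤ L.es := by
  obtain ⟨h0, h1, h2⟩ := hs
  have hk := L.k2_nonneg
  refine ⟨by positivity, ?_⟩
  unfold Lim.es
  rw [le_div_iff₀ (by positivity)]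
  nlinarith

/-- B3b upper density -/
theorem upper_density : ∃ C > 0, (∀ c ∈ L.K, ∀ s : ℝ, 0 < s →
      L.V.real {z | L.ds c z.1 ≤ s} ≤ C * s ^ L.m) ∧
    ∀ c ∈ L.K, ∀ s : ℝ, L.Ad s → ∫ z, L.ws c s z.1 ^ L.m ∂L.V ≤ C := by
  have h1 := L.Cu_pos
  have h2 := L.Cb_pos
  refine ⟨L.Cu + L.Cb, by positivity, fun c hc s hs => ?_, fun c hc s hs => ?_⟩
  · have hset : {z : E n × E n | L.ds c z.1 ≤ s} = {z | L.F c z.1 ≤ s ^ 2 / 2} := by
      ext z
      simp only [mem_ofPred_eq, ds]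
      rw [Real.sqrt_le_left hs.le]
      constructor <;> intro h <;> linarith
    rw [hset]
    have h3 := L.upper hc (a := s ^ 2 / 2) (by positivity)
    have h4 : (s ^ 2 / 2) ^ (L.m / 2) ≤ s ^ L.m := by
      have h5 : s ^ L.m = (s ^ 2) ^ (L.m / 2) := by
        rw [← Real.rpow_natCast, ← Real.rpow_mul hs.le]
        congr 1
        push_cast
        ring
      rw [h5]
      have hm := L.m_pos
      have h6 : s ^ 2 / 2 ≤ s ^ 2 := by nlinarith [sq_nonneg s]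
      gcongr
    have h5 : 0 < s ^ L.m := Real.rpow_pos_of_pos hs _
    calc L.V.real {z | L.F c z.1 ≤ s ^ 2 / 2} ≤ L.Cu * (s ^ 2 / 2) ^ (L.m / 2) := h3
      _ ≤ L.Cu * s ^ L.m := by gcongr
      _ ≤ (L.Cu + L.Cb) * s ^ L.m := by gcongr; linarith
  · have h3 := L.J_one_le hc (hs.es L).1 (hs.es L).2
    have h4 : ∫ z, L.ws c s z.1 ^ L.m ∂L.V = ∫ z, L.w c (s ^ 2 / 2) z.1 ^ L.m ∂L.V := rfl
    rw [h4]
    linarith

end Lim

end Vale.Agent.P219.End
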