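import Vale.Agent.P219.End.BM3

/-!
# P219 / End : pointwise representation (P) at the points of the support (`ε` form)
-/

open MeasureTheory Set Metric
open scoped ContDiff Topology ENNReal

namespace Vale.Agent.P219.End

variable {n : ℕ}

namespace Lim

variable (L : Lim n)

theorem exists_near {p : E n} {Φ : E n → ℝ} (hΦ : Continuous Φ) {δ : ℝ} (hδ : 0 < δ) :
    ∃ r > 0, ∀ x ∈ L.K, L.F p x < r → |Φ x - Φ p| < δ := by
  set T : Set (E n) := L.K ∩ {x | δ ≤ |Φ x - Φ p|} with hT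
  have hTc : IsCompact T :=
    L.K_compact.inter_right (isClosed_le continuous_const (by fun_prop))
  rcases T.eq_empty_or_nonempty with he | hne
  · refine ⟨1, one_pos, fun x hx _ => ?_⟩
    by_contra hcon
    have : x ∈ T := ⟨hx, not_lt.1 hcon⟩
    rw [he] at this
    exact this
  · obtain ⟨x0, hx0, hmin⟩ := hTc.exists_isMinOn hne (L.Fc_cont p).continuousOn
    refine ⟨L.F p x0, ?_, fun x hx hlt => ?_⟩
    · refine L.F_pos p x0 fun h => ?_
      have h1 : δ ≤ |Φ x0 - Φ p| := hx0.2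
      rw [← h, sub_self, abs_zero] at h1
      linarith
    · by_contra hcon
      exact absurd (hmin (show x ∈ T from ⟨hx, not_lt.1 hcon⟩)) (not_le.2 hlt)

theorem J_liminf {p : E n} (hp : p ∈ L.K) (hsup : ∀ e > 0, 0 < L.V {z | L.F p z.1 < e})
    {Φ : E n → ℝ} (hΦ : Continuous Φ) (h0 : ∀ x, 0 ≤ Φ x) {η : ℝ} (hη : 0 < η) :
    ∃ ε₀ > 0, ∀ ε, 0 < ε → ε < ε₀ → sg L.m * Φ p - η ≤ L.J Φ p ε := by
  have hCb := L.Cb_pos
  have hm := L.m_pos
  have hv := L.V_univ_pos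
  have hPp := h0 p
  set δ : ℝ := η / (2 * (Φ p + L.Cb)) with hδ
  have hδ0 : 0 < δ := by positivity
  have hδe : δ * (Φ p + L.Cb) = η / 2 := by
    rw [hδ]
    field_simp
  obtain ⟨r, hr, hnear⟩ := L.exists_near (p := p) hΦ hδ0
  obtain ⟨ε₁, hε₁, hd⟩ := L.dens p hsup δ hδ0
  have hcont : ContinuousAt (fun ε : ℝ => Φ p * (√(2 * ε) / r) ^ L.m * L.V.real univ) 0 := by
    have h1 : ContinuousAt (fun ε : ℝ => √(2 * ε) / r) 0 := by fun_prop
    exact (continuousAt_const.mul (h1.rpow_const (Or.inr hm.le))).mul continuousAt_const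
  have hval : Φ p * (√(2 * (0 : ℝ)) / r) ^ L.m * L.V.real univ = 0 := by
    rw [mul_zero, Real.sqrt_zero, zero_div, Real.zero_rpow hm.ne', mul_zero, zero_mul]
  have hev : ∀ᶠ ε in 𝓝 (0 : ℝ), Φ p * (√(2 * ε) / r) ^ L.m * L.V.real univ < η / 2 := by
    have h2 : Filter.Tendsto (fun ε : ℝ => Φ p * (√(2 * ε) / r) ^ L.m * L.V.real univ) (𝓝 0)
        (𝓝 0) := by
      have := hcont.tendsto
      rwa [hval] at this
    exact h2.eventually (gt_mem_nhds (by positivity))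
  obtain ⟨ε₂, hε₂, hball⟩ := Metric.eventually_nhds_iff.1 hev
  refine ⟨min (min ε₁ ε₂) L.es, lt_min (lt_min hε₁ hε₂) L.es_pos, fun ε hε hlt => ?_⟩
  have hl1 : ε < ε₁ := hlt.trans_le ((min_le_left _ _).trans (min_le_left _ _))
  have hl2 : ε < ε₂ := hlt.trans_le ((min_le_left _ _).trans (min_le_right _ _))
  have hl3 : ε ≤ L.es := (hlt.trans_le (min_le_right _ _)).le
  have hk1 : L.k2 * ε ≤ 1 := (mul_le_mul_of_nonneg_left hl3 L.k2_nonneg).trans L.k2_es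
  have hk : L.k2 * ε < 2 := by linarith
  have h3 : Φ p * (√(2 * ε) / r) ^ L.m * L.V.real univ < η / 2 :=
    hball (by rwa [Real.dist_eq, sub_zero, abs_of_pos hε])
  have h4 : sg L.m - δ ≤ ∫ z, L.w p ε z.1 ^ L.m ∂L.V := hd ε hε hl1
  have h5 : ∫ z, L.w p ε z.1 ^ L.m ∂L.V ≤ L.Cb := L.J_one_le hp hε hl3
  have hwc : Continuous fun z : E n × E n => L.w p ε z.1 ^ L.m :=
    (L.w_rpow_smooth hε hk L.m).continuous.comp continuous_fst
  have hi := L.integrable_of_cont hwc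
  have hV := L.V_fin
  have h6 : ∫ z, ((Φ p - δ) * L.w p ε z.1 ^ L.m - Φ p * (√(2 * ε) / r) ^ L.m) ∂L.V ≤ L.J Φ p ε := by
    unfold J
    refine L.integral_mono_of ((continuous_const.mul hwc).sub continuous_const)
      ((hΦ.comp continuous_fst).mul hwc) fun z hz _ => ?_
    have hw := L.w_pos (c := p) hε hk z.1
    have hwm : 0 < L.w p ε z.1 ^ L.m := Real.rpow_pos_of_pos hw _
    rcases lt_or_ge (L.F p z.1) r with h | h
    · have h7 := (abs_lt.1 (hnear z.1 hz h)).1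
      have h8 : (Φ p - δ) * L.w p ε z.1 ^ L.m ≤ Φ z.1 * L.w p ε z.1 ^ L.m :=
        mul_le_mul_of_nonneg_right (by linarith) hwm.le
      have h9 : 0 ≤ Φ p * (√(2 * ε) / r) ^ L.m := by positivity
      linarith
    · have h7 : L.w p ε z.1 ≤ √(2 * ε) / r := by
        unfold w bub
        have h8 : ε * (2 - L.k2 * ε) ≤ 2 * ε := L.a2_le ε
        have h9 : r ≤ L.F p z.1 + ε := by linarith
        gcongr
      have h8 : L.w p ε z.1 ^ L.m ≤ (√(2 * ε) / r) ^ L.m := Real.rpow_le_rpow hw.le h7 hm.le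
      have h9 : 0 ≤ Φ z.1 * L.w p ε z.1 ^ L.m := mul_nonneg (h0 _) hwm.le
      have h10 := mul_le_mul_of_nonneg_left h8 hPp
      nlinarith [mul_pos hδ0 hwm]
  rw [integral_sub (hi.const_mul _) (integrable_const _), integral_const_mul, integral_const,
    smul_eq_mul] at h6
  nlinarith [mul_le_mul_of_nonneg_left h4 hPp, mul_le_mul_of_nonneg_left h5 hδ0.le]

/-- the error density, in the form of (P) -/
theorem er_eq {Φ : E n → ℝ} (c : E n) {ε : ℝ} (hε : 0 < ε) (hk : L.k2 * ε < 2) :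
    L.er Φ c ε = (ε * (2 - L.k2 * ε))⁻¹ *
      (L.H0 ^ 2 / (4 * L.m) * (∫ z, Φ z.1 * L.w c ε z.1 ^ L.m * (L.F c z.1 + ε) ∂L.V) +
        ∫ z, L.w c ε z.1 ^ L.m * |L.G Φ (L.F c) z| ∂L.V) := by
  have ha := L.a2_pos hε hk
  have hs : 0 < √(L.a2 ε) := Real.sqrt_pos.2 ha
  have e0 : ε * (2 - L.k2 * ε) = L.a2 ε := rfl
  have e1 : ∫ z, Φ z.1 * L.w c ε z.1 ^ L.m * (L.F c z.1 + ε) ∂L.V =
      √(L.a2 ε) * ∫ z, Φ z.1 * L.w c ε z.1 ^ (L.m - 1) ∂L.V := by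
    rw [← integral_const_mul]
    congr 1
    ext z
    have hp := L.Fe_pos (c := c) hε z.1
    have hw := L.w_pos (c := c) hε hk z.1
    have e4 : L.w c ε z.1 * (L.F c z.1 + ε) = √(L.a2 ε) := by
      unfold w bub a2
      rw [div_mul_cancel₀ _ hp.ne']
    rw [← e4, Real.rpow_sub_one hw.ne']
    field_simp
  have e2 : (L.a2 ε)⁻¹ * √(L.a2 ε) = (√(L.a2 ε))⁻¹ := by
    nth_rewrite 1 [← Real.mul_self_sqrt ha.le]
    rw [mul_inv, mul_assoc, inv_mul_cancel₀ hs.ne', mul_one]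
  rw [e0, e1]
  unfold er
  rw [mul_add, ← e2]
  ring

theorem er_nonneg {Φ : E n → ℝ} (h0 : ∀ x, 0 ≤ Φ x) (c : E n) {ε : ℝ} (hε : 0 < ε)
    (hk : L.k2 * ε < 2) : 0 ≤ L.er Φ c ε := by
  have ha := L.a2_pos hε hk
  have hm := L.m_pos
  have h1 : 0 ≤ ∫ z, Φ z.1 * L.w c ε z.1 ^ (L.m - 1) ∂L.V := L.integral_nonneg_of fun z _ _ =>
    mul_nonneg (h0 _) (Real.rpow_nonneg (L.w_pos hε hk _).le _)
  have h2 : 0 ≤ ∫ z, L.w c ε z.1 ^ L.m * |L.G Φ (L.F c) z| ∂L.V := L.integral_nonneg_of fun z _ _ =>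
    mul_nonneg (Real.rpow_nonneg (L.w_pos hε hk _).le _) (abs_nonneg _)
  unfold er
  positivity

/-- **(P)** with the error density `er` -/
theorem point_er {p : E n} (hp : p ∈ L.K) (hsup : ∀ e > 0, 0 < L.V {z | L.F p z.1 < e})
    {Φ : E n → ℝ} (hΦ : ContDiff ℝ ∞ Φ) (h0 : ∀ x, 0 ≤ Φ x) {e1 : ℝ} (he1 : 0 < e1)
    (hk : L.k2 * e1 < 2) :
    ENNReal.ofReal (sg L.m * Φ p) ≤ ENNReal.ofReal (L.J Φ p e1) +
      ∫⁻ e in Ioo 0 e1, ENNReal.ofReal (L.er Φ p e) := by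
  have hΦ1 : ContDiff ℝ 1 Φ := hΦ.of_le (by exact_mod_cast le_top)
  refine ENNReal.le_of_forall_pos_le_add fun η hη _ => ?_
  obtain ⟨ε₀, hε₀, hlim⟩ := L.J_liminf hp hsup hΦ.continuous h0 (NNReal.coe_pos.2 hη)
  set ε : ℝ := min (ε₀ / 2) e1 with hεd
  have hε : 0 < ε := lt_min (by positivity) he1
  have hεe : ε ≤ e1 := min_le_right _ _
  have h1 := hlim ε hε (lt_of_le_of_lt (min_le_left _ _) (by linarith))
  have h2 := L.J_mono hp hΦ h0 hε hεe hk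
  have hk' : ∀ e ∈ Icc ε e1, L.k2 * e < 2 := fun e he =>
    (mul_le_mul_of_nonneg_left he.2 L.k2_nonneg).trans_lt hk
  have hI : IntegrableOn (L.er Φ p) (Ioc ε e1) :=
    (((L.er_cont hΦ1 p).mono fun e he => ⟨hε.trans_le he.1, hk' e he⟩).integrableOn_Icc).mono_set
      Ioc_subset_Icc_self
  have h3 : ENNReal.ofReal (∫ e in ε..e1, L.er Φ p e) =
      ∫⁻ e in Ioc ε e1, ENNReal.ofReal (L.er Φ p e) := by
    rw [intervalIntegral.integral_of_le hεe, ofReal_integral_eq_lintegral_ofReal hI]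
    rw [Filter.EventuallyLE, ae_restrict_iff' measurableSet_Ioc]
    exact Filter.Eventually.of_forall fun e he =>
      L.er_nonneg h0 p (hε.trans he.1) (hk' e (Ioc_subset_Icc_self he))
  have h4 : ∫⁻ e in Ioc ε e1, ENNReal.ofReal (L.er Φ p e) ≤
      ∫⁻ e in Ioo 0 e1, ENNReal.ofReal (L.er Φ p e) := by
    rw [← restrict_Ioo_eq_restrict_Ioc]
    exact lintegral_mono_set (Ioo_subset_Ioo_left hε.le)
  have h5 : sg L.m * Φ p ≤ L.J Φ p e1 + (∫ e in ε..e1, L.er Φ p e) + η := by linarith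
  calc ENNReal.ofReal (sg L.m * Φ p)
      ≤ ENNReal.ofReal (L.J Φ p e1 + (∫ e in ε..e1, L.er Φ p e) + η) := ENNReal.ofReal_le_ofReal h5
    _ ≤ ENNReal.ofReal (L.J Φ p e1) + ENNReal.ofReal (∫ e in ε..e1, L.er Φ p e) +
        ENNReal.ofReal η := by
        refine ENNReal.ofReal_add_le.trans ?_
        gcongr
        exact ENNReal.ofReal_add_le
    _ ≤ _ := by
        rw [h3, ENNReal.ofReal_coe_nnreal]
        gcongr

/-- **(P)** -/
theorem point {p : E n} (hp : p ∈ L.K) (hsup : ∀ e > 0, 0 < L.V {z | L.F p z.1 < e})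
    {Φ : E n → ℝ} (hΦ : ContDiff ℝ ∞ Φ) (h0 : ∀ x, 0 ≤ Φ x) {e1 : ℝ} (he1 : 0 < e1)
    (hk : L.k2 * e1 < 2) :
    ENNReal.ofReal (sg L.m * Φ p) ≤ ENNReal.ofReal (L.J Φ p e1) +
      ∫⁻ e in Ioo 0 e1, ENNReal.ofReal ((e * (2 - L.k2 * e))⁻¹ *
        (L.H0 ^ 2 / (4 * L.m) * (∫ z, Φ z.1 * L.w p e z.1 ^ L.m * (L.F p z.1 + e) ∂L.V) +
          ∫ z, L.w p e z.1 ^ L.m * |L.G Φ (L.F p) z| ∂L.V)) := by
  refine (L.point_er hp hsup hΦ h0 he1 hk).trans (le_of_eq ?_)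
  congr 1
  refine setLIntegral_congr_fun measurableSet_Ioo fun e he => ?_
  rw [L.er_eq p he.1 ((mul_le_mul_of_nonneg_left he.2.le L.k2_nonneg).trans_lt hk)]

end Lim

end Vale.Agent.P219.End
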