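import Vale.Agent.P219.End.Frames
import Vale.Agent.P219.TP.Conv

/-! # The conformal barycentre

For a finite measure `V` (on the unit tangent bundle) over a closed geodesic ball, with small masses
of small balls, and every continuous `f > 0` there is a frame `(c, ε)` with `∫ θ_i f dV = 0`.
-/

open MeasureTheory Set Metric Filter Topology
open scoped ENNReal ContDiff

namespace Vale.Agent.P219.End

open Vale.Agent.P219.TP Vale.Agent.P219.TPH

variable {n : ℕ}

/-! ### Parametric integrals over a compact support -/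

section Param

variable {V : Measure (E n × E n)} [IsFiniteMeasure V] {K : Set (E n)}

/-- `C` bounds a continuous function on a compact set -/
theorem bary_bound {P : Type*} [TopologicalSpace P] {N : Set P} (hN : IsCompact N)
    (hK : IsCompact K) {φ : P × E n → ℝ} (hφ : Continuous φ) :
    ∃ C : ℝ, ∀ p ∈ N, ∀ x ∈ K, |φ (p, x)| ≤ C := by
  obtain ⟨C, hC⟩ := (hN.prod hK).exists_bound_of_continuousOn hφ.continuousOn
  exact ⟨C, fun p hp x hx => hC (p, x) ⟨hp, hx⟩⟩

theorem bary_integrable (hK : IsCompact K) (hV : ∀ᵐ z ∂V, z.1 ∈ K) {f : E n → ℝ}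
    (hf : Continuous f) : Integrable (fun z => f z.1) V := by
  obtain ⟨C, hC⟩ := hK.exists_bound_of_continuousOn hf.continuousOn
  refine Integrable.of_bound (hf.comp continuous_fst).aestronglyMeasurable C ?_
  filter_upwards [hV] with z hz
  exact hC _ hz

/-- continuity of a parametric integral -/
theorem bary_continuous {P : Type*} [TopologicalSpace P] [FirstCountableTopology P]
    [LocallyCompactSpace P] (hK : IsCompact K) (hV : ∀ᵐ z ∂V, z.1 ∈ K) {φ : P × E n → ℝ}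
    (hφ : Continuous φ) : Continuous fun p => ∫ z, φ (p, z.1) ∂V := by
  rw [continuous_iff_continuousAt]
  intro p₀
  obtain ⟨N, hN, hpN⟩ := exists_compact_mem_nhds p₀
  obtain ⟨C, hC⟩ := bary_bound hN hK hφ
  refine continuousAt_of_dominated (bound := fun _ => C) ?_ ?_ (integrable_const C) ?_
  · exact Eventually.of_forall fun p =>
      (hφ.comp (continuous_const.prodMk continuous_fst)).aestronglyMeasurable
  · filter_upwards [hpN] with p hp
    filter_upwards [hV] with z hz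
    exact hC p hp z.1 hz
  · exact Eventually.of_forall fun z =>
      (hφ.comp (continuous_id.prodMk continuous_const)).continuousAt

/-- derivative of a parametric integral -/
theorem bary_deriv (hK : IsCompact K) (hV : ∀ᵐ z ∂V, z.1 ∈ K) {φ : ℝ × E n → ℝ}
    (hφ : ContDiff ℝ 1 φ) {f : E n → ℝ} (hf : Continuous f) (t₀ : ℝ) :
    HasDerivAt (fun t => ∫ z, φ (t, z.1) * f z.1 ∂V)
      (∫ z, fderiv ℝ φ (t₀, z.1) (1, 0) * f z.1 ∂V) t₀ := by
  have hφ' : Continuous fun p : ℝ × E n => fderiv ℝ φ p (1, 0) * f p.2 :=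
    ((hφ.continuous_fderiv one_ne_zero).clm_apply continuous_const).mul (hf.comp continuous_snd)
  obtain ⟨C, hC⟩ := bary_bound (isCompact_closedBall t₀ 1) hK hφ'
  have hd : ∀ (t : ℝ) (x : E n), HasDerivAt (fun t => φ (t, x) * f x)
      (fderiv ℝ φ (t, x) (1, 0) * f x) t := by
    intro t x
    have h1 : HasFDerivAt φ (fderiv ℝ φ (t, x)) (t, x) :=
      (hφ.differentiable one_ne_zero (t, x)).hasFDerivAt
    have h2 : HasDerivAt (fun t : ℝ => (t, x)) ((1 : ℝ), (0 : E n)) t :=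
      (hasDerivAt_id t).prodMk (hasDerivAt_const t x)
    exact (h1.comp_hasDerivAt t h2).mul_const (f x)
  have hcont : ∀ t : ℝ, Continuous fun z : E n × E n => φ (t, z.1) * f z.1 := fun t =>
    (hφ.continuous.comp (continuous_const.prodMk continuous_fst)).mul (hf.comp continuous_fst)
  have hint : Integrable (fun z => φ (t₀, z.1) * f z.1) V :=
    bary_integrable (f := fun x => φ (t₀, x) * f x) hK hV
      ((hφ.continuous.comp (continuous_const.prodMk continuous_id)).mul hf)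
  refine (hasDerivAt_integral_of_dominated_loc_of_deriv_le (bound := fun _ => C)
    (F := fun (t : ℝ) (z : E n × E n) => φ (t, z.1) * f z.1)
    (F' := fun (t : ℝ) (z : E n × E n) => fderiv ℝ φ (t, z.1) (1, 0) * f z.1)
    (closedBall_mem_nhds t₀ one_pos)
    (Eventually.of_forall fun t => (hcont t).aestronglyMeasurable) hint ?_ ?_
    (integrable_const C) ?_).2
  · exact (hφ'.comp (continuous_const.prodMk continuous_fst)).aestronglyMeasurable
  · filter_upwards [hV] with z hz t ht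
    exact hC t ht z.1 hz
  · exact Eventually.of_forall fun z t _ => hd t z.1

end Param

/-! ### The functional -/

/-- `log ((F + ε) / q)` with `ε = 2 σ² / (1 + k² σ²)`, `σ = e^l` -/
noncomputable def lgB (G : Geo n) (k : ℝ) (c : E n) (l : ℝ) (x : E n) : ℝ :=
  Real.log ((Real.exp (-l) + k ^ 2 * Real.exp l) / 2 * FG G k c x + Real.exp l)

/-- `ε` as a function of `l` -/
noncomputable def epsB (k l : ℝ) : ℝ := 2 * Real.exp l / (Real.exp (-l) + k ^ 2 * Real.exp l)

section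
variable (G : Geo n) (k : ℝ)

theorem cB_pos (l : ℝ) : 0 < (Real.exp (-l) + k ^ 2 * Real.exp l) / 2 := by
  have h1 := Real.exp_pos (-l)
  have h2 := Real.exp_pos l
  positivity

theorem lgB_arg_pos (c : E n) (l : ℝ) (x : E n) :
    0 < (Real.exp (-l) + k ^ 2 * Real.exp l) / 2 * FG G k c x + Real.exp l := by
  have h1 := cB_pos k l
  have h2 := Real.exp_pos l
  have h3 := FG_nonneg G k c x
  positivity

theorem epsB_pos (l : ℝ) : 0 < epsB k l := by
  have h1 := Real.exp_pos (-l)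
  have h2 := Real.exp_pos l
  unfold epsB
  positivity

theorem epsB_lt (l : ℝ) : k ^ 2 * epsB k l < 2 := by
  have h1 := Real.exp_pos (-l)
  have h2 := Real.exp_pos l
  unfold epsB
  rw [← mul_div_assoc, div_lt_iff₀ (by positivity)]
  nlinarith

theorem lgB_smooth : ContDiff ℝ ∞ fun p : (E n × ℝ) × E n => lgB G k p.1.1 p.1.2 p.2 := by
  unfold lgB
  refine ContDiff.log ?_ fun p => (lgB_arg_pos G k p.1.1 p.1.2 p.2).ne'
  have h0 : ContDiff ℝ ∞ fun p : (E n × ℝ) × E n => (p.1.1, p.2) :=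
    ContDiff.prodMk (contDiff_fst.comp contDiff_fst) contDiff_snd
  have h1 : ContDiff ℝ ∞ fun p : (E n × ℝ) × E n => FG G k p.1.1 p.2 :=
    ContDiff.comp (g := fun z : E n × E n => FG G k z.1 z.2)
      (f := fun p : (E n × ℝ) × E n => (p.1.1, p.2)) (FG_smooth G k) h0
  have h2 : ContDiff ℝ ∞ fun p : (E n × ℝ) × E n => p.1.2 := contDiff_snd.comp contDiff_fst
  exact (((h2.neg.exp.add (contDiff_const.mul h2.exp)).div_const 2).mul h1).add h2.exp

/-- lower bound for large `l` -/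
theorem le_lgB (c : E n) (l : ℝ) (x : E n) : l ≤ lgB G k c l x := by
  unfold lgB
  have h1 := cB_pos k l
  have h2 := Real.exp_pos l
  have h3 := FG_nonneg G k c x
  calc l = Real.log (Real.exp l) := (Real.log_exp l).symm
    _ ≤ _ := Real.log_le_log h2 (by nlinarith [mul_nonneg h1.le h3])

/-- lower bound for large `r` -/
theorem log_le_lgB (hk : 0 ≤ k) {c : E n} (l : ℝ) {x : E n} {d : ℝ} (hd : 0 < d)
    (h : d ≤ ‖G.lg c x‖) : Real.log d ≤ lgB G k c l x := by
  unfold lgB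
  refine Real.log_le_log hd ?_
  have h1 := cB_pos k l
  have h2 := Real.exp_pos l
  have h3 := FG_nonneg G k c x
  have h4 : d ≤ sn k ‖G.lg c x‖ := h.trans (le_sn hk (norm_nonneg _))
  have h5 := sn_sq_eq_FG G k c x
  obtain ⟨F, hF⟩ : ∃ F, F = FG G k c x := ⟨_, rfl⟩
  obtain ⟨e, he⟩ : ∃ e, e = Real.exp l := ⟨_, rfl⟩
  have he2 : Real.exp (-l) = e⁻¹ := by rw [he, Real.exp_neg]
  rw [← hF] at h3 h5 ⊢
  rw [he2, ← he] at h1 ⊢
  rw [← he] at h2
  refine h4.trans (abs_le_of_sq_le_sq' ?_ (by positivity)).2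
  rw [h5]
  have h6 : (((e⁻¹ + k ^ 2 * e) / 2) * F + e) ^ 2 - (2 * F + k ^ 2 * F ^ 2) =
      (e - (e⁻¹ - k ^ 2 * e) / 2 * F) ^ 2 := by
    field_simp
    ring
  nlinarith [sq_nonneg (e - (e⁻¹ - k ^ 2 * e) / 2 * F)]

/-- lower bound for small `l` away from the centre -/
theorem lgB_ge_far {c : E n} (l : ℝ) {x : E n} {F₁ : ℝ} (hF₁ : 0 < F₁)
    (h : F₁ ≤ FG G k c x) : Real.log (F₁ / 2) - l ≤ lgB G k c l x := by
  unfold lgB
  have h0 : Real.log (F₁ / 2) - l = Real.log (Real.exp (-l) / 2 * F₁) := by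
    have h1 := Real.exp_pos (-l)
    have e : Real.exp (-l) / 2 * F₁ = F₁ / 2 * Real.exp (-l) := by ring
    rw [e, Real.log_mul (by positivity) (by positivity), Real.log_exp]
    ring
  rw [h0]
  have h1 := Real.exp_pos (-l)
  have h2 := Real.exp_pos l
  refine Real.log_le_log (by positivity) ?_
  have h3 : Real.exp (-l) / 2 * F₁ ≤ Real.exp (-l) / 2 * FG G k c x :=
    mul_le_mul_of_nonneg_left h (by positivity)
  have h4 : 0 ≤ k ^ 2 * Real.exp l / 2 * FG G k c x :=
    mul_nonneg (by positivity) (FG_nonneg G k c x)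
  nlinarith

theorem FG_ge (hk : 0 ≤ k) {c x : E n} {r : ℝ} (hr : 0 ≤ r) (h : r ≤ ‖G.lg c x‖) :
    ff k (r ^ 2) ≤ FG G k c x := by
  unfold FG
  rw [ff_sq, ff_sq]
  have h1 : sn k (r / 2) ≤ sn k (‖G.lg c x‖ / 2) :=
    (sn_strictMono hk).monotone (by linarith)
  have h2 : 0 ≤ sn k (r / 2) := by
    have := (sn_strictMono hk).monotone (show 0 ≤ r / 2 by linarith)
    rwa [sn_zero] at this
  have := pow_le_pow_left₀ h2 h1 2
  linarith

/-- triangle inequality -/
theorem lg_tri (x y z : E n) : ‖G.lg x z‖ ≤ ‖G.lg x y‖ + ‖G.lg y z‖ := by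
  have h := G.lg_nonexp x z y
  rw [G.norm_lg_comm z y] at h
  calc ‖G.lg x z‖ = ‖(G.lg x z - G.lg x y) + G.lg x y‖ := by rw [sub_add_cancel]
    _ ≤ ‖G.lg x z - G.lg x y‖ + ‖G.lg x y‖ := norm_add_le _ _
    _ ≤ _ := by linarith

theorem lg_cont (c : E n) : Continuous (G.lg c) := (G.lg_smooth_right c).continuous

end

section Min

variable (G : Geo n) {k : ℝ} {V : Measure (E n × E n)} [IsFiniteMeasure V] {o : E n} {ρ : ℝ}

/-- small masses of small balls, all centres -/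
theorem bary_atom (hV : ∀ᵐ z ∂V, ‖G.lg o z.1‖ ≤ ρ)
    (hat : ∀ η > 0, ∃ r > 0, ∀ x, ‖G.lg o x‖ ≤ ρ → V.real {z | ‖G.lg x z.1‖ < r} ≤ η) :
    ∀ η > 0, ∃ r > 0, ∀ c : E n, V.real {z | ‖G.lg c z.1‖ < r} ≤ η := by
  intro η hη
  obtain ⟨r, hr, h⟩ := hat η hη
  refine ⟨r / 2, half_pos hr, fun c => ?_⟩
  by_cases hx : ∃ x, ‖G.lg o x‖ ≤ ρ ∧ ‖G.lg c x‖ < r / 2
  · obtain ⟨x, hx1, hx2⟩ := hx
    refine le_trans (measureReal_mono ?_) (h x hx1)
    intro z hz
    simp only [Set.mem_ofPred_eq] at hz ⊢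
    have h1 := lg_tri G x c z.1
    rw [G.norm_lg_comm x c] at h1
    linarith
  · have h0 : V.real {z | ‖G.lg c z.1‖ < r / 2} = 0 := by
      rw [measureReal_eq_zero_iff]
      refine measure_mono_null ?_ (ae_iff.1 hV)
      intro z hz hz2
      exact hx ⟨z.1, hz2, hz⟩
    rw [h0]
    exact hη.le

theorem bary_min (hk : 0 ≤ k) (hV : ∀ᵐ z ∂V, ‖G.lg o z.1‖ ≤ ρ)
    (hat : ∀ η > 0, ∃ r > 0, ∀ x, ‖G.lg o x‖ ≤ ρ → V.real {z | ‖G.lg x z.1‖ < r} ≤ η)
    (hne : V ≠ 0) {f : E n → ℝ} (hf : Continuous f) (hf0 : ∀ x, 0 < f x) :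
    ∃ (c : E n) (l : ℝ), ∀ (c' : E n) (l' : ℝ),
      ∫ z, lgB G k c l z.1 * f z.1 ∂V ≤ ∫ z, lgB G k c' l' z.1 * f z.1 ∂V := by
  have hK : IsCompact {x | ‖G.lg o x‖ ≤ ρ} := G.isCompact_gball o ρ
  have hV' : ∀ᵐ z ∂V, z.1 ∈ {x | ‖G.lg o x‖ ≤ ρ} := hV
  -- the functional
  obtain ⟨L, hL⟩ : ∃ L : E n × ℝ → ℝ, L = fun p => ∫ z, lgB G k p.1 p.2 z.1 * f z.1 ∂V := ⟨_, rfl⟩
  have hLc : Continuous L := by
    rw [hL]
    exact bary_continuous (φ := fun p : (E n × ℝ) × E n => lgB G k p.1.1 p.1.2 p.2 * f p.2) hK hV'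
      ((lgB_smooth G k).continuous.mul (hf.comp continuous_snd))
  have hgi : ∀ (c : E n) (l : ℝ), Integrable (fun z => lgB G k c l z.1 * f z.1) V := by
    intro c l
    refine bary_integrable (f := fun x => lgB G k c l x * f x) hK hV' (Continuous.mul ?_ hf)
    have h1 : Continuous fun x : E n => (((c, l) : E n × ℝ), x) :=
      continuous_const.prodMk continuous_id
    exact (lgB_smooth G k).continuous.comp h1
  have hfi : Integrable (fun z => f z.1) V := bary_integrable hK hV' hf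
  obtain ⟨M, hM⟩ : ∃ M, M = ∫ z, f z.1 ∂V := ⟨_, rfl⟩
  have hMpos : 0 < M := by
    rw [hM, integral_pos_iff_support_of_nonneg (fun z : E n × E n => (hf0 z.1).le) hfi]
    have h1 : Function.support (fun z : E n × E n => f z.1) = univ := by
      ext z
      simp [(hf0 z.1).ne']
    rw [h1]
    exact (Measure.measure_univ_pos).2 hne
  -- bound of f
  obtain ⟨Cf, hCf⟩ := hK.exists_bound_of_continuousOn hf.continuousOn
  have hCf' : ∀ᵐ z ∂V, f z.1 ≤ |Cf| + 1 := by
    filter_upwards [hV'] with z hz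
    have := hCf z.1 hz
    rw [Real.norm_eq_abs] at this
    linarith [le_abs_self (f z.1), le_abs_self Cf]
  obtain ⟨r₁, hr₁, hatr⟩ := bary_atom G hV hat (M / (4 * (|Cf| + 1))) (by positivity)
  have hβ : ∀ c : E n, ∫ z in {z | ‖G.lg c z.1‖ < r₁}, f z.1 ∂V ≤ M / 4 := by
    intro c
    calc ∫ z in {z | ‖G.lg c z.1‖ < r₁}, f z.1 ∂V ≤ ∫ _ in {z | ‖G.lg c z.1‖ < r₁}, (|Cf| + 1) ∂V :=
          integral_mono_ae hfi.integrableOn (integrable_const _) (ae_restrict_of_ae hCf')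
      _ = V.real {z | ‖G.lg c z.1‖ < r₁} * (|Cf| + 1) := by
          rw [setIntegral_const, smul_eq_mul]
      _ ≤ M / (4 * (|Cf| + 1)) * (|Cf| + 1) :=
          mul_le_mul_of_nonneg_right (hatr c) (by positivity)
      _ = M / 4 := by field_simp
  have hff : 0 < ff k (r₁ ^ 2) := by
    rw [ff_sq]
    have := sn_pos hk (half_pos hr₁)
    positivity
  obtain ⟨a, ha⟩ : ∃ a, a = Real.log (ff k (r₁ ^ 2) / 2) := ⟨_, rfl⟩
  -- the three bounds
  have hB1 : ∀ (c : E n) (l : ℝ), M * l ≤ L (c, l) := by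
    intro c l
    rw [hL, hM, mul_comm, ← integral_const_mul]
    exact integral_mono (hfi.const_mul l) (hgi c l)
      fun z => mul_le_mul_of_nonneg_right (le_lgB G k c l z.1) (hf0 z.1).le
  have hB2 : ∀ (c : E n) (l d : ℝ), 0 < d → d + ρ ≤ ‖G.lg o c‖ → M * Real.log d ≤ L (c, l) := by
    intro c l d hd hc
    rw [hL, hM, mul_comm, ← integral_const_mul]
    refine integral_mono_ae (hfi.const_mul _) (hgi c l) ?_
    filter_upwards [hV] with z hz
    refine mul_le_mul_of_nonneg_right (log_le_lgB G k hk l hd ?_) (hf0 z.1).le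
    have h1 := lg_tri G o z.1 c
    rw [G.norm_lg_comm z.1 c] at h1
    linarith
  have hB3 : ∀ (c : E n) (l : ℝ), 2 * l ≤ a → M * (3 * a / 4 - l / 2) ≤ L (c, l) := by
    intro c l hl
    have hBm : MeasurableSet {z : E n × E n | ‖G.lg c z.1‖ < r₁} :=
      (isOpen_lt ((lg_cont G c).comp continuous_fst).norm continuous_const).measurableSet
    have h1 : (a - l) * M + (2 * l - a) * ∫ z in {z | ‖G.lg c z.1‖ < r₁}, f z.1 ∂V ≤ L (c, l) := by
      rw [hM, hL, ← integral_indicator hBm, ← integral_const_mul, ← integral_const_mul,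
        ← integral_add (hfi.const_mul _) ((hfi.indicator hBm).const_mul _)]
      refine integral_mono ((hfi.const_mul _).add ((hfi.indicator hBm).const_mul _)) (hgi c l) ?_
      intro z
      by_cases hz : z ∈ {z : E n × E n | ‖G.lg c z.1‖ < r₁}
      · simp only [indicator_of_mem hz]
        have h2 := mul_le_mul_of_nonneg_right (le_lgB G k c l z.1) (hf0 z.1).le
        linarith
      · simp only [indicator_of_notMem hz, mul_zero, add_zero]
        have h3 : r₁ ≤ ‖G.lg c z.1‖ := not_lt.1 hz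
        have h4 := lgB_ge_far G k l hff (FG_ge G k hk hr₁.le h3)
        rw [← ha] at h4
        exact mul_le_mul_of_nonneg_right h4 (hf0 z.1).le
    have h2 : (2 * l - a) * (M / 4) ≤
        (2 * l - a) * ∫ z in {z | ‖G.lg c z.1‖ < r₁}, f z.1 ∂V :=
      mul_le_mul_of_nonpos_left (hβ c) (by linarith)
    linarith
  -- compact set
  obtain ⟨B, hB⟩ : ∃ B, B = L (o, 0) := ⟨_, rfl⟩
  obtain ⟨l₁, hl₁⟩ : ∃ l₁ : ℝ, 0 ≤ l₁ ∧ B ≤ M * l₁ := by
    refine ⟨max 0 (B / M), le_max_left _ _, ?_⟩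
    calc B = M * (B / M) := by field_simp
      _ ≤ _ := mul_le_mul_of_nonneg_left (le_max_right _ _) hMpos.le
  obtain ⟨d, hd, hdB⟩ : ∃ d : ℝ, 0 < d ∧ B ≤ M * Real.log d := by
    refine ⟨Real.exp (B / M), Real.exp_pos _, ?_⟩
    rw [Real.log_exp]
    exact le_of_eq (by field_simp)
  obtain ⟨l₀, hl₀, hl₀a, hl₀B⟩ : ∃ l₀ : ℝ, l₀ ≤ 0 ∧ 2 * l₀ ≤ a ∧
      ∀ l ≤ l₀, B ≤ M * (3 * a / 4 - l / 2) := by
    refine ⟨min 0 (min (a / 2) (2 * (3 * a / 4 - B / M))), min_le_left _ _, ?_, ?_⟩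
    · have := (min_le_right 0 (min (a / 2) (2 * (3 * a / 4 - B / M)))).trans (min_le_left _ _)
      linarith
    · intro l hl
      have h1 := hl.trans ((min_le_right 0 (min (a / 2) (2 * (3 * a / 4 - B / M)))).trans
        (min_le_right _ _))
      calc B = M * (B / M) := by field_simp
        _ ≤ _ := mul_le_mul_of_nonneg_left (by linarith) hMpos.le
  have hQ : IsCompact ({x | ‖G.lg o x‖ ≤ |ρ| + d} ×ˢ Icc l₀ l₁ : Set (E n × ℝ)) :=
    (G.isCompact_gball o (|ρ| + d)).prod isCompact_Icc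
  have hmem : ((o, 0) : E n × ℝ) ∈ ({x | ‖G.lg o x‖ ≤ |ρ| + d} ×ˢ Icc l₀ l₁ : Set (E n × ℝ)) := by
    refine ⟨?_, hl₀, hl₁.1⟩
    simp only [Set.mem_ofPred_eq, G.lg_self, norm_zero]
    positivity
  obtain ⟨p, hp, hmin⟩ := hQ.exists_isMinOn ⟨_, hmem⟩ hLc.continuousOn
  refine ⟨p.1, p.2, fun c' l' => ?_⟩
  have hpB : L p ≤ B := by rw [hB]; exact hmin hmem
  have goal : L p ≤ L (c', l') := by
    by_cases h : ((c', l') : E n × ℝ) ∈ ({x | ‖G.lg o x‖ ≤ |ρ| + d} ×ˢ Icc l₀ l₁ : Set (E n × ℝ))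
    · exact hmin h
    · refine hpB.trans ?_
      by_cases h1 : ‖G.lg o c'‖ ≤ |ρ| + d
      · by_cases h2 : l₀ ≤ l'
        · have h3 : l₁ < l' := by
            by_contra h4
            exact h ⟨h1, h2, not_lt.1 h4⟩
          exact hl₁.2.trans ((mul_le_mul_of_nonneg_left h3.le hMpos.le).trans (hB1 c' l'))
        · have h3 := (not_le.1 h2).le
          exact (hl₀B l' h3).trans (hB3 c' l' (by linarith))
      · refine hdB.trans (hB2 c' l' d hd ?_)
        have := not_le.1 h1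
        linarith [le_abs_self ρ]
  rw [hL] at goal
  exact goal

end Min

end Vale.Agent.P219.End
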