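import Vale.Agent.P219.End.Bary

/-! # The conformal barycentre: critical equations and the field `bary` of `Lim` -/

open MeasureTheory Set Metric Filter Topology
open scoped ENNReal ContDiff

namespace Vale.Agent.P219.End

open Vale.Agent.P219.TP Vale.Agent.P219.TPH

variable {n : ℕ} (G : Geo n) {k : ℝ}

theorem FG_add_eps (c : E n) (l : ℝ) (x : E n) :
    (Real.exp (-l) + k ^ 2 * Real.exp l) / 2 * FG G k c x + Real.exp l =
      (Real.exp (-l) + k ^ 2 * Real.exp l) / 2 * (FG G k c x + epsB k l) := by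
  have h1 := cB_pos k l
  have h2 : (Real.exp (-l) + k ^ 2 * Real.exp l) / 2 * epsB k l = Real.exp l := by
    have h3 : 0 < Real.exp (-l) + k ^ 2 * Real.exp l := by linarith
    unfold epsB
    field_simp
  rw [mul_add, h2]

theorem hasDerivAt_lgB_l (c : E n) (l : ℝ) (x : E n) :
    HasDerivAt (fun l => lgB G k c l x) (th0 G k c (epsB k l) x) l := by
  have hneg : HasDerivAt (fun l : ℝ => Real.exp (-l)) (-Real.exp (-l)) l := by
    simpa using (hasDerivAt_neg l).exp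
  have h1 : HasDerivAt (fun l : ℝ => (Real.exp (-l) + k ^ 2 * Real.exp l) / 2 * FG G k c x +
      Real.exp l) ((-Real.exp (-l) + k ^ 2 * Real.exp l) / 2 * FG G k c x + Real.exp l) l :=
    (((hneg.add ((Real.hasDerivAt_exp l).const_mul (k ^ 2))).div_const 2).mul_const _).add
      (Real.hasDerivAt_exp l)
  have h2 := h1.log (lgB_arg_pos G k c l x).ne'
  refine h2.congr_deriv ?_
  have h3 := epsB_pos k l
  have h4 := FG_nonneg G k c x
  have h5 := Real.exp_pos l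
  have h6 := Real.exp_pos (-l)
  have h7 : Real.exp (-l) = (Real.exp l)⁻¹ := Real.exp_neg l
  have h8 := lgB_arg_pos G k c l x
  unfold th0 epsB
  obtain ⟨F, hF⟩ : ∃ F, F = FG G k c x := ⟨_, rfl⟩
  obtain ⟨e, he⟩ : ∃ e, e = Real.exp l := ⟨_, rfl⟩
  rw [h7] at h8 ⊢
  rw [← hF] at h4 h8 ⊢
  rw [← he] at h5 h8 ⊢
  have h9 : 0 < e⁻¹ + k ^ 2 * e := by positivity
  have h10 : 0 < F + 2 * e / (e⁻¹ + k ^ 2 * e) := by positivity
  rw [div_eq_div_iff h8.ne' h10.ne']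
  field_simp
  ring

theorem hasDerivAt_lgB_c (c v : E n) (l : ℝ) (x : E n) :
    HasDerivAt (fun t : ℝ => lgB G k (G.ex c (t • v)) l x)
      (-(chi k (‖G.lg c x‖ ^ 2) * inner ℝ (G.lg c x) v / (FG G k c x + epsB k l))) 0 := by
  have h0 : HasDerivAt (fun t : ℝ => G.ex c (t • v)) (G.A c v) 0 := by
    have h := G.ex_deriv 0 c v
    rwa [zero_smul, G.ex_zero, G.V_zero] at h
  have h1 : HasDerivAt (fun t : ℝ => FG G k (G.ex c (t • v)) x)
      (-(chi k (‖G.lg c x‖ ^ 2) * inner ℝ (G.lg c x) v)) 0 := by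
    have e1 : (fun t : ℝ => FG G k (G.ex c (t • v)) x) =
        fun t : ℝ => FG G k x (G.ex c (t • v)) := by
      funext t
      exact FG_comm G k _ _
    have h2 : HasFDerivAt (FG G k x) (fderiv ℝ (FG G k x) c) (G.ex c ((0 : ℝ) • v)) := by
      rw [zero_smul, G.ex_zero]
      exact ((FG_smooth_right G k x).differentiable (by simp) c).hasFDerivAt
    rw [e1]
    refine (h2.comp_hasDerivAt (0 : ℝ) h0).congr_deriv ?_
    rw [fderiv_FG, G.norm_lg_comm x c]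
  have ha := cB_pos k l
  have h3 := (h1.const_mul ((Real.exp (-l) + k ^ 2 * Real.exp l) / 2)).add_const (Real.exp l)
  have h4 := h3.log (lgB_arg_pos G k _ l x).ne'
  refine h4.congr_deriv ?_
  simp only [zero_smul, G.ex_zero]
  rw [FG_add_eps G c l x]
  have h5 := epsB_pos k l
  have h6 := FG_nonneg G k c x
  have h7 : 0 < FG G k c x + epsB k l := by linarith
  rw [mul_div_mul_left _ _ ha.ne', neg_div]

section Crit

variable {V : Measure (E n × E n)} [IsFiniteMeasure V] {o : E n} {ρ : ℝ}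

theorem bary_crit_l (hV : ∀ᵐ z ∂V, ‖G.lg o z.1‖ ≤ ρ) {f : E n → ℝ} (hf : Continuous f)
    {c : E n} {l : ℝ} (hmin : ∀ (c' : E n) (l' : ℝ),
      ∫ z, lgB G k c l z.1 * f z.1 ∂V ≤ ∫ z, lgB G k c' l' z.1 * f z.1 ∂V) :
    ∫ z, th0 G k c (epsB k l) z.1 * f z.1 ∂V = 0 := by
  have hK : IsCompact {x | ‖G.lg o x‖ ≤ ρ} := G.isCompact_gball o ρ
  have hφ : ContDiff ℝ 1 fun p : ℝ × E n => lgB G k c p.1 p.2 := by
    have h1 : ContDiff ℝ ∞ fun p : ℝ × E n => (((c, p.1) : E n × ℝ), p.2) :=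
      (contDiff_const.prodMk contDiff_fst).prodMk contDiff_snd
    exact ((lgB_smooth G k).comp h1).of_le (by simp)
  have h1 := bary_deriv (V := V) hK hV hφ hf l
  have h2 : ∀ x, fderiv ℝ (fun p : ℝ × E n => lgB G k c p.1 p.2) (l, x) (1, 0) =
      th0 G k c (epsB k l) x := by
    intro x
    have h3 : HasFDerivAt (fun p : ℝ × E n => lgB G k c p.1 p.2)
        (fderiv ℝ (fun p : ℝ × E n => lgB G k c p.1 p.2) (l, x)) (l, x) :=
      (hφ.differentiable one_ne_zero (l, x)).hasFDerivAt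
    have h4 : HasDerivAt (fun t : ℝ => (t, x)) ((1 : ℝ), (0 : E n)) l :=
      (hasDerivAt_id l).prodMk (hasDerivAt_const l x)
    have h5 := h3.comp_hasDerivAt l h4
    exact h5.unique (hasDerivAt_lgB_l G c l x)
  simp only [h2] at h1
  have h3 : IsLocalMin (fun t => ∫ z, lgB G k c t z.1 * f z.1 ∂V) l :=
    Eventually.of_forall fun t => hmin c t
  exact h3.hasDerivAt_eq_zero h1

theorem bary_crit_c (hV : ∀ᵐ z ∂V, ‖G.lg o z.1‖ ≤ ρ) {f : E n → ℝ} (hf : Continuous f)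
    {c : E n} {l : ℝ} (hmin : ∀ (c' : E n) (l' : ℝ),
      ∫ z, lgB G k c l z.1 * f z.1 ∂V ≤ ∫ z, lgB G k c' l' z.1 * f z.1 ∂V) (v : E n) :
    ∫ z, (chi k (‖G.lg c z.1‖ ^ 2) * inner ℝ (G.lg c z.1) v / (FG G k c z.1 + epsB k l)) *
      f z.1 ∂V = 0 := by
  have hK : IsCompact {x | ‖G.lg o x‖ ≤ ρ} := G.isCompact_gball o ρ
  have hφ : ContDiff ℝ 1 fun p : ℝ × E n => lgB G k (G.ex c (p.1 • v)) l p.2 := by
    have h0 : ContDiff ℝ ∞ fun p : ℝ × E n => G.ex c (p.1 • v) :=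
      (G.ex_smooth_right c).comp (contDiff_fst.smul contDiff_const)
    have h1 : ContDiff ℝ ∞ fun p : ℝ × E n => (((G.ex c (p.1 • v), l) : E n × ℝ), p.2) :=
      (h0.prodMk contDiff_const).prodMk contDiff_snd
    exact ((lgB_smooth G k).comp h1).of_le (by simp)
  have h1 := bary_deriv (V := V) hK hV hφ hf 0
  have h2 : ∀ x, fderiv ℝ (fun p : ℝ × E n => lgB G k (G.ex c (p.1 • v)) l p.2) (0, x) (1, 0) =
      -(chi k (‖G.lg c x‖ ^ 2) * inner ℝ (G.lg c x) v / (FG G k c x + epsB k l)) := by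
    intro x
    have h3 : HasFDerivAt (fun p : ℝ × E n => lgB G k (G.ex c (p.1 • v)) l p.2)
        (fderiv ℝ (fun p : ℝ × E n => lgB G k (G.ex c (p.1 • v)) l p.2) (0, x)) (0, x) :=
      (hφ.differentiable one_ne_zero (0, x)).hasFDerivAt
    have h4 : HasDerivAt (fun t : ℝ => (t, x)) ((1 : ℝ), (0 : E n)) 0 :=
      (hasDerivAt_id (0 : ℝ)).prodMk (hasDerivAt_const (0 : ℝ) x)
    have h5 := h3.comp_hasDerivAt (0 : ℝ) h4
    exact h5.unique (hasDerivAt_lgB_c G c v l x)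
  simp only [h2] at h1
  have h3 : IsLocalMin (fun t : ℝ => ∫ z, lgB G k (G.ex c (t • v)) l z.1 * f z.1 ∂V) 0 := by
    refine Eventually.of_forall fun t => ?_
    simp only [zero_smul, G.ex_zero]
    exact hmin _ l
  have h4 := h3.hasDerivAt_eq_zero h1
  rw [← neg_eq_zero, ← integral_neg]
  rw [← h4]
  congr 1
  funext z
  ring

/-- the centre is in the ball -/
theorem bary_mem (hk : 0 ≤ k) (hV : ∀ᵐ z ∂V, ‖G.lg o z.1‖ ≤ ρ) (hne : V ≠ 0) {f : E n → ℝ}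
    (hf : Continuous f) (hf0 : ∀ x, 0 < f x) {c : E n} {l : ℝ} (h : ∀ v : E n,
      ∫ z, (chi k (‖G.lg c z.1‖ ^ 2) * inner ℝ (G.lg c z.1) v / (FG G k c z.1 + epsB k l)) *
      f z.1 ∂V = 0) : ‖G.lg o c‖ ≤ ρ := by
  by_contra hc
  rw [not_le] at hc
  have hK : IsCompact {x | ‖G.lg o x‖ ≤ ρ} := G.isCompact_gball o ρ
  have h0 := h (G.lg c o)
  have hpos : ∀ z : E n × E n, ‖G.lg o z.1‖ ≤ ρ →
      0 < (chi k (‖G.lg c z.1‖ ^ 2) * inner ℝ (G.lg c z.1) (G.lg c o) /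
        (FG G k c z.1 + epsB k l)) * f z.1 := by
    intro z hz
    have h1 : 0 < inner ℝ (G.lg c z.1) (G.lg c o) := by
      have h2 := G.lg_nonexp c z.1 o
      rw [G.norm_lg_comm z.1 o] at h2
      have h3 : ‖G.lg c z.1 - G.lg c o‖ ^ 2 ≤ ρ ^ 2 :=
        pow_le_pow_left₀ (norm_nonneg _) (h2.trans hz) 2
      rw [norm_sub_sq_real, G.norm_lg_comm c o] at h3
      have h4 : 0 ≤ ρ := (norm_nonneg _).trans hz
      have h5 : ρ ^ 2 < ‖G.lg o c‖ ^ 2 := pow_lt_pow_left₀ hc h4 two_ne_zero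
      nlinarith [sq_nonneg ‖G.lg c z.1‖]
    have h2 := chi_pos (r := ‖G.lg c z.1‖) hk
    have h3 := epsB_pos k l
    have h4 := FG_nonneg G k c z.1
    have h5 := hf0 z.1
    positivity
  have hcont : Continuous fun x : E n => (chi k (‖G.lg c x‖ ^ 2) * inner ℝ (G.lg c x) (G.lg c o) /
        (FG G k c x + epsB k l)) * f x := by
    refine Continuous.mul (Continuous.div ?_ ?_ ?_) hf
    · exact ((chi_smooth k).continuous.comp ((lg_cont G c).norm.pow 2)).mul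
        ((lg_cont G c).inner continuous_const)
    · exact (FG_smooth_right G k c).continuous.add continuous_const
    · intro x
      have h3 := epsB_pos k l
      have h4 := FG_nonneg G k c x
      positivity
  have hint := bary_integrable (V := V) hK hV hcont
  have hnn : 0 ≤ᵐ[V] fun z : E n × E n => (chi k (‖G.lg c z.1‖ ^ 2) *
      inner ℝ (G.lg c z.1) (G.lg c o) / (FG G k c z.1 + epsB k l)) * f z.1 := by
    filter_upwards [hV] with z hz
    exact (hpos z hz).le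
  have h1 := (integral_eq_zero_iff_of_nonneg_ae hnn hint).1 h0
  have h2 : ∀ᵐ _ ∂V, False := by
    filter_upwards [hV, h1] with z hz hz2
    have := hpos z hz
    simp only [Pi.zero_apply] at hz2
    linarith
  rw [ae_iff] at h2
  simp only [not_false_eq_true] at h2
  apply hne
  rw [← Measure.measure_univ_eq_zero]
  convert h2 using 2
  ext z
  simp

end Crit

/-! ### Small masses of small balls, from the stationarity -/

section Atom

variable {V : Measure (E n × E n)} [IsFiniteMeasure V] {o : E n} {ρ : ℝ}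

theorem cpt_integrable {K₂ : Set (E n × E n)} (hK : IsCompact K₂) (h : ∀ᵐ z ∂V, z ∈ K₂)
    {φ : E n × E n → ℝ} (hφ : Continuous φ) : Integrable φ V := by
  obtain ⟨C, hC⟩ := hK.exists_bound_of_continuousOn hφ.continuousOn
  refine Integrable.of_bound hφ.aestronglyMeasurable C ?_
  filter_upwards [h] with z hz
  exact hC _ hz

/-- gradient of `(F + ε)⁻¹` -/
theorem D_inv_FG (k : ℝ) {ε : ℝ} (hε : 0 < ε) (c x : E n) :
    D G.A (fun x => (FG G k c x + ε)⁻¹) x = -((FG G k c x + ε)⁻¹ ^ 2 • D G.A (FG G k c) x) := by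
  have hp := FGe_pos G hε k c x
  have h1 : HasFDerivAt (fun x => FG G k c x + ε) (fderiv ℝ (FG G k c) x) x :=
    ((FG_smooth_right G k c).differentiable (by simp) x).hasFDerivAt.add_const ε
  have h2 : HasFDerivAt (fun x => (FG G k c x + ε)⁻¹)
      (-((FG G k c x + ε) ^ 2)⁻¹ • fderiv ℝ (FG G k c) x) x :=
    (hasDerivAt_inv hp.ne').comp_hasFDerivAt x h1
  refine ext_inner_right ℝ fun η => ?_
  unfold D
  rw [inner_neg_left, real_inner_smul_left, InnerProductSpace.toDual_symm_apply,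
    InnerProductSpace.toDual_symm_apply, ContinuousLinearMap.comp_apply,
    ContinuousLinearMap.comp_apply, h2.fderiv, smul_apply, smul_eq_mul, inv_pow]
  ring

theorem stat_inv_bound (hk : 0 ≤ k) {m H₀ : ℝ} (hm : 2 < m)
    (hV : ∀ᵐ z ∂V, ‖G.lg o z.1‖ ≤ ρ ∧ ‖z.2‖ = 1) {c : E n}
    (stat : ∀ ψ : E n → ℝ, ContDiff ℝ ∞ ψ → (∀ x, 0 ≤ ψ x) →
      0 ≤ ∫ z, (H₀ * ψ z.1 * inner ℝ (D G.A (FG G k c) z.1) z.2 -
        m * (1 + k ^ 2 * FG G k c z.1) * ψ z.1 - Gam G.A ψ (FG G k c) z) ∂V) {ε : ℝ}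
    (hε : 0 < ε) :
    (m - 2) * ∫ z, (FG G k c z.1 + ε)⁻¹ ∂V ≤ H₀ ^ 2 / 4 * V.real univ := by
  have _ := hk
  have hK₂ : IsCompact ({x : E n | ‖G.lg o x‖ ≤ ρ} ×ˢ sphere (0 : E n) 1) :=
    (G.isCompact_gball o ρ).prod (isCompact_sphere 0 1)
  have hV₂ : ∀ᵐ z ∂V, z ∈ ({x : E n | ‖G.lg o x‖ ≤ ρ} ×ˢ sphere (0 : E n) 1) := by
    filter_upwards [hV] with z hz
    exact ⟨hz.1, by simpa using hz.2⟩
  have hs : ContDiff ℝ ∞ fun x => (FG G k c x + ε)⁻¹ :=
    ((FG_smooth_right G k c).add contDiff_const).inv fun x => (FGe_pos G hε k c x).ne'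
  have h0 := stat (fun x => (FG G k c x + ε)⁻¹) hs
    fun x => (inv_pos.2 (FGe_pos G hε k c x)).le
  have hid : ∀ z : E n × E n, H₀ * (FG G k c z.1 + ε)⁻¹ * inner ℝ (D G.A (FG G k c) z.1) z.2 -
        m * (1 + k ^ 2 * FG G k c z.1) * (FG G k c z.1 + ε)⁻¹ -
        Gam G.A (fun x => (FG G k c x + ε)⁻¹) (FG G k c) z =
      H₀ * (FG G k c z.1 + ε)⁻¹ * (-(chi k (‖G.lg c z.1‖ ^ 2) * inner ℝ (G.lg z.1 c) z.2)) -
        m * (1 + k ^ 2 * FG G k c z.1) * (FG G k c z.1 + ε)⁻¹ +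
        (FG G k c z.1 + ε)⁻¹ ^ 2 * ((2 * FG G k c z.1 + k ^ 2 * FG G k c z.1 ^ 2) -
          (-(chi k (‖G.lg c z.1‖ ^ 2) * inner ℝ (G.lg z.1 c) z.2)) ^ 2) := by
    intro z
    have e1 : inner ℝ (D G.A (FG G k c) z.1) z.2 =
        -(chi k (‖G.lg c z.1‖ ^ 2) * inner ℝ (G.lg z.1 c) z.2) := by
      rw [D_FG, inner_neg_left, real_inner_smul_left]
    have e2 : Gam G.A (fun x => (FG G k c x + ε)⁻¹) (FG G k c) z =
        -((FG G k c z.1 + ε)⁻¹ ^ 2 * ((2 * FG G k c z.1 + k ^ 2 * FG G k c z.1 ^ 2) -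
          (-(chi k (‖G.lg c z.1‖ ^ 2) * inner ℝ (G.lg z.1 c) z.2)) ^ 2)) := by
      unfold Gam
      rw [D_inv_FG G k hε, inner_neg_left, inner_neg_left, real_inner_smul_left,
        real_inner_smul_left, real_inner_self_eq_norm_sq, norm_D_FG, e1]
      ring
    rw [e1, e2]
    ring
  simp only [hid] at h0
  have hlg : Continuous fun z : E n × E n => G.lg z.1 c := by
    have h1 : ContDiff ℝ ∞ fun x : E n => G.lg x c :=
      G.lg_smooth.comp (contDiff_id.prodMk contDiff_const)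
    exact h1.continuous.comp continuous_fst
  have hF : Continuous fun z : E n × E n => FG G k c z.1 :=
    (FG_smooth_right G k c).continuous.comp continuous_fst
  have hψ : Continuous fun z : E n × E n => (FG G k c z.1 + ε)⁻¹ :=
    hs.continuous.comp continuous_fst
  have hn : Continuous fun z : E n × E n =>
      -(chi k (‖G.lg c z.1‖ ^ 2) * inner ℝ (G.lg z.1 c) z.2) :=
    ((((chi_smooth k).continuous.comp ((lg_cont G c).norm.pow 2)).comp continuous_fst).mul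
      (hlg.inner continuous_snd)).neg
  have hi1 := cpt_integrable (V := V) hK₂ hV₂ hψ
  have hi2 : Integrable (fun z : E n × E n =>
      H₀ * (FG G k c z.1 + ε)⁻¹ * (-(chi k (‖G.lg c z.1‖ ^ 2) * inner ℝ (G.lg z.1 c) z.2)) -
        m * (1 + k ^ 2 * FG G k c z.1) * (FG G k c z.1 + ε)⁻¹ +
        (FG G k c z.1 + ε)⁻¹ ^ 2 * ((2 * FG G k c z.1 + k ^ 2 * FG G k c z.1 ^ 2) -
          (-(chi k (‖G.lg c z.1‖ ^ 2) * inner ℝ (G.lg z.1 c) z.2)) ^ 2)) V := by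
    refine cpt_integrable hK₂ hV₂ ?_
    refine Continuous.add (Continuous.sub ?_ ?_) ?_
    · exact (continuous_const.mul hψ).mul hn
    · exact (continuous_const.mul (continuous_const.add (continuous_const.mul hF))).mul hψ
    · exact (hψ.pow 2).mul (((continuous_const.mul hF).add
        (continuous_const.mul (hF.pow 2))).sub (hn.pow 2))
  have h1 : (∫ z : E n × E n,
      (H₀ * (FG G k c z.1 + ε)⁻¹ * (-(chi k (‖G.lg c z.1‖ ^ 2) * inner ℝ (G.lg z.1 c) z.2)) -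
        m * (1 + k ^ 2 * FG G k c z.1) * (FG G k c z.1 + ε)⁻¹ +
        (FG G k c z.1 + ε)⁻¹ ^ 2 * ((2 * FG G k c z.1 + k ^ 2 * FG G k c z.1 ^ 2) -
          (-(chi k (‖G.lg c z.1‖ ^ 2) * inner ℝ (G.lg z.1 c) z.2)) ^ 2)) ∂V) ≤
      ∫ z : E n × E n, (H₀ ^ 2 / 4 - (m - 2) * (FG G k c z.1 + ε)⁻¹) ∂V := by
    refine integral_mono hi2 ((integrable_const _).sub (hi1.const_mul _)) fun z => ?_
    obtain ⟨F, hFd⟩ : ∃ F, F = FG G k c z.1 := ⟨_, rfl⟩
    obtain ⟨N, hN⟩ : ∃ N, N = -(chi k (‖G.lg c z.1‖ ^ 2) * inner ℝ (G.lg z.1 c) z.2) := ⟨_, rfl⟩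
    have hF0 : 0 ≤ F := by rw [hFd]; exact FG_nonneg G k c z.1
    simp only [← hFd, ← hN]
    obtain ⟨p, hp⟩ : ∃ p, p = (F + ε)⁻¹ := ⟨_, rfl⟩
    have hp0 : 0 < p := by rw [hp]; positivity
    have hpF : p * F ≤ 1 := by
      rw [hp, inv_mul_le_iff₀ (by positivity)]
      linarith
    rw [← hp]
    have e1 : H₀ * p * N - p ^ 2 * N ^ 2 ≤ H₀ ^ 2 / 4 := by nlinarith [sq_nonneg (H₀ / 2 - p * N)]
    have e2 : p ^ 2 * (2 * F + k ^ 2 * F ^ 2) ≤ p * (2 + k ^ 2 * F) := by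
      have : p ^ 2 * (2 * F + k ^ 2 * F ^ 2) = p * F * (p * (2 + k ^ 2 * F)) := by ring
      rw [this]
      exact mul_le_of_le_one_left (by positivity) hpF
    have e3 : p * (2 + k ^ 2 * F) ≤ m * (1 + k ^ 2 * F) * p - (m - 2) * p := by
      have : 0 ≤ (m - 1) * (k ^ 2 * F * p) := mul_nonneg (by linarith) (by positivity)
      nlinarith
    nlinarith
  have h2 : ∫ z : E n × E n, (H₀ ^ 2 / 4 - (m - 2) * (FG G k c z.1 + ε)⁻¹) ∂V =
      H₀ ^ 2 / 4 * V.real univ - (m - 2) * ∫ z, (FG G k c z.1 + ε)⁻¹ ∂V := by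
    rw [integral_sub (integrable_const _) (hi1.const_mul _), integral_const, integral_const_mul,
      smul_eq_mul]
    ring
  linarith

theorem atom_of_stat (hk : 0 ≤ k) {m H₀ : ℝ} (hm : 2 < m)
    (hV : ∀ᵐ z ∂V, ‖G.lg o z.1‖ ≤ ρ ∧ ‖z.2‖ = 1)
    (stat : ∀ c, ‖G.lg o c‖ ≤ ρ → ∀ ψ : E n → ℝ, ContDiff ℝ ∞ ψ → (∀ x, 0 ≤ ψ x) →
      0 ≤ ∫ z, (H₀ * ψ z.1 * inner ℝ (D G.A (FG G k c) z.1) z.2 -
        m * (1 + k ^ 2 * FG G k c z.1) * ψ z.1 - Gam G.A ψ (FG G k c) z) ∂V) :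
    ∀ η > 0, ∃ r > 0, ∀ x, ‖G.lg o x‖ ≤ ρ → V.real {z | ‖G.lg x z.1‖ < r} ≤ η := by
  intro η hη
  obtain ⟨C, hC⟩ : ∃ C, C = H₀ ^ 2 / 4 * V.real univ / (m - 2) := ⟨_, rfl⟩
  have hm2 : 0 < m - 2 := by linarith
  have hC0 : 0 ≤ C := by
    rw [hC]
    have : 0 ≤ V.real univ := measureReal_nonneg
    positivity
  -- the radius
  have hcont : Continuous fun r : ℝ => ff k (r ^ 2) :=
    (ff_smooth k).continuous.comp (continuous_pow 2)
  have h0 : ff k ((0 : ℝ) ^ 2) = 0 := by rw [ff_sq]; simp [sn_zero]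
  have h1 : ∀ᶠ r in 𝓝 (0 : ℝ), ff k (r ^ 2) < η / (2 * (C + 1)) := by
    refine (hcont.tendsto 0).eventually_lt_const ?_
    rw [h0]
    positivity
  obtain ⟨δ, hδ, hr⟩ := Metric.eventually_nhds_iff.1 h1
  refine ⟨δ / 2, half_pos hδ, fun x hx => ?_⟩
  have h2 : ff k ((δ / 2) ^ 2) < η / (2 * (C + 1)) := by
    apply hr
    rw [Real.dist_eq, sub_zero, abs_of_pos (half_pos hδ)]
    linarith
  obtain ⟨ε, hε⟩ : ∃ ε, ε = ff k ((δ / 2) ^ 2) := ⟨_, rfl⟩
  rw [← hε] at h2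
  have hε0 : 0 < ε := by
    rw [hε, ff_sq]
    have := sn_pos hk (half_pos (half_pos hδ))
    positivity
  have h3 := stat_inv_bound G hk hm hV (stat x hx) hε0
  have hK : IsCompact {x | ‖G.lg o x‖ ≤ ρ} := G.isCompact_gball o ρ
  have hV1 : ∀ᵐ z ∂V, z.1 ∈ {x | ‖G.lg o x‖ ≤ ρ} := hV.mono fun z hz => hz.1
  have hs : Continuous fun y => (FG G k x y + ε)⁻¹ :=
    ((FG_smooth_right G k x).continuous.add continuous_const).inv₀
      fun y => (FGe_pos G hε0 k x y).ne'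
  have hi := bary_integrable (V := V) hK hV1 hs
  have h4 : (2 * ε)⁻¹ * V.real {z | ‖G.lg x z.1‖ < δ / 2} ≤ ∫ z, (FG G k x z.1 + ε)⁻¹ ∂V := by
    have hBm : MeasurableSet {z : E n × E n | ‖G.lg x z.1‖ < δ / 2} :=
      (isOpen_lt ((lg_cont G x).comp continuous_fst).norm continuous_const).measurableSet
    have h5 : (2 * ε)⁻¹ * V.real {z | ‖G.lg x z.1‖ < δ / 2} =
        ∫ _ in {z | ‖G.lg x z.1‖ < δ / 2}, (2 * ε)⁻¹ ∂V := by
      rw [setIntegral_const, smul_eq_mul, mul_comm]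
    rw [h5]
    calc ∫ _ in {z | ‖G.lg x z.1‖ < δ / 2}, (2 * ε)⁻¹ ∂V ≤
        ∫ z in {z | ‖G.lg x z.1‖ < δ / 2}, (FG G k x z.1 + ε)⁻¹ ∂V := by
          refine setIntegral_mono_on (integrable_const _).integrableOn hi.integrableOn hBm ?_
          intro z hz
          refine inv_anti₀ (FGe_pos G hε0 k x z.1) ?_
          have h6 : FG G k x z.1 ≤ ε := by
            rw [hε]
            unfold FG
            rw [ff_sq, ff_sq]
            have h7 : sn k (‖G.lg x z.1‖ / 2) ≤ sn k (δ / 2 / 2) :=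
              (sn_strictMono hk).monotone (by
                have : ‖G.lg x z.1‖ < δ / 2 := hz
                linarith)
            have h8 : 0 ≤ sn k (‖G.lg x z.1‖ / 2) := by
              have := (sn_strictMono hk).monotone
                (show 0 ≤ ‖G.lg x z.1‖ / 2 by positivity)
              rwa [sn_zero] at this
            have := pow_le_pow_left₀ h8 h7 2
            linarith
          linarith
      _ ≤ ∫ z, (FG G k x z.1 + ε)⁻¹ ∂V :=
          setIntegral_le_integral hi (Eventually.of_forall fun z =>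
            (inv_pos.2 (FGe_pos G hε0 k x z.1)).le)
  have h5 : ∫ z, (FG G k x z.1 + ε)⁻¹ ∂V ≤ C := by
    rw [hC, le_div_iff₀ hm2]
    linarith
  have h6 : V.real {z | ‖G.lg x z.1‖ < δ / 2} ≤ 2 * ε * C := by
    have h7 := h4.trans h5
    rwa [inv_mul_le_iff₀ (by positivity)] at h7
  have h7 : ε * (2 * (C + 1)) < η := by
    rwa [lt_div_iff₀ (by positivity)] at h2
  nlinarith

end Atom

/-- The field `bary` of `Lim`. -/
theorem bary_field (hk : 0 ≤ k) (hS : SnLe G k) {V : Measure (E n × E n)} [IsFiniteMeasure V]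
    {o : E n} {ρ : ℝ} (hV : ∀ᵐ z ∂V, ‖G.lg o z.1‖ ≤ ρ ∧ ‖z.2‖ = 1) (hne : V ≠ 0) {m H₀ : ℝ}
    (hm : 2 < m) (hmn : m = (n : ℝ) - 1)
    (stat : ∀ c, ‖G.lg o c‖ ≤ ρ → ∀ ψ : E n → ℝ, ContDiff ℝ ∞ ψ → (∀ x, 0 ≤ ψ x) →
      0 ≤ ∫ z, (H₀ * ψ z.1 * inner ℝ (D G.A (FG G k c) z.1) z.2 -
        m * (1 + k ^ 2 * FG G k c z.1) * ψ z.1 - Gam G.A ψ (FG G k c) z) ∂V) :
    ∀ f : E n → ℝ, Continuous f → (∀ x, 0 < f x) → ∃ c, ‖G.lg o c‖ ≤ ρ ∧ ∃ ε : ℝ, 0 < ε ∧
      k ^ 2 * ε < 2 ∧ ∃ θ : Fin (n + 1) → E n → ℝ, (∀ i, ContDiff ℝ ∞ (θ i)) ∧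
      (∀ x, ∑ i, θ i x ^ 2 = 1) ∧
      (∀ᵐ z ∂V, ∑ i, Gam G.A (θ i) (θ i) z ≤ m * bub (k ^ 2) (FG G k c) ε z.1 ^ 2) ∧
      ∀ i, ∫ z, θ i z.1 * f z.1 ∂V = 0 := by
  intro f hf hf0
  have hV1 : ∀ᵐ z ∂V, ‖G.lg o z.1‖ ≤ ρ := hV.mono fun z hz => hz.1
  obtain ⟨c, l, hmin⟩ := bary_min G hk hV1 (atom_of_stat G hk hm hV stat) hne hf hf0
  have hcl := bary_crit_l G hV1 hf hmin
  have hcc := bary_crit_c G hV1 hf hmin
  refine ⟨c, bary_mem G hk hV1 hne hf hf0 hcc, epsB k l, epsB_pos k l, epsB_lt k l,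
    thf G k c (epsB k l), fun i => thf_smooth G (epsB_pos k l) k c i,
    fun x => thf_sq G (epsB_pos k l) (epsB_lt k l) c x, ?_, ?_⟩
  · filter_upwards [hV] with z hz
    rw [hmn]
    exact thf_Gam G hk hS (epsB_pos k l) (epsB_lt k l) c z hz.2
  · intro i
    refine Fin.cases ?_ (fun j => ?_) i
    · exact hcl
    · have h1 := hcc (EuclideanSpace.single j (1 : ℝ))
      have h2 : ∀ z : E n × E n, thf G k c (epsB k l) j.succ z.1 * f z.1 =
          q0 k (epsB k l) * ((chi k (‖G.lg c z.1‖ ^ 2) *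
            inner ℝ (G.lg c z.1) (EuclideanSpace.single j (1 : ℝ)) /
            (FG G k c z.1 + epsB k l)) * f z.1) := by
        intro z
        rw [thf_succ, thv]
        simp only [EuclideanSpace.inner_single_right, PiLp.smul_apply, smul_eq_mul, one_mul,
          conj_trivial]
        ring
      simp only [h2]
      rw [integral_const_mul, h1, mul_zero]

end Vale.Agent.P219.End
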