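import Vale.Agent.P219.End.BaryGeo
import Vale.Agent.P219.SA.Func

/-! # The field `bary` of `Lim`, from `MonoSn` -/

open MeasureTheory Set Metric Filter Topology
open scoped ENNReal ContDiff

namespace Vale.Agent.P219.End

open Vale.Agent.P219.TP Vale.Agent.P219.TPH

variable {n : ℕ} (G : Geo n) {k : ℝ}

/-- `s → 0` in `MonoSn` -/
theorem snLe_of_monoSn (hM : MonoSn G k) : SnLe G k := by
  intro x v z hz
  have h1 : Tendsto (fun s : ℝ => sn k ‖v‖ * ‖G.T x (s • v) z‖) (nhdsWithin 0 (Ioi 0))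
      (nhds (sn k ‖v‖ * ‖z‖)) := by
    have hc : Continuous fun s : ℝ => sn k ‖v‖ * ‖G.T x (s • v) z‖ := by
      have hT : Continuous fun s : ℝ => G.T x (s • v) :=
        G.T_smooth.continuous.comp (continuous_const.prodMk (continuous_id.smul continuous_const))
      exact continuous_const.mul (hT.clm_apply continuous_const).norm
    have h2 := hc.tendsto 0
    simp only [zero_smul, G.T_zero] at h2
    exact h2.mono_left nhdsWithin_le_nhds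
  have h2 : Tendsto (fun s : ℝ => (sn k (s * ‖v‖) / s) * ‖G.T x v z‖)
      (nhdsWithin 0 (Ioi 0)) (nhds (‖v‖ * ‖G.T x v z‖)) := by
    refine Tendsto.mul_const _ ?_
    have h30 : HasDerivAt (fun s : ℝ => s * ‖v‖) (1 * ‖v‖) 0 := (hasDerivAt_id' 0).mul_const ‖v‖
    have h3 : HasDerivAt (fun s : ℝ => sn k (s * ‖v‖)) (cs k (0 * ‖v‖) * (1 * ‖v‖)) 0 :=
      HasDerivAt.comp (h₂ := sn k) (h := fun s : ℝ => s * ‖v‖) 0 (hasDerivAt_sn k (0 * ‖v‖)) h30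
    rw [zero_mul, cs_zero, one_mul, one_mul, hasDerivAt_iff_tendsto_slope] at h3
    have h4 := h3.mono_left (nhdsWithin_mono (0 : ℝ) (fun s (hs : s ∈ Ioi (0 : ℝ)) =>
      (ne_of_gt hs : s ∈ ({0}ᶜ : Set ℝ))))
    refine h4.congr' ?_
    filter_upwards [self_mem_nhdsWithin] with s _
    rw [slope_def_field, zero_mul, sn_zero, sub_zero, sub_zero]
  refine le_of_tendsto_of_tendsto h1 h2 ?_
  have h5 : Ioc (0 : ℝ) 1 ∈ nhdsWithin (0 : ℝ) (Ioi 0) := Ioc_mem_nhdsGT zero_lt_one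
  filter_upwards [h5] with s hs
  have h6 := hM x v z s hz hs.1 hs.2
  rw [div_mul_eq_mul_div, le_div_iff₀ hs.1]
  linarith

/-- The field `bary` of `Lim`: everything from the stationarity. -/
theorem bary_of_mono (hn : 4 ≤ n) (hk : 0 ≤ k) (hM : MonoSn G k) {V : Measure (E n × E n)}
    [IsFiniteMeasure V] {o : E n} {ρ : ℝ} (hV : ∀ᵐ z ∂V, ‖G.lg o z.1‖ ≤ ρ ∧ ‖z.2‖ = 1)
    (hne : V ≠ 0) {H₀ : ℝ}
    (stat : ∀ c, ‖G.lg o c‖ ≤ ρ → ∀ ψ : E n → ℝ, ContDiff ℝ ∞ ψ → (∀ x, 0 ≤ ψ x) →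
      0 ≤ ∫ z, (H₀ * ψ z.1 * inner ℝ (D G.A (FG G k c) z.1) z.2 -
        ((n : ℝ) - 1) * (1 + k ^ 2 * FG G k c z.1) * ψ z.1 - Gam G.A ψ (FG G k c) z) ∂V) :
    ∀ f : E n → ℝ, ContDiff ℝ ∞ f → (∀ x, 0 < f x) → ∃ c ∈ {x | ‖G.lg o x‖ ≤ ρ}, ∃ ε : ℝ, 0 < ε ∧
      k ^ 2 * ε < 2 ∧ ∃ θ : Fin (n + 1) → E n → ℝ, (∀ i, ContDiff ℝ ∞ (θ i)) ∧
      (∀ x, ∑ i, θ i x ^ 2 = 1) ∧
      (∀ᵐ z ∂V, ∑ i, Gam G.A (θ i) (θ i) z ≤
        ((n : ℝ) - 1) * bub (k ^ 2) (FG G k c) ε z.1 ^ 2) ∧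
      ∀ i, ∫ z, θ i z.1 * f z.1 ∂V = 0 := by
  intro f hf hf0
  have h4 : (4 : ℝ) ≤ n := by exact_mod_cast hn
  obtain ⟨c, hc, h⟩ := bary_field G hk (snLe_of_monoSn G hM) hV hne (m := (n : ℝ) - 1)
    (by linarith) rfl stat f hf.continuous hf0
  exact ⟨c, hc, h⟩

end Vale.Agent.P219.End
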