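import Vale.Agent.P219.End.Defs

/-!
# P219 / End : calculus of the frame gradient, integrability, the positive functional `Dl`
-/

open MeasureTheory Set Metric
open scoped ENNReal ContDiff

namespace Vale.Agent.P219.End

variable {n : ℕ}

section frame

variable {A : E n → E n →L[ℝ] E n} {u v : E n → ℝ} {x : E n}

theorem inner_D (A : E n → E n →L[ℝ] E n) (u : E n → ℝ) (x y : E n) :
    inner ℝ (D A u x) y = fderiv ℝ u x (A x y) := by
  unfold D
  rw [InnerProductSpace.toDual_symm_apply]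
  rfl

theorem D_eq_of_fderiv {x : E n} {d : E n →L[ℝ] ℝ} (h : fderiv ℝ u x = d) :
    D A u x = (InnerProductSpace.toDual ℝ (E n)).symm (d.comp (A x)) := by
  unfold D
  rw [h]

theorem D_continuous (hA : Continuous A) (hu : ContDiff ℝ 1 u) : Continuous (D A u) := by
  unfold D
  refine (InnerProductSpace.toDual ℝ (E n)).symm.continuous.comp ?_
  exact (hu.continuous_fderiv (by norm_num)).clm_comp hA

theorem D_add (hu : DifferentiableAt ℝ u x) (hv : DifferentiableAt ℝ v x) :
    D A (fun y => u y + v y) x = D A u x + D A v x := by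
  unfold D
  have : fderiv ℝ (fun y => u y + v y) x = fderiv ℝ u x + fderiv ℝ v x := fderiv_fun_add hu hv
  rw [this, ContinuousLinearMap.add_comp, map_add]

theorem D_sub (hu : DifferentiableAt ℝ u x) (hv : DifferentiableAt ℝ v x) :
    D A (fun y => u y - v y) x = D A u x - D A v x := by
  unfold D
  have : fderiv ℝ (fun y => u y - v y) x = fderiv ℝ u x - fderiv ℝ v x := fderiv_fun_sub hu hv
  rw [this, ContinuousLinearMap.sub_comp, map_sub]

theorem D_mul (hu : DifferentiableAt ℝ u x) (hv : DifferentiableAt ℝ v x) :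
    D A (fun y => u y * v y) x = u x • D A v x + v x • D A u x := by
  unfold D
  have : fderiv ℝ (fun y => u y * v y) x = u x • fderiv ℝ v x + v x • fderiv ℝ u x :=
    fderiv_fun_mul hu hv
  rw [this, ContinuousLinearMap.add_comp, map_add, ContinuousLinearMap.smul_comp,
    ContinuousLinearMap.smul_comp, map_smul, map_smul]

theorem D_const (A : E n → E n →L[ℝ] E n) (a : ℝ) (x : E n) : D A (fun _ => a) x = 0 := by
  unfold D
  have : fderiv ℝ (fun _ : E n => a) x = 0 := fderiv_const_apply a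
  rw [this, ContinuousLinearMap.zero_comp, map_zero]

theorem D_const_mul (a : ℝ) (hu : DifferentiableAt ℝ u x) :
    D A (fun y => a * u y) x = a • D A u x := by
  rw [D_mul (differentiableAt_const a) hu, D_const, smul_zero, add_zero]

/-- chain rule -/
theorem D_comp {f : ℝ → ℝ} {f' : ℝ} (hf : HasDerivAt f f' (u x)) (hu : DifferentiableAt ℝ u x) :
    D A (fun y => f (u y)) x = f' • D A u x := by
  unfold D
  have : fderiv ℝ (fun y => f (u y)) x = f' • fderiv ℝ u x :=
    (hf.comp_hasFDerivAt x hu.hasFDerivAt).fderiv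
  rw [this, ContinuousLinearMap.smul_comp, map_smul]

theorem D_congr (h : u =ᶠ[nhds x] v) : D A u x = D A v x := by
  unfold D
  rw [h.fderiv_eq]

end frame

/-- The tangential scalar product of two vectors. -/
noncomputable def gv (a b ν : E n) : ℝ := inner ℝ a b - inner ℝ a ν * inner ℝ b ν

theorem Gam_eq (A : E n → E n →L[ℝ] E n) (u v : E n → ℝ) (z : E n × E n) :
    Gam A u v z = gv (D A u z.1) (D A v z.1) z.2 := rfl

theorem gv_comm (a b ν : E n) : gv a b ν = gv b a ν := by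
  unfold gv
  rw [real_inner_comm b a]
  ring

theorem gv_add_left (a a' b ν : E n) : gv (a + a') b ν = gv a b ν + gv a' b ν := by
  unfold gv
  rw [inner_add_left, inner_add_left]
  ring

theorem gv_smul_left (r : ℝ) (a b ν : E n) : gv (r • a) b ν = r * gv a b ν := by
  unfold gv
  rw [real_inner_smul_left, real_inner_smul_left]
  ring

theorem gv_add_right (a b b' ν : E n) : gv a (b + b') ν = gv a b ν + gv a b' ν := by
  rw [gv_comm, gv_add_left, gv_comm b, gv_comm b']

theorem gv_smul_right (r : ℝ) (a b ν : E n) : gv a (r • b) ν = r * gv a b ν := by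
  rw [gv_comm, gv_smul_left, gv_comm b]

theorem gv_sub_left (a a' b ν : E n) : gv (a - a') b ν = gv a b ν - gv a' b ν := by
  unfold gv
  rw [inner_sub_left, inner_sub_left]
  ring

theorem gv_zero_left (b ν : E n) : gv 0 b ν = 0 := by
  unfold gv
  simp

theorem gv_sum_left {ι : Type*} (s : Finset ι) (a : ι → E n) (b ν : E n) :
    gv (∑ i ∈ s, a i) b ν = ∑ i ∈ s, gv (a i) b ν := by
  unfold gv
  rw [sum_inner, sum_inner, Finset.sum_mul, ← Finset.sum_sub_distrib]

theorem gv_self (a ν : E n) : gv a a ν = ‖a‖ ^ 2 - inner ℝ a ν ^ 2 := by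
  unfold gv
  rw [real_inner_self_eq_norm_sq]
  ring

theorem gv_self_nonneg {ν : E n} (hν : ‖ν‖ ≤ 1) (a : E n) : 0 ≤ gv a a ν := by
  rw [gv_self]
  have h1 : |inner ℝ a ν| ≤ ‖a‖ := by
    refine (abs_real_inner_le_norm a ν).trans ?_
    exact mul_le_of_le_one_right (norm_nonneg a) hν
  have h2 := sq_le_sq' (by linarith [neg_abs_le (inner ℝ a ν)]) ((le_abs_self _).trans h1)
  linarith [sq_abs (inner ℝ a ν)]

theorem gv_self_le (a ν : E n) : gv a a ν ≤ ‖a‖ ^ 2 := by
  rw [gv_self]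
  linarith [sq_nonneg (inner ℝ a ν)]

/-- Cauchy-Schwarz for the tangential scalar product -/
theorem gv_sq_le {ν : E n} (hν : ‖ν‖ ≤ 1) (a b : E n) : gv a b ν ^ 2 ≤ gv a a ν * gv b b ν := by
  have key : ∀ t : ℝ, 0 ≤ gv b b ν * (t * t) + 2 * gv a b ν * t + gv a a ν := by
    intro t
    have h := gv_self_nonneg hν (a + t • b)
    rw [gv_add_left, gv_add_right, gv_add_right, gv_smul_left, gv_smul_left, gv_smul_right,
      gv_smul_right, gv_comm b a] at h
    linarith
  have h := discrim_le_zero key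
  unfold discrim at h
  nlinarith

theorem gv_abs_le {ν : E n} (hν : ‖ν‖ ≤ 1) (a b : E n) :
    |gv a b ν| ≤ √(gv a a ν) * √(gv b b ν) := by
  rw [← Real.sqrt_mul (gv_self_nonneg hν a)]
  exact Real.abs_le_sqrt (gv_sq_le hν a b)

theorem gv_le_half {ν : E n} (hν : ‖ν‖ ≤ 1) (a b : E n) :
    |gv a b ν| ≤ (gv a a ν + gv b b ν) / 2 := by
  have h1 := gv_self_nonneg hν (a + b)
  have h2 := gv_self_nonneg hν (a - b)
  have e1 : gv (a + b) (a + b) ν = gv a a ν + 2 * gv a b ν + gv b b ν := by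
    rw [gv_add_left, gv_add_right, gv_add_right, gv_comm b a]
    ring
  have e2 : gv (a - b) (a - b) ν = gv a a ν - 2 * gv a b ν + gv b b ν := by
    rw [gv_sub_left, gv_comm a, gv_comm b, gv_sub_left, gv_sub_left, gv_comm b a]
    ring
  rw [abs_le]
  constructor <;> linarith

theorem Gam_continuous {A : E n → E n →L[ℝ] E n} {u v : E n → ℝ} (hA : Continuous A)
    (hu : ContDiff ℝ 1 u) (hv : ContDiff ℝ 1 v) : Continuous (Gam A u v) := by
  have h1 := (D_continuous hA hu).comp (continuous_fst (X := E n) (Y := E n))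
  have h2 := (D_continuous hA hv).comp (continuous_fst (X := E n) (Y := E n))
  unfold Gam
  exact (h1.inner h2).sub ((h1.inner continuous_snd).mul (h2.inner continuous_snd))

namespace Lim

variable (L : Lim n)

instance : IsFiniteMeasure L.V := L.V_fin

/-- a continuous function is integrable -/
theorem integrable_of_cont {f : E n × E n → ℝ} (hf : Continuous f) : Integrable f L.V := by
  have hK : IsCompact (L.K ×ˢ sphere (0 : E n) 1) := L.K_compact.prod (isCompact_sphere 0 1)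
  obtain ⟨C, hC⟩ := hK.exists_bound_of_continuousOn hf.continuousOn
  refine Integrable.of_bound hf.aestronglyMeasurable C ?_
  filter_upwards [L.V_supp] with z hz
  exact hC z ⟨hz.1, by simpa using hz.2⟩

/-- two continuous functions which are comparable over `K` and unit vectors -/
theorem integral_mono_of {f g : E n × E n → ℝ} (hf : Continuous f) (hg : Continuous g)
    (h : ∀ z : E n × E n, z.1 ∈ L.K → ‖z.2‖ = 1 → f z ≤ g z) :
    ∫ z, f z ∂L.V ≤ ∫ z, g z ∂L.V := by
  refine integral_mono_ae (L.integrable_of_cont hf) (L.integrable_of_cont hg) ?_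
  filter_upwards [L.V_supp] with z hz
  exact h z hz.1 hz.2

theorem integral_nonneg_of {f : E n × E n → ℝ}
    (h : ∀ z : E n × E n, z.1 ∈ L.K → ‖z.2‖ = 1 → 0 ≤ f z) : 0 ≤ ∫ z, f z ∂L.V := by
  refine integral_nonneg_of_ae ?_
  filter_upwards [L.V_supp] with z hz
  exact h z hz.1 hz.2

theorem integral_congr_of {f g : E n × E n → ℝ}
    (h : ∀ z : E n × E n, z.1 ∈ L.K → ‖z.2‖ = 1 → f z = g z) :
    ∫ z, f z ∂L.V = ∫ z, g z ∂L.V := by
  refine integral_congr_ae ?_
  filter_upwards [L.V_supp] with z hz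
  exact h z hz.1 hz.2

theorem m_pos : 0 < L.m := by linarith [L.three_le]

theorem m_sub_pos : 0 < L.m - 2 := by linarith [L.three_le]

theorem Fc_smooth (c : E n) : ContDiff ℝ ∞ (L.F c) :=
  L.F_smooth.comp (contDiff_const.prodMk contDiff_id)

theorem Fc_smooth1 (c : E n) : ContDiff ℝ 1 (L.F c) := (L.Fc_smooth c).of_le (by exact_mod_cast le_top)

theorem Fc_cont (c : E n) : Continuous (L.F c) := (L.Fc_smooth c).continuous

theorem D_cont {u : E n → ℝ} (hu : ContDiff ℝ 1 u) : Continuous (D L.A u) :=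
  D_continuous L.A_cont hu

theorem G_cont {u v : E n → ℝ} (hu : ContDiff ℝ 1 u) (hv : ContDiff ℝ 1 v) :
    Continuous (L.G u v) := Gam_continuous L.A_cont hu hv

theorem nc_cont (c : E n) : Continuous (L.nc c) := by
  unfold nc
  exact ((L.D_cont (L.Fc_smooth1 c)).comp continuous_fst).inner continuous_snd

theorem G_self_nonneg (u : E n → ℝ) {z : E n × E n} (hz : ‖z.2‖ = 1) : 0 ≤ L.G u u z :=
  gv_self_nonneg hz.le _

theorem G_comm (u v : E n → ℝ) (z : E n × E n) : L.G u v z = L.G v u z := gv_comm _ _ _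

/-- `|∇F_c|² = G(F_c, F_c) + n_c²` -/
theorem G_FF (c : E n) (z : E n × E n) :
    L.G (L.F c) (L.F c) z = 2 * L.F c z.1 + L.k2 * L.F c z.1 ^ 2 - L.nc c z ^ 2 := by
  have h : L.G (L.F c) (L.F c) z = ‖D L.A (L.F c) z.1‖ ^ 2 - L.nc c z ^ 2 := gv_self _ _
  rw [h, L.grad]

/-- the integrand of `Dl` -/
noncomputable def dl (c : E n) (ψ : E n → ℝ) (z : E n × E n) : ℝ :=
  L.H0 * ψ z.1 * L.nc c z - L.m * (1 + L.k2 * L.F c z.1) * ψ z.1 - L.G ψ (L.F c) z

theorem Dl_eq (c : E n) (ψ : E n → ℝ) : L.Dl c ψ = ∫ z, L.dl c ψ z ∂L.V := rfl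

theorem dl_cont (c : E n) {ψ : E n → ℝ} (hψ : ContDiff ℝ 1 ψ) : Continuous (L.dl c ψ) := by
  have h1 := L.nc_cont c
  have h2 := L.G_cont hψ (L.Fc_smooth1 c)
  have h3 : Continuous fun z : E n × E n => ψ z.1 := hψ.continuous.comp continuous_fst
  have h4 : Continuous fun z : E n × E n => L.F c z.1 := (L.Fc_cont c).comp continuous_fst
  unfold dl
  fun_prop

theorem dl_integrable (c : E n) {ψ : E n → ℝ} (hψ : ContDiff ℝ 1 ψ) :
    Integrable (L.dl c ψ) L.V := L.integrable_of_cont (L.dl_cont c hψ)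

theorem Dl_nonneg {c : E n} (hc : c ∈ L.K) {ψ : E n → ℝ} (hψ : ContDiff ℝ ∞ ψ)
    (h0 : ∀ x, 0 ≤ ψ x) : 0 ≤ L.Dl c ψ := L.stat c hc ψ hψ h0

theorem Dl_sub (c : E n) {ψ ψ' : E n → ℝ} (h : ContDiff ℝ 1 ψ) (h' : ContDiff ℝ 1 ψ') :
    L.Dl c (fun x => ψ x - ψ' x) = L.Dl c ψ - L.Dl c ψ' := by
  rw [Dl_eq, Dl_eq, Dl_eq, ← integral_sub (L.dl_integrable c h) (L.dl_integrable c h')]
  refine integral_congr_ae (Filter.Eventually.of_forall fun z => ?_)
  have e : L.G (fun x => ψ x - ψ' x) (L.F c) z = L.G ψ (L.F c) z - L.G ψ' (L.F c) z := by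
    show gv _ _ _ = gv _ _ _ - gv _ _ _
    rw [D_sub (h.differentiable (by norm_num) _) (h'.differentiable (by norm_num) _), gv_sub_left]
  simp only [dl, e]
  ring

theorem Dl_add (c : E n) {ψ ψ' : E n → ℝ} (h : ContDiff ℝ 1 ψ) (h' : ContDiff ℝ 1 ψ') :
    L.Dl c (fun x => ψ x + ψ' x) = L.Dl c ψ + L.Dl c ψ' := by
  rw [Dl_eq, Dl_eq, Dl_eq, ← integral_add (L.dl_integrable c h) (L.dl_integrable c h')]
  refine integral_congr_ae (Filter.Eventually.of_forall fun z => ?_)
  have e : L.G (fun x => ψ x + ψ' x) (L.F c) z = L.G ψ (L.F c) z + L.G ψ' (L.F c) z := by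
    show gv _ _ _ = gv _ _ _ + gv _ _ _
    rw [D_add (h.differentiable (by norm_num) _) (h'.differentiable (by norm_num) _), gv_add_left]
  simp only [dl, e]
  ring

theorem Dl_smul (c : E n) (a : ℝ) {ψ : E n → ℝ} (h : ContDiff ℝ 1 ψ) :
    L.Dl c (fun x => a * ψ x) = a * L.Dl c ψ := by
  rw [Dl_eq, Dl_eq, ← integral_const_mul]
  refine integral_congr_ae (Filter.Eventually.of_forall fun z => ?_)
  have e : L.G (fun x => a * ψ x) (L.F c) z = a * L.G ψ (L.F c) z := by
    show gv _ _ _ = a * gv _ _ _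
    rw [D_const_mul a (h.differentiable (by norm_num) _), gv_smul_left]
  simp only [dl, e]
  ring

/-- `Dl` is monotone -/
theorem Dl_mono {c : E n} (hc : c ∈ L.K) {ψ ψ' : E n → ℝ} (h : ContDiff ℝ ∞ ψ)
    (h' : ContDiff ℝ ∞ ψ') (hle : ∀ x, ψ x ≤ ψ' x) : L.Dl c ψ ≤ L.Dl c ψ' := by
  have h1 := L.Dl_nonneg hc (h'.sub h) (fun x => sub_nonneg.2 (hle x))
  have h2 := L.Dl_sub c (h'.of_le (by exact_mod_cast le_top) : ContDiff ℝ 1 ψ')
    (h.of_le (by exact_mod_cast le_top) : ContDiff ℝ 1 ψ)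
  rw [h2] at h1
  linarith

end Lim

end Vale.Agent.P219.End
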