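import Vale.Agent.P219.End.Bub
import Vale.Agent.P219.End.Alg

/-!
# P219 / End : algebra of the bubble `ws`

`gk s = √(1 - k2 s² / 4)`; everything is proved for `0 < s`, `k2 s² < 4` (`Ad.spos`, `Ad.lt4`).
-/

open MeasureTheory Set Metric
open scoped ENNReal ContDiff Topology

namespace Vale.Agent.P219.End

variable {n : ℕ}

namespace Lim

variable (L : Lim n)

/-- `g_s = √(1 - k2 s² / 4)` -/
noncomputable def gk (s : ℝ) : ℝ := √(1 - L.k2 * s ^ 2 / 4)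

/-- the zeroth component of the map to the sphere -/
noncomputable def th (c : E n) (s : ℝ) (x : E n) : ℝ :=
  (s ^ 2 - 2 * L.F c x + L.k2 * s ^ 2 * L.F c x) / (s ^ 2 + 2 * L.F c x)

variable {L}

theorem Ad.spos {s : ℝ} (hs : L.Ad s) : 0 < s := hs.1

theorem Ad.le_one {s : ℝ} (hs : L.Ad s) : s ≤ 1 := hs.2.1

theorem Ad.lt4 {s : ℝ} (hs : L.Ad s) : L.k2 * s ^ 2 < 4 := by linarith [hs.2.2]

theorem Ad.mono {s t : ℝ} (hs : L.Ad s) (ht : 0 < t) (hts : t ≤ s) : L.Ad t := by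
  refine ⟨ht, hts.trans hs.2.1, ?_⟩
  have : t ^ 2 ≤ s ^ 2 := by gcongr
  exact (mul_le_mul_of_nonneg_left this L.k2_nonneg).trans hs.2.2

variable (L)

theorem gk_sq {s : ℝ} (h4 : L.k2 * s ^ 2 < 4) : L.gk s ^ 2 = 1 - L.k2 * s ^ 2 / 4 := by
  unfold gk
  rw [Real.sq_sqrt]; linarith

theorem gk_pos {s : ℝ} (h4 : L.k2 * s ^ 2 < 4) : 0 < L.gk s := by
  unfold gk
  apply Real.sqrt_pos.mpr; linarith

theorem gk_nonneg (s : ℝ) : 0 ≤ L.gk s := Real.sqrt_nonneg _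

theorem gk_le_one (s : ℝ) : L.gk s ≤ 1 := by
  unfold gk
  have h : 1 - L.k2 * s ^ 2 / 4 ≤ 1 := by
    nlinarith [sq_nonneg s, mul_nonneg L.k2_nonneg (sq_nonneg s)]
  calc √(1 - L.k2 * s ^ 2 / 4) ≤ √1 := Real.sqrt_le_sqrt h
    _ = 1 := Real.sqrt_one

theorem half_le_gk {s : ℝ} (hs : L.Ad s) : 1 / 2 ≤ L.gk s := by
  unfold gk
  apply Real.le_sqrt_of_sq_le
  linarith [hs.2.2]

theorem gk_anti {s s1 : ℝ} (hs : 0 ≤ s) (h : s ≤ s1) : L.gk s1 ≤ L.gk s := by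
  unfold gk
  apply Real.sqrt_le_sqrt
  have : s ^ 2 ≤ s1 ^ 2 := by gcongr
  linarith [mul_le_mul_of_nonneg_left this L.k2_nonneg]

theorem den_pos {s : ℝ} (hs : 0 < s) (c x : E n) : 0 < L.F c x + s ^ 2 / 2 := by
  have := L.F_nonneg c x
  positivity

theorem den2_pos {s : ℝ} (hs : 0 < s) (c x : E n) : 0 < s ^ 2 + 2 * L.F c x := by
  have := L.F_nonneg c x
  positivity

theorem ds_sq (c x : E n) : L.ds c x ^ 2 = 2 * L.F c x := by
  unfold ds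
  have := L.F_nonneg c x
  rw [Real.sq_sqrt (by positivity)]

theorem ds_nonneg (c x : E n) : 0 ≤ L.ds c x := Real.sqrt_nonneg _

theorem ds_cont (c : E n) : Continuous (L.ds c) := by
  unfold ds
  exact (continuous_const.mul (L.Fc_cont c)).sqrt

theorem ws_wb (c : E n) (s : ℝ) (x : E n) : L.ws c s x = Alg.wb L.k2 (s ^ 2 / 2) (L.F c x) := rfl

theorem th_th0 (c : E n) {s : ℝ} (hs : 0 < s) (x : E n) :
    L.th c s x = Alg.th0 L.k2 (s ^ 2 / 2) (L.F c x) := by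
  have h' := L.den2_pos hs c x
  have e : L.F c x + s ^ 2 / 2 = (s ^ 2 + 2 * L.F c x) / 2 := by ring
  unfold th Alg.th0
  rw [e]
  field_simp

theorem eps_lt {s : ℝ} (h4 : L.k2 * s ^ 2 < 4) : L.k2 * (s ^ 2 / 2) < 2 := by linarith

theorem cf_eq {s : ℝ} (hs : 0 < s) :
    √(s ^ 2 / 2 * (2 - L.k2 * (s ^ 2 / 2))) = s * L.gk s := by
  have e : s ^ 2 / 2 * (2 - L.k2 * (s ^ 2 / 2)) = s ^ 2 * (1 - L.k2 * s ^ 2 / 4) := by ring
  rw [e, Real.sqrt_mul (by positivity), Real.sqrt_sq hs.le]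
  rfl

theorem ws_eq' {s : ℝ} (hs : 0 < s) (c x : E n) :
    L.ws c s x = s * L.gk s / (L.F c x + s ^ 2 / 2) := by
  rw [ws_wb]
  unfold Alg.wb
  rw [L.cf_eq hs]

/-- B1a -/
theorem ws_eq {s : ℝ} (hs : L.Ad s) (c x : E n) :
    L.ws c s x = s * √(1 - L.k2 * s ^ 2 / 4) / (L.F c x + s ^ 2 / 2) := L.ws_eq' hs.spos c x

theorem ws_eq2 {s : ℝ} (hs : 0 < s) (c x : E n) :
    L.ws c s x = 2 * s * L.gk s / (s ^ 2 + L.ds c x ^ 2) := by
  have h := L.den_pos hs c x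
  have h' := L.den2_pos hs c x
  rw [L.ws_eq' hs, L.ds_sq]
  field_simp
  ring

theorem ws_pos {s : ℝ} (hs : 0 < s) (h4 : L.k2 * s ^ 2 < 4) (c x : E n) : 0 < L.ws c s x := by
  rw [L.ws_eq' hs]
  have h := L.den_pos hs c x
  have h1 := L.gk_pos h4
  positivity

theorem ws_nonneg {s : ℝ} (hs : 0 < s) (c x : E n) : 0 ≤ L.ws c s x := by
  rw [L.ws_eq' hs]
  have h := L.den_pos hs c x
  have h1 := L.gk_nonneg s
  positivity

theorem ws_smooth1 {s : ℝ} (hs : 0 < s) (c : E n) : ContDiff ℝ ∞ (L.ws c s) := by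
  have e : L.ws c s = fun x => s * L.gk s / (L.F c x + s ^ 2 / 2) := by
    ext x; exact L.ws_eq' hs c x
  rw [e]
  exact contDiff_const.div ((L.Fc_smooth c).add contDiff_const) fun x => (L.den_pos hs c x).ne'

theorem ws_smooth' {s : ℝ} (hs : 0 < s) (h4 : L.k2 * s ^ 2 < 4) (c : E n) (a : ℝ) :
    ContDiff ℝ ∞ fun x => L.ws c s x ^ a :=
  (L.ws_smooth1 hs c).rpow_const_of_ne fun x => (L.ws_pos hs h4 c x).ne'

/-- B1b -/
theorem ws_smooth {s : ℝ} (hs : L.Ad s) (c : E n) (a : ℝ) :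
    ContDiff ℝ ∞ fun x => L.ws c s x ^ a := L.ws_smooth' hs.spos hs.lt4 c a

theorem ws_le {s : ℝ} (hs : 0 < s) (c x : E n) :
    L.ws c s x ≤ 2 * s / (s ^ 2 + L.ds c x ^ 2) := by
  rw [L.ws_eq2 hs]
  have h : 0 < s ^ 2 + L.ds c x ^ 2 := by rw [L.ds_sq]; exact L.den2_pos hs c x
  have h1 := L.gk_le_one s
  have : 2 * s * L.gk s ≤ 2 * s := mul_le_of_le_one_right (by positivity) h1
  exact div_le_div_of_nonneg_right this h.le

theorem le_ws {s : ℝ} (hs : L.Ad s) (c x : E n) :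
    2 * s / (s ^ 2 + L.ds c x ^ 2) ≤ 2 * L.ws c s x := by
  rw [L.ws_eq2 hs.spos]
  have hs0 := hs.spos
  have h : 0 < s ^ 2 + L.ds c x ^ 2 := by rw [L.ds_sq]; exact L.den2_pos hs.spos c x
  have h1 := L.half_le_gk hs
  rw [← mul_div_assoc]
  refine div_le_div_of_nonneg_right ?_ h.le
  nlinarith [mul_le_mul_of_nonneg_left h1 hs0.le]

/-- B1c comparison of two scales, `w ≤ 2 s / (s² + d²) ≤ 2 w` -/
theorem ws_bounds {s : ℝ} (hs : L.Ad s) (c x : E n) : 0 < L.ws c s x ∧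
    L.ws c s x ≤ 2 * s / (s ^ 2 + L.ds c x ^ 2) ∧
    2 * s / (s ^ 2 + L.ds c x ^ 2) ≤ 2 * L.ws c s x :=
  ⟨L.ws_pos hs.spos hs.lt4 c x, L.ws_le hs.spos c x, L.le_ws hs c x⟩

theorem ws_le_two_div {s : ℝ} (hs : 0 < s) (c x : E n) : L.ws c s x ≤ 2 / s := by
  refine (L.ws_le hs c x).trans ?_
  have h : 0 < s ^ 2 + L.ds c x ^ 2 := by rw [L.ds_sq]; exact L.den2_pos hs c x
  rw [div_le_div_iff₀ h hs]
  nlinarith [sq_nonneg (L.ds c x)]

theorem ws_le_far {s : ℝ} (hs : 0 < s) (c x : E n) (hd : 0 < L.ds c x) :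
    L.ws c s x ≤ 2 * s / L.ds c x ^ 2 := by
  refine (L.ws_le hs c x).trans ?_
  gcongr
  nlinarith [sq_nonneg s]

/-- `w (F + s²/2) = s g_s` -/
theorem ws_mul_den {s : ℝ} (hs : 0 < s) (c x : E n) :
    L.ws c s x * (L.F c x + s ^ 2 / 2) = s * L.gk s := by
  rw [L.ws_eq' hs]
  have h := L.den_pos hs c x
  exact div_mul_cancel₀ _ h.ne'

theorem inv_den {s : ℝ} (hs : 0 < s) (h4 : L.k2 * s ^ 2 < 4) (c x : E n) :
    1 / (L.F c x + s ^ 2 / 2) = L.ws c s x / (s * L.gk s) := by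
  rw [L.ws_eq' hs]
  have h := L.den_pos hs c x
  have h1 := L.gk_pos h4
  field_simp

/-- `w² |DF|² ≤ 1` -/
theorem ws_sq_mul_le {s : ℝ} (hs : 0 < s) (h4 : L.k2 * s ^ 2 < 4) (c x : E n) :
    L.ws c s x ^ 2 * ‖D L.A (L.F c) x‖ ^ 2 ≤ 1 := by
  rw [L.grad]
  exact Alg.wb_sq_mul_le_one (by positivity) (L.eps_lt h4).le (L.F_nonneg c x)

theorem th_sq {s : ℝ} (hs : 0 < s) (h4 : L.k2 * s ^ 2 < 4) (c x : E n) :
    L.th c s x ^ 2 + L.ws c s x ^ 2 * (2 * L.F c x + L.k2 * L.F c x ^ 2) = 1 := by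
  rw [L.th_th0 c hs]
  exact Alg.th_sq (by positivity) (L.eps_lt h4).le (L.F_nonneg c x)

theorem abs_th_le_one {s : ℝ} (hs : 0 < s) (h4 : L.k2 * s ^ 2 < 4) (c x : E n) :
    |L.th c s x| ≤ 1 := by
  rw [L.th_th0 c hs]
  exact Alg.abs_th0_le_one L.k2_nonneg (by positivity) (L.eps_lt h4).le (L.F_nonneg c x)

/-! ### gradients -/

theorem F_diff (c x : E n) : DifferentiableAt ℝ (L.F c) x :=
  (L.Fc_smooth1 c).differentiable (by norm_num) x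

/-- gradient of a power of the bubble -/
theorem D_ws_rpow {s : ℝ} (hs : 0 < s) (h4 : L.k2 * s ^ 2 < 4) (c : E n) (a : ℝ) (x : E n) :
    D L.A (fun y => L.ws c s y ^ a) x
      = (-(a * L.ws c s x ^ a / (L.F c x + s ^ 2 / 2))) • D L.A (L.F c) x := by
  have h := Alg.hasDerivAt_wb_rpow_f a (k2 := L.k2) (ε := s ^ 2 / 2) (f := L.F c x)
    (by positivity) (L.eps_lt h4) (L.F_nonneg c x)
  exact D_comp h (L.F_diff c x)

/-- gradient of the bubble -/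
theorem D_ws {s : ℝ} (hs : 0 < s) (c : E n) (x : E n) :
    D L.A (L.ws c s) x
      = (-(L.ws c s x / (L.F c x + s ^ 2 / 2))) • D L.A (L.F c) x := by
  have h := Alg.hasDerivAt_wb_f (k2 := L.k2) (ε := s ^ 2 / 2) (f := L.F c x)
    (by positivity) (L.F_nonneg c x)
  exact D_comp h (L.F_diff c x)

/-- gradient of `1 / (F + s²/2)` -/
theorem D_inv_den {s : ℝ} (hs : 0 < s) (c : E n) (x : E n) :
    D L.A (fun y => 1 / (L.F c y + s ^ 2 / 2)) x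
      = (-(1 / (L.F c x + s ^ 2 / 2) ^ 2)) • D L.A (L.F c) x := by
  have hd := L.den_pos hs c x
  have h : HasDerivAt (fun t : ℝ => 1 / (t + s ^ 2 / 2)) (-(1 / (L.F c x + s ^ 2 / 2) ^ 2))
      (L.F c x) := by
    have h1 : HasDerivAt (fun t : ℝ => t + s ^ 2 / 2) 1 (L.F c x) := by
      simpa using (hasDerivAt_id (L.F c x)).add_const (s ^ 2 / 2)
    have h2 := h1.inv hd.ne'
    simp only [one_div]
    refine h2.congr_deriv ?_
    field_simp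
  exact D_comp h (L.F_diff c x)

/-! ### the scale derivative -/

theorem hasDerivAt_ws_s {s : ℝ} (hs : 0 < s) (h4 : L.k2 * s ^ 2 < 4) (c x : E n) :
    HasDerivAt (fun s => L.ws c s x)
      (-(L.th c s x * L.ws c s x / (s * (1 - L.k2 * s ^ 2 / 4)))) s := by
  have h := Alg.hasDerivAt_wb_eps (k2 := L.k2) (ε := s ^ 2 / 2) (f := L.F c x)
    (by positivity) (L.eps_lt h4) (L.F_nonneg c x)
  have h2 : HasDerivAt (fun s : ℝ => s ^ 2 / 2) s s := by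
    have := (hasDerivAt_pow 2 s).div_const 2
    refine this.congr_deriv ?_
    simp
  have h3 := h.comp s h2
  refine h3.congr_deriv ?_
  rw [← L.ws_wb, ← L.th_th0 c hs]
  have e : s ^ 2 / 2 * (2 - L.k2 * (s ^ 2 / 2)) = s * (s * (1 - L.k2 * s ^ 2 / 4)) := by ring
  rw [e]
  have h5 : 0 < 1 - L.k2 * s ^ 2 / 4 := by linarith
  field_simp

theorem hasDerivAt_ws_rpow_s {s : ℝ} (hs : 0 < s) (h4 : L.k2 * s ^ 2 < 4) (c x : E n) (a : ℝ) :
    HasDerivAt (fun s => L.ws c s x ^ a)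
      (-(a * L.th c s x * L.ws c s x ^ a / (s * (1 - L.k2 * s ^ 2 / 4)))) s := by
  have hw := L.ws_pos hs h4 c x
  have h := (L.hasDerivAt_ws_s hs h4 c x).rpow_const (p := a) (Or.inl hw.ne')
  refine h.congr_deriv ?_
  have e : L.ws c s x ^ a = L.ws c s x ^ (a - 1) * L.ws c s x := by
    rw [← Real.rpow_add_one hw.ne']; ring_nf
  rw [e]; ring

/-- the integrand of `Dl c (Φ w^m)`: `s g_s² ∂_s (Φ w^m)` plus lower order terms -/
theorem dl_ws {s : ℝ} (hs : 0 < s) (h4 : L.k2 * s ^ 2 < 4) (c : E n) {Φ : E n → ℝ}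
    (hΦ : Differentiable ℝ Φ) (z : E n × E n) :
    L.dl c (fun x => Φ x * L.ws c s x ^ L.m) z
      = -(L.m * L.th c s z.1 * (Φ z.1 * L.ws c s z.1 ^ L.m))
        + Φ z.1 * L.ws c s z.1 ^ L.m * (L.H0 * L.nc c z -
          2 * L.m * L.nc c z ^ 2 / (s ^ 2 + 2 * L.F c z.1))
        - L.ws c s z.1 ^ L.m * L.G Φ (L.F c) z := by
  have hd := L.den_pos hs c z.1
  have hsm : DifferentiableAt ℝ (fun x => L.ws c s x ^ L.m) z.1 :=
    (L.ws_smooth' hs h4 c L.m).differentiable (by simp) z.1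
  have e1 : L.G (fun x => Φ x * L.ws c s x ^ L.m) (L.F c) z
      = L.ws c s z.1 ^ L.m * L.G Φ (L.F c) z
        - Φ z.1 * (L.m * L.ws c s z.1 ^ L.m * (1 / (L.F c z.1 + s ^ 2 / 2))
          * L.G (L.F c) (L.F c) z) := by
    unfold G
    rw [Gam_eq, Gam_eq, Gam_eq, D_mul (hΦ z.1) hsm, L.D_ws_rpow hs h4, gv_add_left, gv_smul_left,
      gv_smul_left, gv_smul_left]
    ring
  have h := Alg.mono_pointwise (k2 := L.k2) (ε := s ^ 2 / 2) (f := L.F c z.1) (H := L.H0)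
    (m := L.m) (n := L.nc c z) (Φ := Φ z.1) (W := L.ws c s z.1 ^ L.m) (GΦF := L.G Φ (L.F c) z)
    (GFF := L.G (L.F c) (L.F c) z) (by positivity) (L.F_nonneg c z.1) (L.G_FF c z)
  unfold dl
  rw [e1, h, ← L.th_th0 c hs]
  have e2 : L.m * L.nc c z ^ 2 / (L.F c z.1 + s ^ 2 / 2)
      = 2 * L.m * L.nc c z ^ 2 / (s ^ 2 + 2 * L.F c z.1) := by
    have h' := L.den2_pos hs c z.1
    field_simp
    ring
  rw [e2]

/-- completing the square -/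
theorem sq_bound {s : ℝ} (hs : 0 < s) (c : E n) (z : E n × E n) :
    L.H0 * L.nc c z - 2 * L.m * L.nc c z ^ 2 / (s ^ 2 + 2 * L.F c z.1)
      ≤ L.H0 ^ 2 * (L.F c z.1 + s ^ 2 / 2) / (4 * L.m) := by
  have h := Alg.square_bound (ε := s ^ 2 / 2) (f := L.F c z.1) (H := L.H0) (m := L.m)
    (n := L.nc c z) (by positivity) (L.F_nonneg c z.1) L.m_pos
  refine le_trans (le_of_eq ?_) h
  have h' := L.den2_pos hs c z.1
  have e : L.F c z.1 + s ^ 2 / 2 = (s ^ 2 + 2 * L.F c z.1) / 2 := by ring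
  rw [e]
  field_simp

theorem ws_rpow_mul_den {s : ℝ} (hs : 0 < s) (h4 : L.k2 * s ^ 2 < 4) (c x : E n) (a : ℝ) :
    L.ws c s x ^ a * (L.F c x + s ^ 2 / 2) = L.ws c s x ^ (a - 1) * (s * L.gk s) := by
  have hw := L.ws_pos hs h4 c x
  rw [← L.ws_mul_den hs c x, ← mul_assoc, ← Real.rpow_add_one hw.ne']
  ring_nf

/-! ### comparison of scales -/

/-- `w_{s1} ≤ (s1/s) w_s` for `s ≤ s1` -/
theorem ws_scale {s s1 : ℝ} (hs : 0 < s) (h1 : s ≤ s1) (c x : E n) :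
    L.ws c s1 x ≤ s1 / s * L.ws c s x := by
  have hs1 : 0 < s1 := hs.trans_le h1
  rw [L.ws_eq' hs1, L.ws_eq' hs]
  have hd := L.den_pos hs c x
  have hd1 := L.den_pos hs1 c x
  have hg := L.gk_anti hs.le h1
  have hgn := L.gk_nonneg s1
  have hgn' := L.gk_nonneg s
  have hden : L.F c x + s ^ 2 / 2 ≤ L.F c x + s1 ^ 2 / 2 := by gcongr
  calc s1 * L.gk s1 / (L.F c x + s1 ^ 2 / 2) ≤ s1 * L.gk s / (L.F c x + s ^ 2 / 2) := by gcongr
    _ = _ := by field_simp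

theorem ws_scale_L {s s1 Λ : ℝ} (hs : 0 < s) (h1 : s ≤ s1) (h2 : s1 ≤ Λ * s) (c x : E n) :
    L.ws c s1 x ≤ Λ * L.ws c s x := by
  refine (L.ws_scale hs h1 c x).trans ?_
  have hw := L.ws_nonneg hs c x
  have : s1 / s ≤ Λ := by rw [div_le_iff₀ hs]; exact h2
  gcongr

/-- `w_{s1}^a ≤ Λ^a w_s^a` -/
theorem ws_rpow_scale {s s1 Λ a : ℝ} (ha : 0 ≤ a) (hs : 0 < s) (h1 : s ≤ s1)
    (h2 : s1 ≤ Λ * s) (c x : E n) : L.ws c s1 x ^ a ≤ Λ ^ a * L.ws c s x ^ a := by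
  have hs1 : 0 < s1 := hs.trans_le h1
  have hΛ : 0 ≤ Λ := by
    by_contra h
    push Not at h
    have : Λ * s < 0 := mul_neg_of_neg_of_pos h hs
    linarith
  rw [← Real.mul_rpow hΛ (L.ws_nonneg hs c x)]
  exact Real.rpow_le_rpow (L.ws_nonneg hs1 c x) (L.ws_scale_L hs h1 h2 c x) ha

/-- `w_{s1}^a ≤ 2 Λ^(a-1) w_s^(a-1) / s` for `s ≤ s1 ≤ Λ s`, `1 ≤ a` -/
theorem ws_rpow_scale' {s s1 Λ a : ℝ} (ha : 1 ≤ a) (hs : 0 < s) (h1 : s ≤ s1)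
    (h4 : L.k2 * s1 ^ 2 < 4) (h2 : s1 ≤ Λ * s) (c x : E n) :
    L.ws c s1 x ^ a ≤ 2 * Λ ^ (a - 1) * L.ws c s x ^ (a - 1) / s := by
  have hs1 : 0 < s1 := hs.trans_le h1
  have hw1 := L.ws_pos hs1 h4 c x
  have e : L.ws c s1 x ^ a = L.ws c s1 x ^ (a - 1) * L.ws c s1 x := by
    rw [← Real.rpow_add_one hw1.ne']; ring_nf
  have b1 := L.ws_rpow_scale (a := a - 1) (by linarith) hs h1 h2 c x
  have b2 : L.ws c s1 x ≤ 2 / s := (L.ws_le_two_div hs1 c x).trans (by gcongr)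
  have b3 : 0 ≤ Λ ^ (a - 1) * L.ws c s x ^ (a - 1) :=
    le_trans (Real.rpow_nonneg hw1.le _) b1
  rw [e]
  calc L.ws c s1 x ^ (a - 1) * L.ws c s1 x
      ≤ (Λ ^ (a - 1) * L.ws c s x ^ (a - 1)) * (2 / s) := by gcongr
    _ = _ := by ring

/-! ### the quotient `g = u / w^((m-2)/2)` -/

theorem gs_mul {s : ℝ} (hs : 0 < s) (h4 : L.k2 * s ^ 2 < 4) (c : E n) (u : E n → ℝ) (x : E n) :
    L.gs c s u x * L.ws c s x ^ ((L.m - 2) / 2) = u x := by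
  unfold gs
  have h := Real.rpow_pos_of_pos (L.ws_pos hs h4 c x) ((L.m - 2) / 2)
  field_simp

theorem gs_smooth {s : ℝ} (hs : 0 < s) (h4 : L.k2 * s ^ 2 < 4) (c : E n) {u : E n → ℝ}
    (hu : ContDiff ℝ ∞ u) : ContDiff ℝ ∞ (L.gs c s u) := by
  unfold gs
  exact hu.div (L.ws_smooth' hs h4 c _) fun x =>
    (Real.rpow_pos_of_pos (L.ws_pos hs h4 c x) _).ne'

theorem gs_pos {s : ℝ} (hs : 0 < s) (h4 : L.k2 * s ^ 2 < 4) (c : E n) {u : E n → ℝ} {x : E n}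
    (hu : 0 < u x) : 0 < L.gs c s u x :=
  div_pos hu (Real.rpow_pos_of_pos (L.ws_pos hs h4 c x) _)

/-- `g² w^(m-2) = u²` -/
theorem gs_sq_mul {s : ℝ} (hs : 0 < s) (h4 : L.k2 * s ^ 2 < 4) (c : E n) (u : E n → ℝ)
    (x : E n) : L.gs c s u x ^ 2 * L.ws c s x ^ (L.m - 2) = u x ^ 2 := by
  have hw := L.ws_pos hs h4 c x
  rw [← L.gs_mul hs h4 c u x, mul_pow]
  congr 1
  rw [← Real.rpow_natCast, ← Real.rpow_mul hw.le]
  congr 1
  push_cast; ring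

/-- `g² w^m = u² w²` -/
theorem gs_sq_mul_m {s : ℝ} (hs : 0 < s) (h4 : L.k2 * s ^ 2 < 4) (c : E n) (u : E n → ℝ)
    (x : E n) : L.gs c s u x ^ 2 * L.ws c s x ^ L.m = u x ^ 2 * L.ws c s x ^ 2 := by
  have hw := L.ws_pos hs h4 c x
  rw [← L.gs_sq_mul hs h4 c u x, mul_assoc]
  congr 1
  rw [← Real.rpow_natCast (L.ws c s x) 2, ← Real.rpow_add hw]
  congr 1
  push_cast; ring

/-- `g² w^(m-1) = u² (s g_s) / (F + s²/2)` -/
theorem gs_sq_mul_m1 {s : ℝ} (hs : 0 < s) (h4 : L.k2 * s ^ 2 < 4) (c : E n) (u : E n → ℝ)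
    (x : E n) : L.gs c s u x ^ 2 * L.ws c s x ^ (L.m - 1)
      = s * L.gk s * (u x ^ 2 / (L.F c x + s ^ 2 / 2)) := by
  have hw := L.ws_pos hs h4 c x
  have e : L.ws c s x ^ (L.m - 1) = L.ws c s x ^ (L.m - 2) * L.ws c s x := by
    rw [← Real.rpow_add_one hw.ne']; ring_nf
  rw [e, ← mul_assoc, L.gs_sq_mul hs h4, L.ws_eq' hs]
  ring

/-- `g^(2m/(m-2)) w^m = u^(2m/(m-2))` -/
theorem gs_ps_mul {s : ℝ} (hs : 0 < s) (h4 : L.k2 * s ^ 2 < 4) (c : E n) {u : E n → ℝ}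
    {x : E n} (hu : 0 < u x) : L.gs c s u x ^ L.ps * L.ws c s x ^ L.m = u x ^ L.ps := by
  have hw := L.ws_pos hs h4 c x
  have hg := L.gs_pos hs h4 c hu
  have hm := L.m_sub_pos
  rw [← L.gs_mul hs h4 c u x, Real.mul_rpow hg.le (Real.rpow_nonneg hw.le _),
    ← Real.rpow_mul hw.le]
  congr 2
  unfold ps
  field_simp

end Lim

end Vale.Agent.P219.End
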