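import Vale.Agent.P219.End.Compact
import Vale.Agent.P219.TP.Slice

/-!
# P219, all dimensions: the unit bundle measure of `|dh|` and its limits

`bm G h` is the image of `|dh| dvol` under `x ↦ (x, ν(x))`, where `ν = -D h / |D h|` is the
outward unit normal (in the frame) of the superlevel sets of `h`.
-/

open MeasureTheory Set Filter Topology Metric
open scoped ENNReal NNReal ContDiff

namespace Vale.Agent.P219.End

open Vale.Agent.P219.TP

variable {n : ℕ} (G : Geo n)

/-- Outward unit normal of the superlevel sets of `h`, in the frame. -/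
noncomputable def nrm (h : E n → ℝ) (x : E n) : E n := -(‖G.D h x‖⁻¹ • G.D h x)

/-- The measure `(x, ν(x))_# (|dh| dvol)` on `E n × E n`. -/
noncomputable def bm (h : E n → ℝ) : Measure (E n × E n) :=
  (G.vol.withDensity fun x => ENNReal.ofReal ‖G.D h x‖).map fun x => (x, nrm G h x)

/-- The unit bundle over the closed geodesic ball. -/
def KS (o : E n) (ρ : ℝ) : Set (E n × E n) := {x | ‖G.lg o x‖ ≤ ρ} ×ˢ sphere (0 : E n) 1

theorem isCompact_KS (o : E n) (ρ : ℝ) : IsCompact (KS G o ρ) :=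
  (G.isCompact_gball o ρ).prod (isCompact_sphere _ _)

theorem norm_nrm {h : E n → ℝ} {x : E n} (hx : G.D h x ≠ 0) : ‖nrm G h x‖ = 1 := by
  unfold nrm
  rw [norm_neg, norm_smul, norm_inv, norm_norm, inv_mul_cancel₀ (norm_ne_zero_iff.2 hx)]

/-- `D h = - |D h| ν`. -/
theorem D_eq_nrm (h : E n → ℝ) (x : E n) : G.D h x = -(‖G.D h x‖ • nrm G h x) := by
  unfold nrm
  rcases eq_or_ne (G.D h x) 0 with h0 | h0
  · simp [h0]
  · rw [smul_neg, neg_neg, smul_smul, mul_inv_cancel₀ (norm_ne_zero_iff.2 h0), one_smul]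

theorem measurable_nrm {h : E n → ℝ} (hh : ContDiff ℝ 1 h) : Measurable (nrm G h) := by
  have h1 : Measurable (G.D h) := (slice_continuous_D G hh).measurable
  unfold nrm
  exact (h1.norm.inv.smul h1).neg

theorem D_eq_zero_of_notMem {o : E n} {ρ : ℝ} {h : E n → ℝ} (hc : G.Cls o ρ h) {x : E n}
    (hx : ρ < ‖G.lg o x‖) : G.D h x = 0 := by
  have hcont : Continuous fun y => ‖G.lg o y‖ :=
    (G.lg_smooth.continuous.comp (continuous_const.prodMk continuous_id)).norm
  have hopen : {y | ρ < ‖G.lg o y‖} ∈ 𝓝 x :=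
    (isOpen_lt continuous_const hcont).mem_nhds hx
  have heq : h =ᶠ[𝓝 x] fun _ => 0 := by
    filter_upwards [hopen] with y hy
    by_contra h0
    exact absurd (hc.supp y h0) (not_le.2 hy)
  unfold Geo.D
  rw [heq.fderiv_eq]
  simp

/-- The measure `|dh| dvol`. -/
noncomputable def dm (h : E n → ℝ) : Measure (E n) :=
  G.vol.withDensity fun x => ENNReal.ofReal ‖G.D h x‖

theorem dm_univ {o : E n} {ρ : ℝ} {h : E n → ℝ} (hc : G.Cls o ρ h) :
    dm G h univ = ENNReal.ofReal (G.per h) := by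
  unfold dm Geo.per
  rw [withDensity_apply _ MeasurableSet.univ, Measure.restrict_univ,
    ofReal_integral_eq_lintegral_ofReal (slice_integrable_D G hc)
      (Filter.Eventually.of_forall fun x => norm_nonneg _)]

theorem isFiniteMeasure_dm {o : E n} {ρ : ℝ} {h : E n → ℝ} (hc : G.Cls o ρ h) :
    IsFiniteMeasure (dm G h) := ⟨by rw [dm_univ G hc]; exact ENNReal.ofReal_lt_top⟩

theorem bm_eq (h : E n → ℝ) : bm G h = (dm G h).map fun x => (x, nrm G h x) := rfl

theorem measurable_pair {h : E n → ℝ} (hh : ContDiff ℝ 1 h) :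
    Measurable fun x => (x, nrm G h x) := measurable_id.prodMk (measurable_nrm G hh)

theorem bm_univ {o : E n} {ρ : ℝ} {h : E n → ℝ} (hc : G.Cls o ρ h) :
    bm G h univ = ENNReal.ofReal (G.per h) := by
  rw [bm_eq, Measure.map_apply (measurable_pair G hc.smooth) MeasurableSet.univ, preimage_univ,
    dm_univ G hc]

theorem isFiniteMeasure_bm {o : E n} {ρ : ℝ} {h : E n → ℝ} (hc : G.Cls o ρ h) :
    IsFiniteMeasure (bm G h) := ⟨by rw [bm_univ G hc]; exact ENNReal.ofReal_lt_top⟩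

/-- The measure `|dh| dvol` does not charge the critical points. -/
theorem ae_dm_D_ne {h : E n → ℝ} (hh : ContDiff ℝ 1 h) : ∀ᵐ x ∂(dm G h), G.D h x ≠ 0 := by
  unfold dm
  rw [ae_withDensity_iff ((slice_continuous_D G hh).norm.measurable.ennreal_ofReal)]
  refine Filter.Eventually.of_forall fun x hx h0 => hx ?_
  rw [h0, norm_zero, ENNReal.ofReal_zero]

theorem bm_compl {o : E n} {ρ : ℝ} {h : E n → ℝ} (hc : G.Cls o ρ h) :
    bm G h (KS G o ρ)ᶜ = 0 := by
  rw [bm_eq, Measure.map_apply (measurable_pair G hc.smooth)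
    (isCompact_KS G o ρ).measurableSet.compl]
  rw [← nonpos_iff_eq_zero]
  have h1 := ae_dm_D_ne G hc.smooth
  rw [ae_iff] at h1
  refine (measure_mono ?_).trans h1.le
  intro x hx
  simp only [mem_ofPred_eq, not_not]
  by_contra h0
  apply hx
  refine ⟨?_, ?_⟩
  · simp only [mem_ofPred_eq]
    by_contra h2
    exact h0 (D_eq_zero_of_notMem G hc (not_le.1 h2))
  · rw [mem_sphere_zero_iff_norm]
    exact norm_nrm G h0

/-- Integration against the bundle measure. -/
theorem integral_bm {o : E n} {ρ : ℝ} {h : E n → ℝ} (hc : G.Cls o ρ h)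
    {f : E n × E n → ℝ} (hf : ContinuousOn f (KS G o ρ)) :
    ∫ z, f z ∂(bm G h) = ∫ x, f (x, nrm G h x) * ‖G.D h x‖ ∂G.vol := by
  have := isFiniteMeasure_bm G hc
  have h1 : Integrable f (bm G h) :=
    integrable_of_continuousOn (isCompact_KS G o ρ) (bm_compl G hc) hf
  rw [bm_eq] at h1 ⊢
  rw [integral_map (measurable_pair G hc.smooth).aemeasurable h1.1]
  unfold dm
  rw [integral_withDensity_eq_integral_toReal_smul₀
    ((slice_continuous_D G hc.smooth).norm.measurable.ennreal_ofReal.aemeasurable)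
    (Filter.Eventually.of_forall fun x => ENNReal.ofReal_lt_top)]
  refine integral_congr_ae (Filter.Eventually.of_forall fun x => ?_)
  simp only
  rw [ENNReal.toReal_ofReal (norm_nonneg _), smul_eq_mul, mul_comm]

theorem integrable_bm {o : E n} {ρ : ℝ} {h : E n → ℝ} (hc : G.Cls o ρ h)
    {f : E n × E n → ℝ} (hf : ContinuousOn f (KS G o ρ)) :
    Integrable f (bm G h) := by
  have := isFiniteMeasure_bm G hc
  exact integrable_of_continuousOn (isCompact_KS G o ρ) (bm_compl G hc) hf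

/-- Limit along an ultrafilter. -/
theorem exists_limit_ultra {o : E n} {ρ : ℝ} {ι : Type*} (U : Ultrafilter ι) (h : ι → E n → ℝ)
    (hc : ∀ j, G.Cls o ρ (h j)) {C : ℝ} (hC : ∀ j, G.per (h j) ≤ C) :
    ∃ V : Measure (E n × E n), IsFiniteMeasure V ∧ V (KS G o ρ)ᶜ = 0 ∧
      ∀ f : E n × E n → ℝ, ContinuousOn f (KS G o ρ) →
        Tendsto (fun j => ∫ x, f (x, nrm G (h j) x) * ‖G.D (h j) x‖ ∂G.vol) U
          (𝓝 (∫ z, f z ∂V)) := by
  obtain ⟨V, h1, _, h3, h4⟩ := exists_limit_measure U (fun j => bm G (h j)) C.toNNReal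
    (isCompact_KS G o ρ) (fun j => by
      rw [bm_univ G (hc j)]
      exact ENNReal.ofReal_le_ofReal (hC j)) (fun j => bm_compl G (hc j))
  refine ⟨V, h1, h3, fun f hf => ?_⟩
  exact (h4 f hf).congr fun j => integral_bm G (hc j) hf

/-- Limit along a subsequence, of the bundle measures and of the functions. -/
theorem exists_limit {o : E n} {ρ : ℝ} (h : ℕ → E n → ℝ)
    (hc : ∀ j, G.Cls o ρ (h j)) {C : ℝ} (hC : ∀ j, G.per (h j) ≤ C) :
    ∃ φ : ℕ → ℕ, StrictMono φ ∧ ∃ V : Measure (E n × E n), IsFiniteMeasure V ∧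
      V (KS G o ρ)ᶜ = 0 ∧ ∃ u : E n → ℝ, Measurable u ∧ (∀ x, 0 ≤ u x) ∧ (∀ x, u x ≤ 1) ∧
      (∀ x, ρ < ‖G.lg o x‖ → u x = 0) ∧
      (∀ f : E n × E n → ℝ, ContinuousOn f (KS G o ρ) →
        Tendsto (fun j => ∫ x, f (x, nrm G (h (φ j)) x) * ‖G.D (h (φ j)) x‖ ∂G.vol) atTop
          (𝓝 (∫ z, f z ∂V))) ∧
      (∀ f : E n → ℝ, ContinuousOn f {x | ‖G.lg o x‖ ≤ ρ} →
        Tendsto (fun j => ∫ x, f x * h (φ j) x ∂G.vol) atTop (𝓝 (∫ x, f x * u x ∂G.vol))) ∧
      Tendsto (fun j => G.per (h (φ j))) atTop (𝓝 (V.real univ)) := by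
  obtain ⟨φ, hφ, V, h1, _, h3, h4⟩ := exists_subseq_measure (fun j => bm G (h j)) C.toNNReal
    (isCompact_KS G o ρ) (fun j => by
      rw [bm_univ G (hc j)]
      exact ENNReal.ofReal_le_ofReal (hC j)) (fun j => bm_compl G (hc j))
  have hvol : G.vol {x | ‖G.lg o x‖ ≤ ρ} ≠ ⊤ := (slice_vol_ball_lt G o ρ).ne
  obtain ⟨ψ, hψ, u, u1, u2, u3, u4, u5⟩ := exists_subseq_density (G.isCompact_gball o ρ) hvol
    (fun j => h (φ j)) (fun j => (hc _).smooth.continuous.measurable) (fun j => (hc _).nonneg)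
    (fun j => (hc _).le_one) (fun j x hx => by
      by_contra h0
      exact hx ((hc _).supp x h0))
  have h4' : ∀ f : E n × E n → ℝ, ContinuousOn f (KS G o ρ) →
        Tendsto (fun j => ∫ x, f (x, nrm G (h (φ (ψ j))) x) * ‖G.D (h (φ (ψ j))) x‖ ∂G.vol) atTop
          (𝓝 (∫ z, f z ∂V)) := fun f hf =>
    ((h4 f hf).comp hψ.tendsto_atTop).congr fun j => integral_bm G (hc _) hf
  refine ⟨φ ∘ ψ, hφ.comp hψ, V, h1, h3, u, u1, u2, u3, fun x hx => u4 x (by
    simp only [mem_ofPred_eq, not_le]; exact hx), h4', u5, ?_⟩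
  have h6 := h4' (fun _ => 1) continuousOn_const
  simp only [one_mul, integral_const, smul_eq_mul, mul_one] at h6
  exact h6

end Vale.Agent.P219.End
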