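import Vale.Agent.P219.End.Ident

/-!
# P219 / End : change of centre for the bubbles
-/

open MeasureTheory Set Metric
open scoped ContDiff

namespace Vale.Agent.P219.End.Lim

variable {n : ℕ} (L : Lim n)

/-- a bound for `F` on `K × K` -/
theorem exists_F_bound : ∃ M : ℝ, 0 ≤ M ∧ ∀ c ∈ L.K, ∀ x ∈ L.K, L.F c x ≤ M := by
  obtain ⟨C, hC⟩ := (L.K_compact.prod L.K_compact).exists_bound_of_continuousOn
    (f := fun z : E n × E n => L.F z.1 z.2) L.F_smooth.continuous.continuousOn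
  refine ⟨max C 0, le_max_right _ _, fun c hc x hx => ?_⟩
  exact ((le_abs_self _).trans (hC (c, x) ⟨hc, hx⟩)).trans (le_max_left _ _)

/-- squared triangle inequality -/
theorem F_le_of_tri {η : ℝ} (hη : 0 < η) (c p x : E n) :
    L.F c x ≤ (1 + η) * (L.F p x * (1 + L.k2 * L.F c p / 2)) +
      (1 + 1 / η) * ((1 + L.k2 * L.F p x / 2) * L.F c p) := by
  have hk := L.k2_nonneg
  have h1 := L.F_nonneg c p
  have h2 := L.F_nonneg p x
  have h3 := L.F_nonneg c x
  have h := L.tri c p x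
  set a := √(L.F p x) * √(1 + L.k2 * L.F c p / 2) with ha
  set b := √(1 + L.k2 * L.F p x / 2) * √(L.F c p) with hb
  have ha2 : a ^ 2 = L.F p x * (1 + L.k2 * L.F c p / 2) := by
    rw [ha, mul_pow, Real.sq_sqrt h2, Real.sq_sqrt (by positivity)]
  have hb2 : b ^ 2 = (1 + L.k2 * L.F p x / 2) * L.F c p := by
    rw [hb, mul_pow, Real.sq_sqrt h1, Real.sq_sqrt (by positivity)]
  rw [← ha2, ← hb2]
  have h4 : L.F c x ≤ (a + b) ^ 2 := by
    have h5 : 0 ≤ √(L.F c x) := Real.sqrt_nonneg _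
    calc L.F c x = √(L.F c x) ^ 2 := (Real.sq_sqrt h3).symm
      _ ≤ (a + b) ^ 2 := pow_le_pow_left₀ h5 h 2
  have h6 : 2 * a * b ≤ η * a ^ 2 + 1 / η * b ^ 2 := by
    have h7 : 0 ≤ 1 / η * (η * a - b) ^ 2 := by positivity
    have h8 : 1 / η * (η * a - b) ^ 2 = η * a ^ 2 - 2 * a * b + 1 / η * b ^ 2 := by
      field_simp
      ring
    linarith
  nlinarith

/-- Change of centre: if `F(c, p)` is small compared with `ε` the bubbles at `c` and at `p` are
comparable, with a constant close to one. -/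
theorem w_center {η : ℝ} (hη : 0 < η) : ∃ θ > 0, ∃ ε₀ > 0, ∀ ε, 0 < ε → ε < ε₀ →
    ∀ c ∈ L.K, ∀ p ∈ L.K, L.F c p ≤ θ * ε → ∀ x ∈ L.K, L.w p ε x ≤ (1 + η) * L.w c ε x := by
  obtain ⟨M, hM0, hM⟩ := L.exists_F_bound
  have hk := L.k2_nonneg
  -- choose `t` with `(1 + t)^2 ≤ 1 + η`
  obtain ⟨t, ht0, ht1⟩ : ∃ t : ℝ, 0 < t ∧ (1 + t) ^ 2 ≤ 1 + η := by
    refine ⟨min 1 (η / 3), by positivity, ?_⟩
    have h1 : min 1 (η / 3) ≤ 1 := min_le_left _ _
    have h2 : min 1 (η / 3) ≤ η / 3 := min_le_right _ _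
    have h3 : 0 < min 1 (η / 3) := by positivity
    nlinarith
  set θ : ℝ := t / ((1 + 1 / t) * (1 + L.k2 * M / 2)) with hθ
  have hD : 0 < (1 + 1 / t) * (1 + L.k2 * M / 2) := by positivity
  have hθ0 : 0 < θ := by positivity
  refine ⟨θ, hθ0, 2 * t / ((L.k2 + 1) * θ), by positivity, fun ε hε hε0 c hc p hp hcp x hx => ?_⟩
  have hF := L.F_le_of_tri ht0 c p x
  have h1 := L.F_nonneg c p
  have h2 := L.F_nonneg p x
  have hMx := hM p hp x hx
  have e1 : L.k2 * L.F c p / 2 ≤ t := by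
    have h3 : L.k2 * L.F c p ≤ (L.k2 + 1) * (θ * ε) :=
      mul_le_mul (by linarith) hcp h1 (by linarith)
    have h4 : (L.k2 + 1) * (θ * ε) ≤ 2 * t := by
      rw [lt_div_iff₀ (by positivity)] at hε0
      nlinarith
    linarith
  have e2 : (1 + 1 / t) * ((1 + L.k2 * L.F p x / 2) * L.F c p) ≤ t * ε := by
    have h5 : (1 + L.k2 * L.F p x / 2) * L.F c p ≤ (1 + L.k2 * M / 2) * (θ * ε) := by
      refine mul_le_mul ?_ hcp h1 (by positivity)
      have := mul_le_mul_of_nonneg_left hMx hk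
      linarith
    calc (1 + 1 / t) * ((1 + L.k2 * L.F p x / 2) * L.F c p)
        ≤ (1 + 1 / t) * ((1 + L.k2 * M / 2) * (θ * ε)) :=
          mul_le_mul_of_nonneg_left h5 (by positivity)
      _ = t * ε := by rw [hθ]; field_simp
  have e3 : L.F p x * (1 + L.k2 * L.F c p / 2) ≤ (1 + t) * L.F p x := by nlinarith
  have key : L.F c x + ε ≤ (1 + η) * (L.F p x + ε) := by
    calc L.F c x + ε ≤ (1 + t) * ((1 + t) * L.F p x) + t * ε + ε := by
          have := mul_le_mul_of_nonneg_left e3 (show (0 : ℝ) ≤ 1 + t by linarith)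
          linarith
      _ ≤ (1 + t) ^ 2 * (L.F p x + ε) := by
          have h6 : 0 ≤ t * (1 + t) * ε := by positivity
          linarith [show (1 + t) ^ 2 * (L.F p x + ε) =
            (1 + t) * ((1 + t) * L.F p x) + t * ε + ε + t * (1 + t) * ε by ring]
      _ ≤ (1 + η) * (L.F p x + ε) := mul_le_mul_of_nonneg_right ht1 (by linarith)
  have hp1 : 0 < L.F p x + ε := by linarith
  have hc1 : 0 < L.F c x + ε := by linarith [L.F_nonneg c x]
  show √(ε * (2 - L.k2 * ε)) / (L.F p x + ε) ≤ (1 + η) * (√(ε * (2 - L.k2 * ε)) / (L.F c x + ε))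
  rw [← mul_div_assoc, div_le_div_iff₀ hp1 hc1]
  have := mul_le_mul_of_nonneg_left key (Real.sqrt_nonneg (ε * (2 - L.k2 * ε)))
  linarith

end Vale.Agent.P219.End.Lim
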