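import Vale.Agent.P219.End.Bub

/-!
# P219 / End : change of centre of a bubble, quasi-metric `√(2 F)`
-/

open MeasureTheory Set Metric
open scoped ENNReal ContDiff Topology

namespace Vale.Agent.P219.End

variable {n : ℕ}

namespace Lim

variable (L : Lim n)

/-- a bound of `1 + k2 F / 2` on `K × K` -/
theorem exists_oneF_bound : ∃ B : ℝ, 1 ≤ B ∧ ∀ c ∈ L.K, ∀ x ∈ L.K, 1 + L.k2 * L.F c x / 2 ≤ B := by
  have hK : IsCompact (L.K ×ˢ L.K) := L.K_compact.prod L.K_compact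
  obtain ⟨C, hC⟩ := hK.exists_bound_of_continuousOn L.F_smooth.continuous.continuousOn
  have hk := L.k2_nonneg
  refine ⟨1 + L.k2 * max C 0 / 2, ?_, fun c hc x hx => ?_⟩
  · have : 0 ≤ L.k2 * max C 0 := mul_nonneg hk (le_max_right _ _)
    linarith
  · have h1 := hC (c, x) ⟨hc, hx⟩
    rw [Real.norm_eq_abs] at h1
    have h2 : L.F c x ≤ max C 0 := (le_abs_self _).trans (h1.trans (le_max_left _ _))
    have h3 := mul_le_mul_of_nonneg_left h2 hk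
    linarith

/-- quasi-metric -/
theorem ds_tri : ∃ C ≥ 1, ∀ c ∈ L.K, ∀ x ∈ L.K, ∀ y ∈ L.K,
    L.ds c x ≤ C * (L.ds c y + L.ds y x) := by
  obtain ⟨B, hB1, hB⟩ := L.exists_oneF_bound
  refine ⟨√B, Real.one_le_sqrt.2 hB1, fun c hc x hx y hy => ?_⟩
  have h2 := L.tri c y x
  have h3 : √(1 + L.k2 * L.F c y / 2) ≤ √B := Real.sqrt_le_sqrt (hB c hc y hy)
  have h4 : √(1 + L.k2 * L.F y x / 2) ≤ √B := Real.sqrt_le_sqrt (hB y hy x hx)
  have h5 : √(L.F c x) ≤ √B * (√(L.F c y) + √(L.F y x)) := by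
    have h6 := mul_le_mul_of_nonneg_left h3 (Real.sqrt_nonneg (L.F y x))
    have h7 := mul_le_mul_of_nonneg_right h4 (Real.sqrt_nonneg (L.F c y))
    linarith
  unfold ds
  rw [Real.sqrt_mul (by norm_num) (L.F c x), Real.sqrt_mul (by norm_num) (L.F c y),
    Real.sqrt_mul (by norm_num) (L.F y x)]
  have h6 := mul_le_mul_of_nonneg_left h5 (Real.sqrt_nonneg 2)
  calc √2 * √(L.F c x) ≤ √2 * (√B * (√(L.F c y) + √(L.F y x))) := h6
    _ = √B * (√2 * √(L.F c y) + √2 * √(L.F y x)) := by ring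

/-- change of centre for `F` -/
theorem F_centre {B η : ℝ} (hB : ∀ c ∈ L.K, ∀ x ∈ L.K, 1 + L.k2 * L.F c x / 2 ≤ B)
    (hη : 0 < η) {c p x : E n} (hp : p ∈ L.K) (hx : x ∈ L.K) :
    L.F c x ≤ (1 + η) * L.F p x + ((1 + η) * B + (1 + 1 / η) * B) * L.F c p := by
  have hk := L.k2_nonneg
  have hF0 := L.F_nonneg c x
  have hP0 := L.F_nonneg p x
  have hC0 := L.F_nonneg c p
  have hkC : 0 ≤ L.k2 * L.F c p := mul_nonneg hk hC0
  have hkP : 0 ≤ L.k2 * L.F p x := mul_nonneg hk hP0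
  have hBb := hB p hp x hx
  obtain ⟨a, ha⟩ : ∃ a, a = √(L.F p x) * √(1 + L.k2 * L.F c p / 2) := ⟨_, rfl⟩
  obtain ⟨b, hb⟩ : ∃ b, b = √(1 + L.k2 * L.F p x / 2) * √(L.F c p) := ⟨_, rfl⟩
  have ha2 : a ^ 2 = L.F p x * (1 + L.k2 * L.F c p / 2) := by
    rw [ha, mul_pow, Real.sq_sqrt hP0, Real.sq_sqrt (by linarith)]
  have hb2 : b ^ 2 = (1 + L.k2 * L.F p x / 2) * L.F c p := by
    rw [hb, mul_pow, Real.sq_sqrt hC0, Real.sq_sqrt (by linarith)]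
  have htri : √(L.F c x) ≤ a + b := by rw [ha, hb]; exact L.tri c p x
  have h1 : L.F c x ≤ (a + b) ^ 2 := by
    rw [← Real.sq_sqrt hF0]
    exact pow_le_pow_left₀ (Real.sqrt_nonneg _) htri 2
  have h2 : (a + b) ^ 2 ≤ (1 + η) * a ^ 2 + (1 + 1 / η) * b ^ 2 := by
    have h3 : 0 ≤ (η * a - b) ^ 2 / η := by positivity
    have e : (η * a - b) ^ 2 / η = η * a ^ 2 + 1 / η * b ^ 2 - 2 * a * b := by
      field_simp
      ring
    nlinarith
  have h4 : (1 + η) * a ^ 2 ≤ (1 + η) * L.F p x + (1 + η) * B * L.F c p := by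
    rw [ha2]
    have h5 : L.k2 * L.F p x / 2 ≤ B := by linarith
    have h6 : L.k2 * L.F p x / 2 * L.F c p ≤ B * L.F c p := mul_le_mul_of_nonneg_right h5 hC0
    have h7 := mul_le_mul_of_nonneg_left h6 (show 0 ≤ 1 + η by linarith)
    calc (1 + η) * (L.F p x * (1 + L.k2 * L.F c p / 2))
        = (1 + η) * L.F p x + (1 + η) * (L.k2 * L.F p x / 2 * L.F c p) := by ring
      _ ≤ (1 + η) * L.F p x + (1 + η) * (B * L.F c p) := by linarith
      _ = _ := by ring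
  have h8 : (1 + 1 / η) * b ^ 2 ≤ (1 + 1 / η) * B * L.F c p := by
    rw [hb2]
    have h9 : (1 + L.k2 * L.F p x / 2) * L.F c p ≤ B * L.F c p :=
      mul_le_mul_of_nonneg_right hBb hC0
    have h10 := mul_le_mul_of_nonneg_left h9 (show 0 ≤ 1 + 1 / η by positivity)
    linarith
  have e2 : (1 + η) * L.F p x + ((1 + η) * B + (1 + 1 / η) * B) * L.F c p =
      (1 + η) * L.F p x + (1 + η) * B * L.F c p + (1 + 1 / η) * B * L.F c p := by ring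
  rw [e2]
  linarith

/-- change of centre -/
theorem centre {N η : ℝ} (hN : 1 ≤ N) (hη : 0 < η) : ∃ Λ₀ ≥ 1, ∀ Λ ≥ Λ₀, ∀ c ∈ L.K, ∀ p ∈ L.K,
    ∀ s : ℝ, 0 < s → L.Ad (Λ * s) → L.ds c p ≤ N * s → ∀ x ∈ L.K,
    L.ws p (Λ * s) x ≤ (1 + η) * L.ws c (Λ * s) x := by
  obtain ⟨B, hB1, hB⟩ := L.exists_oneF_bound
  obtain ⟨M, hM⟩ : ∃ M, M = ((1 + η) * B + (1 + 1 / η) * B) := ⟨_, rfl⟩
  have hM0 : 0 ≤ M := by rw [hM]; positivity
  refine ⟨1 + M * N ^ 2 / η, ?_, fun Λ hΛ c hc p hp s hs _ hds x hx => ?_⟩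
  · have : 0 ≤ M * N ^ 2 / η := by positivity
    linarith
  have hMN : 0 ≤ M * N ^ 2 / η := by positivity
  have hΛ1 : 1 ≤ Λ := by linarith
  have hΛ2 : M * N ^ 2 ≤ η * Λ ^ 2 := by
    have h1 : M * N ^ 2 / η ≤ Λ ^ 2 := by nlinarith
    rw [div_le_iff₀ hη] at h1
    linarith
  have h1 := L.F_centre hB hη (c := c) hp hx
  rw [← hM] at h1
  have h2 : 2 * L.F c p ≤ (N * s) ^ 2 := by
    have h3 : 0 ≤ 2 * L.F c p := by linarith [L.F_nonneg c p]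
    unfold ds at hds
    rw [← Real.sq_sqrt h3]
    exact pow_le_pow_left₀ (Real.sqrt_nonneg _) hds 2
  have hF0 := L.F_nonneg p x
  have hFc0 := L.F_nonneg c x
  have hS : 0 < (Λ * s) ^ 2 / 2 := by positivity
  have h3 : L.F c x + (Λ * s) ^ 2 / 2 ≤ (1 + η) * (L.F p x + (Λ * s) ^ 2 / 2) := by
    have h4 : M * L.F c p ≤ M * ((N * s) ^ 2 / 2) := mul_le_mul_of_nonneg_left (by linarith) hM0
    have h5 : M * ((N * s) ^ 2 / 2) ≤ η * ((Λ * s) ^ 2 / 2) := by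
      have h6 := mul_le_mul_of_nonneg_right hΛ2 (show 0 ≤ s ^ 2 / 2 by positivity)
      calc M * ((N * s) ^ 2 / 2) = M * N ^ 2 * (s ^ 2 / 2) := by ring
        _ ≤ η * Λ ^ 2 * (s ^ 2 / 2) := h6
        _ = η * ((Λ * s) ^ 2 / 2) := by ring
    nlinarith [h1, h4, h5]
  unfold ws w bub
  have h7 := Real.sqrt_nonneg ((Λ * s) ^ 2 / 2 * (2 - L.k2 * ((Λ * s) ^ 2 / 2)))
  generalize √((Λ * s) ^ 2 / 2 * (2 - L.k2 * ((Λ * s) ^ 2 / 2))) = q at h7 ⊢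
  rw [← mul_div_assoc, div_le_div_iff₀ (by linarith) (by linarith)]
  nlinarith [mul_le_mul_of_nonneg_left h3 h7]

end Lim

end Vale.Agent.P219.End
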