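import Vale.Agent.P219.TPH.Sn
import Vale.Agent.P219.TP.Sq

/-! # Smoothness of `sn k r / r` as a function of `r²`, and the function `f = (cosh(kr)-1)/k²` -/

open MeasureTheory Set Metric Filter Topology
open scoped ENNReal ContDiff Nat

namespace Vale.Agent.P219.End

open Vale.Agent.P219.TP Vale.Agent.P219.TPH

/-- coefficients of `sinh √s / √s` -/
noncomputable def chiC (j : ℕ) : ℝ := ((2 * j + 1)! : ℝ)⁻¹

/-- `chi0 s = sinh √s / √s` -/
noncomputable def chi0 : ℝ → ℝ := FormalMultilinearSeries.ofScalarsSum (E := ℝ) chiC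

theorem chiC_ne (j : ℕ) : chiC j ≠ 0 := by
  unfold chiC
  positivity

theorem chi_radius : (FormalMultilinearSeries.ofScalars ℝ chiC).radius = ⊤ := by
  refine FormalMultilinearSeries.ofScalars_radius_eq_top_of_tendsto ℝ chiC
    (Eventually.of_forall chiC_ne) ?_
  have h1 : ∀ j : ℕ, ‖chiC j.succ‖ / ‖chiC j‖ ≤ 1 / ((j : ℝ) + 1) := by
    intro j
    have hf : ((2 * j.succ + 1)! : ℝ) = (2 * j + 3) * ((2 * j + 2) * ((2 * j + 1)! : ℝ)) := by
      have e : 2 * j.succ + 1 = (2 * j + 1 + 1) + 1 := by omega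
      rw [e, Nat.factorial_succ, Nat.factorial_succ]
      push_cast
      ring
    have hp : (0 : ℝ) < ((2 * j + 1)! : ℝ) := by positivity
    unfold chiC
    rw [norm_inv, norm_inv, Real.norm_of_nonneg (by positivity), Real.norm_of_nonneg hp.le, hf]
    rw [div_le_div_iff₀ (by positivity) (by positivity)]
    rw [inv_mul_le_iff₀ (by positivity), one_mul]
    have : (2 * (j : ℝ) + 3) * ((2 * j + 2) * ((2 * j + 1)! : ℝ)) * ((2 * j + 1)! : ℝ)⁻¹ =
        (2 * (j : ℝ) + 3) * (2 * j + 2) := by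
      field_simp
    rw [this]
    have hj : (0 : ℝ) ≤ j := j.cast_nonneg
    nlinarith
  refine squeeze_zero (fun j => by positivity) h1 ?_
  exact tendsto_one_div_add_atTop_nhds_zero_nat

theorem chi0_smooth : ContDiff ℝ ∞ chi0 := by
  have h1 : HasFPowerSeriesOnBall chi0 (FormalMultilinearSeries.ofScalars ℝ chiC) 0 ⊤ := by
    have h := (FormalMultilinearSeries.ofScalars ℝ chiC).hasFPowerSeriesOnBall
      (by rw [chi_radius]; exact ENNReal.zero_lt_top)
    rw [chi_radius] at h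
    exact h
  have h2 : AnalyticOnNhd ℝ chi0 univ := by
    have := h1.analyticOnNhd
    simpa using this
  exact h2.contDiff

theorem chi0_sq (r : ℝ) : r * chi0 (r ^ 2) = Real.sinh r := by
  have h1 : chi0 (r ^ 2) = ∑' j, chiC j * (r ^ 2) ^ j := by
    unfold chi0
    rw [FormalMultilinearSeries.ofScalars_sum_eq]
    simp [smul_eq_mul]
  have h2 := Real.hasSum_sinh r
  rw [h1, ← h2.tsum_eq, ← tsum_mul_left]
  congr 1
  funext j
  unfold chiC
  have e : r ^ (2 * j + 1) = r * (r ^ 2) ^ j := by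
    rw [← pow_mul, pow_succ]
    ring
  rw [e]
  field_simp

theorem chi0_zero : chi0 0 = 1 := by
  unfold chi0
  rw [FormalMultilinearSeries.ofScalarsSum_zero]
  simp [chiC]

/-- `chi k (r²) = sn k r / r` -/
noncomputable def chi (k s : ℝ) : ℝ := chi0 (k ^ 2 * s)

theorem chi_smooth (k : ℝ) : ContDiff ℝ ∞ (chi k) :=
  chi0_smooth.comp (contDiff_const.mul contDiff_id)

theorem sn_eq_chi (k r : ℝ) : sn k r = r * chi k (r ^ 2) := by
  unfold chi
  by_cases hk : k = 0
  · subst hk
    simp [sn, chi0_zero]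
  · have h1 := chi0_sq (k * r)
    have h2 := h1_sinh k r
    have e : k ^ 2 * r ^ 2 = (k * r) ^ 2 := by ring
    rw [e]
    have h3 : k * sn k r = k * (r * chi0 ((k * r) ^ 2)) := by
      rw [h2, ← h1]
      ring
    exact mul_left_cancel₀ hk h3

theorem chi_zero (k : ℝ) : chi k 0 = 1 := by
  unfold chi
  rw [mul_zero, chi0_zero]

theorem chi_pos {k r : ℝ} (hk : 0 ≤ k) : 0 < chi k (r ^ 2) := by
  rcases eq_or_ne r 0 with h | h
  · subst h
    rw [zero_pow two_ne_zero, chi_zero]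
    exact one_pos
  · have h1 := sn_pos hk (abs_pos.2 h)
    rw [sn_eq_chi, sq_abs] at h1
    exact (mul_pos_iff_of_pos_left (abs_pos.2 h)).1 h1

theorem one_le_chi {k r : ℝ} (hk : 0 ≤ k) : 1 ≤ chi k (r ^ 2) := by
  rcases eq_or_ne r 0 with h | h
  · subst h
    rw [zero_pow two_ne_zero, chi_zero]
  · have h1 := le_sn hk (abs_nonneg r)
    rw [sn_eq_chi, sq_abs] at h1
    exact le_of_mul_le_mul_left (by linarith) (abs_pos.2 h)

/-- `ff k (r²) = (cosh(kr) - 1)/k² = 2 sn_k(r/2)²` -/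
noncomputable def ff (k s : ℝ) : ℝ := s / 2 * chi k (s / 4) ^ 2

theorem ff_smooth (k : ℝ) : ContDiff ℝ ∞ (ff k) :=
  (contDiff_id.div_const 2).mul (((chi_smooth k).comp (contDiff_id.div_const 4)).pow 2)

theorem ff_sq (k r : ℝ) : ff k (r ^ 2) = 2 * sn k (r / 2) ^ 2 := by
  unfold ff
  rw [sn_eq_chi k (r / 2)]
  have e : (r / 2) ^ 2 = r ^ 2 / 4 := by ring
  rw [mul_pow, e]
  ring

theorem cs_eq_ff (k r : ℝ) : cs k r = 1 + k ^ 2 * ff k (r ^ 2) := by
  rw [h1_cs_half, ff_sq]
  ring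

theorem ff_nonneg (k r : ℝ) : 0 ≤ ff k (r ^ 2) := by
  rw [ff_sq]
  positivity

/-- `sn² = 2 f + k² f²` -/
theorem sn_sq_eq_ff (k r : ℝ) : sn k r ^ 2 = 2 * ff k (r ^ 2) + k ^ 2 * ff k (r ^ 2) ^ 2 := by
  have h1 : sn k r = 2 * sn k (r / 2) * cs k (r / 2) := by
    by_cases hk : k = 0
    · subst hk
      simp [sn, cs]
      ring
    · have h2 := h1_sinh k r
      have h3 := h1_sinh k (r / 2)
      have h4 : Real.sinh (k * r) = 2 * Real.sinh (k * (r / 2)) * Real.cosh (k * (r / 2)) := by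
        rw [← Real.sinh_two_mul]
        congr 1
        ring
      have h5 : k * sn k r = k * (2 * sn k (r / 2) * cs k (r / 2)) := by
        rw [h2, h4, ← h3]
        unfold cs
        ring
      exact mul_left_cancel₀ hk h5
  have h6 := cs_sq k (r / 2)
  rw [h1, mul_pow, h6, ff_sq]
  ring

theorem hasDerivAt_ff (k r : ℝ) : HasDerivAt (fun r => ff k (r ^ 2)) (sn k r) r := by
  have h1 : (fun r => ff k (r ^ 2)) = fun r => 2 * sn k (r / 2) ^ 2 := by
    funext r
    exact ff_sq k r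
  rw [h1]
  have h2 : HasDerivAt (fun r : ℝ => sn k (r / 2)) (cs k (r / 2) * (1 / 2)) r := by
    exact HasDerivAt.comp (h₂ := sn k) (h := fun r : ℝ => r / 2) r (hasDerivAt_sn k (r / 2))
      ((hasDerivAt_id r).div_const 2)
  have h3 := (h2.pow 2).const_mul 2
  refine h3.congr_deriv ?_
  by_cases hk : k = 0
  · subst hk
    simp [sn, cs]
    ring
  · have h4 := h1_sinh k r
    have h5 := h1_sinh k (r / 2)
    have h6 : Real.sinh (k * r) = 2 * Real.sinh (k * (r / 2)) * Real.cosh (k * (r / 2)) := by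
      rw [← Real.sinh_two_mul]
      congr 1
      ring
    refine mul_left_cancel₀ hk ?_
    rw [h4, h6, ← h5]
    unfold cs
    push_cast
    ring

/-- derivative of `ff k` at `r²`: `f' = chi/2` -/
theorem hasDerivAt_ff_sq (k : ℝ) {s : ℝ} (hs : 0 ≤ s) : HasDerivAt (ff k) (chi k s / 2) s := by
  have hd : DifferentiableAt ℝ (ff k) s := (ff_smooth k).differentiable (by simp) s
  have hcl : ∀ s, 0 < s → deriv (ff k) s = chi k s / 2 := by
    intro s hs
    have hd : DifferentiableAt ℝ (ff k) s := (ff_smooth k).differentiable (by simp) s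
    have hr : (√s) ^ 2 = s := Real.sq_sqrt hs.le
    have h0 : HasDerivAt (fun r : ℝ => r ^ 2) (2 * √s) (√s) := by
      simpa using hasDerivAt_pow 2 (√s)
    have h1 : HasDerivAt (fun r => ff k (r ^ 2)) (deriv (ff k) s * (2 * √s)) (√s) := by
      have h2 : HasDerivAt (ff k) (deriv (ff k) s) ((√s) ^ 2) := by
        rw [hr]
        exact hd.hasDerivAt
      exact HasDerivAt.comp (h₂ := ff k) (h := fun r : ℝ => r ^ 2) (√s) h2 h0
    have h3 := h1.unique (hasDerivAt_ff k (√s))
    rw [sn_eq_chi, hr] at h3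
    have h4 : √s ≠ 0 := (Real.sqrt_pos.2 hs).ne'
    have h5 : √s * (deriv (ff k) s * 2) = √s * chi k s := by linarith
    have h6 := mul_left_cancel₀ h4 h5
    linarith
  have hc1 : Continuous (deriv (ff k)) := (ff_smooth k).continuous_deriv (by simp)
  have hc2 : Continuous fun s => chi k s / 2 := (chi_smooth k).continuous.div_const 2
  have heq : deriv (ff k) s = chi k s / 2 := by
    rcases hs.eq_or_lt with h | h
    · subst h
      have t1 : Tendsto (deriv (ff k)) (𝓝[>] 0) (𝓝 (deriv (ff k) 0)) :=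
        (hc1.tendsto 0).mono_left nhdsWithin_le_nhds
      have t2 : Tendsto (fun s => chi k s / 2) (𝓝[>] 0) (𝓝 (chi k 0 / 2)) :=
        (hc2.tendsto 0).mono_left nhdsWithin_le_nhds
      have t3 : (deriv (ff k)) =ᶠ[𝓝[>] 0] fun s => chi k s / 2 := by
        filter_upwards [self_mem_nhdsWithin] with s hs
        exact hcl s hs
      exact tendsto_nhds_unique t1 (t2.congr' t3.symm)
    · exact hcl s h
  rw [← heq]
  exact hd.hasDerivAt

end Vale.Agent.P219.End
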