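import Mathlib

/-!
# P219, all dimensions: compactness of measures

Weak limits of finite measures carried by a compact set, along an ultrafilter or along a
subsequence, and weak limits of functions with values in `[0,1]`.
-/

open MeasureTheory Set Filter Topology
open scoped ENNReal NNReal BoundedContinuousFunction

namespace Vale.Agent.P219.End

section general

variable {X : Type*} [MeasurableSpace X]

/-- The integral over a measure carried by `K`, as an integral over the subtype. -/
theorem integral_comap_subtype {K : Set X} (hK : MeasurableSet K) (μ : Measure X)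
    (h : μ Kᶜ = 0) (f : X → ℝ) :
    ∫ x : K, f x ∂(μ.comap (Subtype.val : K → X)) = ∫ x, f x ∂μ := by
  rw [integral_subtype_comap hK f, setIntegral_eq_integral_of_ae_compl_eq_zero]
  filter_upwards [compl_mem_ae_iff.2 h] with x hx hxK
  exact absurd hxK (by simpa using hx)

/-- Convergence of integrals of uniformly convergent functions. -/
theorem tendsto_integral_of_uniform {ι : Type*} {F : Filter ι} {μ : ι → Measure X}
    {V : Measure X} {C : ℝ≥0} {K : Set X} (hC : ∀ j, μ j univ ≤ C)
    (hs : ∀ j, μ j Kᶜ = 0) {f : X → ℝ}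
    (hf : Tendsto (fun j => ∫ x, f x ∂(μ j)) F (𝓝 (∫ x, f x ∂V)))
    (hfi : ∀ j, Integrable f (μ j))
    {g : ι → X → ℝ} (hgi : ∀ j, Integrable (g j) (μ j)) {ε : ι → ℝ}
    (hε : Tendsto ε F (𝓝 0)) (hg : ∀ᶠ j in F, ∀ x ∈ K, |g j x - f x| ≤ ε j) :
    Tendsto (fun j => ∫ x, g j x ∂(μ j)) F (𝓝 (∫ x, f x ∂V)) := by
  have h1 : Tendsto (fun j => ∫ x, g j x ∂(μ j) - ∫ x, f x ∂(μ j)) F (𝓝 0) := by
    have h2 : Tendsto (fun j => |ε j| * (C : ℝ)) F (𝓝 0) := by
      simpa using (hε.abs).mul_const (C : ℝ)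
    refine squeeze_zero_norm' ?_ h2
    filter_upwards [hg] with j hj
    have : IsFiniteMeasure (μ j) := ⟨(hC j).trans_lt ENNReal.coe_lt_top⟩
    rw [← integral_sub (hgi j) (hfi j)]
    have h3 : ‖∫ x, (g j x - f x) ∂(μ j)‖ ≤ |ε j| * (μ j).real univ := by
      apply norm_integral_le_of_norm_le_const
      have : ∀ᵐ x ∂(μ j), x ∈ K := by
        rw [ae_iff]
        exact hs j
      filter_upwards [this] with x hx
      exact (hj x hx).trans (le_abs_self _)
    refine h3.trans (mul_le_mul_of_nonneg_left ?_ (abs_nonneg _))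
    have := ENNReal.toReal_mono (by simp) (hC j)
    simpa [Measure.real] using this
  have h5 := h1.add hf
  simpa using h5

variable [TopologicalSpace X]

/-- A function continuous on a compact set `K` is integrable for a finite measure carried
by `K`. -/
theorem integrable_of_continuousOn [T2Space X] [BorelSpace X] {K : Set X} (hK : IsCompact K)
    {μ : Measure X} [IsFiniteMeasure μ] (hs : μ Kᶜ = 0) {f : X → ℝ} (hf : ContinuousOn f K) :
    Integrable f μ := by
  have h1 : IntegrableOn f K μ := hf.integrableOn_compact hK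
  have h2 : μ.restrict K = μ := by
    apply Measure.restrict_eq_self_of_ae_mem
    rw [ae_iff]
    exact hs
  rwa [IntegrableOn, h2] at h1

variable [BorelSpace X]

/-- Limits along an ultrafilter of finite measures carried by a compact set. -/
theorem exists_limit_measure [T2Space X] {ι : Type*} (F : Ultrafilter ι) (μ : ι → Measure X)
    (C : ℝ≥0) {K : Set X} (hK : IsCompact K) (hC : ∀ j, μ j univ ≤ C) (hs : ∀ j, μ j Kᶜ = 0) :
    ∃ V : Measure X, IsFiniteMeasure V ∧ V univ ≤ C ∧ V Kᶜ = 0 ∧
      ∀ f : X → ℝ, ContinuousOn f K →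
        Tendsto (fun j => ∫ x, f x ∂(μ j)) F (𝓝 (∫ x, f x ∂V)) := by
  classical
  have hKm : MeasurableSet K := hK.measurableSet
  have : CompactSpace K := isCompact_iff_compactSpace.mp hK
  have hfin : ∀ j, IsFiniteMeasure (μ j) := fun j => ⟨(hC j).trans_lt ENNReal.coe_lt_top⟩
  have hcm : ∀ j, (μ j).comap (Subtype.val : K → X) univ ≤ C := by
    intro j
    rw [comap_subtype_coe_apply hKm]
    exact (measure_mono (subset_univ _)).trans (hC j)
  let ν : ι → FiniteMeasure K := fun j =>
    ⟨(μ j).comap (Subtype.val : K → X), ⟨(hcm j).trans_lt ENNReal.coe_lt_top⟩⟩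
  have hν : ∀ j, (ν j).mass ≤ C := by
    intro j
    have h1 : ((ν j).mass : ℝ≥0∞) ≤ C := by
      rw [FiniteMeasure.ennreal_mass]
      exact hcm j
    exact_mod_cast h1
  have hcomp := isCompact_setOfPred_finiteMeasure_le_of_compactSpace K C
  obtain ⟨V', hV'C, hV'⟩ := isCompact_iff_ultrafilter_le_nhds'.1 hcomp (F.map ν)
    (by
      rw [Ultrafilter.mem_map]
      exact Filter.univ_mem' hν)
  have hten : Tendsto ν F (𝓝 V') := hV'
  rw [FiniteMeasure.tendsto_iff_forall_integral_tendsto] at hten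
  refine ⟨(V' : Measure K).map Subtype.val, inferInstance, ?_, ?_, ?_⟩
  · rw [Measure.map_apply measurable_subtype_coe MeasurableSet.univ, preimage_univ]
    have h1 : ((V' : FiniteMeasure K).mass : ℝ≥0∞) ≤ C := by exact_mod_cast hV'C
    rwa [FiniteMeasure.ennreal_mass] at h1
  · rw [Measure.map_apply measurable_subtype_coe hKm.compl]
    simp
  · intro f hf
    have hfr : Continuous (K.domRestrict f) := continuousOn_iff_continuous_domRestrict.1 hf
    let g : K →ᵇ ℝ := BoundedContinuousFunction.mkOfCompact ⟨K.domRestrict f, hfr⟩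
    have h2 := hten g
    have h3 : ∀ j, ∫ x, g x ∂(ν j : Measure K) = ∫ x, f x ∂(μ j) := fun j =>
      integral_comap_subtype hKm (μ j) (hs j) f
    have h4 : ∫ x, g x ∂(V' : Measure K) = ∫ x, f x ∂((V' : Measure K).map Subtype.val) := by
      rw [(MeasurableEmbedding.subtype_coe hKm).integral_map]
      rfl
    rw [← h4]
    exact h2.congr h3

/-- Limits along a subsequence of finite measures carried by a compact set. -/
theorem exists_subseq_measure [T2Space X] [SecondCountableTopology X] (μ : ℕ → Measure X)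
    (C : ℝ≥0) {K : Set X} (hK : IsCompact K) (hC : ∀ j, μ j univ ≤ C) (hs : ∀ j, μ j Kᶜ = 0) :
    ∃ φ : ℕ → ℕ, StrictMono φ ∧ ∃ V : Measure X, IsFiniteMeasure V ∧ V univ ≤ C ∧ V Kᶜ = 0 ∧
      ∀ f : X → ℝ, ContinuousOn f K →
        Tendsto (fun j => ∫ x, f x ∂(μ (φ j))) atTop (𝓝 (∫ x, f x ∂V)) := by
  classical
  have : CompactSpace K := isCompact_iff_compactSpace.mp hK
  have hfin : ∀ j, IsFiniteMeasure (μ j) := fun j => ⟨(hC j).trans_lt ENNReal.coe_lt_top⟩
  obtain ⟨V, hV1, hV2, hV3, hV4⟩ := exists_limit_measure (hyperfilter ℕ) μ C hK hC hs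
  let d : ℕ → C(K, ℝ) := TopologicalSpace.denseSeq C(K, ℝ)
  let g : ℕ → X → ℝ := fun i x => if hx : x ∈ K then d i ⟨x, hx⟩ else 0
  have hgK : ∀ i (x : K), g i x = d i x := fun i x => by simp [g]
  have hg : ∀ i, ContinuousOn (g i) K := by
    intro i
    rw [continuousOn_iff_continuous_domRestrict]
    have : K.domRestrict (g i) = d i := by
      funext x
      exact hgK i x
    rw [this]
    exact (d i).continuous
  have hfreq : ∀ k : ℕ, ∃ᶠ j in atTop, ∀ i ≤ k,
      |∫ x, g i x ∂(μ j) - ∫ x, g i x ∂V| < 1 / ((k : ℝ) + 1) := by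
    intro k
    have h1 : ∀ᶠ j in (hyperfilter ℕ : Filter ℕ), ∀ i ≤ k,
        |∫ x, g i x ∂(μ j) - ∫ x, g i x ∂V| < 1 / ((k : ℝ) + 1) := by
      have h2 : ∀ i ∈ Finset.range (k + 1), ∀ᶠ j in (hyperfilter ℕ : Filter ℕ),
          |∫ x, g i x ∂(μ j) - ∫ x, g i x ∂V| < 1 / ((k : ℝ) + 1) := by
        intro i _
        have h3 := Metric.tendsto_nhds.1 (hV4 (g i) (hg i)) (1 / ((k : ℝ) + 1)) (by positivity)
        filter_upwards [h3] with j hj
        rwa [Real.dist_eq] at hj
      have h4 := (Finset.eventually_all _).2 h2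
      filter_upwards [h4] with j hj i hi
      exact hj i (Finset.mem_range.2 (by omega))
    have h5 : ∃ᶠ j in (hyperfilter ℕ : Filter ℕ), ∀ i ≤ k,
        |∫ x, g i x ∂(μ j) - ∫ x, g i x ∂V| < 1 / ((k : ℝ) + 1) := h1.frequently
    have h6 : (hyperfilter ℕ : Filter ℕ) ≤ atTop := by
      rw [← Nat.cofinite_eq_atTop]
      exact hyperfilter_le_cofinite
    exact h5.filter_mono h6
  obtain ⟨φ, hφ, hP⟩ := extraction_forall_of_frequently hfreq
  refine ⟨φ, hφ, V, hV1, hV2, hV3, fun f hf => ?_⟩
  rw [Metric.tendsto_atTop]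
  intro ε hε
  let fK : C(K, ℝ) := ⟨K.domRestrict f, continuousOn_iff_continuous_domRestrict.1 hf⟩
  have hδ : (0 : ℝ) < ε / (4 * (C + 1)) := by positivity
  obtain ⟨i, hi⟩ : ∃ i, dist (d i) fK < ε / (4 * (C + 1)) := by
    have := (TopologicalSpace.denseRange_denseSeq C(K, ℝ)).exists_dist_lt fK hδ
    obtain ⟨i, hi⟩ := this
    exact ⟨i, by rw [dist_comm]; exact hi⟩
  have hclose : ∀ x ∈ K, |f x - g i x| ≤ ε / (4 * (C + 1)) := by
    intro x hx
    have h1 : dist (d i ⟨x, hx⟩) (fK ⟨x, hx⟩) ≤ dist (d i) fK := ContinuousMap.dist_apply_le_dist _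
    rw [Real.dist_eq] at h1
    have h2 : g i x = d i ⟨x, hx⟩ := hgK i ⟨x, hx⟩
    rw [h2, abs_sub_comm]
    exact h1.trans hi.le
  have hdiff : ∀ (η : Measure X), IsFiniteMeasure η → η univ ≤ C → η Kᶜ = 0 →
      |∫ x, f x ∂η - ∫ x, g i x ∂η| ≤ ε / 4 := by
    intro η hη h1 h2
    rw [← integral_sub (integrable_of_continuousOn hK h2 hf)
      (integrable_of_continuousOn hK h2 (hg i))]
    have h3 : ‖∫ x, (f x - g i x) ∂η‖ ≤ ε / (4 * (C + 1)) * η.real univ := by
      apply norm_integral_le_of_norm_le_const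
      have : ∀ᵐ x ∂η, x ∈ K := by
        rw [ae_iff]
        exact h2
      filter_upwards [this] with x hx
      exact hclose x hx
    have h4 : η.real univ ≤ C := by
      have := ENNReal.toReal_mono (by simp) h1
      simpa [Measure.real] using this
    rw [Real.norm_eq_abs] at h3
    refine h3.trans ?_
    have hC0 : (0 : ℝ) ≤ C := C.coe_nonneg
    rw [div_mul_eq_mul_div, div_le_div_iff₀ (by positivity) (by norm_num)]
    nlinarith
  obtain ⟨N0, hN0⟩ := exists_nat_one_div_lt (show (0 : ℝ) < ε / 4 by positivity)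
  refine ⟨max i N0, fun k hk => ?_⟩
  have h1 := hP k i ((le_max_left _ _).trans hk)
  have h2 : 1 / ((k : ℝ) + 1) ≤ 1 / ((N0 : ℝ) + 1) := by
    apply one_div_le_one_div_of_le (by positivity)
    have : (N0 : ℝ) ≤ k := by exact_mod_cast (le_max_right _ _).trans hk
    linarith
  have h3 := hdiff (μ (φ k)) (hfin _) (hC _) (hs _)
  have h4 := hdiff V hV1 hV2 hV3
  rw [Real.dist_eq]
  rw [abs_le] at h3 h4
  rw [abs_lt] at h1 ⊢
  constructor <;> linarith [h1.1, h1.2, h3.1, h3.2, h4.1, h4.2]

/-- Comparison of finite measures by continuous functions. -/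
theorem measure_le_of_integral_le [T2Space X] [TopologicalSpace.PseudoMetrizableSpace X]
    {W L : Measure X}
    [IsFiniteMeasure W] [IsFiniteMeasure L]
    (h : ∀ f : X → ℝ, Continuous f → (∀ x, 0 ≤ f x) → (∀ x, f x ≤ 1) →
      ∫ x, f x ∂W ≤ ∫ x, f x ∂L) : W ≤ L := by
  have hclosed : ∀ F : Set X, IsClosed F → W F ≤ L F := by
    intro F hF
    have h1 := HasOuterApproxClosed.tendsto_lintegral_apprSeq hF L
    refine ge_of_tendsto' h1 fun j => ?_
    refine (HasOuterApproxClosed.measure_le_lintegral hF W j).trans ?_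
    have h2 := h (fun x => (hF.apprSeq j x : ℝ)) (by fun_prop) (fun x => NNReal.coe_nonneg _)
      (fun x => by exact_mod_cast HasOuterApproxClosed.apprSeq_apply_le_one hF j x)
    rw [← BoundedContinuousFunction.toReal_lintegral_coe_eq_integral, ← BoundedContinuousFunction.toReal_lintegral_coe_eq_integral] at h2
    exact (ENNReal.toReal_le_toReal (BoundedContinuousFunction.lintegral_lt_top_of_nnreal W _).ne
      (BoundedContinuousFunction.lintegral_lt_top_of_nnreal L _).ne).1 h2
  rw [Measure.le_iff]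
  intro A hA
  rw [hA.measure_eq_iSup_isClosed_of_ne_top (measure_ne_top W A)]
  refine iSup_le fun F => iSup_le fun hF => iSup_le fun hFc => ?_
  exact (hclosed F hFc).trans (measure_mono hF)

/-- Weak limits of functions with values in `[0,1]` vanishing off a compact set. -/
theorem exists_subseq_density [T2Space X] [SecondCountableTopology X]
    [TopologicalSpace.PseudoMetrizableSpace X] {K : Set X} (hK : IsCompact K) {L : Measure X}
    (hL : L K ≠ ⊤) (h : ℕ → X → ℝ) (hm : ∀ j, Measurable (h j)) (h0 : ∀ j x, 0 ≤ h j x)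
    (h1 : ∀ j x, h j x ≤ 1) (hs : ∀ j, ∀ x, x ∉ K → h j x = 0) :
    ∃ φ : ℕ → ℕ, StrictMono φ ∧ ∃ u : X → ℝ, Measurable u ∧ (∀ x, 0 ≤ u x) ∧ (∀ x, u x ≤ 1) ∧
      (∀ x, x ∉ K → u x = 0) ∧ ∀ f : X → ℝ, ContinuousOn f K →
        Tendsto (fun j => ∫ x, f x * h (φ j) x ∂L) atTop (𝓝 (∫ x, f x * u x ∂L)) := by
  classical
  have hKm : MeasurableSet K := hK.measurableSet
  set L' : Measure X := L.restrict K with hL'
  have hfL : IsFiniteMeasure L' := ⟨by
    rw [hL', Measure.restrict_apply MeasurableSet.univ, univ_inter]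
    exact hL.lt_top⟩
  -- the measures `h_j L'`
  set μ : ℕ → Measure X := fun j => L'.withDensity fun x => ENNReal.ofReal (h j x) with hμ
  have hμL : ∀ j, μ j ≤ L' := by
    intro j
    calc μ j ≤ L'.withDensity 1 := by
          apply withDensity_mono
          exact Filter.Eventually.of_forall fun x => by
            simpa using ENNReal.ofReal_le_ofReal (h1 j x)
      _ = L' := withDensity_one
  set C : ℝ≥0 := (L' univ).toNNReal with hCdef
  have hC : ∀ j, μ j univ ≤ C := by
    intro j
    rw [hCdef, ENNReal.coe_toNNReal (measure_ne_top L' univ)]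
    exact hμL j univ
  have hL'K : L' Kᶜ = 0 := by
    rw [hL', Measure.restrict_apply hKm.compl]
    simp
  have hsμ : ∀ j, μ j Kᶜ = 0 := fun j => le_antisymm ((hμL j Kᶜ).trans hL'K.le) zero_le
  obtain ⟨φ, hφ, W, hW1, hW2, hW3, hW4⟩ := exists_subseq_measure μ C hK hC hsμ
  have hint : ∀ (f : X → ℝ) j, ∫ x, f x ∂(μ j) = ∫ x, f x * h j x ∂L := by
    intro f j
    rw [hμ]
    simp only
    rw [integral_withDensity_eq_integral_toReal_smul₀
      ((hm j).ennreal_ofReal.aemeasurable)
      (Filter.Eventually.of_forall fun x => ENNReal.ofReal_lt_top)]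
    rw [hL', ← setIntegral_eq_integral_of_forall_compl_eq_zero (s := K)
      (f := fun x => f x * h j x) (fun x hx => by rw [hs j x hx, mul_zero])]
    refine integral_congr_ae (Filter.Eventually.of_forall fun x => ?_)
    simp only
    rw [ENNReal.toReal_ofReal (h0 j x), smul_eq_mul, mul_comm]
  -- `W ≤ L'`
  have hWL : W ≤ L' := by
    apply measure_le_of_integral_le
    intro f hf hf0 hf1
    refine le_of_tendsto' (hW4 f hf.continuousOn) fun j => ?_
    apply integral_mono_measure (hμL _) (Filter.Eventually.of_forall hf0)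
    exact integrable_of_continuousOn hK hL'K hf.continuousOn
  have hac : W ≪ L' := Measure.absolutelyContinuous_of_le hWL
  set r : X → ℝ≥0∞ := W.rnDeriv L' with hr
  have hrle : ∀ᵐ x ∂L', r x ≤ 1 := Measure.rnDeriv_le_one_of_le hWL
  have hWr : L'.withDensity r = W := Measure.withDensity_rnDeriv_eq W L' hac
  refine ⟨φ, hφ, K.indicator fun x => (min (r x) 1).toReal, ?_, ?_, ?_, ?_, ?_⟩
  · apply Measurable.indicator _ hKm
    exact ((Measure.measurable_rnDeriv W L').min measurable_const).ennreal_toReal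
  · intro x
    exact indicator_nonneg (fun _ _ => ENNReal.toReal_nonneg) x
  · intro x
    apply indicator_le' (fun y _ => ?_) (fun _ _ => zero_le_one)
    have := ENNReal.toReal_mono (by simp) (min_le_right (r y) 1)
    simpa using this
  · intro x hx
    exact indicator_of_notMem hx _
  · intro f hf
    have h2 := hW4 f hf
    have h3 : ∫ x, f x * K.indicator (fun x => (min (r x) 1).toReal) x ∂L = ∫ x, f x ∂W := by
      rw [← hWr, integral_withDensity_eq_integral_toReal_smul₀
        (Measure.measurable_rnDeriv W L').aemeasurable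
        (by filter_upwards [hrle] with x hx using hx.trans_lt ENNReal.one_lt_top)]
      rw [hL', ← setIntegral_eq_integral_of_forall_compl_eq_zero (s := K)
        (f := fun x => f x * K.indicator (fun x => (min (r x) 1).toReal) x)
        (fun x hx => by rw [indicator_of_notMem hx, mul_zero])]
      apply integral_congr_ae
      filter_upwards [hrle, ae_restrict_mem hKm] with x hx hxK
      rw [indicator_of_mem hxK, min_eq_left hx, smul_eq_mul, mul_comm]
    rw [h3]
    exact h2.congr fun j => hint f (φ j)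

end general

end Vale.Agent.P219.End
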