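import Vale.Agent.P219.End.Ident

/-!
# P219 / End : consequences of the exact identity

The defect is nonnegative, it dominates each of its three parts, and it decreases under
`u = g w^γ ↦ φ(g) w^γ` with `|φ'| ≤ 1`, `0 ≤ φ(t) ≤ t`.
-/

open MeasureTheory Set Metric
open scoped ContDiff

namespace Vale.Agent.P219.End

variable {n : ℕ}

theorem one_le_inf : (1 : WithTop ℕ∞) ≤ ∞ := by exact_mod_cast le_top

namespace Lim

variable (L : Lim n) {c : E n} {ε : ℝ}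

/-- first part of the defect -/
noncomputable def d1 (c : E n) (ε : ℝ) (u : E n → ℝ) : ℝ :=
  ∫ z, L.w c ε z.1 ^ (L.m - 2) * L.G (L.gq c ε u) (L.gq c ε u) z ∂L.V

/-- second part of the defect -/
noncomputable def d2 (c : E n) (ε : ℝ) (u : E n → ℝ) : ℝ :=
  ∫ z, u z.1 ^ 2 * (L.H0 / L.m - L.nc c z / (L.F c z.1 + ε)) ^ 2 ∂L.V

theorem ident' (hε : 0 < ε) (hk : L.k2 * ε < 2) {u : E n → ℝ} (hu : ContDiff ℝ ∞ u) :
    L.Def c ε u = 4 / (L.m * (L.m - 2)) * L.d1 c ε u + L.d2 c ε u +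
      2 / L.m * L.Dl c (L.tf c ε u) :=
  L.ident hε hk (hu.of_le one_le_inf)

theorem cA_pos : 0 < 4 / (L.m * (L.m - 2)) := by
  have := L.m_pos
  have := L.m_sub_pos
  positivity

theorem d1_nonneg (hε : 0 < ε) (hk : L.k2 * ε < 2) (u : E n → ℝ) : 0 ≤ L.d1 c ε u :=
  L.integral_nonneg_of fun z _ hz =>
    mul_nonneg (Real.rpow_nonneg (L.w_pos hε hk z.1).le _) (L.G_self_nonneg _ hz)

theorem d2_nonneg (u : E n → ℝ) : 0 ≤ L.d2 c ε u :=
  L.integral_nonneg_of fun z _ _ => mul_nonneg (sq_nonneg _) (sq_nonneg _)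

theorem d3_nonneg (hc : c ∈ L.K) (hε : 0 < ε) {u : E n → ℝ} (hu : ContDiff ℝ ∞ u) :
    0 ≤ L.Dl c (L.tf c ε u) :=
  L.Dl_nonneg hc (L.tf_smooth hε hu le_rfl) (L.tf_nonneg hε u)

theorem Def_nonneg (hc : c ∈ L.K) (hε : 0 < ε) (hk : L.k2 * ε < 2) {u : E n → ℝ}
    (hu : ContDiff ℝ ∞ u) : 0 ≤ L.Def c ε u := by
  rw [L.ident' hε hk hu]
  have h1 := mul_nonneg L.cA_pos.le (L.d1_nonneg (c := c) hε hk u)
  have h2 := L.d2_nonneg (c := c) (ε := ε) u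
  have h3 := mul_nonneg (show 0 ≤ 2 / L.m by have := L.m_pos; positivity) (L.d3_nonneg hc hε hu)
  linarith

/-- `∫ u² w² ≤ E(u)` -/
theorem w_le_En (hc : c ∈ L.K) (hε : 0 < ε) (hk : L.k2 * ε < 2) {u : E n → ℝ}
    (hu : ContDiff ℝ ∞ u) : ∫ z, u z.1 ^ 2 * L.w c ε z.1 ^ 2 ∂L.V ≤ L.En u := by
  have := L.Def_nonneg hc hε hk hu
  unfold Def at this
  linarith

theorem d1_le (hc : c ∈ L.K) (hε : 0 < ε) (hk : L.k2 * ε < 2) {u : E n → ℝ}
    (hu : ContDiff ℝ ∞ u) : L.d1 c ε u ≤ L.m * (L.m - 2) / 4 * L.Def c ε u := by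
  have h2 := L.d2_nonneg (c := c) (ε := ε) u
  have h3 := mul_nonneg (show 0 ≤ 2 / L.m by have := L.m_pos; positivity) (L.d3_nonneg hc hε hu)
  have h4 : 4 / (L.m * (L.m - 2)) * L.d1 c ε u ≤ L.Def c ε u := by
    rw [L.ident' hε hk hu]
    linarith
  have hm := L.m_pos
  have hm2 := L.m_sub_pos
  have h5 := mul_le_mul_of_nonneg_left h4 (show 0 ≤ L.m * (L.m - 2) / 4 by positivity)
  refine le_trans (le_of_eq ?_) h5
  field_simp

theorem d2_le (hc : c ∈ L.K) (hε : 0 < ε) (hk : L.k2 * ε < 2) {u : E n → ℝ}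
    (hu : ContDiff ℝ ∞ u) : L.d2 c ε u ≤ L.Def c ε u := by
  have h1 := mul_nonneg L.cA_pos.le (L.d1_nonneg (c := c) hε hk u)
  have h3 := mul_nonneg (show 0 ≤ 2 / L.m by have := L.m_pos; positivity) (L.d3_nonneg hc hε hu)
  rw [L.ident' hε hk hu]
  linarith

theorem d3_le (hc : c ∈ L.K) (hε : 0 < ε) (hk : L.k2 * ε < 2) {u : E n → ℝ}
    (hu : ContDiff ℝ ∞ u) : L.Dl c (L.tf c ε u) ≤ L.m / 2 * L.Def c ε u := by
  have h1 := mul_nonneg L.cA_pos.le (L.d1_nonneg (c := c) hε hk u)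
  have h2 := L.d2_nonneg (c := c) (ε := ε) u
  have hm := L.m_pos
  have h4 : 2 / L.m * L.Dl c (L.tf c ε u) ≤ L.Def c ε u := by
    rw [L.ident' hε hk hu]
    linarith
  have h5 := mul_le_mul_of_nonneg_left h4 (show 0 ≤ L.m / 2 by positivity)
  refine le_trans (le_of_eq ?_) h5
  field_simp

/-- the positivity trick -/
theorem Dl_le_of (hc : c ∈ L.K) (hε : 0 < ε) (hk : L.k2 * ε < 2) {u Φ : E n → ℝ}
    (hu : ContDiff ℝ ∞ u) (hΦ : ContDiff ℝ ∞ Φ) {C : ℝ} (hC : 0 ≤ C)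
    (h : ∀ x, Φ x ≤ C * (u x ^ 2 / (L.F c x + ε))) :
    L.Dl c Φ ≤ C * (L.m / 2 * L.Def c ε u) := by
  have h1 := L.Dl_mono hc hΦ (contDiff_const.mul (L.tf_smooth (c := c) hε hu le_rfl))
    (ψ' := fun x => C * L.tf c ε u x) h
  rw [L.Dl_smul c C ((L.tf_smooth (c := c) hε hu le_rfl).of_le one_le_inf)] at h1
  exact h1.trans (mul_le_mul_of_nonneg_left (L.d3_le hc hε hk hu) hC)

/-- the truncated function `φ(g) w^γ` -/
noncomputable def tr (c : E n) (ε : ℝ) (φ : ℝ → ℝ) (u : E n → ℝ) (x : E n) : ℝ :=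
  φ (L.gq c ε u x) * L.w c ε x ^ L.gm

theorem tr_smooth (hε : 0 < ε) (hk : L.k2 * ε < 2) {u : E n → ℝ} (hu : ContDiff ℝ ∞ u)
    {φ : ℝ → ℝ} (hφ : ContDiff ℝ ∞ φ) : ContDiff ℝ ∞ (L.tr c ε φ u) :=
  (hφ.comp (L.gq_smooth hε hk hu le_rfl)).mul (L.w_rpow_smooth hε hk L.gm)

theorem gq_tr (hε : 0 < ε) (hk : L.k2 * ε < 2) (φ : ℝ → ℝ) (u : E n → ℝ) :
    L.gq c ε (L.tr c ε φ u) = fun x => φ (L.gq c ε u x) := by
  funext x
  exact mul_div_cancel_right₀ _ (Real.rpow_pos_of_pos (L.w_pos hε hk x) _).ne'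

theorem gq_pos (hε : 0 < ε) (hk : L.k2 * ε < 2) {u : E n → ℝ} {x : E n} (hu : 0 < u x) :
    0 < L.gq c ε u x := div_pos hu (Real.rpow_pos_of_pos (L.w_pos hε hk x) _)

theorem tr_bounds (hε : 0 < ε) (hk : L.k2 * ε < 2) {u : E n → ℝ} (hu : ∀ x, 0 < u x)
    {φ : ℝ → ℝ} (hφ : ∀ t, 0 < t → 0 ≤ φ t ∧ φ t ≤ t) (x : E n) :
    0 ≤ L.tr c ε φ u x ∧ L.tr c ε φ u x ≤ u x := by
  have hw := Real.rpow_pos_of_pos (L.w_pos (c := c) hε hk x) L.gm
  obtain ⟨h1, h2⟩ := hφ _ (L.gq_pos (c := c) hε hk (hu x))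
  refine ⟨mul_nonneg h1 hw.le, ?_⟩
  have h3 := mul_le_mul_of_nonneg_right h2 hw.le
  rwa [L.gq_mul hε hk] at h3

/-- monotonicity of the defect under truncation -/
theorem Def_tr_le (hc : c ∈ L.K) (hε : 0 < ε) (hk : L.k2 * ε < 2) {u : E n → ℝ}
    (hu : ContDiff ℝ ∞ u) (hu0 : ∀ x, 0 < u x) {φ : ℝ → ℝ} (hφ : ContDiff ℝ ∞ φ)
    (h1 : ∀ t, 0 < t → |deriv φ t| ≤ 1) (h2 : ∀ t, 0 < t → 0 ≤ φ t ∧ φ t ≤ t) :
    L.Def c ε (L.tr c ε φ u) ≤ L.Def c ε u := by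
  have hv := L.tr_smooth (c := c) hε hk hu hφ
  have hb := L.tr_bounds (c := c) hε hk hu0 h2
  rw [L.ident' hε hk hu, L.ident' hε hk hv]
  have hsq : ∀ x, L.tr c ε φ u x ^ 2 ≤ u x ^ 2 := fun x =>
    pow_le_pow_left₀ (hb x).1 (hb x).2 2
  have cF : Continuous fun z : E n × E n => L.F c z.1 := (L.Fc_cont c).comp continuous_fst
  have e1 : L.d1 c ε (L.tr c ε φ u) ≤ L.d1 c ε u := by
    have hgs : ContDiff ℝ 1 (L.gq c ε u) := (L.gq_smooth hε hk hu le_rfl).of_le one_le_inf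
    have hgv : ContDiff ℝ 1 (L.gq c ε (L.tr c ε φ u)) :=
      (L.gq_smooth hε hk hv le_rfl).of_le one_le_inf
    have cw : Continuous fun z : E n × E n => L.w c ε z.1 ^ (L.m - 2) :=
      (L.w_rpow_smooth hε hk (L.m - 2)).continuous.comp continuous_fst
    refine L.integral_mono_of (cw.mul (L.G_cont hgv hgv)) (cw.mul (L.G_cont hgs hgs)) ?_
    intro z _ hz
    refine mul_le_mul_of_nonneg_left ?_ (Real.rpow_nonneg (L.w_pos hε hk z.1).le _)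
    have hg := L.G_self_nonneg (L.gq c ε u) hz
    have hD : D L.A (L.gq c ε (L.tr c ε φ u)) z.1 =
        deriv φ (L.gq c ε u z.1) • D L.A (L.gq c ε u) z.1 := by
      rw [L.gq_tr hε hk]
      exact D_comp ((hφ.differentiable (by norm_num) _).hasDerivAt)
        (hgs.differentiable (by norm_num) _)
    have hG : L.G (L.gq c ε (L.tr c ε φ u)) (L.gq c ε (L.tr c ε φ u)) z =
        deriv φ (L.gq c ε u z.1) ^ 2 * L.G (L.gq c ε u) (L.gq c ε u) z := by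
      show gv _ _ _ = _ * gv _ _ _
      rw [hD, gv_smul_left, gv_smul_right]
      ring
    rw [hG]
    have h3 := h1 _ (L.gq_pos (c := c) hε hk (hu0 z.1))
    have h4 : deriv φ (L.gq c ε u z.1) ^ 2 ≤ 1 := by
      rw [← sq_abs]
      exact pow_le_one₀ (abs_nonneg _) h3
    exact mul_le_of_le_one_left hg h4
  have e2 : L.d2 c ε (L.tr c ε φ u) ≤ L.d2 c ε u := by
    have cn := L.nc_cont c
    have hp : ∀ z : E n × E n, L.F c z.1 + ε ≠ 0 := fun z => (L.Fe_pos hε z.1).ne'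
    have cq : Continuous fun z : E n × E n => (L.H0 / L.m - L.nc c z / (L.F c z.1 + ε)) ^ 2 :=
      (continuous_const.sub (cn.div (cF.add continuous_const) hp)).pow 2
    have cu : Continuous fun z : E n × E n => u z.1 := hu.continuous.comp continuous_fst
    have cv : Continuous fun z : E n × E n => L.tr c ε φ u z.1 := hv.continuous.comp continuous_fst
    refine L.integral_mono_of ((cv.pow 2).mul cq) ((cu.pow 2).mul cq) ?_
    intro z _ _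
    exact mul_le_mul_of_nonneg_right (hsq z.1) (sq_nonneg _)
  have e3 : L.Dl c (L.tf c ε (L.tr c ε φ u)) ≤ L.Dl c (L.tf c ε u) := by
    refine L.Dl_mono hc (L.tf_smooth hε hv le_rfl) (L.tf_smooth hε hu le_rfl) fun x => ?_
    exact div_le_div_of_nonneg_right (hsq x) (L.Fe_pos hε x).le
  have f1 := mul_le_mul_of_nonneg_left e1 L.cA_pos.le
  have f3 := mul_le_mul_of_nonneg_left e3 (show 0 ≤ 2 / L.m by have := L.m_pos; positivity)
  linarith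

end Lim

end Vale.Agent.P219.End
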