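import Vale.Agent.P219.End.Bub
import Vale.Agent.P219.End.Ident2

/-!
# P219 / End : the exact identity and the monotonicity of the defect, in terms of the scale `s`
(`ε = s² / 2`)
-/

open MeasureTheory Set Metric
open scoped ENNReal ContDiff Topology

namespace Vale.Agent.P219.End

variable {n : ℕ}

namespace Lim

variable (L : Lim n)

theorem Ad.pos {L : Lim n} {s : ℝ} (hs : L.Ad s) : 0 < s := hs.1

theorem Ad.eps_pos {L : Lim n} {s : ℝ} (hs : L.Ad s) : 0 < s ^ 2 / 2 := by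
  have := hs.1
  positivity

theorem Ad.k2_lt {L : Lim n} {s : ℝ} (hs : L.Ad s) : L.k2 * (s ^ 2 / 2) < 2 := by
  have := hs.2.2
  linarith

theorem def_eq' {s : ℝ} (hs : 0 < s) (hs' : L.k2 * s ^ 2 < 4) (c : E n) {u : E n → ℝ}
    (hu : ContDiff ℝ ∞ u) :
    L.Def c (s ^ 2 / 2) u =
      4 / (L.m * (L.m - 2)) * (∫ z, L.ws c s z.1 ^ (L.m - 2) * L.G (L.gs c s u) (L.gs c s u) z ∂L.V) +
      (∫ z, u z.1 ^ 2 * (L.H0 / L.m - L.nc c z / (L.F c z.1 + s ^ 2 / 2)) ^ 2 ∂L.V) +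
      2 / L.m * L.Dl c (fun x => u x ^ 2 / (L.F c x + s ^ 2 / 2)) :=
  L.ident' (by positivity) (by linarith) hu

/-- B2a -/
theorem def_eq {s : ℝ} (hs : L.Ad s) (c : E n) {u : E n → ℝ} (hu : ContDiff ℝ ∞ u) :
    L.Def c (s ^ 2 / 2) u =
      4 / (L.m * (L.m - 2)) * (∫ z, L.ws c s z.1 ^ (L.m - 2) * L.G (L.gs c s u) (L.gs c s u) z ∂L.V) +
      (∫ z, u z.1 ^ 2 * (L.H0 / L.m - L.nc c z / (L.F c z.1 + s ^ 2 / 2)) ^ 2 ∂L.V) +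
      2 / L.m * L.Dl c (fun x => u x ^ 2 / (L.F c x + s ^ 2 / 2)) :=
  L.ident' hs.eps_pos hs.k2_lt hu

/-- B2b monotonicity of the defect -/
theorem def_mono {s : ℝ} (hs : L.Ad s) {c : E n} (hc : c ∈ L.K) {u : E n → ℝ} (hu : SP u)
    {θ : ℝ → ℝ} (hθ : ContDiff ℝ ∞ θ) (h1 : ∀ t, 0 ≤ deriv θ t ∧ deriv θ t ≤ 1)
    (h2 : ∀ t, 0 ≤ t → 0 ≤ θ t ∧ θ t ≤ t) :
    L.Def c (s ^ 2 / 2) (fun x => θ (L.gs c s u x) * L.ws c s x ^ ((L.m - 2) / 2)) ≤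
      L.Def c (s ^ 2 / 2) u :=
  L.Def_tr_le hc hs.eps_pos hs.k2_lt hu.1 hu.2 hθ
    (fun t _ => abs_le.2 ⟨by linarith [(h1 t).1], (h1 t).2⟩) (fun t ht => h2 t ht.le)

/-! ## the consequences, in terms of the scale -/

theorem def_nonneg {s : ℝ} (hs : L.Ad s) {c : E n} (hc : c ∈ L.K) {u : E n → ℝ}
    (hu : ContDiff ℝ ∞ u) : 0 ≤ L.Def c (s ^ 2 / 2) u :=
  L.Def_nonneg hc hs.eps_pos hs.k2_lt hu

/-- `∫ w^{m-2} |∇g|² ≤ (m (m-2) / 4) Def` -/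
theorem def_ge1 {s : ℝ} (hs : L.Ad s) {c : E n} (hc : c ∈ L.K) {u : E n → ℝ}
    (hu : ContDiff ℝ ∞ u) :
    ∫ z, L.ws c s z.1 ^ (L.m - 2) * L.G (L.gs c s u) (L.gs c s u) z ∂L.V ≤
      L.m * (L.m - 2) / 4 * L.Def c (s ^ 2 / 2) u :=
  L.d1_le hc hs.eps_pos hs.k2_lt hu

/-- `∫ u² (H₀/m - n_c/(F+ε))² ≤ Def` -/
theorem def_ge2 {s : ℝ} (hs : L.Ad s) {c : E n} (hc : c ∈ L.K) {u : E n → ℝ}
    (hu : ContDiff ℝ ∞ u) :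
    ∫ z, u z.1 ^ 2 * (L.H0 / L.m - L.nc c z / (L.F c z.1 + s ^ 2 / 2)) ^ 2 ∂L.V ≤
      L.Def c (s ^ 2 / 2) u :=
  L.d2_le hc hs.eps_pos hs.k2_lt hu

/-- `Dl[u²/(F+ε)] ≤ (m/2) Def` -/
theorem def_ge3 {s : ℝ} (hs : L.Ad s) {c : E n} (hc : c ∈ L.K) {u : E n → ℝ}
    (hu : ContDiff ℝ ∞ u) :
    L.Dl c (fun x => u x ^ 2 / (L.F c x + s ^ 2 / 2)) ≤ L.m / 2 * L.Def c (s ^ 2 / 2) u :=
  L.d3_le hc hs.eps_pos hs.k2_lt hu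

/-- the positivity trick -/
theorem def_ge_of {s : ℝ} (hs : L.Ad s) {c : E n} (hc : c ∈ L.K) {u Φ : E n → ℝ}
    (hu : ContDiff ℝ ∞ u) (hΦ : ContDiff ℝ ∞ Φ) {C : ℝ} (hC : 0 ≤ C)
    (h : ∀ x, Φ x ≤ C * (u x ^ 2 / (L.F c x + s ^ 2 / 2))) :
    L.Dl c Φ ≤ C * (L.m / 2 * L.Def c (s ^ 2 / 2) u) :=
  L.Dl_le_of hc hs.eps_pos hs.k2_lt hu hΦ hC h

end Lim

end Vale.Agent.P219.End
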