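import Vale.Agent.P219.End.G3Mono
import Vale.Agent.P219.End.BubEps
import Vale.Agent.P219.End.IdentS

/-!
# P219 / End : near a frame of small defect, `J_{g²}` is almost constant in the scale
-/

open MeasureTheory Set Metric
open scoped ENNReal ContDiff Topology

namespace Vale.Agent.P219.End

variable {n : ℕ}

namespace Lim

variable (L : Lim n)

theorem derivJ_g : L.DerivJ_g := by
  intro c Φ hΦ ε h0 hk
  have h1 := L.hasDerivAt_J (c := c) h0 hk hΦ.continuous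
  rw [L.dJ_int h0 hk (hΦ.of_le (by exact_mod_cast le_top))] at h1
  refine h1.congr_deriv ?_
  have cw : Continuous fun z : E n × E n => L.w c ε z.1 ^ L.m :=
    (L.w_rpow_smoothB_g c h0 hk L.m).continuous.comp continuous_fst
  have cΦ : Continuous fun z : E n × E n => Φ z.1 := hΦ.continuous.comp continuous_fst
  have cF : Continuous fun z : E n × E n => L.F c z.1 := (L.Fc_cont c).comp continuous_fst
  have cn := L.nc_cont c
  have i1 : Integrable (fun z : E n × E n => L.m * (Φ z.1 * L.w c ε z.1 ^ L.m * L.nc c z ^ 2 /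
      (L.F c z.1 + ε))) L.V :=
    L.integrable_of_cont (continuous_const.mul ((((cΦ.mul cw).mul (cn.pow 2))).div
      (cF.add continuous_const) fun z => (L.Fe_pos_g c z.1 h0).ne'))
  have i2 : Integrable (fun z : E n × E n => L.H0 * (Φ z.1 * L.w c ε z.1 ^ L.m * L.nc c z)) L.V :=
    L.integrable_of_cont (continuous_const.mul ((cΦ.mul cw).mul cn))
  have e : ∫ z, Φ z.1 * L.w c ε z.1 ^ L.m *
      (L.m * L.nc c z ^ 2 / (L.F c z.1 + ε) - L.H0 * L.nc c z) ∂L.V =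
      L.m * (∫ z, Φ z.1 * L.w c ε z.1 ^ L.m * L.nc c z ^ 2 / (L.F c z.1 + ε) ∂L.V) -
      L.H0 * ∫ z, Φ z.1 * L.w c ε z.1 ^ L.m * L.nc c z ∂L.V := by
    rw [← integral_const_mul, ← integral_const_mul, ← integral_sub i1 i2]
    refine integral_congr_ae (Filter.Eventually.of_forall fun z => ?_)
    simp only
    ring
  rw [e]
  ring

theorem gq_g_eq (c : E n) {s : ℝ} (hs : 0 < s) (h4 : L.k2 * (s ^ 2 / 2) < 2) (u : E n → ℝ) :
    L.gq_g c (s ^ 2 / 2) u = L.gs c s u := by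
  funext x
  unfold gq_g gs
  rw [Real.rpow_neg (L.w_posB_g c x (by positivity) h4).le, div_eq_mul_inv]
  rfl

/-- B5a [Cone.lean] near a frame of small defect `J_{g²}` is almost constant in the scale -/
theorem cone (Λ B : ℝ) (hΛ : 1 ≤ Λ) : ∃ C > 0, ∀ c ∈ L.K, ∀ s : ℝ, 0 < s → L.Ad (Λ * s) →
    ∀ u : E n → ℝ, SP u → ∀ δ : ℝ, 0 < δ → δ ≤ 1 → L.Def c (s ^ 2 / 2) u ≤ δ →
    (∫ z, u z.1 ^ 2 ∂L.V) ≤ δ → (∫ z, u z.1 ^ 2 * L.ws c s z.1 ^ 2 ∂L.V) ≤ B →
    L.Js (fun x => L.gs c s u x ^ 2) c (Λ * s) ≤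
      L.Js (fun x => L.gs c s u x ^ 2) c s + C * √δ := by
  obtain ⟨C, hC, h⟩ := L.revmono_g L.derivJ_g (Λ := Λ ^ 2) (E₂ := max B 0)
    (by nlinarith) (le_max_right _ _)
  refine ⟨C, hC, ?_⟩
  intro c hc s hs hAd u hu δ hδ0 hδ1 hDef hR hB
  have hsΛ : s ≤ Λ * s := le_mul_of_one_le_left hs.le hΛ
  have hk2 := L.k2_nonneg
  have hsq : s ^ 2 ≤ (Λ * s) ^ 2 := by
    apply pow_le_pow_left₀ hs.le hsΛ
  have hAs : L.Ad s := ⟨hs, hsΛ.trans hAd.2.1,
    (mul_le_mul_of_nonneg_left hsq hk2).trans hAd.2.2⟩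
  have hk : L.k2 * (s ^ 2 / 2) < 2 := hAs.k2_lt
  have hm := L.m_pos
  have hm2 := L.m_sub_pos
  have hε : 0 < s ^ 2 / 2 := hAs.eps_pos
  have hDef0 := L.def_nonneg hAs hc hu.1
  have e1 := L.gq_g_eq c hs hk u
  have key := h c hc (s ^ 2 / 2) hε (by
      have : L.k2 * (Λ ^ 2 * (s ^ 2 / 2)) = L.k2 * (Λ * s) ^ 2 / 2 := by ring
      rw [this]
      linarith [hAd.2.2]) u hu.1 hu.2 δ hδ0 hδ1
  rw [e1] at key
  have g1 := L.def_ge1 hAs hc hu.1
  have g2 := L.def_ge2 hAs hc hu.1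
  have g3 := L.def_ge3 hAs hc hu.1
  have key2 := key (by
      have h1 : 4 / (L.m * (L.m - 2)) * ∫ z, L.w c (s ^ 2 / 2) z.1 ^ (L.m - 2) *
          L.G (L.gs c s u) (L.gs c s u) z ∂L.V ≤
          4 / (L.m * (L.m - 2)) * (L.m * (L.m - 2) / 4 * L.Def c (s ^ 2 / 2) u) :=
        mul_le_mul_of_nonneg_left g1 (by positivity)
      refine h1.trans (le_of_eq_of_le ?_ hDef)
      field_simp) (g2.trans hDef) (by
      have h1 : 2 / L.m * L.Dl c (fun x => u x ^ 2 / (L.F c x + s ^ 2 / 2)) ≤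
          2 / L.m * (L.m / 2 * L.Def c (s ^ 2 / 2) u) :=
        mul_le_mul_of_nonneg_left g3 (by positivity)
      refine h1.trans (le_of_eq_of_le ?_ hDef)
      field_simp) hR (hB.trans (le_max_left _ _))
  have e2 : L.Js (fun x => L.gs c s u x ^ 2) c (Λ * s) =
      L.J (fun x => L.gs c s u x ^ 2) c (Λ ^ 2 * (s ^ 2 / 2)) := by
    rw [Js_eq]
    congr 1
    ring
  rw [e2, Js_eq]
  exact key2

end Lim

end Vale.Agent.P219.End
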