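import Mathlib

/-!
# P219, generalized Cartan-Hadamard conjecture in all dimensions: the limit object

`Lim n` is what a minimising family leaves behind, in a Cartan-Hadamard geometry on `E n`:
a measure `V` on the unit tangent bundle (in a frame `A`) which is stationary, on one side, for all
radial contractions towards points of the compact set `K`.

`m = n - 1` is the dimension of the hypersurfaces, `k2 = -κ ≥ 0`, `F c x = (cosh (k r) - 1) / k ^ 2`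
with `r = d(c, x)`, `k = √k2` (`r ^ 2 / 2` if `k2 = 0`); `1 + k2 F = cosh (k r)`.
`tri` is the triangle inequality `sinh (k (r + r') / 2) = ...`.
-/

open MeasureTheory Set Metric
open scoped ENNReal ContDiff

namespace Vale.Agent.P219.End

/-- Euclidean space. -/
abbrev E (n : ℕ) := EuclideanSpace ℝ (Fin n)

variable {n : ℕ}

/-- Gradient of `u` at `x`, in the frame `A`. -/
noncomputable def D (A : E n → E n →L[ℝ] E n) (u : E n → ℝ) (x : E n) : E n :=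
  (InnerProductSpace.toDual ℝ (E n)).symm ((fderiv ℝ u x).comp (A x))

/-- Scalar product of the tangential gradients of `u` and `v` at `z.1`, for the hyperplane
orthogonal to `z.2`. -/
noncomputable def Gam (A : E n → E n →L[ℝ] E n) (u v : E n → ℝ) (z : E n × E n) : ℝ :=
  inner ℝ (D A u z.1) (D A v z.1) - inner ℝ (D A u z.1) z.2 * inner ℝ (D A v z.1) z.2

/-- The area of the unit sphere of dimension `m`: `2^m π^{m/2} Γ(m/2) / Γ(m)`. -/
noncomputable def sg (m : ℝ) : ℝ :=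
  2 ^ m * Real.pi ^ (m / 2) * Real.Gamma (m / 2) / Real.Gamma m

/-- The bubble `w = √(ε (2 - k2 ε)) / (F + ε)`. -/
noncomputable def bub (k2 : ℝ) (f : E n → ℝ) (ε : ℝ) (x : E n) : ℝ :=
  √(ε * (2 - k2 * ε)) / (f x + ε)

/-- The limit of a minimising family. -/
structure Lim (n : ℕ) where
  /-- dimension of the hypersurfaces -/
  m : ℝ
  /-- minus the upper bound of the curvature -/
  k2 : ℝ
  /-- the mean curvature (slope of the model isoperimetric profile) -/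
  H0 : ℝ
  /-- orthonormal frame -/
  A : E n → E n →L[ℝ] E n
  /-- `F c x = (cosh (k r) - 1) / k ^ 2` -/
  F : E n → E n → ℝ
  /-- closed geodesic ball containing everything -/
  K : Set (E n)
  /-- the measure on the unit tangent bundle -/
  V : Measure (E n × E n)
  three_le : 3 ≤ m
  k2_nonneg : 0 ≤ k2
  A_cont : Continuous A
  F_smooth : ContDiff ℝ ∞ fun z : E n × E n => F z.1 z.2
  F_nonneg : ∀ c x, 0 ≤ F c x
  F_self : ∀ c, F c c = 0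
  F_comm : ∀ c x, F c x = F x c
  F_pos : ∀ c x, c ≠ x → 0 < F c x
  tri : ∀ c p x, √(F c x) ≤ √(F p x) * √(1 + k2 * F c p / 2) + √(1 + k2 * F p x / 2) * √(F c p)
  grad : ∀ c x, ‖D A (F c) x‖ ^ 2 = 2 * F c x + k2 * F c x ^ 2
  K_compact : IsCompact K
  V_fin : IsFiniteMeasure V
  V_supp : ∀ᵐ z ∂V, z.1 ∈ K ∧ ‖z.2‖ = 1
  V_ne : V ≠ 0
  /-- one-sided stationarity -/
  stat : ∀ c ∈ K, ∀ ψ : E n → ℝ, ContDiff ℝ ∞ ψ → (∀ x, 0 ≤ ψ x) →
    0 ≤ ∫ z, (H0 * ψ z.1 * inner ℝ (D A (F c) z.1) z.2 -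
      m * (1 + k2 * F c z.1) * ψ z.1 - Gam A ψ (F c) z) ∂V
  /-- density at least one, in the limit, at the points of the support -/
  dens : ∀ p, (∀ e > 0, 0 < V {z | F p z.1 < e}) → ∀ e > 0, ∃ ε₀ > 0, ∀ ε, 0 < ε → ε < ε₀ →
    sg m - e ≤ ∫ z, bub k2 (F p) ε z.1 ^ m ∂V
  /-- conformal barycentre -/
  bary : ∀ f : E n → ℝ, ContDiff ℝ ∞ f → (∀ x, 0 < f x) → ∃ c ∈ K, ∃ ε : ℝ, 0 < ε ∧ k2 * ε < 2 ∧
    ∃ θ : Fin (n + 1) → E n → ℝ, (∀ i, ContDiff ℝ ∞ (θ i)) ∧ (∀ x, ∑ i, θ i x ^ 2 = 1) ∧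
      (∀ᵐ z ∂V, ∑ i, Gam A (θ i) (θ i) z ≤ m * bub k2 (F c) ε z.1 ^ 2) ∧
      ∀ i, ∫ z, θ i z.1 * f z.1 ∂V = 0

namespace Lim

variable (L : Lim n)

/-- `⟨∇F_c, ν⟩` -/
noncomputable def nc (c : E n) (z : E n × E n) : ℝ := inner ℝ (D L.A (L.F c) z.1) z.2

/-- tangential scalar product -/
noncomputable def G (u v : E n → ℝ) (z : E n × E n) : ℝ := Gam L.A u v z

/-- The positive functional `ψ ↦ ∫ [H₀ ψ ⟨∇F_c, ν⟩ - m (1 + k2 F_c) ψ - ⟨∇ψ, ∇F_c⟩_S] dV`. -/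
noncomputable def Dl (c : E n) (ψ : E n → ℝ) : ℝ :=
  ∫ z, (L.H0 * ψ z.1 * L.nc c z - L.m * (1 + L.k2 * L.F c z.1) * ψ z.1 - L.G ψ (L.F c) z) ∂L.V

/-- The energy `4 / (m (m - 2)) ∫ |∇_S u|² + (H₀² / m² - k2) ∫ u²`. -/
noncomputable def En (u : E n → ℝ) : ℝ :=
  4 / (L.m * (L.m - 2)) * ∫ z, L.G u u z ∂L.V +
    (L.H0 ^ 2 / L.m ^ 2 - L.k2) * ∫ z, u z.1 ^ 2 ∂L.V

/-- The bubble of frame `(c, ε)`. -/
noncomputable def w (c : E n) (ε : ℝ) (x : E n) : ℝ := bub L.k2 (L.F c) ε x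

/-- The defect `E(u) - ∫ u² w²`. -/
noncomputable def Def (c : E n) (ε : ℝ) (u : E n → ℝ) : ℝ :=
  L.En u - ∫ z, u z.1 ^ 2 * L.w c ε z.1 ^ 2 ∂L.V

/-- The critical exponent `2 m / (m - 2)`. -/
noncomputable def ps : ℝ := 2 * L.m / (L.m - 2)

/-- `J_Φ(c, ε) = ∫ Φ w_{c,ε}^m dμ`. -/
noncomputable def J (Φ : E n → ℝ) (c : E n) (ε : ℝ) : ℝ := ∫ z, Φ z.1 * L.w c ε z.1 ^ L.m ∂L.V

end Lim

end Vale.Agent.P219.End
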