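import Vale.Agent.P219.End.Bub

/-!
# P219 / End : density of the bubbles at almost every point
-/

open MeasureTheory Set Metric Filter
open scoped ENNReal ContDiff Topology

namespace Vale.Agent.P219.End

variable {n : ℕ}

namespace Lim

variable (L : Lim n)

/-- `V`-almost every point is in the support -/
theorem ae_supp : ∀ᵐ z ∂L.V, ∀ e > 0, 0 < L.V {z' | L.F z.1 z'.1 < e} := by
  set μ : Measure (E n) := L.V.map Prod.fst with hμ
  have hset : ∀ (p : E n) (e : ℝ), MeasurableSet {x | L.F p x < e} := fun p e =>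
    (isOpen_lt (L.Fc_cont p) continuous_const).measurableSet
  have hval : ∀ (p : E n) (e : ℝ), μ {x | L.F p x < e} = L.V {z' | L.F p z'.1 < e} := by
    intro p e
    rw [hμ, Measure.map_apply measurable_fst (hset p e)]
    rfl
  have h1 : μ {p : E n | ∃ e > 0, μ {x | L.F p x < e} = 0} = 0 := by
    refine measure_null_of_locally_null _ ?_
    rintro p ⟨e, he, hpe⟩
    refine ⟨{x | L.F p x < e}, mem_nhdsWithin_of_mem_nhds ?_, hpe⟩
    refine (isOpen_lt (L.Fc_cont p) continuous_const).mem_nhds ?_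
    show L.F p p < e
    rw [L.F_self]
    exact he
  have h2 : ∀ᵐ p ∂μ, ¬ ∃ e > 0, μ {x | L.F p x < e} = 0 := by
    rw [ae_iff]
    simpa using h1
  have h3 := ae_of_ae_map (measurable_fst.aemeasurable) h2
  filter_upwards [h3] with z hz e he
  rw [← hval]
  exact pos_iff_ne_zero.2 fun h => hz ⟨e, he, h⟩

/-- B3c, with `L.w c (s ^ 2 / 2)` in place of `L.ws c s` -/
theorem dens_w : ∀ᵐ z ∂L.V, ∀ δ > 0, ∀ᶠ s in 𝓝[>] (0 : ℝ),
    sg L.m - δ ≤ ∫ y, L.w z.1 (s ^ 2 / 2) y.1 ^ L.m ∂L.V := by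
  filter_upwards [L.ae_supp] with z hz δ hδ
  obtain ⟨ε₀, hε₀, h⟩ := L.dens z.1 hz δ hδ
  have h1 : Tendsto (fun s : ℝ => s ^ 2 / 2) (𝓝[>] 0) (𝓝 0) := by
    have : Tendsto (fun s : ℝ => s ^ 2 / 2) (𝓝 0) (𝓝 (0 ^ 2 / 2)) :=
      (Continuous.tendsto (by fun_prop) 0)
    simp only [ne_eq, OfNat.ofNat_ne_zero, not_false_eq_true, zero_pow, zero_div] at this
    exact this.mono_left nhdsWithin_le_nhds
  filter_upwards [self_mem_nhdsWithin, h1.eventually_lt_const hε₀] with s hs hs'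
  have hs0 : (0 : ℝ) < s := hs
  exact h (s ^ 2 / 2) (by positivity) hs'

/-- B3c density of the bubbles -/
theorem dens_bub : ∀ᵐ z ∂L.V, ∀ δ > 0, ∀ᶠ s in 𝓝[>] (0 : ℝ),
    sg L.m - δ ≤ ∫ y, L.ws z.1 s y.1 ^ L.m ∂L.V := L.dens_w

end Lim

end Vale.Agent.P219.End
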