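import Vale.Agent.P219.End.Basic

/-!
# P219 / End : the surface case `m = 2` (dimension `n = 3`)

With `u = 1` the energy identity is `(H₀² / 4 - k2) μ(M) = ∫ w² + ∫ (H₀ / 2 - a n_c)² + D_c[a]`,
`a = 1 / (F_c + ε)`; the density at one point of the support gives `μ(M) (H₀² / 4 - k2) ≥ 4 π`.
-/

open MeasureTheory Set Metric
open scoped ENNReal ContDiff

namespace Vale.Agent.P219.End

namespace Dim3

variable {n : ℕ} {H0 k2 : ℝ} {A : E n → E n →L[ℝ] E n} {F : E n → E n → ℝ} {K : Set (E n)}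
  {V : Measure (E n × E n)}

theorem integrable_of_cont' [IsFiniteMeasure V] (hK : IsCompact K)
    (hV : ∀ᵐ z ∂V, z.1 ∈ K ∧ ‖z.2‖ = 1) {f : E n × E n → ℝ} (hf : Continuous f) :
    Integrable f V := by
  have hK' : IsCompact (K ×ˢ sphere (0 : E n) 1) := hK.prod (isCompact_sphere 0 1)
  obtain ⟨C, hC⟩ := hK'.exists_bound_of_continuousOn hf.continuousOn
  refine Integrable.of_bound hf.aestronglyMeasurable C ?_
  filter_upwards [hV] with z hz
  exact hC z ⟨hz.1, by simpa using hz.2⟩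

/-- a point of `K` all of whose neighbourhoods `{F p < e}` are charged -/
theorem exists_supp (hF : ∀ c, Continuous (F c)) (hFs : ∀ c, F c c = 0) (hK : IsCompact K)
    (hV : ∀ᵐ z ∂V, z.1 ∈ K ∧ ‖z.2‖ = 1) (hV0 : V ≠ 0) :
    ∃ p ∈ K, ∀ e > 0, 0 < V {z | F p z.1 < e} := by
  by_contra hcon
  push Not at hcon
  choose! e he0 he using hcon
  have hnhds : ∀ p ∈ K, {x | F p x < e p} ∈ nhds p := by
    intro p hp
    refine IsOpen.mem_nhds (isOpen_lt (hF p) continuous_const) ?_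
    show F p p < e p
    rw [hFs p]
    exact he0 p hp
  obtain ⟨t, ht, hcov⟩ := hK.elim_nhds_subcover (fun p => {x | F p x < e p}) hnhds
  apply hV0
  rw [← Measure.measure_univ_eq_zero]
  have h1 : V (⋃ p ∈ t, {z : E n × E n | F p z.1 < e p}) = 0 := by
    refine (measure_biUnion_null_iff t.countable_toSet).2 ?_
    intro p hp
    exact le_antisymm (he p (ht p hp)) bot_le
  have h2 : V {z : E n × E n | ¬ (z.1 ∈ K ∧ ‖z.2‖ = 1)} = 0 := ae_iff.1 hV
  refine measure_mono_null (t := (⋃ p ∈ t, {z : E n × E n | F p z.1 < e p}) ∪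
    {z : E n × E n | ¬ (z.1 ∈ K ∧ ‖z.2‖ = 1)}) ?_ (measure_union_null h1 h2)
  intro z _
  by_cases hz : z.1 ∈ K ∧ ‖z.2‖ = 1
  · left
    have := hcov hz.1
    simp only [mem_iUnion, mem_ofPred_eq] at this ⊢
    exact this
  · right
    exact hz

theorem sg_two : sg 2 = 4 * Real.pi := by
  unfold sg
  have h1 : ((2 : ℝ) / 2) = 1 := by norm_num
  rw [h1, Real.Gamma_one, Real.Gamma_two, Real.rpow_one, Real.rpow_two]
  norm_num

/-- the bubble integral is bounded by the energy of `u = 1` -/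
theorem bubble_le [IsFiniteMeasure V] (hA : Continuous A) (hF : ∀ c, ContDiff ℝ ∞ (F c))
    (hF0 : ∀ c x, 0 ≤ F c x) (hgrad : ∀ c x, ‖D A (F c) x‖ ^ 2 = 2 * F c x + k2 * F c x ^ 2)
    (hK : IsCompact K) (hV : ∀ᵐ z ∂V, z.1 ∈ K ∧ ‖z.2‖ = 1)
    (stat : ∀ c ∈ K, ∀ ψ : E n → ℝ, ContDiff ℝ ∞ ψ → (∀ x, 0 ≤ ψ x) →
      0 ≤ ∫ z, (H0 * ψ z.1 * inner ℝ (D A (F c) z.1) z.2 -
        2 * (1 + k2 * F c z.1) * ψ z.1 - Gam A ψ (F c) z) ∂V)
    {c : E n} (hc : c ∈ K) {ε : ℝ} (hε : 0 < ε) (hkε : k2 * ε < 2) :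
    ∫ z, bub k2 (F c) ε z.1 ^ (2 : ℝ) ∂V ≤ (H0 ^ 2 / 4 - k2) * V.real univ := by
  set ψ : E n → ℝ := fun x => (F c x + ε)⁻¹ with hψ
  have hpos : ∀ x, 0 < F c x + ε := fun x => by linarith [hF0 c x]
  have hψs : ContDiff ℝ ∞ ψ := by
    refine ContDiff.inv ((hF c).add contDiff_const) (fun x => (hpos x).ne')
  have hψ0 : ∀ x, 0 ≤ ψ x := fun x => (inv_pos.2 (hpos x)).le
  have hs := stat c hc ψ hψs hψ0
  have hFd : ∀ x, DifferentiableAt ℝ (F c) x := fun x =>
    (hF c).differentiable (by simp) x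
  have hD : ∀ x, D A ψ x = (-(ψ x) ^ 2) • D A (F c) x := by
    intro x
    have h1 : HasDerivAt (fun t : ℝ => (t + ε)⁻¹) (-(F c x + ε)⁻¹ ^ 2) (F c x) := by
      have h2 := ((hasDerivAt_id (F c x)).add_const ε).inv (hpos x).ne'
      refine h2.congr_deriv ?_
      rw [id_eq, inv_pow, neg_div, one_div]
    exact D_comp h1 (hFd x)
  have hG : ∀ z : E n × E n, Gam A ψ (F c) z =
      -(ψ z.1) ^ 2 * (2 * F c z.1 + k2 * F c z.1 ^ 2 - inner ℝ (D A (F c) z.1) z.2 ^ 2) := by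
    intro z
    rw [Gam_eq, hD, gv_smul_left, gv_self, hgrad]
  have hcont1 : Continuous fun z : E n × E n => bub k2 (F c) ε z.1 ^ (2 : ℝ) := by
    have : Continuous (bub k2 (F c) ε) := by
      unfold bub
      exact continuous_const.div ((hF c).continuous.add continuous_const)
        (fun x => (hpos x).ne')
    exact (this.comp continuous_fst).rpow_const (fun z => Or.inr (by norm_num))
  have hle : ∫ z, (H0 * ψ z.1 * inner ℝ (D A (F c) z.1) z.2 -
        2 * (1 + k2 * F c z.1) * ψ z.1 - Gam A ψ (F c) z) ∂V ≤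
      ∫ z, ((H0 ^ 2 / 4 - k2) - bub k2 (F c) ε z.1 ^ (2 : ℝ)) ∂V := by
    have hn : Continuous fun z : E n × E n => (inner ℝ (D A (F c) z.1) z.2 : ℝ) :=
      ((D_continuous hA ((hF c).of_le (by exact_mod_cast le_top))).comp continuous_fst).inner
        continuous_snd
    have hψc : Continuous fun z : E n × E n => ψ z.1 := hψs.continuous.comp continuous_fst
    have hFc : Continuous fun z : E n × E n => F c z.1 := (hF c).continuous.comp continuous_fst
    refine integral_mono (integrable_of_cont' hK hV ?_)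
      (integrable_of_cont' hK hV (continuous_const.sub hcont1)) ?_
    · have : (fun z : E n × E n => H0 * ψ z.1 * inner ℝ (D A (F c) z.1) z.2 -
          2 * (1 + k2 * F c z.1) * ψ z.1 - Gam A ψ (F c) z) = fun z =>
          H0 * ψ z.1 * inner ℝ (D A (F c) z.1) z.2 -
          2 * (1 + k2 * F c z.1) * ψ z.1 -
          (-(ψ z.1) ^ 2 * (2 * F c z.1 + k2 * F c z.1 ^ 2 -
            inner ℝ (D A (F c) z.1) z.2 ^ 2)) := by
        funext z
        rw [hG]
      rw [this]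
      fun_prop
    · intro z
      have hb : bub k2 (F c) ε z.1 ^ (2 : ℝ) = ε * (2 - k2 * ε) * ψ z.1 ^ 2 := by
        unfold bub
        rw [Real.rpow_two, div_pow, Real.sq_sqrt (mul_nonneg hε.le (by linarith))]
        simp only [hψ]
        field_simp
      simp only
      rw [hb, hG]
      have hinv : ψ z.1 * (F c z.1 + ε) = 1 := inv_mul_cancel₀ (hpos z.1).ne'
      set y := ψ z.1
      set f := F c z.1
      set ν : ℝ := inner ℝ (D A (F c) z.1) z.2
      have key : ε * (2 - k2 * ε) * y ^ 2 =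
          2 * (1 + k2 * f) * y - y ^ 2 * (2 * f + k2 * f ^ 2) - k2 := by
        have hε' : ε * y = 1 - f * y := by linarith
        have e1 : ε * (2 - k2 * ε) * y ^ 2 = 2 * (ε * y) * y - k2 * (ε * y) ^ 2 := by ring
        rw [e1, hε']
        ring
      rw [key]
      nlinarith [sq_nonneg (H0 / 2 - y * ν)]
  have h3 := hs.trans hle
  rw [integral_sub (integrable_const _) (integrable_of_cont' hK hV hcont1), integral_const,
    smul_eq_mul, mul_comm] at h3
  linarith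

/-- **The surface case**: the area of the limit measure is at least the area of the model sphere. -/
theorem main2 [IsFiniteMeasure V] (hk : 0 ≤ k2) (hA : Continuous A)
    (hF : ∀ c, ContDiff ℝ ∞ (F c)) (hF0 : ∀ c x, 0 ≤ F c x) (hFs : ∀ c, F c c = 0)
    (hgrad : ∀ c x, ‖D A (F c) x‖ ^ 2 = 2 * F c x + k2 * F c x ^ 2)
    (hK : IsCompact K) (hV : ∀ᵐ z ∂V, z.1 ∈ K ∧ ‖z.2‖ = 1) (hV0 : V ≠ 0)
    (stat : ∀ c ∈ K, ∀ ψ : E n → ℝ, ContDiff ℝ ∞ ψ → (∀ x, 0 ≤ ψ x) →
      0 ≤ ∫ z, (H0 * ψ z.1 * inner ℝ (D A (F c) z.1) z.2 -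
        2 * (1 + k2 * F c z.1) * ψ z.1 - Gam A ψ (F c) z) ∂V)
    (dens : ∀ p, (∀ e > 0, 0 < V {z | F p z.1 < e}) → ∀ e > 0, ∃ ε₀ > 0, ∀ ε, 0 < ε → ε < ε₀ →
      sg 2 - e ≤ ∫ z, bub k2 (F p) ε z.1 ^ (2 : ℝ) ∂V) :
    4 * Real.pi ≤ (H0 ^ 2 / 4 - k2) * V.real univ := by
  obtain ⟨p, hp, hsupp⟩ := exists_supp (fun c => (hF c).continuous) hFs hK hV hV0
  rw [← sg_two]
  refine le_of_forall_sub_le fun e he => ?_
  obtain ⟨ε₀, hε₀, h⟩ := dens p hsupp e he
  set ε := min (ε₀ / 2) (1 / (k2 + 1)) with hε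
  have hk1 : 0 < k2 + 1 := by linarith
  have h0 : 0 < ε := lt_min (by linarith) (by positivity)
  have h1 : ε < ε₀ := (min_le_left _ _).trans_lt (by linarith)
  have h2 : k2 * ε < 2 := by
    have : k2 * ε ≤ k2 * (1 / (k2 + 1)) := mul_le_mul_of_nonneg_left (min_le_right _ _) hk
    have h3 : k2 * (1 / (k2 + 1)) < 2 := by
      rw [mul_one_div, div_lt_iff₀ hk1]
      linarith
    linarith
  exact (h ε h0 h1).trans (bubble_le hA hF hF0 hgrad hK hV stat hp h0 h2)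

end Dim3

end Vale.Agent.P219.End
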