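import Vale.Agent.P219.End.Dim3

/-!
# P219 / End : the equality case for surfaces (`m = 2`, dimension `n = 3`)

In the equality case every point `p` of the support satisfies `n_p = (H₀/2) F_p` and `D_p = 0`, so
`g = 2 - h² F_p` and `g = h² F_p` are, up to constants, eigenfunctions: `∫ ⟨∇φ, ∇g⟩ = 2h² ∫ φ (g - 1)`
and `|∇g|² = h² g (2 - g)`. Moments of `g` give Archimedes' theorem and a reproducing property.
-/

open MeasureTheory Set Metric Filter
open scoped ENNReal ContDiff Topology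

namespace Vale.Agent.P219.End

namespace Dim3

variable {n : ℕ}

/-- The fields of `Lim` used for surfaces, `m = 2`. -/
structure L2 (H0 k2 : ℝ) (A : E n → E n →L[ℝ] E n) (F : E n → E n → ℝ) (K : Set (E n))
    (V : Measure (E n × E n)) : Prop where
  fin : IsFiniteMeasure V
  k2_nonneg : 0 ≤ k2
  A_cont : Continuous A
  F_smooth : ∀ c, ContDiff ℝ ∞ (F c)
  F_nonneg : ∀ c x, 0 ≤ F c x
  F_self : ∀ c, F c c = 0
  F_comm : ∀ c x, F c x = F x c
  F_pos : ∀ c x, c ≠ x → 0 < F c x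
  grad : ∀ c x, ‖D A (F c) x‖ ^ 2 = 2 * F c x + k2 * F c x ^ 2
  K_compact : IsCompact K
  V_supp : ∀ᵐ z ∂V, z.1 ∈ K ∧ ‖z.2‖ = 1
  V_ne : V ≠ 0
  stat : ∀ c ∈ K, ∀ ψ : E n → ℝ, ContDiff ℝ ∞ ψ → (∀ x, 0 ≤ ψ x) →
    0 ≤ ∫ z, (H0 * ψ z.1 * inner ℝ (D A (F c) z.1) z.2 -
      2 * (1 + k2 * F c z.1) * ψ z.1 - Gam A ψ (F c) z) ∂V
  dens : ∀ p, (∀ e > 0, 0 < V {z | F p z.1 < e}) → ∀ e > 0, ∃ ε₀ > 0, ∀ ε, 0 < ε → ε < ε₀ →
    sg 2 - e ≤ ∫ z, bub k2 (F p) ε z.1 ^ (2 : ℝ) ∂V

/-- A function whose level structure is that of a height function on a sphere. -/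
structure Ax (A : E n → E n →L[ℝ] E n) (V : Measure (E n × E n)) (h2 : ℝ) (g : E n → ℝ) :
    Prop where
  smooth : ContDiff ℝ ∞ g
  weak : ∀ φ : E n → ℝ, ContDiff ℝ ∞ φ →
    ∫ z, Gam A φ g z ∂V = 2 * h2 * ∫ z, φ z.1 * (g z.1 - 1) ∂V
  sq : ∀ᵐ z ∂V, Gam A g g z = h2 * (g z.1 * (2 - g z.1))

namespace L2

variable {H0 k2 : ℝ} {A : E n → E n →L[ℝ] E n} {F : E n → E n → ℝ} {K : Set (E n)}
  {V : Measure (E n × E n)}

theorem int_cont (L : L2 H0 k2 A F K V) {f : E n × E n → ℝ} (hf : Continuous f) :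
    Integrable f V :=
  haveI := L.fin
  integrable_of_cont' L.K_compact L.V_supp hf

theorem F_cont (L : L2 H0 k2 A F K V) (c : E n) : Continuous (F c) := (L.F_smooth c).continuous

theorem F1 (L : L2 H0 k2 A F K V) (c : E n) : ContDiff ℝ 1 (F c) :=
  (L.F_smooth c).of_le (by exact_mod_cast le_top)

theorem Fz_cont (L : L2 H0 k2 A F K V) (c : E n) : Continuous fun z : E n × E n => F c z.1 :=
  (L.F_cont c).comp continuous_fst

theorem n_cont (L : L2 H0 k2 A F K V) (c : E n) :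
    Continuous fun z : E n × E n => (inner ℝ (D A (F c) z.1) z.2 : ℝ) :=
  ((D_continuous L.A_cont (L.F1 c)).comp continuous_fst).inner continuous_snd

theorem gam_cont (L : L2 H0 k2 A F K V) {u v : E n → ℝ} (hu : ContDiff ℝ 1 u)
    (hv : ContDiff ℝ 1 v) : Continuous (Gam A u v) := Gam_continuous L.A_cont hu hv

theorem integrand_cont (L : L2 H0 k2 A F K V) (c : E n) {ψ : E n → ℝ} (hψ : ContDiff ℝ 1 ψ) :
    Continuous fun z : E n × E n => H0 * ψ z.1 * inner ℝ (D A (F c) z.1) z.2 -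
      2 * (1 + k2 * F c z.1) * ψ z.1 - Gam A ψ (F c) z := by
  have h1 := L.n_cont c
  have h2 := L.gam_cont hψ (L.F1 c)
  have h3 : Continuous fun z : E n × E n => ψ z.1 := hψ.continuous.comp continuous_fst
  have h4 := L.Fz_cont c
  exact (((continuous_const.mul h3).mul h1).sub
    ((continuous_const.mul (continuous_const.add (continuous_const.mul h4))).mul h3)).sub h2

/-- the identity behind the inequality -/
theorem pointwise (L : L2 H0 k2 A F K V) (c : E n) {ε : ℝ} (hε : 0 < ε) (hkε : k2 * ε < 2)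
    (z : E n × E n) :
    (H0 * (F c z.1 + ε)⁻¹ * inner ℝ (D A (F c) z.1) z.2 -
      2 * (1 + k2 * F c z.1) * (F c z.1 + ε)⁻¹ - Gam A (fun x => (F c x + ε)⁻¹) (F c) z) +
      (H0 / 2 - (F c z.1 + ε)⁻¹ * inner ℝ (D A (F c) z.1) z.2) ^ 2 =
    (H0 ^ 2 / 4 - k2) - bub k2 (F c) ε z.1 ^ (2 : ℝ) := by
  have hpos : ∀ x, 0 < F c x + ε := fun x => by linarith [L.F_nonneg c x]
  have hFd : ∀ x, DifferentiableAt ℝ (F c) x := fun x =>
    (L.F_smooth c).differentiable (by simp) x
  have hD : ∀ x, D A (fun x => (F c x + ε)⁻¹) x = (-((F c x + ε)⁻¹) ^ 2) • D A (F c) x := by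
    intro x
    have h1 : HasDerivAt (fun t : ℝ => (t + ε)⁻¹) (-(F c x + ε)⁻¹ ^ 2) (F c x) := by
      have h2 := ((hasDerivAt_id (F c x)).add_const ε).inv (hpos x).ne'
      refine h2.congr_deriv ?_
      rw [id_eq, inv_pow, neg_div, one_div]
    exact D_comp h1 (hFd x)
  have hG : Gam A (fun x => (F c x + ε)⁻¹) (F c) z =
      -((F c z.1 + ε)⁻¹) ^ 2 * (2 * F c z.1 + k2 * F c z.1 ^ 2 -
        inner ℝ (D A (F c) z.1) z.2 ^ 2) := by
    rw [Gam_eq, hD, gv_smul_left, gv_self, L.grad]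
  have hb : bub k2 (F c) ε z.1 ^ (2 : ℝ) = ε * (2 - k2 * ε) * ((F c z.1 + ε)⁻¹) ^ 2 := by
    unfold bub
    rw [Real.rpow_two, div_pow, Real.sq_sqrt (mul_nonneg hε.le (by linarith))]
    field_simp
  rw [hb, hG]
  have hinv : (F c z.1 + ε)⁻¹ * (F c z.1 + ε) = 1 := inv_mul_cancel₀ (hpos z.1).ne'
  set y := (F c z.1 + ε)⁻¹
  set f := F c z.1
  set ν : ℝ := inner ℝ (D A (F c) z.1) z.2
  have key : ε * (2 - k2 * ε) * y ^ 2 =
      2 * (1 + k2 * f) * y - y ^ 2 * (2 * f + k2 * f ^ 2) - k2 := by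
    have hε' : ε * y = 1 - f * y := by linarith
    have e1 : ε * (2 - k2 * ε) * y ^ 2 = 2 * (ε * y) * y - k2 * (ε * y) ^ 2 := by ring
    rw [e1, hε']
    ring
  rw [key]
  ring

/-- the positive functional -/
noncomputable def Dp (H0 k2 : ℝ) (A : E n → E n →L[ℝ] E n) (F : E n → E n → ℝ)
    (V : Measure (E n × E n)) (c : E n) (ψ : E n → ℝ) : ℝ :=
  ∫ z, (H0 * ψ z.1 * inner ℝ (D A (F c) z.1) z.2 -
      2 * (1 + k2 * F c z.1) * ψ z.1 - Gam A ψ (F c) z) ∂V

theorem inv_smooth (L : L2 H0 k2 A F K V) (c : E n) {ε : ℝ} (hε : 0 < ε) :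
    ContDiff ℝ ∞ fun x => (F c x + ε)⁻¹ :=
  ContDiff.inv ((L.F_smooth c).add contDiff_const)
    (fun x => by have := L.F_nonneg c x; positivity)

theorem Dp_lin (L : L2 H0 k2 A F K V) (c : E n) (a b : ℝ) {ψ φ : E n → ℝ}
    (hψ : ContDiff ℝ 1 ψ) (hφ : ContDiff ℝ 1 φ) :
    Dp H0 k2 A F V c (fun x => a * ψ x + b * φ x) =
      a * Dp H0 k2 A F V c ψ + b * Dp H0 k2 A F V c φ := by
  unfold Dp
  rw [← integral_const_mul, ← integral_const_mul, ← integral_add
    ((L.int_cont (L.integrand_cont c hψ)).const_mul a)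
    ((L.int_cont (L.integrand_cont c hφ)).const_mul b)]
  refine integral_congr_ae (Eventually.of_forall fun z => ?_)
  have hd : DifferentiableAt ℝ ψ z.1 := hψ.differentiable (by norm_num) _
  have hd' : DifferentiableAt ℝ φ z.1 := hφ.differentiable (by norm_num) _
  have e : Gam A (fun x => a * ψ x + b * φ x) (F c) z =
      a * Gam A ψ (F c) z + b * Gam A φ (F c) z := by
    show gv _ _ _ = a * gv _ _ _ + b * gv _ _ _
    rw [D_add (hd.const_mul a) (hd'.const_mul b), D_const_mul a hd, D_const_mul b hd',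
      gv_add_left, gv_smul_left, gv_smul_left]
  simp only [e]
  ring

theorem Dp_nonneg (L : L2 H0 k2 A F K V) {c : E n} (hc : c ∈ K) {ψ : E n → ℝ}
    (hψ : ContDiff ℝ ∞ ψ) (h0 : ∀ x, 0 ≤ ψ x) : 0 ≤ Dp H0 k2 A F V c ψ := L.stat c hc ψ hψ h0

/-- the support -/
def Sup (F : E n → E n → ℝ) (V : Measure (E n × E n)) (p : E n) : Prop :=
  ∀ e > 0, 0 < V {z | F p z.1 < e}

/-- points off `K` are not in the support -/
theorem sup_mem (L : L2 H0 k2 A F K V) {p : E n} (hp : Sup F V p) : p ∈ K := by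
  by_contra hpK
  by_cases hne : K.Nonempty
  · obtain ⟨x, hx, hmin⟩ := L.K_compact.exists_isMinOn hne (L.F_cont p).continuousOn
    have hpos : 0 < F p x := L.F_pos p x (fun h => hpK (h ▸ hx))
    have h0 := hp (F p x) hpos
    have h1 : V {z : E n × E n | F p z.1 < F p x} = 0 := by
      refine measure_mono_null (t := {z : E n × E n | ¬ (z.1 ∈ K ∧ ‖z.2‖ = 1)}) ?_
        (ae_iff.1 L.V_supp)
      intro z hz hzK
      have h2 : F p x ≤ F p z.1 := hmin hzK.1
      have h3 : F p z.1 < F p x := hz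
      linarith
    exact h0.ne' h1
  · rw [not_nonempty_iff_eq_empty] at hne
    refine L.V_ne (Measure.measure_univ_eq_zero.1 ?_)
    refine measure_mono_null (t := {z : E n × E n | ¬ (z.1 ∈ K ∧ ‖z.2‖ = 1)}) ?_
      (ae_iff.1 L.V_supp)
    intro z _ hzK
    rw [hne] at hzK
    exact hzK.1

/-- near `p`, in `K`, a small value of `F p` forces closeness -/
theorem close (L : L2 H0 k2 A F K V) (p : E n) {u : E n → ℝ} (hu : Continuous u) {δ : ℝ}
    (hδ : 0 < δ) : ∃ e > 0, ∀ x ∈ K, F p x < e → |u x - u p| < δ := by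
  set C : Set (E n) := K ∩ {x | δ ≤ |u x - u p|} with hC
  have hCc : IsCompact C := L.K_compact.inter_right
    (isClosed_le continuous_const ((hu.sub continuous_const).abs))
  by_cases hne : C.Nonempty
  · obtain ⟨x, hx, hmin⟩ := hCc.exists_isMinOn hne (L.F_cont p).continuousOn
    have hxp : p ≠ x := by
      rintro rfl
      have h1 : δ ≤ |u p - u p| := hx.2
      rw [sub_self, abs_zero] at h1
      linarith
    refine ⟨F p x, L.F_pos p x hxp, fun y hy hlt => ?_⟩
    by_contra hcon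
    have h1 : F p x ≤ F p y := hmin ⟨hy, not_lt.1 hcon⟩
    linarith
  · refine ⟨1, one_pos, fun y hy _ => ?_⟩
    by_contra hcon
    exact hne ⟨y, hy, not_lt.1 hcon⟩

/-- the two defects -/
theorem defect (L : L2 H0 k2 A F K V) (c : E n) {ε : ℝ} (hε : 0 < ε) (hkε : k2 * ε < 2) :
    Dp H0 k2 A F V c (fun x => (F c x + ε)⁻¹) +
      ∫ z, (H0 / 2 - (F c z.1 + ε)⁻¹ * inner ℝ (D A (F c) z.1) z.2) ^ 2 ∂V =
    (H0 ^ 2 / 4 - k2) * V.real univ - ∫ z, bub k2 (F c) ε z.1 ^ (2 : ℝ) ∂V := by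
  have := L.fin
  have hi : Continuous fun z : E n × E n => (F c z.1 + ε)⁻¹ :=
    (L.inv_smooth c hε).continuous.comp continuous_fst
  have hc1 := L.integrand_cont c ((L.inv_smooth c hε).of_le (by exact_mod_cast le_top) :
    ContDiff ℝ 1 _)
  have hc2 : Continuous fun z : E n × E n =>
      (H0 / 2 - (F c z.1 + ε)⁻¹ * inner ℝ (D A (F c) z.1) z.2) ^ 2 :=
    (continuous_const.sub (hi.mul (L.n_cont c))).pow 2
  have hcb : Continuous fun z : E n × E n => bub k2 (F c) ε z.1 ^ (2 : ℝ) := by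
    have : Continuous (bub k2 (F c) ε) := by
      unfold bub
      exact continuous_const.div ((L.F_cont c).add continuous_const)
        (fun x => by have := L.F_nonneg c x; positivity)
    exact (this.comp continuous_fst).rpow_const (fun z => Or.inr (by norm_num))
  unfold Dp
  rw [← integral_add (L.int_cont hc1) (L.int_cont hc2)]
  have e1 : ∀ z : E n × E n, _ := fun z => L.pointwise c hε hkε z
  rw [integral_congr_ae (Eventually.of_forall e1), integral_sub (integrable_const _)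
    (L.int_cont hcb), integral_const, smul_eq_mul, mul_comm]

/-- in the equality case the defects at a support point vanish in the limit -/
theorem small (L : L2 H0 k2 A F K V) (heq : (H0 ^ 2 / 4 - k2) * V.real univ ≤ 4 * Real.pi)
    {p : E n} (hp : Sup F V p) {e : ℝ} (he : 0 < e) : ∃ ε₀ > 0, ∀ ε, 0 < ε → ε < ε₀ →
      Dp H0 k2 A F V p (fun x => (F p x + ε)⁻¹) ≤ e ∧
      ∫ z, (H0 / 2 - (F p z.1 + ε)⁻¹ * inner ℝ (D A (F p) z.1) z.2) ^ 2 ∂V ≤ e := by
  obtain ⟨ε₀, hε₀, h⟩ := L.dens p hp e he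
  have hk1 : 0 < k2 + 1 := by linarith [L.k2_nonneg]
  refine ⟨min ε₀ (1 / (k2 + 1)), lt_min hε₀ (by positivity), fun ε h0 h1 => ?_⟩
  have hkε : k2 * ε < 2 := by
    have h2 : k2 * ε ≤ k2 * (1 / (k2 + 1)) :=
      mul_le_mul_of_nonneg_left (h1.le.trans (min_le_right _ _)) L.k2_nonneg
    have h3 : k2 * (1 / (k2 + 1)) < 2 := by
      rw [mul_one_div, div_lt_iff₀ hk1]
      linarith
    linarith
  have h2 := h ε h0 (h1.trans_le (min_le_left _ _))
  rw [sg_two] at h2
  have h3 := L.defect p h0 hkε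
  have h4 := L.Dp_nonneg (L.sup_mem hp) (L.inv_smooth p h0)
    (fun x => by have := L.F_nonneg p x; positivity)
  have h5 : 0 ≤ ∫ z, (H0 / 2 - (F p z.1 + ε)⁻¹ * inner ℝ (D A (F p) z.1) z.2) ^ 2 ∂V :=
    integral_nonneg fun z => sq_nonneg _
  constructor <;> linarith

/-- the functional vanishes at support points -/
theorem Dp_zero (L : L2 H0 k2 A F K V) (heq : (H0 ^ 2 / 4 - k2) * V.real univ ≤ 4 * Real.pi)
    {p : E n} (hp : Sup F V p) {φ : E n → ℝ} (hφ : ContDiff ℝ ∞ φ) :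
    Dp H0 k2 A F V p φ = 0 := by
  obtain ⟨r, hr⟩ := L.K_compact.isBounded.subset_closedBall (0 : E n)
  let χ : ContDiffBump (0 : E n) := ⟨max r 0 + 1, max r 0 + 2, by positivity, by linarith⟩
  have hχs : ContDiff ℝ ∞ (χ : E n → ℝ) := χ.contDiff
  have hKb : ∀ x ∈ K, x ∈ ball (0 : E n) χ.rIn := by
    intro x hx
    have h1 : dist x 0 ≤ r := hr hx
    show dist x 0 < max r 0 + 1
    linarith [le_max_left r 0]
  set φ' : E n → ℝ := fun x => φ x * χ x with hφ'
  have hs' : ContDiff ℝ ∞ φ' := hφ.mul hχs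
  have hEq : Dp H0 k2 A F V p φ = Dp H0 k2 A F V p φ' := by
    unfold Dp
    refine integral_congr_ae ?_
    filter_upwards [L.V_supp] with z hz
    have h1 : φ' =ᶠ[nhds z.1] φ := by
      filter_upwards [χ.eventuallyEq_one_of_mem_ball (hKb z.1 hz.1)] with x hx
      simp only [hφ', hx, Pi.one_apply, mul_one]
    have h2 : Gam A φ' (F p) z = Gam A φ (F p) z := by
      show gv _ _ _ = gv _ _ _
      rw [D_congr h1]
    rw [h2, h1.eq_of_nhds]
  rw [hEq]
  obtain ⟨C, hC⟩ : ∃ C, ∀ x, ‖φ' x * (F p x + 1)‖ ≤ C := by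
    refine Continuous.bounded_above_of_compact_support
      (hs'.continuous.mul ((L.F_cont p).add continuous_const)) ?_
    exact (χ.hasCompactSupport.mul_left (f := φ)).mul_right
  have hC0 : 0 ≤ C := (norm_nonneg _).trans (hC 0)
  have hle : ∀ ε, 0 < ε → ε ≤ 1 → ∀ x, |φ' x| ≤ C * (F p x + ε)⁻¹ := by
    intro ε h0 h1 x
    have hF := L.F_nonneg p x
    have h2 := hC x
    rw [Real.norm_eq_abs, abs_mul, abs_of_pos (by linarith : 0 < F p x + 1)] at h2
    rw [← div_eq_mul_inv, le_div_iff₀ (by linarith)]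
    calc |φ' x| * (F p x + ε) ≤ |φ' x| * (F p x + 1) :=
          mul_le_mul_of_nonneg_left (by linarith) (abs_nonneg _)
      _ ≤ C := h2
  have habs : ∀ e > 0, |Dp H0 k2 A F V p φ'| ≤ C * e := by
    intro e he
    obtain ⟨ε₀, hε₀, h⟩ := L.small heq hp he
    set ε := min (ε₀ / 2) 1 with hε
    have h0 : 0 < ε := lt_min (by linarith) one_pos
    have h1 : ε < ε₀ := (min_le_left _ _).trans_lt (by linarith)
    have h2 := (h ε h0 h1).1
    have hi := L.inv_smooth p h0
    have hi1 : ContDiff ℝ 1 (fun x => (F p x + ε)⁻¹) := hi.of_le (by exact_mod_cast le_top)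
    have hs1 : ContDiff ℝ 1 φ' := hs'.of_le (by exact_mod_cast le_top)
    have hle' := hle ε h0 (min_le_right _ _)
    have h3 := L.Dp_nonneg (L.sup_mem hp)
      ((contDiff_const (c := C)).mul hi |>.add ((contDiff_const (c := (-1 : ℝ))).mul hs'))
      (fun x => by have := abs_le.1 (hle' x); linarith [this.2])
    have h4 := L.Dp_nonneg (L.sup_mem hp)
      ((contDiff_const (c := C)).mul hi |>.add ((contDiff_const (c := (1 : ℝ))).mul hs'))
      (fun x => by have := abs_le.1 (hle' x); linarith [this.1])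
    rw [L.Dp_lin p _ _ hi1 hs1] at h3 h4
    have h5 : C * Dp H0 k2 A F V p (fun x => (F p x + ε)⁻¹) ≤ C * e :=
      mul_le_mul_of_nonneg_left h2 hC0
    rw [abs_le]
    constructor <;> linarith
  have : |Dp H0 k2 A F V p φ'| ≤ 0 := by
    refine le_of_forall_pos_le_add fun e he => ?_
    have h1 := habs (e / (C + 1)) (by positivity)
    have h2 : C * (e / (C + 1)) ≤ e := by
      rw [mul_div_assoc', div_le_iff₀ (by positivity)]
      nlinarith
    linarith
  exact abs_eq_zero.1 (le_antisymm this (abs_nonneg _))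

/-- the normal component of `∇F_p` at support points `p` -/
theorem normal (L : L2 H0 k2 A F K V) (heq : (H0 ^ 2 / 4 - k2) * V.real univ ≤ 4 * Real.pi)
    {p : E n} (hp : Sup F V p) :
    ∀ᵐ z ∂V, inner ℝ (D A (F p) z.1) z.2 = H0 / 2 * F p z.1 := by
  have := L.fin
  obtain ⟨B, hB⟩ : ∃ B, ∀ x ∈ K, ‖F p x‖ ≤ B :=
    L.K_compact.exists_bound_of_continuousOn (L.F_cont p).continuousOn
  have hBK : ∀ x ∈ K, F p x ≤ B := fun x hx => (le_abs_self _).trans (hB x hx)
  have hB0 : 0 ≤ B := (norm_nonneg _).trans (hB p (L.sup_mem hp))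
  have hn := L.n_cont p
  have hF := L.Fz_cont p
  set M := V.real univ
  have hM : 0 ≤ M := measureReal_nonneg
  have hint : Integrable (fun z : E n × E n =>
      (H0 / 2 * F p z.1 - inner ℝ (D A (F p) z.1) z.2) ^ 2) V :=
    L.int_cont (((continuous_const.mul hF).sub hn).pow 2)
  have hzero : ∫ z, (H0 / 2 * F p z.1 - inner ℝ (D A (F p) z.1) z.2) ^ 2 ∂V ≤ 0 := by
    refine le_of_forall_pos_le_add fun e he => ?_
    rw [zero_add]
    set Q := 2 * (B + 1) ^ 2 + H0 ^ 2 / 2 * M with hQ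
    have hQ0 : 0 < Q := by positivity
    obtain ⟨ε₀, hε₀, h⟩ := L.small heq hp (e := e / Q) (by positivity)
    set ε := min (ε₀ / 2) (min 1 (e / Q)) with hε
    have h0 : 0 < ε := lt_min (by linarith) (lt_min one_pos (by positivity))
    have h1 : ε < ε₀ := (min_le_left _ _).trans_lt (by linarith)
    have h1' : ε ≤ 1 := (min_le_right _ _).trans (min_le_left _ _)
    have h1'' : ε ≤ e / Q := (min_le_right _ _).trans (min_le_right _ _)
    have h2 := (h ε h0 h1).2
    have hi : Continuous fun z : E n × E n => (F p z.1 + ε)⁻¹ :=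
      (L.inv_smooth p h0).continuous.comp continuous_fst
    have hint2 : Integrable (fun z : E n × E n =>
        (H0 / 2 - (F p z.1 + ε)⁻¹ * inner ℝ (D A (F p) z.1) z.2) ^ 2) V :=
      L.int_cont ((continuous_const.sub (hi.mul hn)).pow 2)
    have h3 : ∫ z, (H0 / 2 * F p z.1 - inner ℝ (D A (F p) z.1) z.2) ^ 2 ∂V ≤
        ∫ z, (2 * (B + 1) ^ 2 *
          (H0 / 2 - (F p z.1 + ε)⁻¹ * inner ℝ (D A (F p) z.1) z.2) ^ 2 +
          H0 ^ 2 / 2 * ε ^ 2) ∂V := by
      refine integral_mono_ae hint ((hint2.const_mul _).add (integrable_const _)) ?_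
      filter_upwards [L.V_supp] with z hz
      have hFz := L.F_nonneg p z.1
      have hFB := hBK z.1 hz.1
      set f := F p z.1
      set ν : ℝ := inner ℝ (D A (F p) z.1) z.2
      have hpos : 0 < f + ε := by linarith
      have e1 : H0 / 2 * f - ν = (f + ε) * (H0 / 2 - (f + ε)⁻¹ * ν) - H0 / 2 * ε := by
        field_simp
        ring
      rw [e1]
      set y := H0 / 2 - (f + ε)⁻¹ * ν
      have e2 : (f + ε) ^ 2 ≤ (B + 1) ^ 2 := by
        apply pow_le_pow_left₀ hpos.le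
        linarith
      have e3 : ((f + ε) * y) ^ 2 ≤ (B + 1) ^ 2 * y ^ 2 := by
        rw [mul_pow]
        exact mul_le_mul_of_nonneg_right e2 (sq_nonneg _)
      nlinarith [sq_nonneg ((f + ε) * y + H0 / 2 * ε)]
    rw [integral_add (hint2.const_mul _) (integrable_const _), integral_const_mul,
      integral_const, smul_eq_mul] at h3
    have h4 : ε ^ 2 ≤ e / Q := by nlinarith
    have h5 : 2 * (B + 1) ^ 2 *
        ∫ z, (H0 / 2 - (F p z.1 + ε)⁻¹ * inner ℝ (D A (F p) z.1) z.2) ^ 2 ∂V ≤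
        2 * (B + 1) ^ 2 * (e / Q) := mul_le_mul_of_nonneg_left h2 (by positivity)
    have h6 : M * (H0 ^ 2 / 2 * ε ^ 2) ≤ M * (H0 ^ 2 / 2 * (e / Q)) :=
      mul_le_mul_of_nonneg_left (mul_le_mul_of_nonneg_left h4 (by positivity)) hM
    have h7 : 2 * (B + 1) ^ 2 * (e / Q) + M * (H0 ^ 2 / 2 * (e / Q)) = e := by
      have : 2 * (B + 1) ^ 2 * (e / Q) + M * (H0 ^ 2 / 2 * (e / Q)) = Q * (e / Q) := by
        rw [hQ]
        ring
      rw [this, mul_div_cancel₀ _ hQ0.ne']
    linarith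
  have hz := (integral_eq_zero_iff_of_nonneg (fun z => sq_nonneg _) hint).1
    (le_antisymm hzero (integral_nonneg fun z => sq_nonneg _))
  filter_upwards [hz] with z hz
  have h1 : (H0 / 2 * F p z.1 - inner ℝ (D A (F p) z.1) z.2) ^ 2 = 0 := hz
  have h2 := pow_eq_zero_iff (two_ne_zero) |>.1 h1
  linarith

/-- the weak equation of `F p`, `p` in the support -/
theorem eig (L : L2 H0 k2 A F K V) (heq : (H0 ^ 2 / 4 - k2) * V.real univ ≤ 4 * Real.pi)
    {p : E n} (hp : Sup F V p) {φ : E n → ℝ} (hφ : ContDiff ℝ ∞ φ) :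
    ∫ z, Gam A φ (F p) z ∂V =
      ∫ z, φ z.1 * (2 * (H0 ^ 2 / 4 - k2) * F p z.1 - 2) ∂V := by
  have h1 := L.Dp_zero heq hp hφ
  unfold Dp at h1
  have hφ1 : ContDiff ℝ 1 φ := hφ.of_le (by exact_mod_cast le_top)
  have hφc : Continuous fun z : E n × E n => φ z.1 := hφ.continuous.comp continuous_fst
  have hF := L.Fz_cont p
  have hG := L.gam_cont hφ1 (L.F1 p)
  have hc : Continuous fun z : E n × E n => φ z.1 * (2 * (H0 ^ 2 / 4 - k2) * F p z.1 - 2) :=
    hφc.mul ((continuous_const.mul hF).sub continuous_const)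
  have h2 : ∫ z, (H0 * φ z.1 * inner ℝ (D A (F p) z.1) z.2 -
      2 * (1 + k2 * F p z.1) * φ z.1 - Gam A φ (F p) z) ∂V =
      ∫ z, (φ z.1 * (2 * (H0 ^ 2 / 4 - k2) * F p z.1 - 2) - Gam A φ (F p) z) ∂V := by
    refine integral_congr_ae ?_
    filter_upwards [L.normal heq hp] with z hz
    rw [hz]
    ring
  rw [h2, integral_sub (L.int_cont hc) (L.int_cont hG)] at h1
  linarith

theorem gamFF (L : L2 H0 k2 A F K V) (heq : (H0 ^ 2 / 4 - k2) * V.real univ ≤ 4 * Real.pi)
    {p : E n} (hp : Sup F V p) :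
    ∀ᵐ z ∂V, Gam A (F p) (F p) z = 2 * F p z.1 - (H0 ^ 2 / 4 - k2) * F p z.1 ^ 2 := by
  filter_upwards [L.normal heq hp] with z hz
  rw [Gam_eq, gv_self, hz, L.grad]
  ring

theorem Gam_affine (L : L2 H0 k2 A F K V) (p : E n) (a b : ℝ) (φ : E n → ℝ) (z : E n × E n) :
    Gam A φ (fun x => a + b * F p x) z = b * Gam A φ (F p) z := by
  have h1 : D A (fun x => a + b * F p x) z.1 = b • D A (F p) z.1 := by
    have hd : DifferentiableAt ℝ (F p) z.1 := (L.F1 p).differentiable (by norm_num) _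
    have h2 : HasDerivAt (fun t : ℝ => a + b * t) b (F p z.1) := by
      simpa using ((hasDerivAt_id (F p z.1)).const_mul b).const_add a
    exact D_comp h2 hd
  rw [Gam_eq, Gam_eq, h1, gv_smul_right]

theorem ax (L : L2 H0 k2 A F K V) (heq : (H0 ^ 2 / 4 - k2) * V.real univ ≤ 4 * Real.pi)
    {p : E n} (hp : Sup F V p) {a b : ℝ}
    (hab : (a = 0 ∧ b = H0 ^ 2 / 4 - k2) ∨ (a = 2 ∧ b = -(H0 ^ 2 / 4 - k2))) :
    Ax A V (H0 ^ 2 / 4 - k2) (fun x => a + b * F p x) := by
  refine ⟨contDiff_const.add (contDiff_const.mul (L.F_smooth p)), fun φ hφ => ?_, ?_⟩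
  · have h1 : ∫ z, Gam A φ (fun x => a + b * F p x) z ∂V = b * ∫ z, Gam A φ (F p) z ∂V := by
      rw [← integral_const_mul]
      exact integral_congr_ae (Eventually.of_forall fun z => L.Gam_affine p a b φ z)
    rw [h1, L.eig heq hp hφ, ← integral_const_mul, ← integral_const_mul]
    refine integral_congr_ae (Eventually.of_forall fun z => ?_)
    simp only
    rcases hab with ⟨rfl, rfl⟩ | ⟨rfl, rfl⟩ <;> ring
  · filter_upwards [L.gamFF heq hp] with z hz
    rw [L.Gam_affine, Gam_eq, gv_comm, ← Gam_eq, L.Gam_affine, hz]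
    rcases hab with ⟨rfl, rfl⟩ | ⟨rfl, rfl⟩ <;> ring

theorem Gam_pow {g u : E n → ℝ} (hg : ContDiff ℝ ∞ g) (j : ℕ) (z : E n × E n) :
    Gam A (fun x => g x ^ j) u z = j * g z.1 ^ (j - 1) * Gam A g u z := by
  have hd : DifferentiableAt ℝ g z.1 := hg.differentiable (by simp) _
  have h1 : D A (fun x => g x ^ j) z.1 = (j * g z.1 ^ (j - 1)) • D A g z.1 :=
    D_comp (hasDerivAt_pow j (g z.1)) hd
  rw [Gam_eq, Gam_eq, h1, gv_smul_left]

/-- the recursion for the moments -/
theorem N_rec (L : L2 H0 k2 A F K V) {h2 : ℝ} (hh : 0 < h2) {g : E n → ℝ} (hg : Ax A V h2 g)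
    (j : ℕ) : ((j : ℝ) + 2) * ∫ z, g z.1 ^ (j + 1) ∂V = 2 * ((j : ℝ) + 1) * ∫ z, g z.1 ^ j ∂V := by
  have hgc : Continuous fun z : E n × E n => g z.1 := hg.smooth.continuous.comp continuous_fst
  have hi : ∀ i : ℕ, Integrable (fun z : E n × E n => g z.1 ^ i) V := fun i =>
    L.int_cont (hgc.pow i)
  have h1 := hg.weak (fun x => g x ^ j) (hg.smooth.pow j)
  have e1 : ∫ z, Gam A (fun x => g x ^ j) g z ∂V =
      h2 * j * (2 * ∫ z, g z.1 ^ j ∂V - ∫ z, g z.1 ^ (j + 1) ∂V) := by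
    rw [← integral_const_mul, ← integral_sub ((hi j).const_mul 2) (hi (j + 1)),
      ← integral_const_mul]
    refine integral_congr_ae ?_
    filter_upwards [hg.sq] with z hz
    rw [Gam_pow hg.smooth, hz]
    rcases j with _ | j
    · simp
    · rw [Nat.add_sub_cancel]
      ring
  have e2 : ∫ z, g z.1 ^ j * (g z.1 - 1) ∂V = ∫ z, g z.1 ^ (j + 1) ∂V - ∫ z, g z.1 ^ j ∂V := by
    rw [← integral_sub (hi (j + 1)) (hi j)]
    refine integral_congr_ae (Eventually.of_forall fun z => ?_)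
    simp only
    ring
  rw [e1, e2] at h1
  have h3 : (j : ℝ) * (2 * ∫ z, g z.1 ^ j ∂V - ∫ z, g z.1 ^ (j + 1) ∂V) =
      2 * (∫ z, g z.1 ^ (j + 1) ∂V - ∫ z, g z.1 ^ j ∂V) := by
    apply mul_left_cancel₀ hh.ne'
    linarith
  linarith

/-- Archimedes -/
theorem N_eq (L : L2 H0 k2 A F K V) {h2 : ℝ} (hh : 0 < h2) {g : E n → ℝ} (hg : Ax A V h2 g)
    (j : ℕ) : ((j : ℝ) + 1) * ∫ z, g z.1 ^ j ∂V = 2 ^ j * V.real univ := by
  have := L.fin
  induction j with
  | zero => simp
  | succ j ih =>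
    have h := L.N_rec hh hg j
    push_cast
    rw [pow_succ]
    have e : ((j : ℝ) + 1 + 1) * ∫ z, g z.1 ^ (j + 1) ∂V =
        ((j : ℝ) + 2) * ∫ z, g z.1 ^ (j + 1) ∂V := by ring
    rw [e, h]
    linarith

/-- the recursion for the mixed moments -/
theorem W_rec (L : L2 H0 k2 A F K V) {h2 : ℝ} (hh : 0 < h2) {g g' : E n → ℝ}
    (hg : Ax A V h2 g) (hg' : Ax A V h2 g') (j : ℕ) :
    (j : ℝ) * ((j : ℝ) + 3) * ∫ z, g z.1 ^ (j + 1) * (g' z.1 - 1) ∂V =
      2 * ((j : ℝ) + 1) ^ 2 * ∫ z, g z.1 ^ j * (g' z.1 - 1) ∂V := by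
  have hgc : Continuous fun z : E n × E n => g z.1 := hg.smooth.continuous.comp continuous_fst
  have hgc' : Continuous fun z : E n × E n => g' z.1 :=
    hg'.smooth.continuous.comp continuous_fst
  have hi : ∀ i : ℕ, Integrable (fun z : E n × E n => g z.1 ^ i * (g' z.1 - 1)) V := fun i =>
    L.int_cont ((hgc.pow i).mul (hgc'.sub continuous_const))
  have hg1 : ContDiff ℝ 1 g := hg.smooth.of_le (by exact_mod_cast le_top)
  have hg1' : ContDiff ℝ 1 g' := hg'.smooth.of_le (by exact_mod_cast le_top)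
  have hGi : Integrable (fun z : E n × E n => g z.1 ^ j * Gam A g g' z) V :=
    L.int_cont ((hgc.pow j).mul (L.gam_cont hg1 hg1'))
  have ha := hg'.weak (fun x => g x ^ (j + 1)) (hg.smooth.pow (j + 1))
  have hb := hg.weak (fun x => g x ^ j * (g' x - 1))
    ((hg.smooth.pow j).mul (hg'.smooth.sub contDiff_const))
  set W0 := ∫ z, g z.1 ^ j * (g' z.1 - 1) ∂V with hW0
  set W1 := ∫ z, g z.1 ^ (j + 1) * (g' z.1 - 1) ∂V with hW1
  set X := ∫ z, g z.1 ^ j * Gam A g g' z ∂V with hX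
  have ea : ∫ z, Gam A (fun x => g x ^ (j + 1)) g' z ∂V = ((j : ℝ) + 1) * X := by
    rw [hX, ← integral_const_mul]
    refine integral_congr_ae (Eventually.of_forall fun z => ?_)
    simp only
    rw [Gam_pow hg.smooth, Nat.add_sub_cancel]
    push_cast
    ring
  have eb : ∫ z, Gam A (fun x => g x ^ j * (g' x - 1)) g z ∂V =
      h2 * j * (2 * W0 - W1) + X := by
    have hQ : Integrable (fun z : E n × E n => h2 * j * (2 * (g z.1 ^ j * (g' z.1 - 1)) -
        g z.1 ^ (j + 1) * (g' z.1 - 1))) V :=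
      (((hi j).const_mul 2).sub (hi (j + 1))).const_mul _
    rw [hX, hW0, hW1, ← integral_const_mul 2, ← integral_sub ((hi j).const_mul 2) (hi (j + 1)),
      ← integral_const_mul, ← integral_add hQ hGi]
    refine integral_congr_ae ?_
    filter_upwards [hg.sq] with z hz
    have hd : DifferentiableAt ℝ g z.1 := hg1.differentiable (by norm_num) _
    have hd' : DifferentiableAt ℝ g' z.1 := hg1'.differentiable (by norm_num) _
    have e3 : D A (fun x => g x ^ j * (g' x - 1)) z.1 =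
        (g z.1 ^ j) • D A g' z.1 + (g' z.1 - 1) • D A (fun x => g x ^ j) z.1 := by
      have h4 : D A (fun x => g' x - 1) z.1 = D A g' z.1 := by
        have h5 := D_sub (A := A) (u := g') (v := fun _ => (1 : ℝ)) hd' (differentiableAt_const 1)
        rw [h5, D_const, sub_zero]
      have h6 := D_mul (A := A) (u := fun x => g x ^ j) (v := fun x => g' x - 1) (x := z.1)
        (hd.pow j) (hd'.sub_const 1)
      rw [h6, h4]
    have e4 : Gam A (fun x => g x ^ j * (g' x - 1)) g z =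
        g z.1 ^ j * Gam A g' g z + (g' z.1 - 1) * Gam A (fun x => g x ^ j) g z := by
      rw [Gam_eq, Gam_eq, Gam_eq, e3, gv_add_left, gv_smul_left, gv_smul_left]
    have e5 : Gam A g' g z = Gam A g g' z := gv_comm _ _ _
    rw [e4, Gam_pow hg.smooth, hz, e5]
    rcases j with _ | j
    · simp
    · rw [Nat.add_sub_cancel]
      ring
  have ec : ∫ z, g z.1 ^ j * (g' z.1 - 1) * (g z.1 - 1) ∂V = W1 - W0 := by
    rw [hW0, hW1, ← integral_sub (hi (j + 1)) (hi j)]
    refine integral_congr_ae (Eventually.of_forall fun z => ?_)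
    simp only
    ring
  rw [ea] at ha
  rw [eb, ec] at hb
  have h3 : ((j : ℝ) + 1) * (j * (2 * W0 - W1)) = 2 * ((j : ℝ) + 1) * (W1 - W0) - 2 * W1 := by
    apply mul_left_cancel₀ hh.ne'
    have h4 : ((j : ℝ) + 1) * (h2 * j * (2 * W0 - W1) + X) =
      ((j : ℝ) + 1) * (2 * h2 * (W1 - W0)) := by rw [hb]
    linarith
  linarith

theorem W_eq (L : L2 H0 k2 A F K V) {h2 : ℝ} (hh : 0 < h2) {g g' : E n → ℝ}
    (hg : Ax A V h2 g) (hg' : Ax A V h2 g') (j : ℕ) :
    ((j : ℝ) + 1 + 1) * ((j : ℝ) + 1 + 2) * ∫ z, g z.1 ^ (j + 1) * (g' z.1 - 1) ∂V =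
      3 * ((j : ℝ) + 1) * 2 ^ (j + 1) * ∫ z, g z.1 ^ 1 * (g' z.1 - 1) ∂V := by
  induction j with
  | zero => norm_num
  | succ j ih =>
    have h := L.W_rec hh hg hg' (j + 1)
    push_cast at h ⊢
    set Wa := ∫ z, g z.1 ^ (j + 1) * (g' z.1 - 1) ∂V
    set Wb := ∫ z, g z.1 ^ (j + 1 + 1) * (g' z.1 - 1) ∂V
    set W1 := ∫ z, g z.1 ^ 1 * (g' z.1 - 1) ∂V
    have hj : (0 : ℝ) < (j : ℝ) + 1 := by positivity
    apply mul_left_cancel₀ hj.ne'
    have e1 : ((j : ℝ) + 1) * (((j : ℝ) + 1 + 1 + 1) * ((j : ℝ) + 1 + 1 + 2) * Wb) =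
      ((j : ℝ) + 1 + 1 + 1) * (((j : ℝ) + 1) * ((j : ℝ) + 1 + 3) * Wb) := by ring
    rw [e1, h]
    have e2 : ((j : ℝ) + 1 + 1 + 1) * (2 * ((j : ℝ) + 1 + 1) ^ 2 * Wa) =
      2 * ((j : ℝ) + 1 + 1) * ((((j : ℝ) + 1 + 1) * ((j : ℝ) + 1 + 2)) * Wa) := by ring
    rw [e2, ih]
    ring

theorem W_eq' (L : L2 H0 k2 A F K V) {h2 : ℝ} (hh : 0 < h2) {g g' : E n → ℝ}
    (hg : Ax A V h2 g) (hg' : Ax A V h2 g') (k : ℕ) :
    ((k : ℝ) + 1) * ((k : ℝ) + 2) * ∫ z, g z.1 ^ k * (g' z.1 - 1) ∂V =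
      3 * (k : ℝ) * 2 ^ k * ∫ z, g z.1 ^ 1 * (g' z.1 - 1) ∂V := by
  rcases k with _ | k
  · have h := L.W_rec hh hg hg' 0
    norm_num at h ⊢
    linarith
  · have h := L.W_eq hh hg hg' k
    push_cast
    exact h

theorem M_pos (L : L2 H0 k2 A F K V) : 0 < V.real univ := by
  have := L.fin
  exact ENNReal.toReal_pos (fun h => L.V_ne (Measure.measure_univ_eq_zero.1 h))
    (measure_ne_top V univ)

theorem ax_nonneg (L : L2 H0 k2 A F K V) {h2 : ℝ} (hh : 0 < h2) {g : E n → ℝ}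
    (hg : Ax A V h2 g) : ∀ᵐ z ∂V, 0 ≤ g z.1 ∧ g z.1 ≤ 2 := by
  filter_upwards [hg.sq, L.V_supp] with z hz hz'
  have h1 : 0 ≤ Gam A g g z := gv_self_nonneg hz'.2.le _
  rw [hz] at h1
  have h3 : 0 ≤ g z.1 * (2 - g z.1) := nonneg_of_mul_nonneg_right h1 hh
  constructor
  · by_contra hcon
    push Not at hcon
    nlinarith
  · by_contra hcon
    push Not at hcon
    nlinarith

/-- the reproducing property -/
theorem repro (L : L2 H0 k2 A F K V) (heq : (H0 ^ 2 / 4 - k2) * V.real univ ≤ 4 * Real.pi)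
    (hh : 0 < H0 ^ 2 / 4 - k2) {p q : E n} (hp : Sup F V p) (hq : Sup F V q) :
    3 * ∫ z, (1 - (H0 ^ 2 / 4 - k2) * F p z.1) * (1 - (H0 ^ 2 / 4 - k2) * F q z.1) ∂V =
      V.real univ * (1 - (H0 ^ 2 / 4 - k2) * F p q) := by
  have hfin := L.fin
  set h2 := H0 ^ 2 / 4 - k2 with hh2
  have hg := L.ax heq hp (a := 2) (b := -h2) (Or.inr ⟨rfl, rfl⟩)
  have hg' := L.ax heq hq (a := 2) (b := -h2) (Or.inr ⟨rfl, rfl⟩)
  rw [← hh2] at hg hg'
  set g : E n → ℝ := fun x => 2 + -h2 * F p x with hgd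
  set g' : E n → ℝ := fun x => 2 + -h2 * F q x with hgd'
  set M := V.real univ with hMd
  have hM : 0 < M := L.M_pos
  have hgc : Continuous fun z : E n × E n => g z.1 := hg.smooth.continuous.comp continuous_fst
  have hgc' : Continuous fun z : E n × E n => g' z.1 :=
    hg'.smooth.continuous.comp continuous_fst
  set u : E n → ℝ := fun x => g' x - 1 with hu
  have huc : Continuous u := hg'.smooth.continuous.sub continuous_const
  set W1 := ∫ z, g z.1 ^ 1 * (g' z.1 - 1) ∂V with hW1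
  -- the limit
  have hlim : 3 * W1 = M * u p := by
    have key : ∀ δ > 0, |3 * W1 - M * u p| ≤ δ * M := by
      intro δ hδ
      obtain ⟨e1, he1, hcl⟩ := L.close p huc hδ
      set e := min e1 (1 / h2) with he
      have he0 : 0 < e := lt_min he1 (by positivity)
      have hee : h2 * e ≤ 1 := by
        have : h2 * e ≤ h2 * (1 / h2) := mul_le_mul_of_nonneg_left (min_le_right _ _) hh.le
        rwa [mul_one_div, div_self hh.ne'] at this
      obtain ⟨B, hB⟩ : ∃ B, ∀ x ∈ K, ‖u x - u p‖ ≤ B :=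
        L.K_compact.exists_bound_of_continuousOn (huc.sub continuous_const).continuousOn
      have hB0 : 0 ≤ B := (norm_nonneg _).trans (hB p (L.sup_mem hp))
      set r := 2 - h2 * e with hr
      have hr0 : 0 ≤ r := by linarith
      have hr2 : r < 2 := by
        have := mul_pos hh he0
        linarith
      have hk : ∀ k : ℕ, |3 * ((k : ℝ) / ((k : ℝ) + 2)) * W1 - M * u p| ≤
          δ * M + B * M * (((k : ℝ) + 1) * (r / 2) ^ k) := by
        intro k
        have hi1 : Integrable (fun z : E n × E n => g z.1 ^ k) V := L.int_cont (hgc.pow k)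
        have hi2 : Integrable (fun z : E n × E n => g z.1 ^ k * (g' z.1 - 1)) V :=
          L.int_cont ((hgc.pow k).mul (hgc'.sub continuous_const))
        have h1 : |∫ z, g z.1 ^ k * (g' z.1 - 1) ∂V - u p * ∫ z, g z.1 ^ k ∂V| ≤
            δ * ∫ z, g z.1 ^ k ∂V + M * (B * r ^ k) := by
          have e1 : ∫ z, g z.1 ^ k * (g' z.1 - 1) ∂V - u p * ∫ z, g z.1 ^ k ∂V =
              ∫ z, (g z.1 ^ k * (g' z.1 - 1) - u p * g z.1 ^ k) ∂V := by
            rw [← integral_const_mul, ← integral_sub hi2 (hi1.const_mul _)]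
          have e2 : δ * ∫ z, g z.1 ^ k ∂V + M * (B * r ^ k) =
              ∫ z, (δ * g z.1 ^ k + B * r ^ k) ∂V := by
            rw [integral_add (hi1.const_mul _) (integrable_const _), integral_const_mul,
              integral_const, smul_eq_mul]
          rw [e1, e2]
          refine (abs_integral_le_integral_abs).trans ?_
          refine integral_mono_ae (hi2.sub (hi1.const_mul _)).abs
            ((hi1.const_mul _).add (integrable_const _)) ?_
          filter_upwards [L.V_supp, L.ax_nonneg hh hg] with z hz hz'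
          have e3 : g z.1 ^ k * (g' z.1 - 1) - u p * g z.1 ^ k =
              g z.1 ^ k * (u z.1 - u p) := by
            simp only [hu]
            ring
          have hgk : 0 ≤ g z.1 ^ k := pow_nonneg hz'.1 k
          rw [e3, abs_mul, abs_of_nonneg hgk]
          by_cases hlt : F p z.1 < e
          · have h4 := hcl z.1 hz.1 (hlt.trans_le (min_le_left _ _))
            have h5 : g z.1 ^ k * |u z.1 - u p| ≤ g z.1 ^ k * δ :=
              mul_le_mul_of_nonneg_left h4.le hgk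
            have h6 : 0 ≤ B * r ^ k := by positivity
            linarith
          · have h4 := hB z.1 hz.1
            rw [Real.norm_eq_abs] at h4
            have h5 : g z.1 ≤ r := by
              have : h2 * e ≤ h2 * F p z.1 := mul_le_mul_of_nonneg_left (not_lt.1 hlt) hh.le
              simp only [hgd, hr]
              linarith
            have h6 : g z.1 ^ k ≤ r ^ k := pow_le_pow_left₀ hz'.1 h5 k
            have h7 : g z.1 ^ k * |u z.1 - u p| ≤ r ^ k * B :=
              mul_le_mul h6 h4 (abs_nonneg _) (by positivity)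
            have h8 : 0 ≤ δ * g z.1 ^ k := by positivity
            linarith
        have hN := L.N_eq hh hg k
        have hW := L.W_eq' hh hg hg' k
        set N := ∫ z, g z.1 ^ k ∂V
        set W := ∫ z, g z.1 ^ k * (g' z.1 - 1) ∂V
        have h2k : (0 : ℝ) < 2 ^ k := by positivity
        have hk1 : (0 : ℝ) < (k : ℝ) + 1 := by positivity
        have hk2 : (0 : ℝ) < (k : ℝ) + 2 := by positivity
        have e4 : 3 * ((k : ℝ) / ((k : ℝ) + 2)) * W1 - M * u p =
            ((k : ℝ) + 1) / 2 ^ k * (W - u p * N) := by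
          have e5 : 3 * ((k : ℝ) / ((k : ℝ) + 2)) * W1 = ((k : ℝ) + 1) / 2 ^ k * W := by
            field_simp
            linarith
          have e6 : M = ((k : ℝ) + 1) / 2 ^ k * N := by
            field_simp
            linarith
          rw [e5]
          nth_rw 1 [e6]
          ring
        have e7 : δ * M + B * M * (((k : ℝ) + 1) * (r / 2) ^ k) =
            ((k : ℝ) + 1) / 2 ^ k * (δ * N + M * (B * r ^ k)) := by
          have e6 : ((k : ℝ) + 1) / 2 ^ k * N = M := by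
            field_simp
            linarith
          have e8 : ((k : ℝ) + 1) / 2 ^ k * (δ * N + M * (B * r ^ k)) =
            δ * (((k : ℝ) + 1) / 2 ^ k * N) + ((k : ℝ) + 1) / 2 ^ k * (M * (B * r ^ k)) := by ring
          rw [e8, e6, div_pow]
          field_simp
        rw [e4, e7, abs_mul, abs_of_pos (by positivity : 0 < ((k : ℝ) + 1) / 2 ^ k)]
        exact mul_le_mul_of_nonneg_left h1 (by positivity)
      have ht1 : Tendsto (fun k : ℕ => |3 * ((k : ℝ) / ((k : ℝ) + 2)) * W1 - M * u p|) atTop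
          (𝓝 |3 * 1 * W1 - M * u p|) :=
        (((tendsto_natCast_div_add_atTop (2 : ℝ)).const_mul 3 |>.mul_const W1).sub_const _).abs
      have hρ0 : 0 ≤ r / 2 := by positivity
      have hρ1 : r / 2 < 1 := by linarith
      have ht2 : Tendsto (fun k : ℕ => δ * M + B * M * (((k : ℝ) + 1) * (r / 2) ^ k)) atTop
          (𝓝 (δ * M + B * M * (0 + 0))) := by
        refine tendsto_const_nhds.add (Tendsto.const_mul _ ?_)
        have ht3 := (tendsto_self_mul_const_pow_of_lt_one hρ0 hρ1).add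
          (tendsto_pow_atTop_nhds_zero_of_lt_one hρ0 hρ1)
        refine ht3.congr fun k => ?_
        ring
      have h9 := le_of_tendsto_of_tendsto' ht1 ht2 hk
      rw [mul_one, add_zero, mul_zero, add_zero] at h9
      exact h9
    have h0 : |3 * W1 - M * u p| ≤ 0 := by
      refine le_of_forall_pos_le_add fun e he => ?_
      have h1 := key (e / M) (by positivity)
      rw [div_mul_cancel₀ _ hM.ne'] at h1
      linarith
    have h1 := abs_eq_zero.1 (le_antisymm h0 (abs_nonneg _))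
    linarith
  have hup : u p = 1 - h2 * F p q := by
    simp only [hu, hgd']
    rw [L.F_comm q p]
    ring
  rw [← hup, ← hlim, hW1]
  congr 1
  -- `∫ (g' - 1) = 0`
  have h0 := L.W_eq' hh hg hg' 0
  have h0' : ∫ z, g z.1 ^ 0 * (g' z.1 - 1) ∂V = 0 := by
    norm_num at h0 ⊢
    exact h0
  have hi1 : Integrable (fun z : E n × E n => g z.1 ^ 0 * (g' z.1 - 1)) V :=
    L.int_cont ((hgc.pow 0).mul (hgc'.sub continuous_const))
  have hi2 : Integrable (fun z : E n × E n => (1 - h2 * F p z.1) * (1 - h2 * F q z.1)) V :=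
    L.int_cont ((continuous_const.sub (continuous_const.mul (L.Fz_cont p))).mul
      (continuous_const.sub (continuous_const.mul (L.Fz_cont q))))
  have e1 : ∫ z, g z.1 ^ 1 * (g' z.1 - 1) ∂V =
      ∫ z, ((1 - h2 * F p z.1) * (1 - h2 * F q z.1) + g z.1 ^ 0 * (g' z.1 - 1)) ∂V := by
    refine integral_congr_ae (Eventually.of_forall fun z => ?_)
    simp only [hgd, hgd']
    ring
  rw [e1, integral_add hi2 hi1, h0', add_zero]

/-- every support point has an antipode -/
theorem antipode (L : L2 H0 k2 A F K V) (heq : (H0 ^ 2 / 4 - k2) * V.real univ ≤ 4 * Real.pi)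
    (hh : 0 < H0 ^ 2 / 4 - k2) {p : E n} (hp : Sup F V p) :
    ∃ q, Sup F V q ∧ 2 ≤ (H0 ^ 2 / 4 - k2) * F p q := by
  have hfin := L.fin
  set h2 := H0 ^ 2 / 4 - k2 with hh2
  by_contra hcon
  push Not at hcon
  have hv := L.ax heq hp (a := 0) (b := h2) (Or.inl ⟨rfl, rfl⟩)
  rw [← hh2] at hv
  set C : Set (E n) := K ∩ {x | 2 ≤ h2 * F p x} with hC
  have hCc : IsCompact C := L.K_compact.inter_right
    (isClosed_le continuous_const (continuous_const.mul (L.F_cont p)))
  have hex : ∀ x ∈ C, ∃ e > 0, V {z | F x z.1 < e} = 0 := by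
    intro x hx
    by_contra h
    push Not at h
    have hs : Sup F V x := fun e he => pos_iff_ne_zero.2 (h e he)
    have h1 := hcon x hs
    have h3 : 2 ≤ h2 * F p x := hx.2
    linarith
  choose! e he0 he using hex
  obtain ⟨t, ht, hcov⟩ := hCc.elim_nhds_subcover (fun x => {y | F x y < e x}) (by
    intro x hx
    refine IsOpen.mem_nhds (isOpen_lt (L.F_cont x) continuous_const) ?_
    show F x x < e x
    rw [L.F_self x]
    exact he0 x hx)
  set U : Set (E n) := ⋃ x ∈ t, {y | F x y < e x} with hU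
  have hUo : IsOpen U := isOpen_biUnion fun x _ => isOpen_lt (L.F_cont x) continuous_const
  have hU0 : V {z | z.1 ∈ U} = 0 := by
    have h1 : V (⋃ x ∈ t, {z : E n × E n | F x z.1 < e x}) = 0 :=
      (measure_biUnion_null_iff t.countable_toSet).2 fun x hx => he x (ht x hx)
    refine measure_mono_null ?_ h1
    intro z hz
    have hz' : z.1 ∈ U := hz
    simp only [hU, mem_iUnion, mem_ofPred_eq] at hz' ⊢
    exact hz'
  have hUae : ∀ᵐ z ∂V, z.1 ∉ U := by
    rw [ae_iff]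
    simpa using hU0
  set K' : Set (E n) := K \ U with hK'
  have hK'c : IsCompact K' := L.K_compact.diff hUo
  have hne : K'.Nonempty := by
    by_contra hcon'
    rw [not_nonempty_iff_eq_empty] at hcon'
    refine L.V_ne (ae_eq_bot.1 (Filter.eventually_false_iff_eq_bot.1 ?_))
    filter_upwards [hUae, L.V_supp] with z hz hz'
    have : z.1 ∈ K' := ⟨hz'.1, hz⟩
    rw [hcon'] at this
    exact this
  obtain ⟨y, hy, hmax⟩ := hK'c.exists_isMaxOn hne
    (continuous_const.mul (L.F_cont p) : Continuous fun x => h2 * F p x).continuousOn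
  set s := h2 * F p y with hs
  have hs0 : 0 ≤ s := mul_nonneg hh.le (L.F_nonneg p y)
  have hs2 : s < 2 := by
    by_contra h
    exact hy.2 (hcov ⟨hy.1, not_lt.1 h⟩)
  have hle : ∀ k : ℕ, (1 : ℝ) ≤ ((k : ℝ) + 1) * (s / 2) ^ k := by
    intro k
    have h1 := L.N_eq hh hv k
    have hc : Continuous fun z : E n × E n => 0 + h2 * F p z.1 :=
      continuous_const.add (continuous_const.mul (L.Fz_cont p))
    have h3 : ∫ z, (0 + h2 * F p z.1) ^ k ∂V ≤ V.real univ * s ^ k := by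
      have e1 : V.real univ * s ^ k = ∫ _z : E n × E n, s ^ k ∂V := by
        rw [integral_const, smul_eq_mul]
      rw [e1]
      refine integral_mono_ae (L.int_cont (hc.pow k)) (integrable_const _) ?_
      filter_upwards [hUae, L.V_supp] with z hz hz'
      have h4 : h2 * F p z.1 ≤ s := hmax (⟨hz'.1, hz⟩ : z.1 ∈ K')
      have h5 : 0 ≤ h2 * F p z.1 := mul_nonneg hh.le (L.F_nonneg p z.1)
      show (0 + h2 * F p z.1) ^ k ≤ s ^ k
      rw [zero_add]
      exact pow_le_pow_left₀ h5 h4 k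
    have hM := L.M_pos
    have h4 : 2 ^ k * V.real univ ≤ ((k : ℝ) + 1) * (V.real univ * s ^ k) := by
      rw [← h1]
      exact mul_le_mul_of_nonneg_left h3 (by positivity)
    rw [div_pow, mul_div_assoc', le_div_iff₀ (by positivity), one_mul]
    have h5 : V.real univ * 2 ^ k ≤ V.real univ * (((k : ℝ) + 1) * s ^ k) := by linarith
    exact le_of_mul_le_mul_left h5 hM
  have hρ0 : 0 ≤ s / 2 := by positivity
  have hρ1 : s / 2 < 1 := by linarith
  have ht3 : Tendsto (fun k : ℕ => ((k : ℝ) + 1) * (s / 2) ^ k) atTop (𝓝 (0 + 0)) := by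
    have ht4 := (tendsto_self_mul_const_pow_of_lt_one hρ0 hρ1).add
      (tendsto_pow_atTop_nhds_zero_of_lt_one hρ0 hρ1)
    refine ht4.congr fun k => ?_
    ring
  have h9 := ge_of_tendsto' ht3 hle
  linarith

/-- a centre of the sphere, provided midpoints satisfy the comparison inequality -/
theorem rigid2 (L : L2 H0 k2 A F K V)
    (mid : ∀ p ∈ K, ∀ q ∈ K, ∃ c ∈ K, ∀ x, √(1 + k2 * F p q / 2) * F c x +
      F p q / (2 * (√(1 + k2 * F p q / 2) + 1)) ≤ (F p x + F q x) / 2)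
    (heq : (H0 ^ 2 / 4 - k2) * V.real univ ≤ 4 * Real.pi) :
    ∃ c ∈ K, ∀ᵐ z ∂V, 2 * F c z.1 + k2 * F c z.1 ^ 2 = (H0 ^ 2 / 4 - k2)⁻¹ := by
  have hfin := L.fin
  have hM := L.M_pos
  have hge := main2 L.k2_nonneg L.A_cont L.F_smooth L.F_nonneg L.F_self L.grad L.K_compact
    L.V_supp L.V_ne L.stat L.dens
  set h2 := H0 ^ 2 / 4 - k2 with hh2
  have hh : 0 < h2 := by
    by_contra hcon
    have h1 : h2 * V.real univ ≤ 0 := mul_nonpos_of_nonpos_of_nonneg (not_lt.1 hcon) hM.le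
    linarith [Real.pi_pos]
  obtain ⟨p, _, hp⟩ := exists_supp (fun c => L.F_cont c) L.F_self L.K_compact L.V_supp L.V_ne
  obtain ⟨q, hq, hpq⟩ := L.antipode heq hh hp
  rw [← hh2] at hpq
  -- `G_p + G_q = 0`
  have hGp : Continuous fun z : E n × E n => 1 - h2 * F p z.1 :=
    continuous_const.sub (continuous_const.mul (L.Fz_cont p))
  have hGq : Continuous fun z : E n × E n => 1 - h2 * F q z.1 :=
    continuous_const.sub (continuous_const.mul (L.Fz_cont q))
  have hint : Integrable (fun z : E n × E n =>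
      ((1 - h2 * F p z.1) + (1 - h2 * F q z.1)) ^ 2) V := L.int_cont ((hGp.add hGq).pow 2)
  have hpp := L.repro heq hh hp hp
  have hqq := L.repro heq hh hq hq
  have hpq' := L.repro heq hh hp hq
  rw [← hh2, L.F_self] at hpp hqq
  rw [← hh2] at hpq'
  have hsum : ∫ z, ((1 - h2 * F p z.1) + (1 - h2 * F q z.1)) ^ 2 ∂V =
      ∫ z, (1 - h2 * F p z.1) * (1 - h2 * F p z.1) ∂V +
        ∫ z, (1 - h2 * F q z.1) * (1 - h2 * F q z.1) ∂V +
      2 * ∫ z, (1 - h2 * F p z.1) * (1 - h2 * F q z.1) ∂V := by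
    have i1 : Integrable (fun z : E n × E n => (1 - h2 * F p z.1) * (1 - h2 * F p z.1)) V :=
      L.int_cont (hGp.mul hGp)
    have i2 : Integrable (fun z : E n × E n => (1 - h2 * F q z.1) * (1 - h2 * F q z.1)) V :=
      L.int_cont (hGq.mul hGq)
    have i3 : Integrable (fun z : E n × E n => (1 - h2 * F p z.1) * (1 - h2 * F q z.1)) V :=
      L.int_cont (hGp.mul hGq)
    have i12 : Integrable (fun z : E n × E n => (1 - h2 * F p z.1) * (1 - h2 * F p z.1) +
      (1 - h2 * F q z.1) * (1 - h2 * F q z.1)) V := i1.add i2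
    rw [← integral_const_mul, ← integral_add i1 i2, ← integral_add i12 (i3.const_mul 2)]
    refine integral_congr_ae (Eventually.of_forall fun z => ?_)
    simp only
    ring
  have hnn : 0 ≤ ∫ z, ((1 - h2 * F p z.1) + (1 - h2 * F q z.1)) ^ 2 ∂V :=
    integral_nonneg fun z => sq_nonneg _
  have hval : 3 * ∫ z, ((1 - h2 * F p z.1) + (1 - h2 * F q z.1)) ^ 2 ∂V =
      V.real univ * (2 * (2 - h2 * F p q)) := by
    rw [hsum]
    linarith
  have hpq2 : h2 * F p q = 2 := by
    have h1 : 0 ≤ V.real univ * (2 * (2 - h2 * F p q)) := by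
      rw [← hval]
      positivity
    have h3 := nonneg_of_mul_nonneg_right h1 hM
    linarith
  have hz0 : ∫ z, ((1 - h2 * F p z.1) + (1 - h2 * F q z.1)) ^ 2 ∂V = 0 := by
    rw [hpq2] at hval
    linarith
  have hz := (integral_eq_zero_iff_of_nonneg (fun z => sq_nonneg _) hint).1 hz0
  have hae : ∀ᵐ z ∂V, F p z.1 + F q z.1 = 2 / h2 := by
    filter_upwards [hz] with z hz
    have h1 : ((1 - h2 * F p z.1) + (1 - h2 * F q z.1)) ^ 2 = 0 := hz
    have h3 := pow_eq_zero_iff (two_ne_zero) |>.1 h1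
    rw [eq_div_iff hh.ne']
    linarith
  obtain ⟨c, hc, hmid⟩ := mid p (L.sup_mem hp) q (L.sup_mem hq)
  refine ⟨c, hc, ?_⟩
  have hFpq : F p q = 2 / h2 := by
    rw [eq_div_iff hh.ne']
    linarith
  set S := √(1 + k2 * F p q / 2) with hS
  have hk := L.k2_nonneg
  have hS2 : S ^ 2 = 1 + k2 / h2 := by
    rw [hS, Real.sq_sqrt (by have := L.F_nonneg p q; positivity), hFpq]
    field_simp
  have hS0 : 0 ≤ S := Real.sqrt_nonneg _
  have hS1 : 1 ≤ S := by
    rw [hS, Real.one_le_sqrt]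
    have := L.F_nonneg p q
    have : 0 ≤ k2 * F p q / 2 := by positivity
    linarith
  set a := 1 / (h2 * (S + 1)) with ha
  have ha0 : 0 < a := by positivity
  have hcomp : ∀ᵐ z ∂V, F c z.1 ≤ a := by
    filter_upwards [hae] with z hz
    have h1 := hmid z.1
    rw [hz, hFpq] at h1
    have h3 : S * F c z.1 ≤ S * a := by
      have e1 : S * a = 2 / h2 / 2 - 2 / h2 / (2 * (S + 1)) := by
        rw [ha]
        field_simp
        ring
      rw [e1]
      linarith
    exact le_of_mul_le_mul_left h3 (by linarith)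
  have ha2 : h2 * (2 * a + k2 * a ^ 2) = 1 := by
    have e1 : k2 = h2 * (S ^ 2 - 1) := by
      rw [hS2]
      field_simp
      ring
    rw [e1, ha]
    field_simp
    ring
  -- stationarity at `c`
  have hst := L.stat c hc (fun _ => 1) contDiff_const (fun _ => zero_le_one)
  have hint2 : Integrable (fun z : E n × E n =>
      2 * (1 + k2 * F c z.1) - H0 * inner ℝ (D A (F c) z.1) z.2) V :=
    L.int_cont ((continuous_const.mul (continuous_const.add
      (continuous_const.mul (L.Fz_cont c)))).sub (continuous_const.mul (L.n_cont c)))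
  have hle0 : ∫ z, (2 * (1 + k2 * F c z.1) - H0 * inner ℝ (D A (F c) z.1) z.2) ∂V ≤ 0 := by
    have e1 : ∫ z, (H0 * (1 : ℝ) * inner ℝ (D A (F c) z.1) z.2 -
        2 * (1 + k2 * F c z.1) * 1 - Gam A (fun _ => (1 : ℝ)) (F c) z) ∂V =
        - ∫ z, (2 * (1 + k2 * F c z.1) - H0 * inner ℝ (D A (F c) z.1) z.2) ∂V := by
      rw [← integral_neg]
      refine integral_congr_ae (Eventually.of_forall fun z => ?_)
      have e2 : Gam A (fun _ => (1 : ℝ)) (F c) z = 0 := by
        rw [Gam_eq, D_const, gv_zero_left]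
      simp only [e2]
      ring
    rw [e1] at hst
    linarith
  have hpt : ∀ᵐ z ∂V, 0 ≤ 2 * (1 + k2 * F c z.1) - H0 * inner ℝ (D A (F c) z.1) z.2 ∧
      (2 * (1 + k2 * F c z.1) - H0 * inner ℝ (D A (F c) z.1) z.2 = 0 →
        2 * F c z.1 + k2 * F c z.1 ^ 2 = h2⁻¹) := by
    filter_upwards [hcomp, L.V_supp] with z hz hz'
    have hf0 := L.F_nonneg c z.1
    have hν : (inner ℝ (D A (F c) z.1) z.2 : ℝ) ^ 2 ≤ 2 * F c z.1 + k2 * F c z.1 ^ 2 := by
      rw [← L.grad]
      have h1 := gv_self_nonneg hz'.2.le (D A (F c) z.1)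
      rw [gv_self] at h1
      linarith
    set f := F c z.1
    set ν : ℝ := inner ℝ (D A (F c) z.1) z.2
    have h1 : h2 * (2 * f + k2 * f ^ 2) ≤ 1 := by
      rw [← ha2]
      apply mul_le_mul_of_nonneg_left _ hh.le
      have : k2 * f ^ 2 ≤ k2 * a ^ 2 :=
        mul_le_mul_of_nonneg_left (pow_le_pow_left₀ hf0 hz 2) hk
      linarith
    -- `(H0/2)² ν² ≤ (1 + k2 f)²`
    have h3 : (H0 / 2 * ν) ^ 2 ≤ (1 + k2 * f) ^ 2 - (1 - h2 * (2 * f + k2 * f ^ 2)) := by
      have e1 : (H0 / 2) ^ 2 = h2 + k2 := by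
        rw [hh2]
        ring
      rw [mul_pow, e1]
      have h4 : (h2 + k2) * ν ^ 2 ≤ (h2 + k2) * (2 * f + k2 * f ^ 2) :=
        mul_le_mul_of_nonneg_left hν (by linarith)
      nlinarith
    have hpos : 0 < 1 + k2 * f := by positivity
    have h5 : H0 / 2 * ν ≤ 1 + k2 * f := by
      apply le_of_sq_le_sq _ hpos.le
      linarith
    refine ⟨by linarith, fun h0 => ?_⟩
    have h6 : H0 / 2 * ν = 1 + k2 * f := by linarith
    rw [h6] at h3
    have h7 : h2 * (2 * f + k2 * f ^ 2) = 1 := by linarith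
    apply eq_inv_of_mul_eq_one_left
    linarith
  have hzz := (integral_eq_zero_iff_of_nonneg_ae (by filter_upwards [hpt] with z hz using hz.1)
    hint2).1 (le_antisymm hle0 (integral_nonneg_of_ae (by
      filter_upwards [hpt] with z hz using hz.1)))
  filter_upwards [hpt, hzz] with z hz hz'
  exact hz.2 hz'

end L2

end Dim3

end Vale.Agent.P219.End
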