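import Mathlib

/-!
# P219 / End : Minkowski step of the end game (pure measure theory)
-/

open MeasureTheory Set
open scoped ENNReal

namespace Vale.Agent.P219.End.Eg

variable {Ω : Type*} [MeasurableSpace Ω] {μ : Measure Ω}

theorem eg_lint {f : Ω → ℝ} (hf : Integrable f μ) (h0 : ∀ᵐ x ∂μ, 0 ≤ f x) :
    ∫⁻ x, ENNReal.ofReal (f x) ∂μ = ENNReal.ofReal (∫ x, f x ∂μ) :=
  (ofReal_integral_eq_lintegral_ofReal hf h0).symm

/-- Minkowski step: `g ≤ b + v` and `∫ g^p W = 1`, `∫ v^p W ≤ κ^p`. -/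
theorem eg_mink {p : ℝ} (hp : 2 ≤ p) {g v W : Ω → ℝ} {b κ : ℝ}
    (hg0 : ∀ᵐ x ∂μ, 0 ≤ g x) (hv0 : ∀ᵐ x ∂μ, 0 ≤ v x) (hW0 : ∀ᵐ x ∂μ, 0 ≤ W x)
    (hb : 0 ≤ b) (hκ : 0 ≤ κ) (hle : ∀ᵐ x ∂μ, g x ≤ b + v x)
    (hgm : AEMeasurable g μ) (hvm : AEMeasurable v μ) (hWm : AEMeasurable W μ)
    (hi1 : Integrable (fun x => g x ^ p * W x) μ) (hi2 : Integrable (fun x => v x ^ p * W x) μ)
    (hi3 : Integrable (fun x => g x ^ 2 * W x) μ)
    (h1 : ∫ x, g x ^ p * W x ∂μ = 1) (h2 : ∫ x, v x ^ p * W x ∂μ ≤ κ ^ p) :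
    1 ≤ (b ^ (p - 2) * ∫ x, g x ^ 2 * W x ∂μ) ^ (1 / p) + κ := by
  have hp0 : 0 < p := by linarith
  set A : ℝ := b ^ (p - 2) * ∫ x, g x ^ 2 * W x ∂μ with hA
  have hI3 : 0 ≤ ∫ x, g x ^ 2 * W x ∂μ := by
    refine integral_nonneg_of_ae ?_
    filter_upwards [hW0] with x hx
    exact mul_nonneg (sq_nonneg _) hx
  have hA0 : 0 ≤ A := mul_nonneg (Real.rpow_nonneg hb _) hI3
  set f1 : Ω → ℝ≥0∞ := fun x => ENNReal.ofReal (min (g x) b * W x ^ (1 / p)) with hf1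
  set f2 : Ω → ℝ≥0∞ := fun x => ENNReal.ofReal (v x * W x ^ (1 / p)) with hf2
  have hm1 : AEMeasurable f1 μ :=
    ((hgm.min aemeasurable_const).mul (hWm.pow_const _)).ennreal_ofReal
  have hm2 : AEMeasurable f2 μ := (hvm.mul (hWm.pow_const _)).ennreal_ofReal
  have hM := ENNReal.lintegral_Lp_add_le hm1 hm2 (show (1 : ℝ) ≤ p by linarith)
  have hWp : ∀ x, 0 ≤ W x → (W x ^ (1 / p)) ^ p = W x := fun x hx => by
    rw [← Real.rpow_mul hx, one_div_mul_cancel hp0.ne', Real.rpow_one]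
  -- the left side
  have hL : 1 ≤ ∫⁻ x, (f1 + f2) x ^ p ∂μ := by
    have e : (1 : ℝ≥0∞) = ∫⁻ x, ENNReal.ofReal (g x ^ p * W x) ∂μ := by
      rw [eg_lint hi1, h1, ENNReal.ofReal_one]
      filter_upwards [hg0, hW0] with x hx hx'
      exact mul_nonneg (Real.rpow_nonneg hx _) hx'
    rw [e]
    refine lintegral_mono_ae ?_
    filter_upwards [hg0, hv0, hW0, hle] with x a1 a2 a3 a4
    have b1 : g x ≤ min (g x) b + v x := by
      rcases le_total (g x) b with h | h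
      · rw [min_eq_left h]
        linarith
      · rw [min_eq_right h]
        exact a4
    have b2 : 0 ≤ min (g x) b := le_min a1 hb
    have b3 : 0 ≤ W x ^ (1 / p) := Real.rpow_nonneg a3 _
    have b4 : (f1 + f2) x = ENNReal.ofReal ((min (g x) b + v x) * W x ^ (1 / p)) := by
      show ENNReal.ofReal _ + ENNReal.ofReal _ = _
      rw [← ENNReal.ofReal_add (mul_nonneg b2 b3) (mul_nonneg a2 b3), add_mul]
    rw [b4, ENNReal.ofReal_rpow_of_nonneg (mul_nonneg (by linarith) b3) hp0.le]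
    refine ENNReal.ofReal_le_ofReal ?_
    rw [Real.mul_rpow (by linarith) b3, hWp x a3]
    exact mul_le_mul_of_nonneg_right (Real.rpow_le_rpow a1 b1 hp0.le) a3
  -- the two terms on the right
  have hR1 : ∫⁻ x, f1 x ^ p ∂μ ≤ ENNReal.ofReal A := by
    have e : ENNReal.ofReal A = ∫⁻ x, ENNReal.ofReal (b ^ (p - 2) * (g x ^ 2 * W x)) ∂μ := by
      rw [eg_lint (hi3.const_mul _), integral_const_mul]
      filter_upwards [hW0] with x hx
      exact mul_nonneg (Real.rpow_nonneg hb _) (mul_nonneg (sq_nonneg _) hx)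
    rw [e]
    refine lintegral_mono_ae ?_
    filter_upwards [hg0, hW0] with x a1 a3
    have b2 : 0 ≤ min (g x) b := le_min a1 hb
    have b3 : 0 ≤ W x ^ (1 / p) := Real.rpow_nonneg a3 _
    show ENNReal.ofReal _ ^ p ≤ _
    rw [ENNReal.ofReal_rpow_of_nonneg (mul_nonneg b2 b3) hp0.le]
    refine ENNReal.ofReal_le_ofReal ?_
    rw [Real.mul_rpow b2 b3, hWp x a3, ← mul_assoc]
    refine mul_le_mul_of_nonneg_right ?_ a3
    rcases b2.eq_or_lt with h | h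
    · rw [← h, Real.zero_rpow hp0.ne']
      exact mul_nonneg (Real.rpow_nonneg hb _) (sq_nonneg _)
    · have e2 : min (g x) b ^ p = min (g x) b ^ (p - 2) * min (g x) b ^ 2 := by
        rw [← Real.rpow_natCast (min (g x) b) 2, ← Real.rpow_add h]
        norm_num
      rw [e2]
      exact mul_le_mul (Real.rpow_le_rpow b2 (min_le_right _ _) (by linarith))
        (pow_le_pow_left₀ b2 (min_le_left _ _) 2) (sq_nonneg _) (Real.rpow_nonneg hb _)
  have hR2 : ∫⁻ x, f2 x ^ p ∂μ ≤ ENNReal.ofReal (κ ^ p) := by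
    refine le_trans (le_of_eq ?_) (ENNReal.ofReal_le_ofReal h2)
    rw [← eg_lint hi2]
    · refine lintegral_congr_ae ?_
      filter_upwards [hv0, hW0] with x a1 a3
      have b3 : 0 ≤ W x ^ (1 / p) := Real.rpow_nonneg a3 _
      show ENNReal.ofReal _ ^ p = _
      rw [ENNReal.ofReal_rpow_of_nonneg (mul_nonneg a1 b3) hp0.le, Real.mul_rpow a1 b3, hWp x a3]
    · filter_upwards [hv0, hW0] with x a1 a3
      exact mul_nonneg (Real.rpow_nonneg a1 _) a3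
  have hp1 : 0 ≤ 1 / p := by positivity
  have h3 : (1 : ℝ≥0∞) ≤ ENNReal.ofReal (A ^ (1 / p) + κ) := by
    calc (1 : ℝ≥0∞) = 1 ^ (1 / p) := (ENNReal.one_rpow _).symm
      _ ≤ (∫⁻ x, (f1 + f2) x ^ p ∂μ) ^ (1 / p) := ENNReal.rpow_le_rpow hL hp1
      _ ≤ (∫⁻ x, f1 x ^ p ∂μ) ^ (1 / p) + (∫⁻ x, f2 x ^ p ∂μ) ^ (1 / p) := hM
      _ ≤ ENNReal.ofReal A ^ (1 / p) + ENNReal.ofReal (κ ^ p) ^ (1 / p) :=
        add_le_add (ENNReal.rpow_le_rpow hR1 hp1) (ENNReal.rpow_le_rpow hR2 hp1)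
      _ = ENNReal.ofReal (A ^ (1 / p) + κ) := by
        rw [ENNReal.ofReal_rpow_of_nonneg hA0 hp1,
          ENNReal.ofReal_rpow_of_nonneg (Real.rpow_nonneg hκ _) hp1, ← Real.rpow_mul hκ,
          mul_one_div_cancel hp0.ne', Real.rpow_one,
          ← ENNReal.ofReal_add (Real.rpow_nonneg hA0 _) hκ]
  rw [← ENNReal.ofReal_one] at h3
  exact (ENNReal.ofReal_le_ofReal_iff (add_nonneg (Real.rpow_nonneg hA0 _) hκ)).1 h3

end Vale.Agent.P219.End.Eg
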