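import Vale.Agent.P219.End.Bub

/-!
# P219 / End : smooth truncation (T0)
-/

open MeasureTheory Set Metric
open scoped ENNReal ContDiff Topology

namespace Vale.Agent.P219.End

/-- T0 smooth truncation -/
theorem exists_trunc (a τ : ℝ) (hτ : 0 < τ) : ∃ θ : ℝ → ℝ, ContDiff ℝ ∞ θ ∧
    (∀ t, 0 ≤ deriv θ t ∧ deriv θ t ≤ 1) ∧ (∀ t, t ≤ a → θ t = 0) ∧
    (∀ t, max 0 (t - a - τ) ≤ θ t ∧ θ t ≤ max 0 (t - a)) := by
  set f : ℝ → ℝ := fun x => Real.smoothTransition ((x - a) / τ) with hf
  have hfs : ContDiff ℝ ∞ f :=
    Real.smoothTransition.contDiff.comp ((contDiff_id.sub contDiff_const).div_const τ)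
  have hfc : Continuous f := hfs.continuous
  have hi : ∀ p q : ℝ, IntervalIntegrable f volume p q := fun p q => hfc.intervalIntegrable p q
  have h0 : ∀ x, 0 ≤ f x := fun x => Real.smoothTransition.nonneg _
  have h1 : ∀ x, f x ≤ 1 := fun x => Real.smoothTransition.le_one _
  have hz : ∀ x, x ≤ a → f x = 0 := fun x hx =>
    Real.smoothTransition.zero_of_nonpos (div_nonpos_of_nonpos_of_nonneg (by linarith) hτ.le)
  have ho : ∀ x, a + τ ≤ x → f x = 1 := fun x hx =>
    Real.smoothTransition.one_of_one_le (by rw [le_div_iff₀ hτ]; linarith)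
  have hd : ∀ t, HasDerivAt (fun t => ∫ x in a..t, f x) (f t) t := fun t =>
    intervalIntegral.integral_hasDerivAt_right (hi _ _)
      (hfc.stronglyMeasurableAtFilter _ _) hfc.continuousAt
  have hd' : deriv (fun t => ∫ x in a..t, f x) = f := funext fun t => (hd t).deriv
  have hle : ∀ t, t ≤ a → (∫ x in a..t, f x) = 0 := by
    intro t ht
    rw [intervalIntegral.integral_symm]
    have : (∫ x in t..a, f x) = ∫ x in t..a, (0 : ℝ) := by
      apply intervalIntegral.integral_congr
      intro x hx
      rw [uIcc_of_le ht] at hx
      exact hz x hx.2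
    rw [this]
    simp
  refine ⟨fun t => ∫ x in a..t, f x, ?_, fun t => ?_, hle, fun t => ?_⟩
  · rw [contDiff_infty_iff_deriv]
    exact ⟨fun t => (hd t).differentiableAt, by rw [hd']; exact hfs⟩
  · rw [hd']
    exact ⟨h0 t, h1 t⟩
  · change max 0 (t - a - τ) ≤ (∫ x in a..t, f x) ∧ (∫ x in a..t, f x) ≤ max 0 (t - a)
    rcases le_total t a with h | h
    · rw [hle t h, max_eq_left (by linarith), max_eq_left (by linarith)]
      exact ⟨le_rfl, le_rfl⟩
    · constructor
      · apply max_le
        · exact intervalIntegral.integral_nonneg h fun x _ => h0 x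
        · rcases le_total t (a + τ) with h2 | h2
          · have := intervalIntegral.integral_nonneg (μ := volume) h fun x _ => h0 x
            linarith
          · have e := intervalIntegral.integral_add_adjacent_intervals (hi a (a + τ)) (hi (a + τ) t)
            have e2 : 0 ≤ ∫ x in a..(a + τ), f x :=
              intervalIntegral.integral_nonneg (by linarith) fun x _ => h0 x
            have e3 : (∫ x in (a + τ)..t, f x) = ∫ x in (a + τ)..t, (1 : ℝ) := by
              apply intervalIntegral.integral_congr
              intro x hx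
              rw [uIcc_of_le h2] at hx
              exact ho x hx.1
            rw [e3] at e
            simp only [intervalIntegral.integral_const, smul_eq_mul, mul_one] at e
            linarith
      · rw [max_eq_right (by linarith)]
        have e := intervalIntegral.integral_mono_on h (hi a t)
          (continuous_const.intervalIntegrable (μ := volume) a t) fun x _ => h1 x
        simp only [intervalIntegral.integral_const, smul_eq_mul, mul_one] at e
        exact e

end Vale.Agent.P219.End
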