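import Vale.Agent.P219.End.EndGameA
import Vale.Agent.P219.End.Ident2
import Vale.Agent.P219.End.Trunc

/-!
# P219 / End : the end game

From the averaged upper bound of `g ^ 2`, the weak Sobolev inequality and the tail bound:
a function of small defect has energy at least `sg ^ (2 / m) - η`.
-/

open MeasureTheory Set Metric
open scoped ENNReal ContDiff Topology

namespace Vale.Agent.P219.End

variable {n : ℕ}

/-! ## real variable lemmas -/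

theorem eg_pow (g W m : ℝ) (hg : 0 ≤ g) (hW : 0 < W) (hm : 2 < m) :
    (g * W ^ ((m - 2) / 2)) ^ (2 * m / (m - 2)) = g ^ (2 * m / (m - 2)) * W ^ m := by
  rw [Real.mul_rpow hg (Real.rpow_nonneg hW.le _), ← Real.rpow_mul hW.le]
  have h : (m - 2) / 2 * (2 * m / (m - 2)) = m := by
    have : m - 2 ≠ 0 := by linarith
    field_simp
  rw [h]

theorem eg_conv {p t x y : ℝ} (hp : 1 ≤ p) (ht : 0 < t) (ht1 : t < 1) (hx : 0 ≤ x)
    (hy : 0 ≤ y) : (x + y) ^ p ≤ t ^ (1 - p) * x ^ p + (1 - t) ^ (1 - p) * y ^ p := by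
  have ht' : 0 < 1 - t := by linarith
  have h := (convexOn_rpow hp).2 (x := x / t) (y := y / (1 - t)) (div_nonneg hx ht.le)
    (div_nonneg hy ht'.le) ht.le ht'.le (by ring)
  simp only [smul_eq_mul] at h
  have e1 : ∀ r v : ℝ, 0 < r → 0 ≤ v → r * (v / r) ^ p = r ^ (1 - p) * v ^ p := by
    intro r v hr hv
    rw [Real.div_rpow hv hr.le, Real.rpow_sub hr, Real.rpow_one]
    have : r ^ p ≠ 0 := (Real.rpow_pos_of_pos hr p).ne'
    field_simp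
  rw [e1 t x ht hx, e1 (1 - t) y ht' hy, mul_div_cancel₀ x ht.ne', mul_div_cancel₀ y ht'.ne'] at h
  exact h

theorem eg_min {g b p W m : ℝ} (hg : 0 ≤ g) (hb : 0 < b) (hp : 2 ≤ p) (hW : 0 < W) :
    min g b ^ p * W ^ m ≤ b ^ (p - 2) * (g ^ 2 * W ^ m) := by
  have hW' := Real.rpow_pos_of_pos hW m
  have h0 : 0 ≤ min g b := le_min hg hb.le
  have h1 : min g b ^ p ≤ b ^ (p - 2) * g ^ 2 := by
    rcases h0.eq_or_lt with h | h
    · rw [← h, Real.zero_rpow (by linarith)]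
      positivity
    · have e : min g b ^ p = min g b ^ (p - 2) * min g b ^ 2 := by
        rw [← Real.rpow_natCast (min g b) 2, ← Real.rpow_add h]
        congr 1
        push_cast
        ring
      rw [e]
      exact mul_le_mul (Real.rpow_le_rpow h0 (min_le_right _ _) (by linarith))
        (pow_le_pow_left₀ h0 (min_le_left _ _) 2) (by positivity) (by positivity)
  calc _ ≤ (b ^ (p - 2) * g ^ 2) * W ^ m := mul_le_mul_of_nonneg_right h1 hW'.le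
    _ = _ := by ring

/-- the constants -/
theorem eg_const {m σ T : ℝ} (hm : 2 < m) (hσ : 0 < σ) (hT : 0 < T) (hTσ : T < σ ^ (2 / m)) :
    ∃ b c' : ℝ, 0 < c' ∧ c' < b ∧ T < c' ^ 2 * σ ∧ b ^ (2 * m / (m - 2) - 2) * T < 1 := by
  have hm2 : 0 < m - 2 := by linarith
  have hm0 : 0 < m := by linarith
  set b0 : ℝ := √(T / σ) with hb0
  set b1 : ℝ := T ^ (-((m - 2) / 4)) with hb1
  have h0 : 0 < b0 := Real.sqrt_pos.2 (by positivity)
  have h1 : 0 < b1 := Real.rpow_pos_of_pos hT _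
  have h0s : b0 ^ 2 = T / σ := Real.sq_sqrt (by positivity)
  have h1s : b1 ^ 2 = T ^ (-((m - 2) / 2)) := by
    rw [hb1, ← Real.rpow_mul_natCast hT.le]
    congr 1
    push_cast
    ring
  have hTm : T ^ (m / 2) < σ := by
    have h2 := Real.rpow_lt_rpow hT.le hTσ (show 0 < m / 2 by positivity)
    rw [← Real.rpow_mul hσ.le] at h2
    have : 2 / m * (m / 2) = 1 := by field_simp
    rwa [this, Real.rpow_one] at h2
  have hlt : b0 < b1 := by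
    refine lt_of_pow_lt_pow_left₀ 2 h1.le ?_
    rw [h0s, h1s, div_lt_iff₀ hσ, Real.rpow_neg hT.le]
    have h3 := Real.rpow_pos_of_pos hT ((m - 2) / 2)
    rw [← mul_lt_mul_iff_right₀ h3]
    have h4 : T ^ ((m - 2) / 2) * T = T ^ (m / 2) := by
      conv_lhs => rw [← Real.rpow_one T]
      rw [← Real.rpow_mul hT.le, ← Real.rpow_add hT]
      congr 1
      ring
    calc T ^ ((m - 2) / 2) * T = T ^ (m / 2) := h4
      _ < σ := hTm
      _ = T ^ ((m - 2) / 2) * ((T ^ ((m - 2) / 2))⁻¹ * σ) := by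
          field_simp
  refine ⟨(b0 + 2 * b1) / 3, (2 * b0 + b1) / 3, by positivity, by linarith, ?_, ?_⟩
  · have h5 : b0 < (2 * b0 + b1) / 3 := by linarith
    have h6 : b0 ^ 2 < ((2 * b0 + b1) / 3) ^ 2 := pow_lt_pow_left₀ h5 h0.le (by norm_num)
    rw [h0s, div_lt_iff₀ hσ] at h6
    exact h6
  · have h5 : (b0 + 2 * b1) / 3 < b1 := by linarith
    have e : 2 * m / (m - 2) - 2 = 4 / (m - 2) := by
      field_simp
      ring
    rw [e]
    have h6 : ((b0 + 2 * b1) / 3) ^ (4 / (m - 2)) < b1 ^ (4 / (m - 2)) :=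
      Real.rpow_lt_rpow (by positivity) h5 (by positivity)
    have h7 : b1 ^ (4 / (m - 2)) = T⁻¹ := by
      rw [hb1, ← Real.rpow_mul hT.le]
      have : -((m - 2) / 4) * (4 / (m - 2)) = -1 := by field_simp
      rw [this, Real.rpow_neg_one]
    rw [h7] at h6
    calc _ < T⁻¹ * T := mul_lt_mul_of_pos_right h6 hT
      _ = 1 := inv_mul_cancel₀ hT.ne'

/-- the choice of the parameter of convexity -/
theorem eg_conv_const {p q : ℝ} (hp : 1 < p) (hq : 0 ≤ q) (hq1 : q < 1) :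
    ∃ t κ : ℝ, 0 < t ∧ t < 1 ∧ 0 < κ ∧ ∀ x, 0 ≤ x → x ≤ κ →
      t ^ (1 - p) * q + (1 - t) ^ (1 - p) * x ^ (p / 2) < 1 := by
  have h1 : 0 < (1 + q) / 2 := by linarith
  have h2 : (1 + q) / 2 < 1 := by linarith
  have hp1 : 0 < p - 1 := by linarith
  set t : ℝ := ((1 + q) / 2) ^ (1 / (p - 1)) with ht
  have ht0 : 0 < t := Real.rpow_pos_of_pos h1 _
  have ht1 : t < 1 := Real.rpow_lt_one h1.le h2 (by positivity)
  have htp : t ^ (1 - p) = 2 / (1 + q) := by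
    rw [ht, ← Real.rpow_mul h1.le]
    have : 1 / (p - 1) * (1 - p) = -1 := by
      field_simp
      ring
    rw [this, Real.rpow_neg_one]
    field_simp
  have hr : t ^ (1 - p) * q < 1 := by
    rw [htp, div_mul_eq_mul_div, div_lt_one (by linarith)]
    linarith
  have ht' : 0 < 1 - t := by linarith
  have hc : 0 < (1 - t) ^ (1 - p) := Real.rpow_pos_of_pos ht' _
  set r : ℝ := 1 - t ^ (1 - p) * q with hrr
  have hr0 : 0 < r := by linarith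
  refine ⟨t, (r / (2 * (1 - t) ^ (1 - p))) ^ (2 / p), ht0, ht1, by positivity, ?_⟩
  intro x hx hxk
  have h3 : x ^ (p / 2) ≤ r / (2 * (1 - t) ^ (1 - p)) := by
    have h4 := Real.rpow_le_rpow hx hxk (show 0 ≤ p / 2 by linarith)
    rw [← Real.rpow_mul (by positivity)] at h4
    have : 2 / p * (p / 2) = 1 := by
      have : p ≠ 0 := by linarith
      field_simp
    rwa [this, Real.rpow_one] at h4
  have h5 : (1 - t) ^ (1 - p) * x ^ (p / 2) ≤ r / 2 := by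
    calc _ ≤ (1 - t) ^ (1 - p) * (r / (2 * (1 - t) ^ (1 - p))) :=
          mul_le_mul_of_nonneg_left h3 hc.le
      _ = r / 2 := by field_simp
  linarith

namespace Lim

variable (L : Lim n)

/-- the last estimate: convexity -/
theorem eg_last {s : ℝ} (hs : L.Ad s) (c : E n) {u : E n → ℝ} (hu : SP u)
    (h1 : ∫ z, u z.1 ^ L.ps ∂L.V = 1) {θ : ℝ → ℝ} (hθs : ContDiff ℝ ∞ θ) {b T t κ : ℝ}
    (hb : 0 < b) (hθ : ∀ r, 0 ≤ r → 0 ≤ θ r ∧ r - b ≤ θ r)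
    (hE : ∫ z, u z.1 ^ 2 * L.ws c s z.1 ^ 2 ∂L.V ≤ T) (ht0 : 0 < t) (ht1 : t < 1)
    (hκ : ∀ x, 0 ≤ x → x ≤ κ → t ^ (1 - L.ps) * (b ^ (L.ps - 2) * T) +
      (1 - t) ^ (1 - L.ps) * x ^ (L.ps / 2) < 1)
    (hS : (∫ z, (θ (L.gs c s u z.1) * L.ws c s z.1 ^ ((L.m - 2) / 2)) ^ L.ps ∂L.V) ^ (2 / L.ps)
      ≤ κ) : False := by
  have hm := L.m_pos
  have hm2 := L.m_sub_pos
  have hp := L.eg_ps_gt
  have hs0 := hs.1
  have cu : Continuous fun z : E n × E n => u z.1 := hu.1.continuous.comp continuous_fst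
  have cw : Continuous fun z : E n × E n => L.ws c s z.1 :=
    (L.eg_ws_smooth hs c).continuous.comp continuous_fst
  have cwm : Continuous fun z : E n × E n => L.ws c s z.1 ^ ((L.m - 2) / 2) :=
    (L.eg_ws_rpow_smooth hs c _).continuous.comp continuous_fst
  have cg : Continuous fun z : E n × E n => L.gs c s u z.1 :=
    (L.eg_gs_smooth hs c hu).continuous.comp continuous_fst
  set U : E n × E n → ℝ := fun z => θ (L.gs c s u z.1) * L.ws c s z.1 ^ ((L.m - 2) / 2) with hU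
  have hU0 : ∀ z, 0 ≤ U z := fun z =>
    mul_nonneg (hθ _ (L.eg_gs_pos hs c hu z.1).le).1 (Real.rpow_nonneg (L.eg_ws_pos hs c z.1).le _)
  have cU : Continuous U := (hθs.continuous.comp cg).mul cwm
  have cUp : Continuous fun z => U z ^ L.ps := cU.rpow_const fun z => Or.inr (by linarith)
  have cup : Continuous fun z : E n × E n => u z.1 ^ L.ps :=
    cu.rpow_const fun z => Or.inr (by linarith)
  have cuw : Continuous fun z : E n × E n => u z.1 ^ 2 * L.ws c s z.1 ^ 2 :=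
    (cu.pow 2).mul (cw.pow 2)
  have ht0' : 0 ≤ t ^ (1 - L.ps) := Real.rpow_nonneg ht0.le _
  have ht1' : 0 ≤ (1 - t) ^ (1 - L.ps) := Real.rpow_nonneg (by linarith) _
  have key : ∀ z : E n × E n, u z.1 ^ L.ps ≤
      t ^ (1 - L.ps) * b ^ (L.ps - 2) * (u z.1 ^ 2 * L.ws c s z.1 ^ 2) +
        (1 - t) ^ (1 - L.ps) * U z ^ L.ps := by
    intro z
    have hg := L.eg_gs_pos hs c hu z.1
    have hw := L.eg_ws_pos hs c z.1
    have hgu := L.eg_gs_mul hs c u z.1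
    have hg2 := L.eg_g2w hs c u z.1
    have hθz := hθ _ hg.le
    set g := L.gs c s u z.1 with hgd
    set W := L.ws c s z.1 with hWd
    have hUz : U z = θ g * W ^ ((L.m - 2) / 2) := rfl
    have e1 : u z.1 ^ L.ps = g ^ L.ps * W ^ L.m := by
      rw [← hgu]
      exact eg_pow g W L.m hg.le hw (by linarith)
    have e2 : U z ^ L.ps = θ g ^ L.ps * W ^ L.m := by
      rw [hUz]
      exact eg_pow (θ g) W L.m hθz.1 hw (by linarith)
    have h2 : g ≤ min g b + θ g := by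
      rcases le_total g b with h | h
      · rw [min_eq_left h]
        linarith [hθz.1]
      · rw [min_eq_right h]
        linarith [hθz.2]
    have h3 : g ^ L.ps ≤ t ^ (1 - L.ps) * min g b ^ L.ps + (1 - t) ^ (1 - L.ps) * θ g ^ L.ps :=
      (Real.rpow_le_rpow hg.le h2 (by linarith)).trans
        (eg_conv (by linarith) ht0 ht1 (le_min hg.le hb.le) hθz.1)
    have h4 : min g b ^ L.ps * W ^ L.m ≤ b ^ (L.ps - 2) * (g ^ 2 * W ^ L.m) :=
      eg_min hg.le hb hp.le hw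
    have hWm : 0 ≤ W ^ L.m := Real.rpow_nonneg hw.le _
    rw [e1, e2, ← hg2]
    calc g ^ L.ps * W ^ L.m ≤ (t ^ (1 - L.ps) * min g b ^ L.ps +
          (1 - t) ^ (1 - L.ps) * θ g ^ L.ps) * W ^ L.m := mul_le_mul_of_nonneg_right h3 hWm
      _ = t ^ (1 - L.ps) * (min g b ^ L.ps * W ^ L.m) +
          (1 - t) ^ (1 - L.ps) * (θ g ^ L.ps * W ^ L.m) := by ring
      _ ≤ t ^ (1 - L.ps) * (b ^ (L.ps - 2) * (g ^ 2 * W ^ L.m)) +
          (1 - t) ^ (1 - L.ps) * (θ g ^ L.ps * W ^ L.m) := by gcongr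
      _ = _ := by ring
  have hint : (∫ z, u z.1 ^ L.ps ∂L.V) ≤
      t ^ (1 - L.ps) * b ^ (L.ps - 2) * (∫ z, u z.1 ^ 2 * L.ws c s z.1 ^ 2 ∂L.V) +
        (1 - t) ^ (1 - L.ps) * ∫ z, U z ^ L.ps ∂L.V := by
    rw [← integral_const_mul, ← integral_const_mul, ← integral_add
      ((L.integrable_of_cont cuw).const_mul _) ((L.integrable_of_cont cUp).const_mul _)]
    exact integral_mono (L.integrable_of_cont cup)
      (((L.integrable_of_cont cuw).const_mul _).add ((L.integrable_of_cont cUp).const_mul _)) key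
  rw [h1] at hint
  have hI0 : 0 ≤ ∫ z, U z ^ L.ps ∂L.V := integral_nonneg fun z => Real.rpow_nonneg (hU0 z) _
  have h5 := hκ _ (Real.rpow_nonneg hI0 _) hS
  have h6 : ((∫ z, U z ^ L.ps ∂L.V) ^ (2 / L.ps)) ^ (L.ps / 2) = ∫ z, U z ^ L.ps ∂L.V := by
    rw [← Real.rpow_mul hI0]
    have : 2 / L.ps * (L.ps / 2) = 1 := by
      have : L.ps ≠ 0 := by linarith
      field_simp
    rw [this, Real.rpow_one]
  rw [h6] at h5
  have h7 : t ^ (1 - L.ps) * b ^ (L.ps - 2) * (∫ z, u z.1 ^ 2 * L.ws c s z.1 ^ 2 ∂L.V) ≤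
      t ^ (1 - L.ps) * (b ^ (L.ps - 2) * T) := by
    rw [mul_assoc]
    have : 0 ≤ b ^ (L.ps - 2) := Real.rpow_nonneg hb.le _
    gcongr
  linarith

/-- the choice of the radius -/
theorem eg_radius {K1 Ct κ m : ℝ} (hm : 0 < m) (hK1 : 0 < K1) (hCt : 0 < Ct) (hκ : 0 < κ) :
    ∃ N ≥ 1, K1 * (Ct * N ^ (-m)) ^ (2 / m) ≤ κ / 2 := by
  have hCt' : 0 < Ct ^ (2 / m) := Real.rpow_pos_of_pos hCt _
  have h0 : 0 ≤ 2 * K1 * Ct ^ (2 / m) / κ := by positivity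
  refine ⟨1 + 2 * K1 * Ct ^ (2 / m) / κ, by linarith, ?_⟩
  set N : ℝ := 1 + 2 * K1 * Ct ^ (2 / m) / κ with hN
  have hN1 : 1 ≤ N := by linarith
  have hN0 : 0 < N := by linarith
  have e1 : (Ct * N ^ (-m)) ^ (2 / m) = Ct ^ (2 / m) * (N ^ 2)⁻¹ := by
    rw [Real.mul_rpow hCt.le (Real.rpow_nonneg hN0.le _), ← Real.rpow_mul hN0.le]
    congr 1
    rw [show -m * (2 / m) = -((2 : ℕ) : ℝ) by push_cast; field_simp, Real.rpow_neg hN0.le,
      Real.rpow_natCast]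
  have e2 : (N ^ 2)⁻¹ ≤ N⁻¹ := by
    apply inv_anti₀ hN0
    nlinarith
  have e3 : K1 * Ct ^ (2 / m) * N⁻¹ ≤ κ / 2 := by
    rw [← div_eq_mul_inv, div_le_iff₀ hN0]
    have : κ / 2 * N = κ / 2 + K1 * Ct ^ (2 / m) := by
      rw [hN]
      field_simp
    rw [this]
    linarith
  calc K1 * (Ct * N ^ (-m)) ^ (2 / m) = K1 * Ct ^ (2 / m) * (N ^ 2)⁻¹ := by
        rw [e1]; ring
    _ ≤ K1 * Ct ^ (2 / m) * N⁻¹ := by gcongr
    _ ≤ κ / 2 := e3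

/-- the truncated mass, from the bound near the centre and the tail -/
theorem eg_mass {s : ℝ} (hAd : L.Ad s) (c : E n) {u : E n → ℝ} (hu : SP u)
    (h1 : ∫ z, u z.1 ^ L.ps ∂L.V = 1) {θ : ℝ → ℝ} (hθc : Continuous θ) {c' T η' : ℝ}
    (hc'0 : 0 < c') (hη'0 : 0 < η') (hη'T : (1 + η') * T = sg L.m * c' ^ 2)
    (hθ : ∀ r, 0 ≤ θ r ∧ θ r ≤ max 0 (r - c')) {Ct Cs N δ : ℝ} (hCt : 0 < Ct)
    (hN1 : 1 ≤ N)
    (htail : ∫ z in {z | N * s < L.ds c z.1}, L.ws c s z.1 ^ L.m ∂L.V ≤ Ct * N ^ (-L.m))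
    (hE2 : (∫ z, u z.1 ^ 2 * L.ws c s z.1 ^ 2 ∂L.V) ≤ T)
    (hsb : ∫ z in {z | L.ds c z.1 ≤ N * s},
      max 0 (sg L.m * L.gs c s u z.1 ^ 2 -
        (1 + η') * ∫ y, u y.1 ^ 2 * L.ws c s y.1 ^ 2 ∂L.V) ∂L.V ≤ Cs * √δ * s ^ L.m) :
    ∫ z, θ (L.gs c s u z.1) ^ 2 * L.ws c s z.1 ^ L.m ∂L.V ≤
      2 ^ L.m / sg L.m * Cs * √δ + (Ct * N ^ (-L.m)) ^ (2 / L.m) := by
  have hm := L.m_pos
  have hsg := eg_sg_pos hm
  have hs := hAd.1
  have cg : Continuous fun z : E n × E n => L.gs c s u z.1 :=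
    (L.eg_gs_smooth hAd c hu).continuous.comp continuous_fst
  have hta := L.eg_tail hCt hAd c hu h1 hθc hc'0.le hθ hN1 htail
  set E2 : ℝ := ∫ y, u y.1 ^ 2 * L.ws c s y.1 ^ 2 ∂L.V with hE2d
  have h3 : (1 + η') * E2 ≤ sg L.m * c' ^ 2 := by
    rw [← hη'T]
    gcongr
  have c1 : Continuous fun z : E n × E n =>
      max 0 (sg L.m * L.gs c s u z.1 ^ 2 - sg L.m * c' ^ 2) :=
    continuous_const.max ((continuous_const.mul (cg.pow 2)).sub continuous_const)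
  have c2 : Continuous fun z : E n × E n =>
      max 0 (sg L.m * L.gs c s u z.1 ^ 2 - (1 + η') * E2) :=
    continuous_const.max ((continuous_const.mul (cg.pow 2)).sub continuous_const)
  have hmono : (∫ z in {z | L.ds c z.1 ≤ N * s},
      max 0 (sg L.m * L.gs c s u z.1 ^ 2 - sg L.m * c' ^ 2) ∂L.V) ≤
      ∫ z in {z | L.ds c z.1 ≤ N * s},
        max 0 (sg L.m * L.gs c s u z.1 ^ 2 - (1 + η') * E2) ∂L.V := by
    refine setIntegral_mono (L.integrable_of_cont c1).integrableOn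
      (L.integrable_of_cont c2).integrableOn fun z => ?_
    exact max_le_max le_rfl (by linarith)
  have hsm : 0 < s ^ (-L.m) := Real.rpow_pos_of_pos hs _
  refine hta.trans ?_
  have h4 : 2 ^ L.m / sg L.m * s ^ (-L.m) * (∫ z in {z | L.ds c z.1 ≤ N * s},
      max 0 (sg L.m * L.gs c s u z.1 ^ 2 - sg L.m * c' ^ 2) ∂L.V) ≤
      2 ^ L.m / sg L.m * s ^ (-L.m) * (Cs * √δ * s ^ L.m) :=
    mul_le_mul_of_nonneg_left (hmono.trans hsb) (by positivity)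
  have h5 : s ^ (-L.m) * s ^ L.m = 1 := by
    rw [← Real.rpow_add hs]
    simp
  have h6 : 2 ^ L.m / sg L.m * s ^ (-L.m) * (Cs * √δ * s ^ L.m) =
      2 ^ L.m / sg L.m * Cs * √δ := by
    calc _ = 2 ^ L.m / sg L.m * Cs * √δ * (s ^ (-L.m) * s ^ L.m) := by ring
      _ = _ := by rw [h5, mul_one]
  linarith

/-- `∫ u² w² ≤ E(u)` -/
theorem eg_E2_le {c : E n} (hc : c ∈ L.K) {ε : ℝ} (hε : 0 < ε) (hkε : L.k2 * ε < 2)
    {u : E n → ℝ} (hu : SP u) : (∫ z, u z.1 ^ 2 * L.w c ε z.1 ^ 2 ∂L.V) ≤ L.En u := by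
  have h1 := L.Def_nonneg hc hε hkε hu.1
  have h2 : L.Def c ε u = L.En u - ∫ z, u z.1 ^ 2 * L.w c ε z.1 ^ 2 ∂L.V := rfl
  linarith

/-- the choice of `δ` -/
theorem eg_delta {K1 C k A κ δ X : ℝ} (hK1 : 0 < K1) (hC : 0 < C) (hk : 0 ≤ k) (hA : 0 < A)
    (hκ : 0 < κ) (hX : X = K1 * (1 + A + k) + C) (hδ0 : 0 < δ) (hδ1 : δ ≤ 1)
    (hδ : δ ≤ (κ / (2 * X)) ^ 2) :
    K1 * (δ + A * √δ + k * δ) + C * δ ≤ κ / 2 := by
  have hX0 : 0 < X := by rw [hX]; positivity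
  have hsd : δ ≤ √δ := by
    rw [Real.le_sqrt hδ0.le hδ0.le]
    nlinarith
  have hsX : √δ ≤ κ / (2 * X) := by
    rw [Real.sqrt_le_left (by positivity)]
    exact hδ
  calc K1 * (δ + A * √δ + k * δ) + C * δ ≤ K1 * (√δ + A * √δ + k * √δ) + C * √δ := by gcongr
    _ = X * √δ := by rw [hX]; ring
    _ ≤ X * (κ / (2 * X)) := by gcongr
    _ = κ / 2 := by field_simp

/-- the end game, from its ingredients -/
theorem end_game_of
    (wsob : ∃ C > 0, ∀ v : E n → ℝ, ContDiff ℝ ∞ v → (∀ x, 0 ≤ v x) →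
      (∫ z, v z.1 ^ L.ps ∂L.V) ^ (2 / L.ps) ≤
        C * ((∫ z, L.G v v z ∂L.V) + ∫ z, v z.1 ^ 2 ∂L.V))
    (tail : ∃ C > 0, ∀ c ∈ L.K, ∀ s : ℝ, L.Ad s → ∀ N ≥ 1,
      ∫ z in {z | N * s < L.ds c z.1}, L.ws c s z.1 ^ L.m ∂L.V ≤ C * N ^ (-L.m))
    (sup_bound : ∀ (N η B : ℝ) (_ : 1 ≤ N) (_ : 0 < η), ∃ C > 0, ∃ s₀ > 0, ∀ c ∈ L.K,
      ∀ s : ℝ, 0 < s → s ≤ s₀ →
      ∀ u : E n → ℝ, SP u → ∀ δ : ℝ, 0 < δ → δ ≤ 1 → L.Def c (s ^ 2 / 2) u ≤ δ →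
      (∫ z, u z.1 ^ 2 ∂L.V) ≤ δ → (∫ z, u z.1 ^ 2 * L.ws c s z.1 ^ 2 ∂L.V) ≤ B →
      ∫ z in {z | L.ds c z.1 ≤ N * s},
        max 0 (sg L.m * L.gs c s u z.1 ^ 2 -
          (1 + η) * ∫ y, u y.1 ^ 2 * L.ws c s y.1 ^ 2 ∂L.V) ∂L.V ≤ C * √δ * s ^ L.m)
    (η : ℝ) (hη : 0 < η) : ∃ δ > 0, ∀ c ∈ L.K, ∀ ε : ℝ, 0 < ε → L.k2 * ε < 2 →
    ∀ u : E n → ℝ, SP u → ∫ z, u z.1 ^ L.ps ∂L.V = 1 → L.Def c ε u ≤ δ →
    (∫ z, u z.1 ^ 2 ∂L.V) ≤ δ → sg L.m ^ (2 / L.m) - η ≤ L.En u := by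
  have hm := L.m_pos
  have hm2 := L.m_sub_pos
  have hk := L.k2_nonneg
  have hsg := eg_sg_pos hm
  have hp := L.eg_ps_gt
  generalize hTdef : sg L.m ^ (2 / L.m) - η = T
  rcases le_or_gt T 0 with hT | hT
  · refine ⟨1, one_pos, ?_⟩
    intro c hc ε hε hkε u hu _ _ _
    have h1 := L.eg_E2_le hc hε hkε hu
    have h2 : 0 ≤ ∫ z, u z.1 ^ 2 * L.w c ε z.1 ^ 2 ∂L.V :=
      integral_nonneg fun z => mul_nonneg (sq_nonneg _) (sq_nonneg _)
    linarith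
  obtain ⟨b, c', hc'0, hc'b, hc'T, hbT⟩ := eg_const (m := L.m) (by linarith) hsg hT
    (by linarith : T < sg L.m ^ (2 / L.m))
  have hb : 0 < b := hc'0.trans hc'b
  have hpsdef : L.ps = 2 * L.m / (L.m - 2) := rfl
  rw [← hpsdef] at hbT
  obtain ⟨θ, hθs, hθd, hθ0, hθ1⟩ := exists_trunc c' (b - c') (by linarith)
  obtain ⟨t, κ, ht0, ht1, hκ0, hκ⟩ := eg_conv_const (p := L.ps) (q := b ^ (L.ps - 2) * T)
    (by linarith) (by positivity) hbT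
  obtain ⟨C, hC, hW⟩ := wsob
  obtain ⟨Ct, hCt, htail⟩ := tail
  obtain ⟨c0, hc0, d0, hd0, hlow⟩ := L.eg_low hC hW
  have hK1' : 0 < C * (L.m * (L.m - 2) / 4) := by positivity
  obtain ⟨N, hN1, hNκ⟩ := eg_radius hm hK1' hCt hκ0
  have hη'0 : 0 < c' ^ 2 * sg L.m / T - 1 := by
    rw [sub_pos, lt_div_iff₀ hT]
    linarith
  have hη'T : (1 + (c' ^ 2 * sg L.m / T - 1)) * T = sg L.m * c' ^ 2 := by
    field_simp
    ring
  generalize c' ^ 2 * sg L.m / T - 1 = η' at hη'0 hη'T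
  obtain ⟨Cs, hCs, s₀, hs₀, hsup⟩ := sup_bound N η' T hN1 hη'0
  have hA : 0 < 2 ^ L.m / sg L.m * Cs := by positivity
  obtain ⟨X, hX⟩ : ∃ X : ℝ, X = C * (L.m * (L.m - 2) / 4) *
    (1 + 2 ^ L.m / sg L.m * Cs + L.k2) + C := ⟨_, rfl⟩
  have hX0 : 0 < X := by rw [hX]; positivity
  obtain ⟨r₀, hr₀0, hr₀1, hr₀2⟩ : ∃ r₀ : ℝ, 0 < r₀ ∧ r₀ ≤ s₀ ^ 2 ∧ r₀ ≤ 1 / (L.k2 + 1) :=
    ⟨min (s₀ ^ 2) (1 / (L.k2 + 1)), lt_min (by positivity) (by positivity), min_le_left _ _,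
      min_le_right _ _⟩
  obtain ⟨δ, hδ0, hδ1, hδ2, hδ3, hδ4⟩ : ∃ δ : ℝ, 0 < δ ∧ δ ≤ 1 ∧ δ ≤ d0 ∧ δ ≤ c0 * r₀ / 4 ∧
      δ ≤ (κ / (2 * X)) ^ 2 :=
    ⟨min (min 1 d0) (min (c0 * r₀ / 4) ((κ / (2 * X)) ^ 2)),
      lt_min (lt_min one_pos hd0) (lt_min (by positivity) (by positivity)),
      (min_le_left _ _).trans (min_le_left _ _), (min_le_left _ _).trans (min_le_right _ _),
      (min_le_right _ _).trans (min_le_left _ _), (min_le_right _ _).trans (min_le_right _ _)⟩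
  refine ⟨δ, hδ0, ?_⟩
  intro c hc ε hε hkε u hu h1 hD hR
  by_contra hcon
  push Not at hcon
  obtain ⟨-, hεle⟩ := hlow c ε hε hkε u hu h1 δ hδ0 hδ2 hD hR
  -- the scale
  obtain ⟨s, hs, hsε⟩ : ∃ s : ℝ, 0 < s ∧ s ^ 2 / 2 = ε :=
    ⟨√(2 * ε), by positivity, by rw [Real.sq_sqrt (by positivity)]; ring⟩
  have hs2 : s ^ 2 ≤ r₀ := by
    have h2 : 2 * δ / c0 ≤ r₀ / 2 := by
      rw [div_le_iff₀ hc0]
      linarith
    linarith
  have hss₀ : s ≤ s₀ := le_of_sq_le_sq (hs2.trans hr₀1) hs₀.le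
  have hs2b : s ^ 2 ≤ 1 / (L.k2 + 1) := hs2.trans hr₀2
  have hAd : L.Ad s := by
    rw [le_div_iff₀ (by linarith)] at hs2b
    have h0 := mul_nonneg hk (sq_nonneg s)
    refine ⟨hs, le_of_sq_le_sq (by linarith : s ^ 2 ≤ 1 ^ 2) zero_le_one, ?_⟩
    nlinarith [sq_nonneg s]
  subst hsε
  have hE2 : (∫ z, u z.1 ^ 2 * L.ws c s z.1 ^ 2 ∂L.V) ≤ T :=
    (L.eg_E2_le hc hε hkε hu).trans hcon.le
  have hsb := hsup c hc s hs hss₀ u hu δ hδ0 hδ1 hD hR hE2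
  have hθ' : ∀ r, 0 ≤ r → 0 ≤ θ r ∧ θ r ≤ r := by
    intro r hr
    have h3 := hθ1 r
    exact ⟨(le_max_left _ _).trans h3.1, h3.2.trans (max_le hr (by linarith))⟩
  have hκ₁ := L.eg_mass hAd c hu h1 hθs.continuous hc'0 hη'0 hη'T
    (fun r => ⟨(le_max_left _ _).trans (hθ1 r).1, (hθ1 r).2⟩) hCt hN1
    (htail c hc s hAd N hN1) hE2 hsb
  have hsob := L.eg_sob hC hW hAd hc hu hθs hθd hθ' hD hR hκ₁
  refine L.eg_last hAd c hu h1 hθs hb (fun r hr => ⟨(hθ' r hr).1, ?_⟩) hE2 ht0 ht1 hκ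
    (hsob.trans ?_)
  · have h3 := (hθ1 r).1
    have h4 : r - c' - (b - c') ≤ max 0 (r - c' - (b - c')) := le_max_right _ _
    linarith
  · have h5 := eg_delta hK1' hC hk hA hκ0 hX hδ0 hδ1 hδ4
    calc C * (L.m * (L.m - 2) / 4 * (δ + (2 ^ L.m / sg L.m * Cs * √δ +
          (Ct * N ^ (-L.m)) ^ (2 / L.m)) + L.k2 * δ) + δ) =
        (C * (L.m * (L.m - 2) / 4) * (δ + 2 ^ L.m / sg L.m * Cs * √δ + L.k2 * δ) + C * δ) +
          C * (L.m * (L.m - 2) / 4) * (Ct * N ^ (-L.m)) ^ (2 / L.m) := by ring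
      _ ≤ κ / 2 + κ / 2 := add_le_add h5 hNκ
      _ = κ := by ring

end Lim

end Vale.Agent.P219.End
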