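import Vale.Agent.P219.End.IdentS

/-!
# P219 / End : the end game, the integral estimates
-/

open MeasureTheory Set Metric
open scoped ENNReal ContDiff Topology

namespace Vale.Agent.P219.End

variable {n : ℕ}

theorem eg_sg_pos {m : ℝ} (hm : 0 < m) : 0 < sg m := by
  unfold sg
  have h1 := Real.Gamma_pos_of_pos hm
  have h2 := Real.Gamma_pos_of_pos (half_pos hm)
  have h3 := Real.pi_pos
  positivity

namespace Lim

variable (L : Lim n)

theorem eg_ps_gt : 2 < L.ps := by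
  unfold ps
  have := L.m_sub_pos
  rw [lt_div_iff₀ this]
  linarith

/-- the weak Sobolev inequality with constant `C` -/
def HW (C : ℝ) : Prop := ∀ v : E n → ℝ, ContDiff ℝ ∞ v → (∀ x, 0 ≤ v x) →
  (∫ z, v z.1 ^ L.ps ∂L.V) ^ (2 / L.ps) ≤
    C * ((∫ z, L.G v v z ∂L.V) + ∫ z, v z.1 ^ 2 ∂L.V)

theorem eg_grad (u : E n → ℝ) : ∫ z, L.G u u z ∂L.V ≤
    L.m * (L.m - 2) / 4 * (L.En u + L.k2 * ∫ z, u z.1 ^ 2 ∂L.V) := by
  have hm := L.m_pos
  have hm2 := L.m_sub_pos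
  have hR : 0 ≤ ∫ z, u z.1 ^ 2 ∂L.V := integral_nonneg fun z => sq_nonneg _
  unfold En
  have e : L.m * (L.m - 2) / 4 * (4 / (L.m * (L.m - 2)) * (∫ z, L.G u u z ∂L.V) +
      (L.H0 ^ 2 / L.m ^ 2 - L.k2) * (∫ z, u z.1 ^ 2 ∂L.V) + L.k2 * ∫ z, u z.1 ^ 2 ∂L.V) =
      (∫ z, L.G u u z ∂L.V) + L.m * (L.m - 2) / 4 * (L.H0 ^ 2 / L.m ^ 2) *
        ∫ z, u z.1 ^ 2 ∂L.V := by
    field_simp
    ring
  rw [e]
  have : 0 ≤ L.m * (L.m - 2) / 4 * (L.H0 ^ 2 / L.m ^ 2) * ∫ z, u z.1 ^ 2 ∂L.V := by positivity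
  linarith

theorem eg_memLp {f : E n × E n → ℝ} (hf : Continuous f) (p : ℝ≥0∞) : MemLp f p L.V := by
  have hK : IsCompact (L.K ×ˢ sphere (0 : E n) 1) := L.K_compact.prod (isCompact_sphere 0 1)
  obtain ⟨C, hC⟩ := hK.exists_bound_of_continuousOn hf.continuousOn
  refine MemLp.of_bound hf.aestronglyMeasurable C ?_
  filter_upwards [L.V_supp] with z hz
  exact hC z ⟨hz.1, by simpa using hz.2⟩

/-- lower bound of `∫ u² w²`, upper bound of the scale -/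
theorem eg_low {C : ℝ} (hC : 0 < C) (hW : L.HW C) : ∃ c0 > 0, ∃ d0 > 0, ∀ c : E n, ∀ ε : ℝ,
    0 < ε → L.k2 * ε < 2 → ∀ u : E n → ℝ, SP u → ∫ z, u z.1 ^ L.ps ∂L.V = 1 → ∀ δ : ℝ, 0 < δ →
    δ ≤ d0 → L.Def c ε u ≤ δ → (∫ z, u z.1 ^ 2 ∂L.V) ≤ δ →
    c0 ≤ (∫ z, u z.1 ^ 2 * L.w c ε z.1 ^ 2 ∂L.V) ∧ ε ≤ 2 * δ / c0 := by
  have hm := L.m_pos
  have hm2 := L.m_sub_pos
  have hk := L.k2_nonneg
  set κ : ℝ := L.m * (L.m - 2) / 4 with hκ
  have hκ0 : 0 < κ := by positivity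
  refine ⟨1 / (2 * C * κ), by positivity, 1 / (2 * C * (κ * (1 + L.k2) + 1)), by positivity, ?_⟩
  intro c ε hε hkε u hu h1 δ hδ hδ0 hD hR
  have hR0 : 0 ≤ ∫ z, u z.1 ^ 2 ∂L.V := integral_nonneg fun z => sq_nonneg _
  have h2 := hW u hu.1 fun x => (hu.2 x).le
  rw [h1, Real.one_rpow] at h2
  have h3 := L.eg_grad u
  rw [← hκ] at h3
  set E2 : ℝ := ∫ z, u z.1 ^ 2 * L.w c ε z.1 ^ 2 ∂L.V with hE2
  have hEn : L.En u ≤ δ + E2 := by
    have : L.Def c ε u = L.En u - E2 := rfl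
    linarith
  have h4 : 1 ≤ C * (κ * (δ + E2 + L.k2 * δ) + δ) := by
    refine h2.trans ?_
    have h5 : (∫ z, L.G u u z ∂L.V) ≤ κ * (δ + E2 + L.k2 * δ) := by
      refine h3.trans ?_
      gcongr
    gcongr
  have h6 : δ * (2 * C * (κ * (1 + L.k2) + 1)) ≤ 1 := by
    rwa [le_div_iff₀ (by positivity)] at hδ0
  have h7 : 1 / (2 * C * κ) ≤ E2 := by
    rw [div_le_iff₀ (by positivity)]
    nlinarith
  refine ⟨h7, ?_⟩
  have h8 : E2 ≤ 2 / ε * ∫ z, u z.1 ^ 2 ∂L.V := by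
    rw [hE2, ← integral_const_mul]
    have cu : Continuous fun z : E n × E n => u z.1 := hu.1.continuous.comp continuous_fst
    have cw : Continuous fun z : E n × E n => L.w c ε z.1 :=
      (L.w_smooth hε).continuous.comp continuous_fst
    refine L.integral_mono_of ((cu.pow 2).mul (cw.pow 2)) (continuous_const.mul (cu.pow 2))
      fun z _ _ => ?_
    have h9 : L.w c ε z.1 ^ 2 ≤ 2 / ε := by
      rw [L.w_sq hε hkε]
      have hF := L.F_nonneg c z.1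
      rw [div_le_div_iff₀ (by positivity) hε]
      have e1 : ε ^ 2 ≤ (L.F c z.1 + ε) ^ 2 := by gcongr; linarith
      have e2 : 0 ≤ L.k2 * ε * ε ^ 2 := by positivity
      nlinarith
    calc u z.1 ^ 2 * L.w c ε z.1 ^ 2 ≤ u z.1 ^ 2 * (2 / ε) := by gcongr
      _ = 2 / ε * u z.1 ^ 2 := by ring
  have h10 : E2 ≤ 2 / ε * δ := h8.trans (by gcongr)
  have h11 : 1 / (2 * C * κ) ≤ 2 / ε * δ := h7.trans h10
  rw [le_div_iff₀ (by positivity)]
  have h12 : 1 / (2 * C * κ) * ε ≤ 2 / ε * δ * ε := by gcongr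
  have h13 : 2 / ε * δ * ε = 2 * δ := by field_simp
  linarith

theorem eg_ws_pos {s : ℝ} (hs : L.Ad s) (c x : E n) : 0 < L.ws c s x :=
  L.w_pos hs.eps_pos hs.k2_lt x

theorem eg_ws_smooth {s : ℝ} (hs : L.Ad s) (c : E n) : ContDiff ℝ ∞ (L.ws c s) :=
  L.w_smooth hs.eps_pos

theorem eg_ws_rpow_smooth {s : ℝ} (hs : L.Ad s) (c : E n) (r : ℝ) :
    ContDiff ℝ ∞ fun x => L.ws c s x ^ r := L.w_rpow_smooth hs.eps_pos hs.k2_lt r

theorem eg_gs_smooth {s : ℝ} (hs : L.Ad s) (c : E n) {u : E n → ℝ} (hu : SP u) :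
    ContDiff ℝ ∞ (L.gs c s u) :=
  hu.1.div (L.eg_ws_rpow_smooth hs c _)
    fun x => (Real.rpow_pos_of_pos (L.eg_ws_pos hs c x) _).ne'

theorem eg_gs_pos {s : ℝ} (hs : L.Ad s) (c : E n) {u : E n → ℝ} (hu : SP u) (x : E n) :
    0 < L.gs c s u x := div_pos (hu.2 x) (Real.rpow_pos_of_pos (L.eg_ws_pos hs c x) _)

/-- `g w^((m-2)/2) = u` -/
theorem eg_gs_mul {s : ℝ} (hs : L.Ad s) (c : E n) (u : E n → ℝ) (x : E n) :
    L.gs c s u x * L.ws c s x ^ ((L.m - 2) / 2) = u x :=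
  div_mul_cancel₀ _ (Real.rpow_pos_of_pos (L.eg_ws_pos hs c x) _).ne'

/-- `t² w^m = (t w^((m-2)/2))² w²` -/
theorem eg_sq_w {s : ℝ} (hs : L.Ad s) (c x : E n) (t : ℝ) :
    t ^ 2 * L.ws c s x ^ L.m = (t * L.ws c s x ^ ((L.m - 2) / 2)) ^ 2 * L.ws c s x ^ 2 := by
  have hw := L.eg_ws_pos hs c x
  have e1 : (L.ws c s x ^ ((L.m - 2) / 2)) ^ 2 = L.ws c s x ^ (L.m - 2) := by
    rw [← Real.rpow_natCast, ← Real.rpow_mul hw.le]
    congr 1
    push_cast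
    ring
  have e2 : L.ws c s x ^ L.m = L.ws c s x ^ (L.m - 2) * L.ws c s x ^ 2 := by
    rw [← Real.rpow_natCast (L.ws c s x) 2, ← Real.rpow_add hw]
    congr 1
    push_cast
    ring
  rw [mul_pow, e1, e2]
  ring

/-- `g² w^m = u² w²` -/
theorem eg_g2w {s : ℝ} (hs : L.Ad s) (c : E n) (u : E n → ℝ) (x : E n) :
    L.gs c s u x ^ 2 * L.ws c s x ^ L.m = u x ^ 2 * L.ws c s x ^ 2 := by
  rw [L.eg_sq_w hs, L.eg_gs_mul hs]

theorem eg_ws_le {s : ℝ} (hs : L.Ad s) (c x : E n) : L.ws c s x ≤ 2 / s := by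
  have hs0 := hs.1
  have hF := L.F_nonneg c x
  have hk := L.k2_nonneg
  have h1 : L.ws c s x ^ 2 ≤ (2 / s) ^ 2 := by
    have e : L.ws c s x ^ 2 = s ^ 2 / 2 * (2 - L.k2 * (s ^ 2 / 2)) / (L.F c x + s ^ 2 / 2) ^ 2 :=
      L.w_sq hs.eps_pos hs.k2_lt x
    rw [e, div_pow, div_le_div_iff₀ (by positivity) (by positivity)]
    have e1 : (s ^ 2 / 2) ^ 2 ≤ (L.F c x + s ^ 2 / 2) ^ 2 := by gcongr; linarith
    have e2 : 0 ≤ L.k2 * (s ^ 2 / 2) * (s ^ 2 / 2) * s ^ 2 := by positivity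
    nlinarith
  exact le_of_sq_le_sq h1 (by positivity)

/-- the tail estimate: `∫ θ(g)² w^m` -/
theorem eg_tail {C : ℝ} (hC : 0 < C) {s : ℝ} (hs : L.Ad s) (c : E n) {u : E n → ℝ} (hu : SP u)
    (h1 : ∫ z, u z.1 ^ L.ps ∂L.V = 1) {θ : ℝ → ℝ} (hθc : Continuous θ) {a : ℝ} (ha : 0 ≤ a)
    (hθ : ∀ t, 0 ≤ θ t ∧ θ t ≤ max 0 (t - a)) {N : ℝ} (hN : 1 ≤ N)
    (hT : ∫ z in {z | N * s < L.ds c z.1}, L.ws c s z.1 ^ L.m ∂L.V ≤ C * N ^ (-L.m)) :
    ∫ z, θ (L.gs c s u z.1) ^ 2 * L.ws c s z.1 ^ L.m ∂L.V ≤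
      2 ^ L.m / sg L.m * s ^ (-L.m) * (∫ z in {z | L.ds c z.1 ≤ N * s},
        max 0 (sg L.m * L.gs c s u z.1 ^ 2 - sg L.m * a ^ 2) ∂L.V) +
      (C * N ^ (-L.m)) ^ (2 / L.m) := by
  have hm := L.m_pos
  have hm2 := L.m_sub_pos
  have hs0 := hs.1
  have hsg := eg_sg_pos hm
  have cu : Continuous fun z : E n × E n => u z.1 := hu.1.continuous.comp continuous_fst
  have cw : Continuous fun z : E n × E n => L.ws c s z.1 :=
    (L.eg_ws_smooth hs c).continuous.comp continuous_fst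
  have cwm : Continuous fun z : E n × E n => L.ws c s z.1 ^ L.m :=
    (L.eg_ws_rpow_smooth hs c _).continuous.comp continuous_fst
  have cg : Continuous fun z : E n × E n => L.gs c s u z.1 :=
    (L.eg_gs_smooth hs c hu).continuous.comp continuous_fst
  have cF : Continuous fun z : E n × E n => L.F c z.1 := (L.Fc_cont c).comp continuous_fst
  have cd : Continuous fun z : E n × E n => L.ds c z.1 := by
    unfold ds
    fun_prop
  set S : Set (E n × E n) := {z | L.ds c z.1 ≤ N * s} with hS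
  have hSm : MeasurableSet S := (isClosed_le cd continuous_const).measurableSet
  have hSc : Sᶜ = {z | N * s < L.ds c z.1} := by
    ext z
    simp [hS]
  have cf : Continuous fun z : E n × E n => θ (L.gs c s u z.1) ^ 2 * L.ws c s z.1 ^ L.m :=
    ((hθc.comp cg).pow 2).mul cwm
  have cmx : Continuous fun z : E n × E n =>
      max 0 (sg L.m * L.gs c s u z.1 ^ 2 - sg L.m * a ^ 2) := by fun_prop
  rw [← integral_add_compl hSm (L.integrable_of_cont cf)]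
  refine add_le_add ?_ ?_
  · rw [← integral_const_mul]
    refine setIntegral_mono (L.integrable_of_cont cf).integrableOn
      ((L.integrable_of_cont cmx).integrableOn.const_mul _) fun z => ?_
    have hw := L.eg_ws_pos hs c z.1
    have hw2 : L.ws c s z.1 ^ L.m ≤ 2 ^ L.m * s ^ (-L.m) := by
      have e1 : L.ws c s z.1 ^ L.m ≤ (2 / s) ^ L.m :=
        Real.rpow_le_rpow hw.le (L.eg_ws_le hs c z.1) hm.le
      rw [Real.div_rpow (by norm_num) hs0.le] at e1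
      rw [Real.rpow_neg hs0.le]
      exact e1
    have hg := L.eg_gs_pos hs c hu z.1
    set g := L.gs c s u z.1 with hgdef
    have hth : θ g ^ 2 ≤ 1 / sg L.m * max 0 (sg L.m * g ^ 2 - sg L.m * a ^ 2) := by
      rcases le_total g a with hga | hga
      · have h3 : θ g = 0 := by
          have h4 := hθ g
          rw [max_eq_left (by linarith)] at h4
          linarith [h4.1, h4.2]
        rw [h3, zero_pow two_ne_zero]
        have : 0 ≤ max 0 (sg L.m * g ^ 2 - sg L.m * a ^ 2) := le_max_left _ _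
        exact mul_nonneg (by positivity) this
      · have h4 := hθ g
        rw [max_eq_right (by linarith)] at h4
        have h5 : θ g ^ 2 ≤ (g - a) ^ 2 := pow_le_pow_left₀ h4.1 h4.2 2
        have h6 : (g - a) ^ 2 ≤ g ^ 2 - a ^ 2 := by nlinarith
        have h7 : sg L.m * g ^ 2 - sg L.m * a ^ 2 ≤
          max 0 (sg L.m * g ^ 2 - sg L.m * a ^ 2) := le_max_right _ _
        have h8 : g ^ 2 - a ^ 2 = 1 / sg L.m * (sg L.m * g ^ 2 - sg L.m * a ^ 2) := by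
          field_simp
        calc θ g ^ 2 ≤ g ^ 2 - a ^ 2 := h5.trans h6
          _ = 1 / sg L.m * (sg L.m * g ^ 2 - sg L.m * a ^ 2) := h8
          _ ≤ _ := by gcongr
    calc θ g ^ 2 * L.ws c s z.1 ^ L.m ≤
        (1 / sg L.m * max 0 (sg L.m * g ^ 2 - sg L.m * a ^ 2)) * (2 ^ L.m * s ^ (-L.m)) :=
          mul_le_mul hth hw2 (Real.rpow_nonneg hw.le _) ((sq_nonneg _).trans hth)
      _ = 2 ^ L.m / sg L.m * s ^ (-L.m) * max 0 (sg L.m * g ^ 2 - sg L.m * a ^ 2) := by ring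
  · rw [hSc]
    set S' : Set (E n × E n) := {z | N * s < L.ds c z.1} with hS'
    have cu2 : Continuous fun z : E n × E n => u z.1 ^ 2 := cu.pow 2
    have cw2 : Continuous fun z : E n × E n => L.ws c s z.1 ^ 2 := cw.pow 2
    have hle : ∫ z in S', θ (L.gs c s u z.1) ^ 2 * L.ws c s z.1 ^ L.m ∂L.V ≤
        ∫ z in S', u z.1 ^ 2 * L.ws c s z.1 ^ 2 ∂L.V := by
      refine setIntegral_mono (L.integrable_of_cont cf).integrableOn
        (L.integrable_of_cont (cu2.mul cw2)).integrableOn fun z => ?_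
      show θ (L.gs c s u z.1) ^ 2 * L.ws c s z.1 ^ L.m ≤ u z.1 ^ 2 * L.ws c s z.1 ^ 2
      rw [← L.eg_g2w hs]
      have hw := L.eg_ws_pos hs c z.1
      have hg := L.eg_gs_pos hs c hu z.1
      have h4 := hθ (L.gs c s u z.1)
      have h5 : θ (L.gs c s u z.1) ≤ L.gs c s u z.1 := by
        refine h4.2.trans (max_le hg.le ?_)
        linarith
      have h6 := h4.1
      gcongr
    refine hle.trans ?_
    have hpq : (L.m / (L.m - 2)).HolderConjugate (L.m / 2) := by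
      rw [Real.holderConjugate_iff]
      constructor
      · rw [lt_div_iff₀ hm2]; linarith
      · field_simp
        ring
    have hH := integral_mul_le_Lp_mul_Lq_of_nonneg (μ := L.V.restrict S') hpq
      (f := fun z : E n × E n => u z.1 ^ 2) (g := fun z : E n × E n => L.ws c s z.1 ^ 2)
      (Filter.Eventually.of_forall fun z => sq_nonneg _)
      (Filter.Eventually.of_forall fun z => sq_nonneg _)
      ((L.eg_memLp cu2 _).restrict _) ((L.eg_memLp cw2 _).restrict _)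
    refine hH.trans ?_
    have e1 : ∀ z : E n × E n, (u z.1 ^ 2) ^ (L.m / (L.m - 2)) = u z.1 ^ L.ps := by
      intro z
      rw [← Real.rpow_natCast, ← Real.rpow_mul (hu.2 z.1).le]
      congr 1
      unfold ps
      push_cast
      ring
    have e2 : ∀ z : E n × E n, (L.ws c s z.1 ^ 2) ^ (L.m / 2) = L.ws c s z.1 ^ L.m := by
      intro z
      rw [← Real.rpow_natCast, ← Real.rpow_mul (L.eg_ws_pos hs c z.1).le]
      congr 1
      push_cast
      ring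
    simp only [e1, e2]
    have cups : Continuous fun z : E n × E n => u z.1 ^ L.ps :=
      cu.rpow_const fun z => Or.inl (hu.2 z.1).ne'
    have h7 : ∫ z in S', u z.1 ^ L.ps ∂L.V ≤ 1 := by
      rw [← h1]
      exact setIntegral_le_integral (L.integrable_of_cont cups)
        (Filter.Eventually.of_forall fun z => Real.rpow_nonneg (hu.2 z.1).le _)
    have h8 : 0 ≤ ∫ z in S', u z.1 ^ L.ps ∂L.V :=
      integral_nonneg fun z => Real.rpow_nonneg (hu.2 z.1).le _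
    have h9 : (∫ z in S', u z.1 ^ L.ps ∂L.V) ^ (1 / (L.m / (L.m - 2))) ≤ 1 :=
      Real.rpow_le_one h8 h7 (by positivity)
    have h10 : 0 ≤ ∫ z in S', L.ws c s z.1 ^ L.m ∂L.V :=
      integral_nonneg fun z => Real.rpow_nonneg (L.eg_ws_pos hs c z.1).le _
    have h11 : (∫ z in S', L.ws c s z.1 ^ L.m ∂L.V) ^ (1 / (L.m / 2)) ≤
        (C * N ^ (-L.m)) ^ (2 / L.m) := by
      rw [show 1 / (L.m / 2) = 2 / L.m by field_simp]
      exact Real.rpow_le_rpow h10 hT (by positivity)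
    calc (∫ z in S', u z.1 ^ L.ps ∂L.V) ^ (1 / (L.m / (L.m - 2))) *
        (∫ z in S', L.ws c s z.1 ^ L.m ∂L.V) ^ (1 / (L.m / 2)) ≤
        1 * (C * N ^ (-L.m)) ^ (2 / L.m) := by
          gcongr
      _ = _ := one_mul _

/-- the Sobolev step for the truncated function -/
theorem eg_sob {C : ℝ} (hC : 0 < C) (hW : L.HW C) {s : ℝ} (hs : L.Ad s) {c : E n} (hc : c ∈ L.K)
    {u : E n → ℝ} (hu : SP u) {θ : ℝ → ℝ} (hθs : ContDiff ℝ ∞ θ)
    (hθd : ∀ t, 0 ≤ deriv θ t ∧ deriv θ t ≤ 1) (hθ : ∀ t, 0 ≤ t → 0 ≤ θ t ∧ θ t ≤ t)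
    {δ κ₁ : ℝ} (hD : L.Def c (s ^ 2 / 2) u ≤ δ) (hR : (∫ z, u z.1 ^ 2 ∂L.V) ≤ δ)
    (hκ : ∫ z, θ (L.gs c s u z.1) ^ 2 * L.ws c s z.1 ^ L.m ∂L.V ≤ κ₁) :
    (∫ z, (θ (L.gs c s u z.1) * L.ws c s z.1 ^ ((L.m - 2) / 2)) ^ L.ps ∂L.V) ^ (2 / L.ps) ≤
      C * (L.m * (L.m - 2) / 4 * (δ + κ₁ + L.k2 * δ) + δ) := by
  have hm := L.m_pos
  have hm2 := L.m_sub_pos
  have hk := L.k2_nonneg
  set v : E n → ℝ := fun x => θ (L.gs c s u x) * L.ws c s x ^ ((L.m - 2) / 2) with hv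
  have hvs : ContDiff ℝ ∞ v := (hθs.comp (L.eg_gs_smooth hs c hu)).mul (L.eg_ws_rpow_smooth hs c _)
  have hv0 : ∀ x, 0 ≤ v x := fun x =>
    mul_nonneg (hθ _ (L.eg_gs_pos hs c hu x).le).1 (Real.rpow_nonneg (L.eg_ws_pos hs c x).le _)
  have hvu : ∀ x, v x ≤ u x := by
    intro x
    have h1 := (hθ _ (L.eg_gs_pos hs c hu x).le).2
    calc v x ≤ L.gs c s u x * L.ws c s x ^ ((L.m - 2) / 2) :=
          mul_le_mul_of_nonneg_right h1 (Real.rpow_nonneg (L.eg_ws_pos hs c x).le _)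
      _ = u x := L.eg_gs_mul hs c u x
  have hDv : L.Def c (s ^ 2 / 2) v ≤ δ := (L.def_mono hs hc hu hθs hθd hθ).trans hD
  have hRv : (∫ z, v z.1 ^ 2 ∂L.V) ≤ δ := by
    refine le_trans ?_ hR
    have cv : Continuous fun z : E n × E n => v z.1 := hvs.continuous.comp continuous_fst
    have cu : Continuous fun z : E n × E n => u z.1 := hu.1.continuous.comp continuous_fst
    refine L.integral_mono_of (cv.pow 2) (cu.pow 2) fun z _ _ => ?_
    exact pow_le_pow_left₀ (hv0 _) (hvu _) 2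
  have hRv0 : 0 ≤ ∫ z, v z.1 ^ 2 ∂L.V := integral_nonneg fun z => sq_nonneg _
  have hEn : L.En v ≤ δ + κ₁ := by
    have e1 : L.Def c (s ^ 2 / 2) v = L.En v - ∫ z, v z.1 ^ 2 * L.ws c s z.1 ^ 2 ∂L.V := rfl
    have e2 : ∫ z, v z.1 ^ 2 * L.ws c s z.1 ^ 2 ∂L.V =
        ∫ z, θ (L.gs c s u z.1) ^ 2 * L.ws c s z.1 ^ L.m ∂L.V :=
      integral_congr_ae (Filter.Eventually.of_forall fun z => (L.eg_sq_w hs c z.1 _).symm)
    rw [e2] at e1
    linarith
  refine (hW v hvs hv0).trans ?_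
  have h3 := L.eg_grad v
  have h4 : (∫ z, L.G v v z ∂L.V) ≤ L.m * (L.m - 2) / 4 * (δ + κ₁ + L.k2 * δ) := by
    refine h3.trans ?_
    gcongr
  gcongr

end Lim

end Vale.Agent.P219.End
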