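import Vale.Agent.P219.End.EndGameA
import Vale.Agent.P219.End.Trunc

/-!
# P219 / End : the end game, from the weak Sobolev inequality, the tail of the bubble and the
averaged upper bound (given as hypotheses)
-/

open MeasureTheory Set Metric Filter
open scoped ENNReal ContDiff Topology

namespace Vale.Agent.P219.End

variable {n : ℕ}

namespace Lim

variable (L : Lim n)

/-- Minkowski inequality for continuous nonnegative functions -/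
theorem eg_minkowski {f g : E n × E n → ℝ} (hf : Continuous f) (hg : Continuous g)
    (hf0 : ∀ z, 0 ≤ f z) (hg0 : ∀ z, 0 ≤ g z) {p : ℝ} (hp : 1 ≤ p) :
    (∫ z, (f z + g z) ^ p ∂L.V) ^ (1 / p) ≤
      (∫ z, f z ^ p ∂L.V) ^ (1 / p) + (∫ z, g z ^ p ∂L.V) ^ (1 / p) := by
  have hp0 : 0 < p := by linarith
  have h1 : (1 : ℝ≥0∞) ≤ ENNReal.ofReal p := by
    rw [← ENNReal.ofReal_one]
    exact ENNReal.ofReal_le_ofReal hp
  have h0 : ENNReal.ofReal p ≠ 0 := by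
    intro h
    rw [h] at h1
    simp at h1
  have e : ∀ k : E n × E n → ℝ, Continuous k → (∀ z, 0 ≤ k z) →
      eLpNorm k (ENNReal.ofReal p) L.V = ENNReal.ofReal ((∫ z, k z ^ p ∂L.V) ^ (1 / p)) := by
    intro k hk hk0
    rw [(L.eg_memLp hk _).eLpNorm_eq_integral_rpow_norm h0 ENNReal.ofReal_ne_top,
      ENNReal.toReal_ofReal hp0.le, one_div]
    congr 2
    refine integral_congr_ae (Eventually.of_forall fun z => ?_)
    simp only [Real.norm_eq_abs, abs_of_nonneg (hk0 z)]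
  have h2 := eLpNorm_add_le (μ := L.V) hf.aestronglyMeasurable hg.aestronglyMeasurable h1
  have h3 : eLpNorm (fun z => f z + g z) (ENNReal.ofReal p) L.V ≤
    eLpNorm f (ENNReal.ofReal p) L.V + eLpNorm g (ENNReal.ofReal p) L.V := h2
  clear h2
  have h2 := h3
  rw [e (fun z => f z + g z) (hf.add hg) (fun z => add_nonneg (hf0 z) (hg0 z)), e f hf hf0,
    e g hg hg0,
    ← ENNReal.ofReal_add (Real.rpow_nonneg (integral_nonneg fun z => Real.rpow_nonneg (hf0 z) _) _)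
      (Real.rpow_nonneg (integral_nonneg fun z => Real.rpow_nonneg (hg0 z) _) _)] at h2
  exact (ENNReal.ofReal_le_ofReal_iff (add_nonneg
    (Real.rpow_nonneg (integral_nonneg fun z => Real.rpow_nonneg (hf0 z) _) _)
    (Real.rpow_nonneg (integral_nonneg fun z => Real.rpow_nonneg (hg0 z) _) _))).1 h2

theorem eg_mink {s : ℝ} (hs : L.Ad s) (c : E n) {u : E n → ℝ} (hu : SP u)
    (h1 : ∫ z, u z.1 ^ L.ps ∂L.V = 1) {θ : ℝ → ℝ} (hθc : Continuous θ) {a τ : ℝ} (ha : 0 ≤ a)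
    (hτ : 0 < τ) (hθ : ∀ t, max 0 (t - a - τ) ≤ θ t ∧ θ t ≤ max 0 (t - a)) :
    1 ≤ ((a + τ) ^ (L.ps - 2) * ∫ z, u z.1 ^ 2 * L.ws c s z.1 ^ 2 ∂L.V) ^ (1 / L.ps) +
      (∫ z, (θ (L.gs c s u z.1) * L.ws c s z.1 ^ ((L.m - 2) / 2)) ^ L.ps ∂L.V) ^ (1 / L.ps) := by
  have hm := L.m_pos
  have hm2 := L.m_sub_pos
  have hps := L.eg_ps_gt
  have cwm : Continuous fun z : E n × E n => L.ws c s z.1 ^ ((L.m - 2) / 2) :=
    (L.eg_ws_rpow_smooth hs c _).continuous.comp continuous_fst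
  have cg : Continuous fun z : E n × E n => L.gs c s u z.1 :=
    (L.eg_gs_smooth hs c hu).continuous.comp continuous_fst
  have cu : Continuous fun z : E n × E n => u z.1 := hu.1.continuous.comp continuous_fst
  have cw : Continuous fun z : E n × E n => L.ws c s z.1 :=
    (L.eg_ws_smooth hs c).continuous.comp continuous_fst
  set f : E n × E n → ℝ := fun z =>
    (L.gs c s u z.1 - θ (L.gs c s u z.1)) * L.ws c s z.1 ^ ((L.m - 2) / 2) with hf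
  set g : E n × E n → ℝ := fun z =>
    θ (L.gs c s u z.1) * L.ws c s z.1 ^ ((L.m - 2) / 2) with hg
  have hth0 : ∀ t, 0 ≤ θ t := fun t => (le_max_left _ _).trans (hθ t).1
  have hthle : ∀ t, 0 ≤ t → θ t ≤ t := fun t ht =>
    (hθ t).2.trans (max_le ht (by linarith))
  have hthge : ∀ t, t - θ t ≤ a + τ := fun t => by
    have := (le_max_right _ _).trans (hθ t).1
    linarith
  have cf : Continuous f := (cg.sub (hθc.comp cg)).mul cwm
  have cgg : Continuous g := (hθc.comp cg).mul cwm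
  have hf0 : ∀ z, 0 ≤ f z := fun z => mul_nonneg
    (sub_nonneg.2 (hthle _ (L.eg_gs_pos hs c hu z.1).le)) (Real.rpow_nonneg (L.eg_ws_pos hs c z.1).le _)
  have hg0 : ∀ z, 0 ≤ g z := fun z =>
    mul_nonneg (hth0 _) (Real.rpow_nonneg (L.eg_ws_pos hs c z.1).le _)
  have h2 := L.eg_minkowski cf cgg hf0 hg0 (p := L.ps) (by linarith)
  have e1 : ∀ z, f z + g z = u z.1 := by
    intro z
    rw [hf, hg]
    show (L.gs c s u z.1 - θ (L.gs c s u z.1)) * L.ws c s z.1 ^ ((L.m - 2) / 2) +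
      θ (L.gs c s u z.1) * L.ws c s z.1 ^ ((L.m - 2) / 2) = u z.1
    rw [← add_mul, sub_add_cancel]
    exact L.eg_gs_mul hs c u z.1
  simp only [e1] at h2
  rw [h1, Real.one_rpow] at h2
  refine h2.trans (add_le_add ?_ le_rfl)
  refine Real.rpow_le_rpow (integral_nonneg fun z => Real.rpow_nonneg (hf0 z) _) ?_ (by positivity)
  rw [← integral_const_mul]
  have cfp : Continuous fun z => f z ^ L.ps := cf.rpow_const fun z => Or.inr (by linarith)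
  refine L.integral_mono_of cfp (continuous_const.mul ((cu.pow 2).mul (cw.pow 2))) fun z _ _ => ?_
  have hw := L.eg_ws_pos hs c z.1
  have hgp := L.eg_gs_pos hs c hu z.1
  set t : ℝ := L.gs c s u z.1 - θ (L.gs c s u z.1) with ht
  have ht0 : 0 ≤ t := sub_nonneg.2 (hthle _ hgp.le)
  have ht1 : t ≤ a + τ := hthge _
  have ht2 : t ≤ L.gs c s u z.1 := by
    have := hth0 (L.gs c s u z.1)
    rw [ht]
    linarith
  have e2 : f z ^ L.ps = t ^ L.ps * L.ws c s z.1 ^ L.m := by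
    show (t * L.ws c s z.1 ^ ((L.m - 2) / 2)) ^ L.ps = _
    rw [Real.mul_rpow ht0 (Real.rpow_nonneg hw.le _), ← Real.rpow_mul hw.le]
    congr 2
    unfold ps
    field_simp
  have e3 : t ^ L.ps = t ^ (L.ps - 2) * t ^ 2 := by
    rw [← Real.rpow_natCast t 2, ← Real.rpow_add_of_nonneg ht0 (by linarith) (by norm_num)]
    congr 1
    push_cast
    ring
  rw [e2, e3]
  calc t ^ (L.ps - 2) * t ^ 2 * L.ws c s z.1 ^ L.m ≤
      (a + τ) ^ (L.ps - 2) * L.gs c s u z.1 ^ 2 * L.ws c s z.1 ^ L.m := by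
        have h3 : t ^ (L.ps - 2) ≤ (a + τ) ^ (L.ps - 2) :=
          Real.rpow_le_rpow ht0 ht1 (by linarith)
        have h4 : t ^ 2 ≤ L.gs c s u z.1 ^ 2 := pow_le_pow_left₀ ht0 ht2 2
        have h5 : 0 ≤ L.ws c s z.1 ^ L.m := Real.rpow_nonneg hw.le _
        gcongr
    _ = (a + τ) ^ (L.ps - 2) * (L.gs c s u z.1 ^ 2 * L.ws c s z.1 ^ L.m) := by ring
    _ = (a + τ) ^ (L.ps - 2) * (u z.1 ^ 2 * L.ws c s z.1 ^ 2) := by rw [L.eg_g2w hs]

/-- the choice of the parameter `t` -/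
theorem eg_param {σ m q e0 : ℝ} (hσ : 0 < σ) (hm : 2 < m) (hq : q = 2 * m / (m - 2))
    (he : 0 < e0) (he1 : e0 < σ ^ (2 / m)) : ∃ t : ℝ, 0 < t ∧ t ≤ 1 ∧
      (√((1 + t) * e0 / σ) + t) ^ (q - 2) * e0 < 1 := by
  have hm0 : 0 < m := by linarith
  have hm2 : 0 < m - 2 := by linarith
  have hq2 : q - 2 = 4 / (m - 2) := by
    rw [hq]
    field_simp
    ring
  have hq0 : 0 < q - 2 := by rw [hq2]; positivity
  have hcont : Continuous fun t : ℝ => (√((1 + t) * e0 / σ) + t) ^ (q - 2) * e0 := by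
    have h1 : Continuous fun t : ℝ => √((1 + t) * e0 / σ) + t := by fun_prop
    exact (h1.rpow_const fun t => Or.inr hq0.le).mul continuous_const
  have h0 : (√((1 + 0) * e0 / σ) + 0) ^ (q - 2) * e0 < 1 := by
    rw [add_zero, add_zero, one_mul, Real.sqrt_eq_rpow, ← Real.rpow_mul (by positivity)]
    have hexp : 1 / 2 * (q - 2) = 2 / (m - 2) := by
      rw [hq2]
      field_simp
      norm_num
    rw [hexp]
    have h1 : (e0 / σ) ^ (2 / (m - 2)) * e0 < (σ ^ (2 / m) / σ) ^ (2 / (m - 2)) * σ ^ (2 / m) := by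
      have h2 : (e0 / σ) ^ (2 / (m - 2)) < (σ ^ (2 / m) / σ) ^ (2 / (m - 2)) := by
        refine Real.rpow_lt_rpow (by positivity) ?_ (by positivity)
        gcongr
      have h3 : 0 ≤ (e0 / σ) ^ (2 / (m - 2)) := by positivity
      exact mul_lt_mul'' h2 he1 h3 he.le
    refine h1.trans_le (le_of_eq ?_)
    have h4 : σ ^ (2 / m) / σ = σ ^ (2 / m - 1) := by
      rw [Real.rpow_sub hσ, Real.rpow_one]
    rw [h4, ← Real.rpow_mul hσ.le, ← Real.rpow_add hσ]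
    have h5 : (2 / m - 1) * (2 / (m - 2)) + 2 / m = 0 := by
      field_simp
      ring
    rw [h5, Real.rpow_zero]
  have hev : ∀ᶠ t in 𝓝 (0 : ℝ), (√((1 + t) * e0 / σ) + t) ^ (q - 2) * e0 < 1 :=
    hcont.continuousAt.eventually (gt_mem_nhds h0)
  obtain ⟨ε, hε, hball⟩ := Metric.eventually_nhds_iff.1 hev
  refine ⟨min (ε / 2) 1, by positivity, min_le_right _ _, hball ?_⟩
  rw [Real.dist_eq, sub_zero, abs_of_pos (by positivity)]
  exact (min_le_left _ _).trans_lt (by linarith)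

/-- the tail of the bubble -/
def HTail (C : ℝ) : Prop := ∀ c ∈ L.K, ∀ s : ℝ, L.Ad s → ∀ N ≥ 1,
    ∫ z in {z | N * s < L.ds c z.1}, L.ws c s z.1 ^ L.m ∂L.V ≤ C * N ^ (-L.m)

/-- the averaged upper bound -/
def HSup : Prop := ∀ N η B : ℝ, 1 ≤ N → 0 < η → ∃ C > 0, ∃ s₀ > 0, ∀ c ∈ L.K,
    ∀ s : ℝ, 0 < s → s ≤ s₀ →
    ∀ u : E n → ℝ, SP u → ∀ δ : ℝ, 0 < δ → δ ≤ 1 → L.Def c (s ^ 2 / 2) u ≤ δ →
    (∫ z, u z.1 ^ 2 ∂L.V) ≤ δ → (∫ z, u z.1 ^ 2 * L.ws c s z.1 ^ 2 ∂L.V) ≤ B →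
    ∫ z in {z | L.ds c z.1 ≤ N * s},
      max 0 (sg L.m * L.gs c s u z.1 ^ 2 -
        (1 + η) * ∫ y, u y.1 ^ 2 * L.ws c s y.1 ^ 2 ∂L.V) ∂L.V ≤ C * √δ * s ^ L.m

/-- the core inequality, with all parameters -/
theorem eg_core {CW CT CS : ℝ} (hCW : 0 < CW) (hW : L.HW CW) (hCT : 0 < CT) {s : ℝ} (hAd : L.Ad s)
    {c : E n} (hc : c ∈ L.K) {u : E n → ℝ} (hu : SP u) (h1 : ∫ z, u z.1 ^ L.ps ∂L.V = 1) {δ : ℝ}
    (hD : L.Def c (s ^ 2 / 2) u ≤ δ) (hR : (∫ z, u z.1 ^ 2 ∂L.V) ≤ δ) {t e0 N : ℝ} (ht0 : 0 < t)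
    (he : 0 < e0) (hN1 : 1 ≤ N)
    (hT : ∫ z in {z | N * s < L.ds c z.1}, L.ws c s z.1 ^ L.m ∂L.V ≤ CT * N ^ (-L.m))
    (hE : ∫ z, u z.1 ^ 2 * L.ws c s z.1 ^ 2 ∂L.V ≤ e0)
    (hS : ∫ z in {z | L.ds c z.1 ≤ N * s}, max 0 (sg L.m * L.gs c s u z.1 ^ 2 -
      (1 + t) * ∫ y, u y.1 ^ 2 * L.ws c s y.1 ^ 2 ∂L.V) ∂L.V ≤ CS * √δ * s ^ L.m) :
    1 ≤ ((√((1 + t) * e0 / sg L.m) + t) ^ (L.ps - 2) * e0) ^ (1 / L.ps) +
      √(CW * (L.m * (L.m - 2) / 4 * (δ + (2 ^ L.m / sg L.m * (CS * √δ) +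
        (CT * N ^ (-L.m)) ^ (2 / L.m)) + L.k2 * δ) + δ)) := by
  have hm := L.m_pos
  have hps := L.eg_ps_gt
  have hσ := eg_sg_pos hm
  have hspos := hAd.1
  set E2 : ℝ := ∫ z, u z.1 ^ 2 * L.ws c s z.1 ^ 2 ∂L.V with hE2def
  have hE20 : 0 ≤ E2 := integral_nonneg fun z => mul_nonneg (sq_nonneg _) (sq_nonneg _)
  set a : ℝ := √((1 + t) * E2 / sg L.m) with ha
  have ha0 : 0 ≤ a := Real.sqrt_nonneg _
  have ha2 : sg L.m * a ^ 2 = (1 + t) * E2 := by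
    rw [ha, Real.sq_sqrt (by positivity)]
    field_simp
  obtain ⟨θ, hθs, hθd, -, hθ⟩ := exists_trunc a t ht0
  have hθ0 : ∀ x, 0 ≤ θ x := fun x => (le_max_left _ _).trans (hθ x).1
  have htail := L.eg_tail hCT hAd c hu h1 hθs.continuous ha0
    (fun x => ⟨hθ0 x, (hθ x).2⟩) hN1 hT
  rw [ha2] at htail
  have hκ1 : ∫ z, θ (L.gs c s u z.1) ^ 2 * L.ws c s z.1 ^ L.m ∂L.V ≤
      2 ^ L.m / sg L.m * (CS * √δ) + (CT * N ^ (-L.m)) ^ (2 / L.m) := by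
    refine htail.trans (add_le_add ?_ le_rfl)
    have e1 : s ^ (-L.m) * s ^ L.m = 1 := by
      rw [← Real.rpow_add hspos]
      simp
    calc 2 ^ L.m / sg L.m * s ^ (-L.m) * (∫ z in {z | L.ds c z.1 ≤ N * s},
        max 0 (sg L.m * L.gs c s u z.1 ^ 2 - (1 + t) * E2) ∂L.V) ≤
        2 ^ L.m / sg L.m * s ^ (-L.m) * (CS * √δ * s ^ L.m) :=
          mul_le_mul_of_nonneg_left hS (by positivity)
      _ = 2 ^ L.m / sg L.m * (CS * √δ) * (s ^ (-L.m) * s ^ L.m) := by ring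
      _ = 2 ^ L.m / sg L.m * (CS * √δ) := by rw [e1, mul_one]
  have hsob := L.eg_sob hCW hW hAd hc hu hθs hθd
    (fun x hx => ⟨hθ0 x, (hθ x).2.trans (max_le hx (by linarith))⟩) hD hR hκ1
  set X : ℝ := ∫ z, (θ (L.gs c s u z.1) * L.ws c s z.1 ^ ((L.m - 2) / 2)) ^ L.ps ∂L.V with hX
  have hX0 : 0 ≤ X := integral_nonneg fun z => Real.rpow_nonneg
    (mul_nonneg (hθ0 _) (Real.rpow_nonneg (L.eg_ws_pos hAd c z.1).le _)) _
  have hmk := L.eg_mink hAd c hu h1 hθs.continuous ha0 ht0 hθ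
  rw [← hX] at hmk
  refine hmk.trans (add_le_add ?_ ?_)
  · refine Real.rpow_le_rpow (by positivity) ?_ (by positivity)
    have h2 : a ≤ √((1 + t) * e0 / sg L.m) := by
      rw [ha]
      refine Real.sqrt_le_sqrt ?_
      gcongr
    have h3 : (a + t) ^ (L.ps - 2) ≤ (√((1 + t) * e0 / sg L.m) + t) ^ (L.ps - 2) :=
      Real.rpow_le_rpow (by positivity) (by linarith) (by linarith)
    exact mul_le_mul h3 hE hE20 (by positivity)
  · refine Real.le_sqrt_of_sq_le ?_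
    have e1 : (X ^ (1 / L.ps)) ^ 2 = X ^ (2 / L.ps) := by
      rw [← Real.rpow_natCast, ← Real.rpow_mul hX0]
      congr 1
      push_cast
      ring
    rw [e1]
    exact hsob

/-- the choice of `δ` for the numerical inequality -/
theorem eg_delta {CW κ k2 D T β : ℝ} (hCW : 0 < CW) (hκ : 0 < κ) (hk : 0 ≤ k2) (hD : 0 < D)
    (hβ : 0 < β) (hT : CW * κ * T < β ^ 2 / 4) : ∃ δ₀ > 0, δ₀ ≤ 1 ∧ ∀ δ, 0 < δ → δ ≤ δ₀ →
      CW * (κ * (δ + (D * √δ + T) + k2 * δ) + δ) < β ^ 2 := by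
  set M : ℝ := CW * (κ * (1 + k2) + 1) + CW * κ * D with hM
  have hM0 : 0 < M := by positivity
  refine ⟨min 1 ((β ^ 2 / (2 * M)) ^ 2), by positivity, min_le_left _ _, fun δ hδ0 hδ => ?_⟩
  have hδ1 : δ ≤ 1 := hδ.trans (min_le_left _ _)
  have hδM : δ ≤ (β ^ 2 / (2 * M)) ^ 2 := hδ.trans (min_le_right _ _)
  have hsqrt : √δ ≤ β ^ 2 / (2 * M) := by
    rw [show β ^ 2 / (2 * M) = √((β ^ 2 / (2 * M)) ^ 2) from (Real.sqrt_sq (by positivity)).symm]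
    exact Real.sqrt_le_sqrt hδM
  have hδsqrt : δ ≤ √δ := by
    have h2 : √δ * √δ = δ := Real.mul_self_sqrt hδ0.le
    have h3 : √δ ≤ 1 := by
      rw [← Real.sqrt_one]
      exact Real.sqrt_le_sqrt hδ1
    nlinarith [Real.sqrt_nonneg δ]
  have hM2 : M * √δ ≤ β ^ 2 / 2 := by
    calc M * √δ ≤ M * (β ^ 2 / (2 * M)) := by gcongr
      _ = β ^ 2 / 2 := by field_simp
  calc CW * (κ * (δ + (D * √δ + T) + k2 * δ) + δ) =
        CW * (κ * (1 + k2) + 1) * δ + CW * κ * D * √δ + CW * κ * T := by ring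
    _ ≤ CW * (κ * (1 + k2) + 1) * √δ + CW * κ * D * √δ + CW * κ * T := by gcongr
    _ = M * √δ + CW * κ * T := by rw [hM]; ring
    _ < β ^ 2 := by
        have : 0 < β ^ 2 := by positivity
        linarith

/-- the choice of `N` -/
theorem eg_N {CW κ CT m β : ℝ} (hm : 0 < m) (hβ : 0 < β) : ∃ N : ℝ, 1 ≤ N ∧
    CW * κ * (CT * N ^ (-m)) ^ (2 / m) < β ^ 2 / 4 := by
  have hNlim : Tendsto (fun N : ℝ => CW * κ * (CT * N ^ (-m)) ^ (2 / m)) atTop (𝓝 0) := by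
    have h1 : Tendsto (fun N : ℝ => CT * N ^ (-m)) atTop (𝓝 (CT * 0)) :=
      (tendsto_rpow_neg_atTop hm).const_mul CT
    rw [mul_zero] at h1
    have h2 : Tendsto (fun N : ℝ => (CT * N ^ (-m)) ^ (2 / m)) atTop (𝓝 (0 ^ (2 / m))) :=
      h1.rpow_const (Or.inr (by positivity))
    rw [Real.zero_rpow (by positivity)] at h2
    simpa using h2.const_mul (CW * κ)
  have h1 := hNlim.eventually (gt_mem_nhds (show (0 : ℝ) < β ^ 2 / 4 by positivity))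
  obtain ⟨N, h2, h3⟩ := (h1.and (eventually_ge_atTop 1)).exists
  exact ⟨N, h3, h2⟩

/-- the scale `s = √(2 ε)` is small -/
theorem eg_scale {ε c0 δ s0 : ℝ} (hε : 0 < ε) (hc0 : 0 < c0) (hs0 : 0 < s0)
    (hsc : ε ≤ 2 * δ / c0) (hδ : δ ≤ c0 / 4 * min (s0 ^ 2) (min 1 (1 / (L.k2 + 1)))) :
    ∃ s, L.Ad s ∧ s ≤ s0 ∧ s ^ 2 / 2 = ε := by
  have hk := L.k2_nonneg
  have hspos : 0 < √(2 * ε) := Real.sqrt_pos.2 (by positivity)
  have hs2 : √(2 * ε) ^ 2 = 2 * ε := Real.sq_sqrt (by positivity)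
  set s : ℝ := √(2 * ε) with hs
  have hs2le : s ^ 2 ≤ min (s0 ^ 2) (min 1 (1 / (L.k2 + 1))) := by
    rw [hs2]
    have h2 : ε * c0 ≤ 2 * δ := by rwa [le_div_iff₀ hc0] at hsc
    set μ := min (s0 ^ 2) (min 1 (1 / (L.k2 + 1)))
    have h3 : c0 * (2 * ε) ≤ c0 * μ := by linarith
    exact le_of_mul_le_mul_left h3 hc0
  have hsk : L.k2 * s ^ 2 ≤ 1 := by
    have h2 : s ^ 2 ≤ 1 / (L.k2 + 1) := hs2le.trans ((min_le_right _ _).trans (min_le_right _ _))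
    rw [le_div_iff₀ (by positivity)] at h2
    have e : s ^ 2 * (L.k2 + 1) = L.k2 * s ^ 2 + s ^ 2 := by ring
    rw [e] at h2
    linarith [sq_nonneg s]
  have hs_1 : s ≤ 1 := by
    have : s ^ 2 ≤ 1 ^ 2 := by
      rw [one_pow]
      exact hs2le.trans ((min_le_right _ _).trans (min_le_left _ _))
    exact le_of_sq_le_sq this one_pos.le
  refine ⟨s, ⟨hspos, hs_1, hsk⟩, le_of_sq_le_sq (hs2le.trans (min_le_left _ _)) hs0.le, ?_⟩
  rw [hs2]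
  ring

/-- B5c, the end game -/
theorem end_game_of {CW CT : ℝ} (hCW : 0 < CW) (hW : L.HW CW) (hCT : 0 < CT) (hT : L.HTail CT)
    (hS : L.HSup) (η : ℝ) (hη : 0 < η) : ∃ δ > 0, ∀ c ∈ L.K, ∀ ε : ℝ, 0 < ε → L.k2 * ε < 2 →
    ∀ u : E n → ℝ, SP u → ∫ z, u z.1 ^ L.ps ∂L.V = 1 → L.Def c ε u ≤ δ →
    (∫ z, u z.1 ^ 2 ∂L.V) ≤ δ → sg L.m ^ (2 / L.m) - η ≤ L.En u := by
  have hm := L.m_pos
  have hm2 := L.m_sub_pos
  have hk := L.k2_nonneg
  have hps := L.eg_ps_gt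
  have hσ := eg_sg_pos hm
  rcases le_or_gt (sg L.m ^ (2 / L.m) - η) 0 with he | he
  · refine ⟨1, one_pos, fun c hc ε hε hkε u hu _ _ _ =>
      he.trans (le_trans ?_ (L.w_le_En hc hε hkε hu.1))⟩
    exact integral_nonneg fun z => mul_nonneg (sq_nonneg _) (sq_nonneg _)
  obtain ⟨t, ht0, ht1, htf⟩ := eg_param (q := L.ps) hσ (by linarith : 2 < L.m) rfl he
    (by linarith)
  set e0 : ℝ := sg L.m ^ (2 / L.m) - η with he0
  set ft : ℝ := (√((1 + t) * e0 / sg L.m) + t) ^ (L.ps - 2) * e0 with hft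
  have hft0 : 0 ≤ ft := by positivity
  have hβ0 : 0 < 1 - ft ^ (1 / L.ps) := by
    have : ft ^ (1 / L.ps) < 1 := Real.rpow_lt_one hft0 htf (by positivity)
    linarith
  set β : ℝ := 1 - ft ^ (1 / L.ps) with hβ
  have hκ0 : 0 < L.m * (L.m - 2) / 4 := by positivity
  obtain ⟨N, hN1, hNβ⟩ := eg_N (CW := CW) (κ := L.m * (L.m - 2) / 4) (CT := CT) hm hβ0
  obtain ⟨CS, hCS, s0, hs0, hSb⟩ := hS N t e0 hN1 ht0
  obtain ⟨c0, hc0, d0, hd0, hlow⟩ := L.eg_low hCW hW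
  obtain ⟨δ₁, hδ₁, hδ₁1, hδb⟩ := eg_delta (D := 2 ^ L.m / sg L.m * CS) hCW hκ0 hk
    (by positivity) hβ0 hNβ
  refine ⟨min (min δ₁ d0) (c0 / 4 * min (s0 ^ 2) (min 1 (1 / (L.k2 + 1)))), by positivity, ?_⟩
  intro c hc ε hε hkε u hu h1 hD hR
  set δ : ℝ := min (min δ₁ d0) (c0 / 4 * min (s0 ^ 2) (min 1 (1 / (L.k2 + 1)))) with hδ
  have hδ0 : 0 < δ := by positivity
  have hδ1 : δ ≤ δ₁ := (min_le_left _ _).trans (min_le_left _ _)
  have hδd : δ ≤ d0 := (min_le_left _ _).trans (min_le_right _ _)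
  by_contra hcon
  rw [not_le] at hcon
  obtain ⟨hlo, hsc⟩ := hlow c ε hε hkε u hu h1 δ hδ0 hδd hD hR
  obtain ⟨s, hAd, hss0, hse⟩ := L.eg_scale hε hc0 hs0 hsc (min_le_right _ _)
  subst hse
  have hE2e : ∫ z, u z.1 ^ 2 * L.ws c s z.1 ^ 2 ∂L.V ≤ e0 :=
    (L.w_le_En hc hε hkε hu.1).trans hcon.le
  have hsup := hSb c hc s hAd.1 hss0 u hu δ hδ0 (hδ1.trans hδ₁1) hD hR hE2e
  have hcore := L.eg_core hCW hW hCT hAd hc hu h1 hD hR ht0 he hN1 (hT c hc s hAd N hN1) hE2e hsup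
  have h2 := hδb δ hδ0 hδ1
  have h3 : √(CW * (L.m * (L.m - 2) / 4 * (δ + (2 ^ L.m / sg L.m * (CS * √δ) +
      (CT * N ^ (-L.m)) ^ (2 / L.m)) + L.k2 * δ) + δ)) < β := by
    rw [Real.sqrt_lt' hβ0]
    refine lt_of_eq_of_lt ?_ h2
    ring
  rw [← hft] at hcore
  linarith

end Lim

end Vale.Agent.P219.End
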