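import Vale.Agent.P219.End.BMono

/-!
# P219 / End : integrability and averages of the truncated kernel, tail of the bubble

Everything is deduced from the upper density (first half of `upper_density`) by a dyadic layer
cake.
-/

open MeasureTheory Set Metric
open scoped ENNReal ContDiff Topology

namespace Vale.Agent.P219.End

variable {n : ℕ}

/-- dyadic layer cake, Lebesgue integral -/
theorem ki_dyad {Z : Type*} [MeasurableSpace Z] (V : Measure Z) [IsFiniteMeasure V] (g : Z → ℝ)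
    {S : Set Z} (hS : MeasurableSet S) (A : ℕ → Set Z) (hA : ∀ k, MeasurableSet (A k))
    (b : ℕ → ℝ) (hb : ∀ k, 0 ≤ b k) (hcov : ∀ z ∈ S, ∃ k, z ∈ A k ∧ g z ≤ b k) (c : ℝ)
    (hc : ∀ k, b k * V.real (A k) ≤ c * (1 / 2) ^ k) :
    ∫⁻ z in S, ENNReal.ofReal (g z) ∂V ≤ ENNReal.ofReal (2 * c) := by
  have hc0 : 0 ≤ c := by
    have h := hc 0
    have h1 : 0 ≤ b 0 * V.real (A 0) := mul_nonneg (hb 0) measureReal_nonneg
    simp only [pow_zero, mul_one] at h
    linarith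
  calc ∫⁻ z in S, ENNReal.ofReal (g z) ∂V
      ≤ ∫⁻ z in S, ∑' k, (A k).indicator (fun _ => ENNReal.ofReal (b k)) z ∂V := by
        apply setLIntegral_mono' hS
        intro z hz
        obtain ⟨k, hk, hgk⟩ := hcov z hz
        calc ENNReal.ofReal (g z) ≤ ENNReal.ofReal (b k) := ENNReal.ofReal_le_ofReal hgk
          _ = (A k).indicator (fun _ => ENNReal.ofReal (b k)) z := by
              rw [indicator_of_mem hk]
          _ ≤ ∑' k, (A k).indicator (fun _ => ENNReal.ofReal (b k)) z :=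
              ENNReal.le_tsum k
    _ ≤ ∫⁻ z, ∑' k, (A k).indicator (fun _ => ENNReal.ofReal (b k)) z ∂V :=
        setLIntegral_le_lintegral _ _
    _ = ∑' k, ∫⁻ z, (A k).indicator (fun _ => ENNReal.ofReal (b k)) z ∂V :=
        lintegral_tsum fun k => (measurable_const.indicator (hA k)).aemeasurable
    _ ≤ ∑' k : ℕ, ENNReal.ofReal (c * (1 / 2) ^ k) := by
        apply ENNReal.tsum_le_tsum
        intro k
        rw [lintegral_indicator_const (hA k)]
        have : V (A k) = ENNReal.ofReal (V.real (A k)) := by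
          rw [measureReal_def, ENNReal.ofReal_toReal (measure_ne_top _ _)]
        rw [this, ← ENNReal.ofReal_mul (hb k)]
        exact ENNReal.ofReal_le_ofReal (hc k)
    _ = ENNReal.ofReal (∑' k : ℕ, c * (1 / 2) ^ k) :=
        (ENNReal.ofReal_tsum_of_nonneg (fun k => by positivity)
          (summable_geometric_two.mul_left c)).symm
    _ = ENNReal.ofReal (2 * c) := by
        rw [tsum_mul_left, tsum_geometric_two]
        ring_nf

/-- dyadic layer cake -/
theorem ki_dyad_int {Z : Type*} [MeasurableSpace Z] (V : Measure Z) [IsFiniteMeasure V] {g : Z → ℝ}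
    (hgm : Measurable g) {S : Set Z} (hS : MeasurableSet S) (hg0 : ∀ z ∈ S, 0 ≤ g z)
    (A : ℕ → Set Z) (hA : ∀ k, MeasurableSet (A k))
    (b : ℕ → ℝ) (hb : ∀ k, 0 ≤ b k) (hcov : ∀ z ∈ S, ∃ k, z ∈ A k ∧ g z ≤ b k) (c : ℝ)
    (hc : ∀ k, b k * V.real (A k) ≤ c * (1 / 2) ^ k) :
    IntegrableOn g S V ∧ ∫ z in S, g z ∂V ≤ 2 * c := by
  have hc0 : 0 ≤ c := by
    have h := hc 0
    have h1 : 0 ≤ b 0 * V.real (A 0) := mul_nonneg (hb 0) measureReal_nonneg
    simp only [pow_zero, mul_one] at h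
    linarith
  have h := ki_dyad V g hS A hA b hb hcov c hc
  have hg0' : 0 ≤ᵐ[V.restrict S] g := (ae_restrict_iff' hS).2 (ae_of_all _ hg0)
  constructor
  · refine ⟨hgm.aestronglyMeasurable, ?_⟩
    rw [hasFiniteIntegral_iff_ofReal hg0']
    exact lt_of_le_of_lt h ENNReal.ofReal_lt_top
  · rw [integral_eq_lintegral_of_nonneg_ae hg0' hgm.aestronglyMeasurable]
    exact ENNReal.toReal_le_of_le_ofReal (by linarith) h

namespace Lim

variable (L : Lim n)

theorem ki_ds_nonneg (c x : E n) : 0 ≤ L.ds c x := Real.sqrt_nonneg _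

theorem ki_ds_sq (c x : E n) : L.ds c x ^ 2 = 2 * L.F c x :=
  Real.sq_sqrt (by linarith [L.F_nonneg c x])

theorem ki_ds_comm (c x : E n) : L.ds c x = L.ds x c := by
  unfold ds
  rw [L.F_comm]

theorem ki_ds_cont (c : E n) : Continuous (L.ds c) :=
  Real.continuous_sqrt.comp (continuous_const.mul (L.Fc_cont c))

theorem ki_ds_meas (c : E n) : Measurable fun z : E n × E n => L.ds c z.1 :=
  ((L.ki_ds_cont c).comp continuous_fst).measurable

theorem ki_ds_meas_le (c : E n) (s : ℝ) : MeasurableSet {z : E n × E n | L.ds c z.1 ≤ s} :=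
  measurableSet_le (L.ki_ds_meas c) measurable_const

theorem ki_ds_meas_lt (c : E n) (s : ℝ) : MeasurableSet {z : E n × E n | s < L.ds c z.1} :=
  measurableSet_lt measurable_const (L.ki_ds_meas c)

/-- near the centre: `∫_{d ≤ R} d^(1-m) ≤ C R` -/
theorem ki_near_int {C : ℝ} {c : E n}
    (hud : ∀ s : ℝ, 0 < s → L.V.real {z | L.ds c z.1 ≤ s} ≤ C * s ^ L.m) {R : ℝ} (hR : 0 < R) :
    IntegrableOn (fun z => L.ds c z.1 ^ (1 - L.m)) {z | L.ds c z.1 ≤ R} L.V ∧
      ∫ z in {z | L.ds c z.1 ≤ R}, L.ds c z.1 ^ (1 - L.m) ∂L.V ≤ C * 2 ^ L.m * R := by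
  have hm := L.three_le
  have key := ki_dyad_int L.V (g := fun z => L.ds c z.1 ^ (1 - L.m))
    ((L.ki_ds_meas c).pow_const _) (L.ki_ds_meas_le c R)
    (fun z _ => Real.rpow_nonneg (L.ki_ds_nonneg _ _) _)
    (fun k => {z | L.ds c z.1 ≤ R * (1 / 2) ^ k}) (fun k => L.ki_ds_meas_le c _)
    (fun k => (R * (1 / 2) ^ (k + 1)) ^ (1 - L.m)) (fun k => by positivity) ?_
    (C * 2 ^ (L.m - 1) * R) ?_
  · refine ⟨key.1, key.2.trans (le_of_eq ?_)⟩
    rw [Real.rpow_sub_one (by norm_num)]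
    ring
  · intro z hz
    rcases (L.ki_ds_nonneg c z.1).eq_or_lt with h0 | h0
    · have hz' : L.ds c z.1 ≤ R := hz
      refine ⟨0, ?_, ?_⟩
      · show L.ds c z.1 ≤ R * (1 / 2) ^ 0
        rw [pow_zero, mul_one]
        exact hz'
      · rw [← h0, Real.zero_rpow (by linarith)]
        positivity
    · have hz' : L.ds c z.1 ≤ R := hz
      obtain ⟨k, hk1, hk2⟩ := exists_nat_pow_near_of_lt_one (x := L.ds c z.1 / R)
        (y := (1 / 2 : ℝ)) (by positivity) ((div_le_one hR).2 hz') (by norm_num) (by norm_num)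
      refine ⟨k, ?_, ?_⟩
      · rw [div_le_iff₀ hR] at hk2
        show L.ds c z.1 ≤ R * (1 / 2) ^ k
        linarith
      · rw [lt_div_iff₀ hR] at hk1
        apply Real.rpow_le_rpow_of_nonpos (by positivity) (by linarith) (by linarith)
  · intro k
    have h1 := hud (R * (1 / 2) ^ k) (by positivity)
    calc (R * (1 / 2) ^ (k + 1)) ^ (1 - L.m) * L.V.real {z | L.ds c z.1 ≤ R * (1 / 2) ^ k}
        ≤ (R * (1 / 2) ^ (k + 1)) ^ (1 - L.m) * (C * (R * (1 / 2) ^ k) ^ L.m) :=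
          mul_le_mul_of_nonneg_left h1 (by positivity)
      _ = C * 2 ^ (L.m - 1) * R * (1 / 2) ^ k := by
          have e1 : R * (1 / 2 : ℝ) ^ (k + 1) = (R * (1 / 2) ^ k) * (1 / 2) := by ring
          rw [e1, Real.mul_rpow (by positivity) (by norm_num)]
          have e2 : (1 / 2 : ℝ) ^ (1 - L.m) = 2 ^ (L.m - 1) := by
            rw [one_div, Real.inv_rpow (by norm_num), ← Real.rpow_neg (by norm_num)]
            ring_nf
          have e3 : (R * (1 / 2 : ℝ) ^ k) ^ (1 - L.m) * (R * (1 / 2) ^ k) ^ L.m =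
              R * (1 / 2) ^ k := by
            rw [← Real.rpow_add (by positivity)]
            rw [show 1 - L.m + L.m = 1 by ring, Real.rpow_one]
          rw [e2]
          calc (R * (1 / 2) ^ k) ^ (1 - L.m) * 2 ^ (L.m - 1) * (C * (R * (1 / 2) ^ k) ^ L.m)
              = C * 2 ^ (L.m - 1) *
                ((R * (1 / 2) ^ k) ^ (1 - L.m) * (R * (1 / 2) ^ k) ^ L.m) := by ring
            _ = _ := by rw [e3]; ring

/-- far from the centre: `∫_{d > R} d^(-2m) ≤ C R^(-m)` -/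
theorem ki_far_int {C : ℝ} {c : E n}
    (hud : ∀ s : ℝ, 0 < s → L.V.real {z | L.ds c z.1 ≤ s} ≤ C * s ^ L.m) {R : ℝ} (hR : 0 < R) :
    IntegrableOn (fun z => L.ds c z.1 ^ (-(2 * L.m))) {z | R < L.ds c z.1} L.V ∧
      ∫ z in {z | R < L.ds c z.1}, L.ds c z.1 ^ (-(2 * L.m)) ∂L.V ≤
        2 * (C * 2 ^ L.m * R ^ (-L.m)) := by
  have hm := L.three_le
  have hC : 0 ≤ C := by
    have h := hud 1 one_pos
    rw [Real.one_rpow, mul_one] at h
    exact measureReal_nonneg.trans h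
  refine ki_dyad_int L.V (g := fun z => L.ds c z.1 ^ (-(2 * L.m)))
    ((L.ki_ds_meas c).pow_const _) (L.ki_ds_meas_lt c R)
    (fun z _ => Real.rpow_nonneg (L.ki_ds_nonneg _ _) _)
    (fun k => {z | L.ds c z.1 ≤ R * 2 ^ (k + 1)}) (fun k => L.ki_ds_meas_le c _)
    (fun k => (R * 2 ^ k) ^ (-(2 * L.m))) (fun k => by positivity) ?_ _ ?_
  · intro z hz
    have hz' : R < L.ds c z.1 := hz
    obtain ⟨k, hk1, hk2⟩ := exists_nat_pow_near (x := L.ds c z.1 / R)
      (y := (2 : ℝ)) ((one_le_div hR).2 hz'.le) (by norm_num)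
    refine ⟨k, ?_, ?_⟩
    · rw [div_lt_iff₀ hR] at hk2
      show L.ds c z.1 ≤ R * 2 ^ (k + 1)
      linarith
    · rw [le_div_iff₀ hR] at hk1
      apply Real.rpow_le_rpow_of_nonpos (by positivity) (by linarith) (by linarith)
  · intro k
    have h1 := hud (R * 2 ^ (k + 1)) (by positivity)
    calc (R * 2 ^ k) ^ (-(2 * L.m)) * L.V.real {z | L.ds c z.1 ≤ R * 2 ^ (k + 1)}
        ≤ (R * 2 ^ k) ^ (-(2 * L.m)) * (C * (R * 2 ^ (k + 1)) ^ L.m) :=
          mul_le_mul_of_nonneg_left h1 (by positivity)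
      _ = C * 2 ^ L.m * (R * 2 ^ k) ^ (-L.m) := by
          have e1 : R * (2 : ℝ) ^ (k + 1) = (R * 2 ^ k) * 2 := by ring
          rw [e1, Real.mul_rpow (x := R * 2 ^ k) (y := 2) (by positivity) (by norm_num)]
          have e3 : (R * (2 : ℝ) ^ k) ^ (-(2 * L.m)) * (R * 2 ^ k) ^ L.m =
              (R * 2 ^ k) ^ (-L.m) := by
            rw [← Real.rpow_add (by positivity)]
            congr 1
            ring
          calc (R * 2 ^ k) ^ (-(2 * L.m)) * (C * ((R * 2 ^ k) ^ L.m * 2 ^ L.m))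
              = C * 2 ^ L.m * ((R * 2 ^ k) ^ (-(2 * L.m)) * (R * 2 ^ k) ^ L.m) := by ring
            _ = _ := by rw [e3]
      _ ≤ C * 2 ^ L.m * R ^ (-L.m) * (1 / 2) ^ k := by
          rw [Real.mul_rpow hR.le (by positivity)]
          have e4 : ((2 : ℝ) ^ k) ^ (-L.m) ≤ (1 / 2) ^ k := by
            rw [Real.rpow_neg (by positivity), one_div, inv_pow]
            apply inv_anti₀ (by positivity)
            calc (2 : ℝ) ^ k = ((2 : ℝ) ^ k) ^ (1 : ℝ) := (Real.rpow_one _).symm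
              _ ≤ ((2 : ℝ) ^ k) ^ L.m :=
                Real.rpow_le_rpow_of_exponent_le (one_le_pow₀ (by norm_num)) (by linarith)
          have e5 : 0 ≤ C * 2 ^ L.m * R ^ (-L.m) := by positivity
          calc C * 2 ^ L.m * (R ^ (-L.m) * (2 ^ k) ^ (-L.m))
              = C * 2 ^ L.m * R ^ (-L.m) * (2 ^ k) ^ (-L.m) := by ring
            _ ≤ _ := mul_le_mul_of_nonneg_left e4 e5

theorem ki_kS_nonneg {S d : ℝ} (hS : 0 < S) (hd : 0 ≤ d) : 0 ≤ L.kS S d := by
  unfold kS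
  positivity

theorem ki_kS_le_near {S d : ℝ} (hS : 0 < S) (hd : 0 ≤ d) : L.kS S d ≤ d ^ (1 - L.m) := by
  have hm := L.m_pos
  unfold kS
  have h1 : (S / (S + d)) ^ L.m ≤ 1 :=
    Real.rpow_le_one (by positivity) ((div_le_one (by positivity)).2 (by linarith)) hm.le
  calc (S / (S + d)) ^ L.m * d ^ (1 - L.m) ≤ 1 * d ^ (1 - L.m) :=
        mul_le_mul_of_nonneg_right h1 (Real.rpow_nonneg hd _)
    _ = d ^ (1 - L.m) := one_mul _

theorem ki_kS_le_far {S d : ℝ} (hS : 0 < S) (hd : 0 < d) :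
    L.kS S d ≤ S ^ L.m * d ^ (1 - 2 * L.m) := by
  have hm := L.m_pos
  unfold kS
  have h1 : (S / (S + d)) ^ L.m ≤ (S / d) ^ L.m :=
    Real.rpow_le_rpow (by positivity)
      (div_le_div_of_nonneg_left hS.le hd (by linarith)) hm.le
  calc (S / (S + d)) ^ L.m * d ^ (1 - L.m) ≤ (S / d) ^ L.m * d ^ (1 - L.m) :=
        mul_le_mul_of_nonneg_right h1 (Real.rpow_nonneg hd.le _)
    _ = S ^ L.m * (d ^ (-L.m) * d ^ (1 - L.m)) := by
        rw [Real.div_rpow hS.le hd.le, Real.rpow_neg hd.le]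
        ring
    _ = S ^ L.m * d ^ (1 - 2 * L.m) := by
        rw [← Real.rpow_add hd]
        congr 2
        ring

theorem ki_kS_meas (S : ℝ) : Measurable fun d => L.kS S d := by
  unfold kS
  exact ((measurable_const.div (measurable_const.add measurable_id)).pow_const _).mul
    (measurable_id.pow_const _)

/-- a bound for `F` on `K × K` -/
theorem ki_kF_bound : ∃ M : ℝ, 0 ≤ M ∧ ∀ c ∈ L.K, ∀ x ∈ L.K, L.F c x ≤ M := by
  obtain ⟨C, hC⟩ := (L.K_compact.prod L.K_compact).exists_bound_of_continuousOn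
    (f := fun z : E n × E n => L.F z.1 z.2) L.F_smooth.continuous.continuousOn
  refine ⟨max C 0, le_max_right _ _, fun c hc x hx => ?_⟩
  exact ((le_abs_self _).trans (hC (c, x) ⟨hc, hx⟩)).trans (le_max_left _ _)

/-- quasi-metric -/
theorem ki_kds_tri : ∃ C ≥ 1, ∀ c ∈ L.K, ∀ x ∈ L.K, ∀ y ∈ L.K,
    L.ds c x ≤ C * (L.ds c y + L.ds y x) := by
  obtain ⟨M, hM0, hM⟩ := L.ki_kF_bound
  have hk := L.k2_nonneg
  refine ⟨√(1 + L.k2 * M / 2), ?_, ?_⟩
  · apply Real.one_le_sqrt.2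
    have : 0 ≤ L.k2 * M / 2 := by positivity
    linarith
  · intro c hc x hx y hy
    have h := L.tri c y x
    have h1 : √(1 + L.k2 * L.F c y / 2) ≤ √(1 + L.k2 * M / 2) := by
      apply Real.sqrt_le_sqrt
      have := mul_le_mul_of_nonneg_left (hM c hc y hy) hk
      linarith
    have h2 : √(1 + L.k2 * L.F y x / 2) ≤ √(1 + L.k2 * M / 2) := by
      apply Real.sqrt_le_sqrt
      have := mul_le_mul_of_nonneg_left (hM y hy x hx) hk
      linarith
    have h3 : √(L.F c x) ≤ √(L.F y x) * √(1 + L.k2 * M / 2) +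
        √(1 + L.k2 * M / 2) * √(L.F c y) :=
      h.trans (add_le_add (mul_le_mul_of_nonneg_left h1 (Real.sqrt_nonneg _))
        (mul_le_mul_of_nonneg_right h2 (Real.sqrt_nonneg _)))
    unfold ds
    rw [Real.sqrt_mul (by norm_num), Real.sqrt_mul (by norm_num), Real.sqrt_mul (by norm_num)]
    calc √2 * √(L.F c x) ≤ √2 * (√(L.F y x) * √(1 + L.k2 * M / 2) +
        √(1 + L.k2 * M / 2) * √(L.F c y)) := mul_le_mul_of_nonneg_left h3 (Real.sqrt_nonneg _)
      _ = _ := by ring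

theorem ki_kws_eq {s : ℝ} (hs : L.Ad s) (c x : E n) :
    L.ws c s x = 2 * s * √(1 - L.k2 * s ^ 2 / 4) / (s ^ 2 + L.ds c x ^ 2) := by
  have hs0 := hs.1
  have hF := L.F_nonneg c x
  unfold ws w bub
  have h1 : √(s ^ 2 / 2 * (2 - L.k2 * (s ^ 2 / 2))) = s * √(1 - L.k2 * s ^ 2 / 4) := by
    rw [show s ^ 2 / 2 * (2 - L.k2 * (s ^ 2 / 2)) = s ^ 2 * (1 - L.k2 * s ^ 2 / 4) by ring,
      Real.sqrt_mul (by positivity), Real.sqrt_sq hs0.le]
  rw [h1, L.ki_ds_sq, div_eq_div_iff (by positivity) (by positivity)]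
  ring

theorem ki_kws_le {s : ℝ} (hs : L.Ad s) (c x : E n) :
    L.ws c s x ≤ 2 * s / (s ^ 2 + L.ds c x ^ 2) := by
  have hs0 := hs.1
  have hk := L.k2_nonneg
  rw [L.ki_kws_eq hs]
  apply div_le_div_of_nonneg_right _ (by positivity)
  have h1 : √(1 - L.k2 * s ^ 2 / 4) ≤ 1 := by
    rw [Real.sqrt_le_one]
    have : 0 ≤ L.k2 * s ^ 2 := by positivity
    linarith
  calc 2 * s * √(1 - L.k2 * s ^ 2 / 4) ≤ 2 * s * 1 :=
        mul_le_mul_of_nonneg_left h1 (by positivity)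
    _ = 2 * s := mul_one _

theorem ki_kws_ge {s : ℝ} (hs : L.Ad s) (c x : E n) :
    s / (s ^ 2 + L.ds c x ^ 2) ≤ L.ws c s x := by
  have hs0 := hs.1
  have hk := L.k2_nonneg
  have h3 := hs.2.2
  rw [L.ki_kws_eq hs]
  apply div_le_div_of_nonneg_right _ (by positivity)
  have h1 : 1 / 2 ≤ √(1 - L.k2 * s ^ 2 / 4) := by
    apply Real.le_sqrt_of_sq_le
    linarith
  calc s = 2 * s * (1 / 2) := by ring
    _ ≤ 2 * s * √(1 - L.k2 * s ^ 2 / 4) := mul_le_mul_of_nonneg_left h1 (by positivity)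

theorem ki_kws_cont {s : ℝ} (hs : 0 < s) (c : E n) : Continuous (L.ws c s) := by
  unfold ws w bub
  apply Continuous.div continuous_const ((L.Fc_cont c).add continuous_const)
  intro x
  have h1 := L.F_nonneg c x
  have h2 : 0 < L.F c x + s ^ 2 / 2 := by
    have : 0 < s ^ 2 / 2 := by positivity
    linarith
  exact h2.ne'

theorem ki_Ad_of_mul {Λ s : ℝ} (hΛ : 1 ≤ Λ) (hs : 0 < s) (h : L.Ad (Λ * s)) : L.Ad s := by
  have hk := L.k2_nonneg
  have h1 : s ≤ Λ * s := le_mul_of_one_le_left hs.le hΛ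
  refine ⟨hs, h1.trans h.2.1, le_trans ?_ h.2.2⟩
  exact mul_le_mul_of_nonneg_left (pow_le_pow_left₀ hs.le h1 2) hk

/-- B3d: integrability of the kernel -/
theorem ki_kS_integrable_of {C : ℝ} {c : E n}
    (hud : ∀ s : ℝ, 0 < s → L.V.real {z | L.ds c z.1 ≤ s} ≤ C * s ^ L.m) {S : ℝ} (hS : 0 < S) :
    Integrable (fun z => L.kS S (L.ds c z.1)) L.V := by
  have hm := L.three_le
  have hmeas : Measurable fun z : E n × E n => L.kS S (L.ds c z.1) :=
    (L.ki_kS_meas S).comp (L.ki_ds_meas c)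
  have h1 : IntegrableOn (fun z => L.kS S (L.ds c z.1)) {z | L.ds c z.1 ≤ 1} L.V := by
    refine (L.ki_near_int hud one_pos).1.mono' hmeas.aestronglyMeasurable (ae_of_all _ fun z => ?_)
    rw [Real.norm_of_nonneg (L.ki_kS_nonneg hS (L.ki_ds_nonneg _ _))]
    exact L.ki_kS_le_near hS (L.ki_ds_nonneg _ _)
  have h2 : IntegrableOn (fun z => L.kS S (L.ds c z.1)) {z | L.ds c z.1 ≤ 1}ᶜ L.V := by
    refine (integrable_const (1 : ℝ)).mono' hmeas.aestronglyMeasurable ?_
    refine (ae_restrict_iff' (L.ki_ds_meas_le c 1).compl).2 (ae_of_all _ fun z hz => ?_)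
    have hz' : 1 < L.ds c z.1 := not_le.1 hz
    rw [Real.norm_of_nonneg (L.ki_kS_nonneg hS (L.ki_ds_nonneg _ _))]
    exact (L.ki_kS_le_near hS (L.ki_ds_nonneg _ _)).trans
      (Real.rpow_le_one_of_one_le_of_nonpos hz'.le (by linarith))
  rw [← integrableOn_univ, ← union_compl_self {z : E n × E n | L.ds c z.1 ≤ 1}]
  exact h1.union h2

/-- average of the kernel with a weight `d^j`, `0 ≤ j ≤ 1` -/
theorem ki_kS_avg_gen {D : ℝ} (hD : 0 < D)
    (hud : ∀ c ∈ L.K, ∀ s : ℝ, 0 < s → L.V.real {z | L.ds c z.1 ≤ s} ≤ D * s ^ L.m)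
    (N Λ : ℝ) (hN : 1 ≤ N) (hΛ : 1 ≤ Λ) (j : ℝ) (hj0 : 0 ≤ j) (hj1 : j ≤ 1) :
    ∃ C > 0, ∀ c ∈ L.K, ∀ s : ℝ, 0 < s → L.Ad (Λ * s) → ∀ x ∈ L.K,
    ∫ z in {z | L.ds c z.1 ≤ N * s}, L.ds z.1 x ^ j * L.kS (Λ * s) (L.ds z.1 x) ∂L.V
      ≤ C * s ^ L.m * L.ws c s x ^ (L.m - 1 - j) := by
  have hm := L.three_le
  obtain ⟨T, hT, htri⟩ := L.ki_kds_tri
  have hT0 : 0 < T := by linarith
  have hN0 : 0 < N := by linarith
  have hΛ0 : 0 < Λ := by linarith
  set ρ : ℝ := T * (2 * T + 1) * N with hρ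
  have hρ0 : 0 < ρ := by positivity
  set q : ℝ := 1 + (2 * T * N) ^ 2 with hq
  have hq0 : 0 < q := by positivity
  set C1 : ℝ := ρ ^ j * (D * 2 ^ L.m * ρ) * q ^ (L.m - 1 - j) with hC1
  set C2 : ℝ := Λ ^ L.m * N ^ L.m * D * (1 / (2 * T)) ^ (1 - 2 * L.m + j) *
    2 ^ (L.m - 1 - j) with hC2
  have hC10 : 0 < C1 := by positivity
  have hC20 : 0 < C2 := by positivity
  refine ⟨C1 + C2, by positivity, fun c hc s hs hAd x hx => ?_⟩
  have hAd' := L.ki_Ad_of_mul hΛ hs hAd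
  have hΛs : 0 < Λ * s := by positivity
  have hwge := L.ki_kws_ge hAd' c x
  have hd0 := L.ki_ds_nonneg c x
  have hwpos : 0 < L.ws c s x := lt_of_lt_of_le (by positivity) hwge
  have hcomm : ∀ z : E n × E n, L.ds z.1 x = L.ds x z.1 := fun z => L.ki_ds_comm _ _
  simp only [hcomm]
  have hf0 : ∀ z : E n × E n, 0 ≤ L.ds x z.1 ^ j * L.kS (Λ * s) (L.ds x z.1) := fun z =>
    mul_nonneg (Real.rpow_nonneg (L.ki_ds_nonneg _ _) _) (L.ki_kS_nonneg hΛs (L.ki_ds_nonneg _ _))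
  rcases le_or_gt (L.ds c x) (2 * T * N * s) with hcase | hcase
  · -- `x` near the centre
    have hR : 0 < ρ * s := by positivity
    have hball : {z : E n × E n | L.ds c z.1 ≤ N * s} ≤ᵐ[L.V] {z | L.ds x z.1 ≤ ρ * s} := by
      filter_upwards [L.V_supp] with z hz
      intro (hzB : L.ds c z.1 ≤ N * s)
      have h1 := htri x hx z.1 hz.1 c hc
      rw [L.ki_ds_comm x c] at h1
      show L.ds x z.1 ≤ ρ * s
      calc L.ds x z.1 ≤ T * (L.ds c x + L.ds c z.1) := h1
        _ ≤ T * (2 * T * N * s + N * s) :=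
          mul_le_mul_of_nonneg_left (add_le_add hcase hzB) hT0.le
        _ = ρ * s := by rw [hρ]; ring
    obtain ⟨hI, hB⟩ := L.ki_near_int (hud x hx) hR
    have hI' : IntegrableOn (fun z => (ρ * s) ^ j * L.ds x z.1 ^ (1 - L.m))
        {z | L.ds x z.1 ≤ ρ * s} L.V := hI.const_mul _
    calc ∫ z in {z | L.ds c z.1 ≤ N * s}, L.ds x z.1 ^ j * L.kS (Λ * s) (L.ds x z.1) ∂L.V
        ≤ ∫ z in {z | L.ds c z.1 ≤ N * s}, (ρ * s) ^ j * L.ds x z.1 ^ (1 - L.m) ∂L.V := by
          apply integral_mono_of_nonneg (ae_of_all _ hf0) (hI'.mono_set_ae hball)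
          have h1 : ∀ᵐ z ∂(L.V.restrict {z | L.ds c z.1 ≤ N * s}), L.ds x z.1 ≤ ρ * s := by
            rw [ae_restrict_iff' (L.ki_ds_meas_le c _)]
            exact hball
          filter_upwards [h1] with z hz
          exact mul_le_mul (Real.rpow_le_rpow (L.ki_ds_nonneg _ _) hz hj0)
            (L.ki_kS_le_near hΛs (L.ki_ds_nonneg _ _)) (L.ki_kS_nonneg hΛs (L.ki_ds_nonneg _ _))
            (by positivity)
      _ ≤ ∫ z in {z | L.ds x z.1 ≤ ρ * s}, (ρ * s) ^ j * L.ds x z.1 ^ (1 - L.m) ∂L.V := by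
          apply setIntegral_mono_set hI' (ae_of_all _ fun z => ?_) hball
          exact mul_nonneg (by positivity) (Real.rpow_nonneg (L.ki_ds_nonneg _ _) _)
      _ = (ρ * s) ^ j * ∫ z in {z | L.ds x z.1 ≤ ρ * s}, L.ds x z.1 ^ (1 - L.m) ∂L.V :=
          integral_const_mul _ _
      _ ≤ (ρ * s) ^ j * (D * 2 ^ L.m * (ρ * s)) :=
          mul_le_mul_of_nonneg_left hB (by positivity)
      _ = C1 * s ^ L.m * (1 / (s * q)) ^ (L.m - 1 - j) := by
          have e1 : s ^ L.m * (1 / (s * q)) ^ (L.m - 1 - j) =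
              s ^ j * s * (1 / q ^ (L.m - 1 - j)) := by
            rw [one_div, Real.inv_rpow (by positivity), Real.mul_rpow hs.le hq0.le]
            have e2 : s ^ L.m = s ^ j * s * s ^ (L.m - 1 - j) := by
              nth_rewrite 3 [← Real.rpow_one s]
              rw [← Real.rpow_add hs, ← Real.rpow_add hs]
              congr 1
              ring
            rw [e2]
            have : s ^ (L.m - 1 - j) ≠ 0 := by positivity
            have : q ^ (L.m - 1 - j) ≠ 0 := by positivity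
            field_simp
          rw [mul_assoc C1, e1, hC1, Real.mul_rpow hρ0.le hs.le]
          have : q ^ (L.m - 1 - j) ≠ 0 := by positivity
          field_simp
      _ ≤ (C1 + C2) * s ^ L.m * L.ws c s x ^ (L.m - 1 - j) := by
          have h1 : 1 / (s * q) ≤ L.ws c s x := by
            refine le_trans ?_ hwge
            rw [div_le_div_iff₀ (by positivity) (by positivity)]
            have h2 : L.ds c x ^ 2 ≤ (2 * T * N * s) ^ 2 := pow_le_pow_left₀ hd0 hcase 2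
            rw [hq]
            nlinarith
          have h2 : (1 / (s * q)) ^ (L.m - 1 - j) ≤ L.ws c s x ^ (L.m - 1 - j) :=
            Real.rpow_le_rpow (by positivity) h1 (by linarith)
          exact mul_le_mul (mul_le_mul_of_nonneg_right (by linarith) (by positivity)) h2
            (by positivity) (by positivity)
  · -- `x` far from the centre
    have hd : 0 < L.ds c x := lt_of_le_of_lt (by positivity) hcase
    set d := L.ds c x with hdd
    set B : Set (E n × E n) := {z | L.ds c z.1 ≤ N * s} with hBdef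
    have hpt : ∀ᵐ z ∂(L.V.restrict B), L.ds x z.1 ^ j * L.kS (Λ * s) (L.ds x z.1) ≤
        (Λ * s) ^ L.m * (d / (2 * T)) ^ (1 - 2 * L.m + j) := by
      rw [ae_restrict_iff' (L.ki_ds_meas_le c _)]
      filter_upwards [L.V_supp] with z hz hzB
      have hzB' : L.ds c z.1 ≤ N * s := hzB
      have h1 := htri c hc x hx z.1 hz.1
      rw [L.ki_ds_comm z.1 x, ← hdd] at h1
      have h2 : d / (2 * T) ≤ L.ds x z.1 := by
        rw [div_le_iff₀ (by positivity)]
        have h3 : T * L.ds c z.1 ≤ T * (N * s) := mul_le_mul_of_nonneg_left hzB' hT0.le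
        nlinarith
      have h3 : 0 < L.ds x z.1 := lt_of_lt_of_le (by positivity) h2
      calc L.ds x z.1 ^ j * L.kS (Λ * s) (L.ds x z.1)
          ≤ L.ds x z.1 ^ j * ((Λ * s) ^ L.m * L.ds x z.1 ^ (1 - 2 * L.m)) :=
            mul_le_mul_of_nonneg_left (L.ki_kS_le_far hΛs h3) (by positivity)
        _ = (Λ * s) ^ L.m * L.ds x z.1 ^ (1 - 2 * L.m + j) := by
            rw [Real.rpow_add h3]
            ring
        _ ≤ (Λ * s) ^ L.m * (d / (2 * T)) ^ (1 - 2 * L.m + j) :=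
            mul_le_mul_of_nonneg_left
              (Real.rpow_le_rpow_of_nonpos (by positivity) h2 (by linarith)) (by positivity)
    calc ∫ z in B, L.ds x z.1 ^ j * L.kS (Λ * s) (L.ds x z.1) ∂L.V
        ≤ ∫ _z in B, (Λ * s) ^ L.m * (d / (2 * T)) ^ (1 - 2 * L.m + j) ∂L.V :=
          integral_mono_of_nonneg (ae_of_all _ hf0) (integrable_const _) hpt
      _ = L.V.real B * ((Λ * s) ^ L.m * (d / (2 * T)) ^ (1 - 2 * L.m + j)) := by
          rw [setIntegral_const, smul_eq_mul]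
      _ ≤ (D * (N * s) ^ L.m) * ((Λ * s) ^ L.m * (d / (2 * T)) ^ (1 - 2 * L.m + j)) :=
          mul_le_mul_of_nonneg_right (hud c hc (N * s) (by positivity)) (by positivity)
      _ = C2 * s ^ L.m * (s / (2 * d ^ 2)) ^ (L.m - 1 - j) * (s / d) ^ (1 + j) := by
          have e1 : (d / (2 * T)) ^ (1 - 2 * L.m + j) =
              d ^ (1 - 2 * L.m + j) * (1 / (2 * T)) ^ (1 - 2 * L.m + j) := by
            rw [← Real.mul_rpow hd.le (by positivity)]
            congr 1
            ring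
          have e2 : s ^ L.m * s ^ L.m * d ^ (1 - 2 * L.m + j) =
              2 ^ (L.m - 1 - j) * (s ^ L.m * (s / (2 * d ^ 2)) ^ (L.m - 1 - j) *
                (s / d) ^ (1 + j)) := by
            rw [Real.rpow_def_of_pos hs, Real.rpow_def_of_pos hd, Real.rpow_def_of_pos two_pos,
              Real.rpow_def_of_pos (show 0 < s / (2 * d ^ 2) by positivity),
              Real.rpow_def_of_pos (show 0 < s / d by positivity),
              Real.log_div hs.ne' (by positivity), Real.log_div hs.ne' hd.ne',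
              Real.log_mul two_ne_zero (by positivity), Real.log_pow,
              ← Real.exp_add, ← Real.exp_add, ← Real.exp_add, ← Real.exp_add, ← Real.exp_add]
            congr 1
            push_cast
            ring
          rw [e1, Real.mul_rpow hN0.le hs.le, Real.mul_rpow hΛ0.le hs.le, hC2]
          calc D * (N ^ L.m * s ^ L.m) * (Λ ^ L.m * s ^ L.m *
                (d ^ (1 - 2 * L.m + j) * (1 / (2 * T)) ^ (1 - 2 * L.m + j)))
              = Λ ^ L.m * N ^ L.m * D * (1 / (2 * T)) ^ (1 - 2 * L.m + j) *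
                (s ^ L.m * s ^ L.m * d ^ (1 - 2 * L.m + j)) := by ring
            _ = _ := by rw [e2]; ring
      _ ≤ C2 * s ^ L.m * (s / (2 * d ^ 2)) ^ (L.m - 1 - j) * 1 := by
          apply mul_le_mul_of_nonneg_left _ (by positivity)
          apply Real.rpow_le_one (by positivity) _ (by linarith)
          rw [div_le_one hd]
          have h1 : 1 ≤ 2 * T * N := by nlinarith
          nlinarith
      _ ≤ (C1 + C2) * s ^ L.m * L.ws c s x ^ (L.m - 1 - j) := by
          rw [mul_one]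
          have hsd : s ≤ d := by
            have h1 : 1 ≤ 2 * T * N := by nlinarith
            nlinarith
          have h1 : s / (2 * d ^ 2) ≤ L.ws c s x := by
            refine le_trans ?_ hwge
            apply div_le_div_of_nonneg_left hs.le (by positivity)
            have := pow_le_pow_left₀ hs.le hsd 2
            linarith
          have h2 : (s / (2 * d ^ 2)) ^ (L.m - 1 - j) ≤ L.ws c s x ^ (L.m - 1 - j) :=
            Real.rpow_le_rpow (by positivity) h1 (by linarith)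
          exact mul_le_mul (mul_le_mul_of_nonneg_right (by linarith) (by positivity)) h2
            (by positivity) (by positivity)

/-- B3f: average of the kernel -/
theorem ki_kS_avg_of {D : ℝ} (hD : 0 < D)
    (hud : ∀ c ∈ L.K, ∀ s : ℝ, 0 < s → L.V.real {z | L.ds c z.1 ≤ s} ≤ D * s ^ L.m)
    (N Λ : ℝ) (hN : 1 ≤ N) (hΛ : 1 ≤ Λ) : ∃ C > 0, ∀ c ∈ L.K, ∀ s : ℝ, 0 < s →
    L.Ad (Λ * s) → ∀ x ∈ L.K,
    (∫ z in {z | L.ds c z.1 ≤ N * s}, L.kS (Λ * s) (L.ds z.1 x) ∂L.V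
      ≤ C * s ^ L.m * L.ws c s x ^ (L.m - 1)) ∧
    ∫ z in {z | L.ds c z.1 ≤ N * s}, L.ds z.1 x * L.kS (Λ * s) (L.ds z.1 x) ∂L.V
      ≤ C * s ^ L.m * L.ws c s x ^ (L.m - 2) := by
  obtain ⟨C1, hC1, h1⟩ := L.ki_kS_avg_gen hD hud N Λ hN hΛ 0 le_rfl zero_le_one
  obtain ⟨C2, hC2, h2⟩ := L.ki_kS_avg_gen hD hud N Λ hN hΛ 1 zero_le_one le_rfl
  refine ⟨C1 + C2, by positivity, fun c hc s hs hAd x hx => ⟨?_, ?_⟩⟩
  · have hw : 0 < L.ws c s x := by
      refine lt_of_lt_of_le ?_ (L.ki_kws_ge (L.ki_Ad_of_mul hΛ hs hAd) c x)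
      have := L.ki_ds_nonneg c x
      positivity
    have h := h1 c hc s hs hAd x hx
    simp only [Real.rpow_zero, one_mul, sub_zero] at h
    refine h.trans ?_
    gcongr
    linarith
  · have hw : 0 < L.ws c s x := by
      refine lt_of_lt_of_le ?_ (L.ki_kws_ge (L.ki_Ad_of_mul hΛ hs hAd) c x)
      have := L.ki_ds_nonneg c x
      positivity
    have h := h2 c hc s hs hAd x hx
    simp only [Real.rpow_one] at h
    rw [show L.m - 1 - 1 = L.m - 2 by ring] at h
    refine h.trans ?_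
    gcongr
    linarith

/-- B3g: tail of the bubble -/
theorem ki_tail_of {D : ℝ} (hD : 0 < D)
    (hud : ∀ c ∈ L.K, ∀ s : ℝ, 0 < s → L.V.real {z | L.ds c z.1 ≤ s} ≤ D * s ^ L.m) :
    ∃ C > 0, ∀ c ∈ L.K, ∀ s : ℝ, L.Ad s → ∀ N ≥ 1,
    ∫ z in {z | N * s < L.ds c z.1}, L.ws c s z.1 ^ L.m ∂L.V ≤ C * N ^ (-L.m) := by
  have hm := L.three_le
  refine ⟨2 ^ L.m * (2 * (D * 2 ^ L.m)), by positivity, fun c hc s hAd N hN => ?_⟩
  have hs := hAd.1
  have hN0 : 0 < N := by linarith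
  have hR : 0 < N * s := by positivity
  obtain ⟨hI, hB⟩ := L.ki_far_int (hud c hc) hR
  have hI' : IntegrableOn (fun z => (2 ^ L.m * s ^ L.m) * L.ds c z.1 ^ (-(2 * L.m)))
    {z | N * s < L.ds c z.1} L.V := hI.const_mul _
  have hw : ∀ x, 0 < L.ws c s x := fun x => by
    refine lt_of_lt_of_le ?_ (L.ki_kws_ge hAd c x)
    have := L.ki_ds_nonneg c x
    positivity
  calc ∫ z in {z | N * s < L.ds c z.1}, L.ws c s z.1 ^ L.m ∂L.V
      ≤ ∫ z in {z | N * s < L.ds c z.1},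
        (2 ^ L.m * s ^ L.m) * L.ds c z.1 ^ (-(2 * L.m)) ∂L.V := by
        apply integral_mono_of_nonneg (ae_of_all _ fun z => Real.rpow_nonneg (hw _).le _) hI'
        refine (ae_restrict_iff' (L.ki_ds_meas_lt c _)).2 (ae_of_all _ fun z hz => ?_)
        have hz' : N * s < L.ds c z.1 := hz
        have hd : 0 < L.ds c z.1 := hR.trans hz'
        have h1 : L.ws c s z.1 ≤ 2 * s * (L.ds c z.1 ^ 2)⁻¹ := by
          refine (L.ki_kws_le hAd c z.1).trans ?_
          rw [div_eq_mul_inv]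
          apply mul_le_mul_of_nonneg_left _ (by positivity)
          apply inv_anti₀ (by positivity)
          have : 0 ≤ s ^ 2 := by positivity
          linarith
        calc L.ws c s z.1 ^ L.m ≤ (2 * s * (L.ds c z.1 ^ 2)⁻¹) ^ L.m :=
              Real.rpow_le_rpow (hw _).le h1 (by linarith)
          _ = (2 ^ L.m * s ^ L.m) * L.ds c z.1 ^ (-(2 * L.m)) := by
              rw [Real.mul_rpow (by positivity) (by positivity),
                Real.mul_rpow (by positivity) (by positivity), Real.inv_rpow (by positivity),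
                ← Real.rpow_natCast_mul hd.le, ← Real.rpow_neg hd.le]
              push_cast
              rfl
    _ = (2 ^ L.m * s ^ L.m) * ∫ z in {z | N * s < L.ds c z.1},
        L.ds c z.1 ^ (-(2 * L.m)) ∂L.V := integral_const_mul _ _
    _ ≤ (2 ^ L.m * s ^ L.m) * (2 * (D * 2 ^ L.m * (N * s) ^ (-L.m))) :=
        mul_le_mul_of_nonneg_left hB (by positivity)
    _ = 2 ^ L.m * (2 * (D * 2 ^ L.m)) * N ^ (-L.m) := by
        rw [Real.mul_rpow hN0.le hs.le, Real.rpow_neg hs.le]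
        have : s ^ L.m ≠ 0 := by positivity
        field_simp

/-- B3d: integrability of the kernel -/
theorem kS_integrable {c : E n} (hc : c ∈ L.K) {S : ℝ} (hS : 0 < S) :
    Integrable (fun z => L.kS S (L.ds c z.1)) L.V := by
  obtain ⟨C, _, hC, _⟩ := L.upper_density
  exact L.ki_kS_integrable_of (hC c hc) hS

/-- B3f: average of the kernel (exact form, no hypothesis) -/
theorem kS_avg_ex (N Λ : ℝ) (hN : 1 ≤ N) (hΛ : 1 ≤ Λ) : ∃ C > 0, ∀ c ∈ L.K, ∀ s : ℝ, 0 < s →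
    L.Ad (Λ * s) → ∀ x ∈ L.K,
    (∫ z in {z | L.ds c z.1 ≤ N * s}, L.kS (Λ * s) (L.ds z.1 x) ∂L.V
      ≤ C * s ^ L.m * L.ws c s x ^ (L.m - 1)) ∧
    ∫ z in {z | L.ds c z.1 ≤ N * s}, L.ds z.1 x * L.kS (Λ * s) (L.ds z.1 x) ∂L.V
      ≤ C * s ^ L.m * L.ws c s x ^ (L.m - 2) := by
  obtain ⟨C, hC0, hC, _⟩ := L.upper_density
  exact L.ki_kS_avg_of hC0 hC N Λ hN hΛ

/-- B3g: tail of the bubble -/
theorem tail : ∃ C > 0, ∀ c ∈ L.K, ∀ s : ℝ, L.Ad s → ∀ N ≥ 1,
    ∫ z in {z | N * s < L.ds c z.1}, L.ws c s z.1 ^ L.m ∂L.V ≤ C * N ^ (-L.m) := by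
  obtain ⟨C, hC0, hC, _⟩ := L.upper_density
  exact L.ki_tail_of hC0 hC

end Lim

end Vale.Agent.P219.End
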