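import Vale.Agent.P219.End.WeakSob

/-! # The weak type inequality from a potential estimate and the growth of the measure. -/

namespace Vale.Agent.P219.End.WS

open MeasureTheory Real
open scoped ENNReal

variable {Z : Type*} [MeasurableSpace Z]

/-- Riesz potentials of order one of sets, for measures of growth `m`. -/
theorem lintegral_rpow_le_of_growth {V : Measure Z} {m Λ : ℝ} (hm : 1 < m) (hΛ : 0 ≤ Λ)
    {r : Z → ℝ} (hr : Measurable r) (h0 : ∀ z, 0 ≤ r z)
    (hgr : ∀ ρ > 0, V {z | r z < ρ} ≤ ENNReal.ofReal (Λ * ρ ^ m)) {E : Set Z}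
    (hEfin : V E ≠ ∞) :
    ∫⁻ z in E, ENNReal.ofReal (r z ^ (1 - m)) ∂V ≤
      ENNReal.ofReal (2 ^ m * Λ + 1) * V E ^ (1 / m) := by
  rcases eq_or_ne (V E) 0 with hz | hz
  · rw [Measure.restrict_eq_zero.2 hz, lintegral_zero_measure]
    exact bot_le
  have hm0 : 0 < m := by linarith
  set v : ℝ := (V E).toReal with hv
  have hvpos : 0 < v := ENNReal.toReal_pos hz hEfin
  have hVE : V E = ENNReal.ofReal v := (ENNReal.ofReal_toReal hEfin).symm
  set ρ : ℝ := v ^ (1 / m) with hρ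
  have hρ0 : 0 < ρ := rpow_pos_of_pos hvpos _
  have hρm : ρ ^ m = v := by rw [hρ, ← rpow_mul hvpos.le, one_div_mul_cancel hm0.ne', rpow_one]
  have hρj : ∀ j : ℕ, 0 < ρ / 2 ^ j := fun j => by positivity
  have hms : ∀ c : ℝ, MeasurableSet {z | r z < c} := fun c => measurableSet_lt hr measurable_const
  have hpt : ∀ z, ENNReal.ofReal (r z ^ (1 - m)) ≤
      (∑' j : ℕ, Set.indicator {z | r z < ρ / 2 ^ j}
        (fun _ => ENNReal.ofReal ((ρ / 2 ^ (j + 1)) ^ (1 - m))) z) +
        ENNReal.ofReal (ρ ^ (1 - m)) := by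
    intro z
    rcases (h0 z).eq_or_lt with h | h
    · rw [← h, zero_rpow (by linarith), ENNReal.ofReal_zero]
      exact bot_le
    rcases le_or_gt ρ (r z) with h1 | h1
    · refine le_trans ?_ le_add_self
      exact ENNReal.ofReal_le_ofReal (rpow_le_rpow_of_nonpos hρ0 h1 (by linarith))
    · have hex : ∃ j : ℕ, ρ / 2 ^ (j + 1) ≤ r z := by
        have hlim : Filter.Tendsto (fun j : ℕ => ρ / 2 ^ (j + 1)) Filter.atTop (nhds 0) := by
          have h2 : Filter.Tendsto (fun n : ℕ => (ρ / 2) * (1 / 2 : ℝ) ^ n) Filter.atTop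
              (nhds ((ρ / 2) * 0)) := (tendsto_pow_atTop_nhds_zero_of_lt_one (by norm_num)
                (by norm_num)).const_mul _
          rw [mul_zero] at h2
          refine h2.congr fun n => ?_
          rw [one_div, inv_pow, pow_succ]
          field_simp
        exact ((hlim.eventually (gt_mem_nhds h)).mono fun j hj => le_of_lt hj).exists
      classical
      obtain ⟨j, hj, hmin⟩ : ∃ j : ℕ, ρ / 2 ^ (j + 1) ≤ r z ∧ r z < ρ / 2 ^ j := by
        refine ⟨Nat.find hex, Nat.find_spec hex, ?_⟩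
        rcases Nat.eq_zero_or_pos (Nat.find hex) with h2 | h2
        · rw [h2, pow_zero, div_one]
          exact h1
        · obtain ⟨k, hk⟩ : ∃ k, Nat.find hex = k + 1 := ⟨Nat.find hex - 1, by omega⟩
          have h3 := Nat.find_min hex (show k < Nat.find hex by omega)
          rw [hk]
          exact not_le.1 h3
      refine le_trans ?_ le_self_add
      refine le_trans ?_ (ENNReal.le_tsum j)
      rw [Set.indicator_of_mem (by exact hmin)]
      exact ENNReal.ofReal_le_ofReal (rpow_le_rpow_of_nonpos (hρj (j + 1)) hj (by linarith))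
  calc ∫⁻ z in E, ENNReal.ofReal (r z ^ (1 - m)) ∂V
      ≤ ∫⁻ z in E, ((∑' j : ℕ, Set.indicator {z | r z < ρ / 2 ^ j}
        (fun _ => ENNReal.ofReal ((ρ / 2 ^ (j + 1)) ^ (1 - m))) z) +
        ENNReal.ofReal (ρ ^ (1 - m))) ∂V := lintegral_mono hpt
    _ = ∑' j : ℕ, ENNReal.ofReal ((ρ / 2 ^ (j + 1)) ^ (1 - m)) *
          (V.restrict E) {z | r z < ρ / 2 ^ j} + ENNReal.ofReal (ρ ^ (1 - m)) * V E := by
        rw [lintegral_add_right _ measurable_const, lintegral_tsum fun j =>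
          (measurable_const.indicator (hms _)).aemeasurable, lintegral_const,
          Measure.restrict_apply_univ]
        congr 1
        exact tsum_congr fun j => lintegral_indicator_const (hms _) _
    _ ≤ ∑' j : ℕ, ENNReal.ofReal ((ρ / 2 ^ (j + 1)) ^ (1 - m)) *
          ENNReal.ofReal (Λ * (ρ / 2 ^ j) ^ m) + ENNReal.ofReal (ρ ^ (1 - m)) * V E := by
        refine add_le_add (ENNReal.tsum_le_tsum fun j => ?_) le_rfl
        exact mul_le_mul' le_rfl ((Measure.restrict_apply_le _ _).trans (hgr _ (hρj j)))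
    _ = ∑' j : ℕ, ENNReal.ofReal (2 ^ (m - 1) * Λ * ρ * (1 / 2) ^ j) + ENNReal.ofReal ρ := by
        congr 1
        · refine tsum_congr fun j => ?_
          rw [← ENNReal.ofReal_mul (rpow_nonneg (hρj _).le _)]
          congr 1
          have h2j : (0 : ℝ) < 2 ^ j := by positivity
          have e1 : (ρ / 2 ^ (j + 1)) ^ (1 - m) = ρ ^ (1 - m) * (2 ^ j) ^ (m - 1) * 2 ^ (m - 1) := by
            rw [div_rpow hρ0.le (by positivity), pow_succ, mul_rpow h2j.le (by norm_num),
              show (1 : ℝ) - m = -(m - 1) by ring, rpow_neg h2j.le, rpow_neg (by norm_num : (0:ℝ) ≤ 2)]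
            field_simp
          have e2 : (ρ / 2 ^ j) ^ m = ρ ^ m / (2 ^ j) ^ m := div_rpow hρ0.le h2j.le m
          have e3 : ((2 : ℝ) ^ j) ^ (m - 1) = (2 ^ j) ^ m / 2 ^ j := rpow_sub_one h2j.ne' m
          have e4 : ρ ^ (1 - m) * ρ ^ m = ρ := by
            rw [← rpow_add hρ0, show (1 - m) + m = 1 by ring, rpow_one]
          have h2m : (0 : ℝ) < (2 ^ j) ^ m := rpow_pos_of_pos h2j _
          rw [e1, e2, e3, one_div, inv_pow]
          calc ρ ^ (1 - m) * ((2 ^ j) ^ m / 2 ^ j) * 2 ^ (m - 1) * (Λ * (ρ ^ m / (2 ^ j) ^ m))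
              = (ρ ^ (1 - m) * ρ ^ m) * 2 ^ (m - 1) * Λ * (2 ^ j)⁻¹ := by field_simp
            _ = _ := by rw [e4]; ring
        · rw [hVE, ← ENNReal.ofReal_mul (rpow_nonneg hρ0.le _)]
          congr 1
          rw [← hρm, ← rpow_add hρ0, show (1 - m) + m = 1 by ring, rpow_one]
    _ = ENNReal.ofReal (2 ^ m * Λ + 1) * V E ^ (1 / m) := by
        have hsum : Summable fun j : ℕ => 2 ^ (m - 1) * Λ * ρ * (1 / 2 : ℝ) ^ j :=
          summable_geometric_two.mul_left _
        rw [← ENNReal.ofReal_tsum_of_nonneg (fun j => by positivity) hsum, tsum_mul_left,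
          tsum_geometric_two, ← ENNReal.ofReal_add (by positivity) hρ0.le, hVE,
          ENNReal.ofReal_rpow_of_pos hvpos, ← hρ, ← ENNReal.ofReal_mul (by positivity)]
        congr 1
        have e5 : (2 : ℝ) ^ m = 2 ^ (m - 1) * 2 := by
          rw [← rpow_add_one (by norm_num), sub_add_cancel]
        rw [e5]
        ring

/-- The weak type inequality from a potential estimate. -/
theorem weak_of_potential {V : Measure Z} [IsFiniteMeasure V] {m C₂ C₃ : ℝ} (hm : 1 < m)
    (hC₂ : 0 ≤ C₂) (hC₃ : 0 ≤ C₃) {Φ g : Z → ℝ} (hΦm : Measurable Φ) (hΦ : ∀ z, 0 ≤ Φ z)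
    (hΦi : Integrable Φ V) (hgm : Measurable g) (hg : ∀ z, 0 ≤ g z) (hgi : Integrable g V)
    {K : Z → Z → ℝ≥0∞} (hKm : Measurable (Function.uncurry K))
    (hK : ∀ z, ∀ E, MeasurableSet E →
      ∫⁻ p in E, K p z ∂V ≤ ENNReal.ofReal C₃ * V E ^ (1 / m))
    (hP : ∀ᵐ p ∂V, ENNReal.ofReal (Φ p) ≤
      ∫⁻ z, K p z * ENNReal.ofReal (g z) ∂V + ENNReal.ofReal (C₂ * ∫ z, Φ z ∂V))
    {t : ℝ} (ht : 0 < t) :
    t * (V.real {z | t ≤ Φ z}) ^ ((m - 1) / m) ≤
      (C₃ + C₂ * V.real Set.univ ^ ((m - 1) / m)) * ∫ z, (g z + Φ z) ∂V := by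
  have hm0 : 0 < m := by linarith
  set E : Set Z := {z | t ≤ Φ z} with hEdef
  have hE : MeasurableSet E := measurableSet_le measurable_const hΦm
  set v : ℝ := V.real E with hv
  have hv0 : 0 ≤ v := measureReal_nonneg
  have hVE : V E = ENNReal.ofReal v := (ofReal_measureReal).symm
  have hI1 : 0 ≤ ∫ z, g z ∂V := integral_nonneg hg
  have hI2 : 0 ≤ ∫ z, Φ z ∂V := integral_nonneg hΦ
  have hsplit : ∫ z, (g z + Φ z) ∂V = ∫ z, g z ∂V + ∫ z, Φ z ∂V := integral_add hgi hΦi
  rcases hv0.eq_or_lt with h0 | hpos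
  · rw [← h0, zero_rpow (by have : 0 < (m - 1) / m := div_pos (by linarith) hm0
                            exact this.ne'), mul_zero]
    exact mul_nonneg (by positivity) (by rw [hsplit]; positivity)
  have h1 : ENNReal.ofReal t * V E ≤ ENNReal.ofReal C₃ * V E ^ (1 / m) *
      ENNReal.ofReal (∫ z, g z ∂V) + ENNReal.ofReal (C₂ * ∫ z, Φ z ∂V) * V E := by
    calc ENNReal.ofReal t * V E = ∫⁻ p in E, ENNReal.ofReal t ∂V := by
          rw [lintegral_const, Measure.restrict_apply_univ]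
      _ ≤ ∫⁻ p in E, ENNReal.ofReal (Φ p) ∂V :=
          setLIntegral_mono' hE fun p hp => ENNReal.ofReal_le_ofReal hp
      _ ≤ ∫⁻ p in E, (∫⁻ z, K p z * ENNReal.ofReal (g z) ∂V +
            ENNReal.ofReal (C₂ * ∫ z, Φ z ∂V)) ∂V :=
          lintegral_mono_ae (ae_restrict_of_ae hP)
      _ = ∫⁻ p in E, ∫⁻ z, K p z * ENNReal.ofReal (g z) ∂V ∂V +
            ENNReal.ofReal (C₂ * ∫ z, Φ z ∂V) * V E := by
          rw [lintegral_add_right _ measurable_const, lintegral_const,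
            Measure.restrict_apply_univ]
      _ = ∫⁻ z, ∫⁻ p in E, K p z * ENNReal.ofReal (g z) ∂V ∂V +
            ENNReal.ofReal (C₂ * ∫ z, Φ z ∂V) * V E := by
          rw [lintegral_lintegral_swap]
          exact (hKm.mul (hgm.ennreal_ofReal.comp measurable_snd)).aemeasurable
      _ ≤ ENNReal.ofReal C₃ * V E ^ (1 / m) * ENNReal.ofReal (∫ z, g z ∂V) +
            ENNReal.ofReal (C₂ * ∫ z, Φ z ∂V) * V E := by
          refine add_le_add ?_ le_rfl
          rw [ofReal_integral_eq_lintegral_ofReal hgi (Filter.Eventually.of_forall hg),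
            ← lintegral_const_mul _ hgm.ennreal_ofReal]
          refine lintegral_mono fun z => ?_
          rw [lintegral_mul_const _ (show Measurable fun p => K p z from
            hKm.comp (measurable_id.prodMk measurable_const))]
          exact mul_le_mul' (hK z E hE) le_rfl
  have h2 : t * v ≤ C₃ * v ^ (1 / m) * (∫ z, g z ∂V) + C₂ * (∫ z, Φ z ∂V) * v := by
    rw [hVE, ENNReal.ofReal_rpow_of_pos hpos, ← ENNReal.ofReal_mul ht.le,
      ← ENNReal.ofReal_mul hC₃, ← ENNReal.ofReal_mul (by positivity),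
      ← ENNReal.ofReal_mul (by positivity), ← ENNReal.ofReal_add (by positivity)
        (by positivity)] at h1
    exact (ENNReal.ofReal_le_ofReal_iff (by positivity)).1 h1
  have hvm : 0 < v ^ (1 / m) := rpow_pos_of_pos hpos _
  have hvv : v = v ^ ((m - 1) / m) * v ^ (1 / m) := by
    rw [← rpow_add hpos, show (m - 1) / m + 1 / m = 1 by field_simp; ring, rpow_one]
  have h3 : t * v ^ ((m - 1) / m) ≤ C₃ * (∫ z, g z ∂V) +
      C₂ * (∫ z, Φ z ∂V) * v ^ ((m - 1) / m) := by
    refine le_of_mul_le_mul_right ?_ hvm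
    calc t * v ^ ((m - 1) / m) * v ^ (1 / m) = t * v := by rw [mul_assoc, ← hvv]
      _ ≤ _ := h2
      _ = (C₃ * (∫ z, g z ∂V) + C₂ * (∫ z, Φ z ∂V) * v ^ ((m - 1) / m)) * v ^ (1 / m) := by
        nth_rewrite 2 [hvv]
        ring
  have h4 : v ^ ((m - 1) / m) ≤ V.real Set.univ ^ ((m - 1) / m) :=
    rpow_le_rpow hv0 (measureReal_mono (Set.subset_univ _)) (by
      have : 0 < (m - 1) / m := div_pos (by linarith) hm0
      exact this.le)
  have h5 : 0 ≤ V.real Set.univ ^ ((m - 1) / m) := rpow_nonneg measureReal_nonneg _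
  rw [hsplit]
  calc t * v ^ ((m - 1) / m) ≤ C₃ * (∫ z, g z ∂V) +
      C₂ * (∫ z, Φ z ∂V) * v ^ ((m - 1) / m) := h3
    _ ≤ C₃ * (∫ z, g z ∂V) + C₂ * (∫ z, Φ z ∂V) * V.real Set.univ ^ ((m - 1) / m) := by
      gcongr
    _ ≤ _ := by
      have h6 : 0 ≤ C₃ * ∫ z, Φ z ∂V := by positivity
      have h7 : 0 ≤ C₂ * V.real Set.univ ^ ((m - 1) / m) * ∫ z, g z ∂V := by positivity
      nlinarith [h6, h7]

end Vale.Agent.P219.End.WS
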