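import Vale.Agent.P219.End.Bub
import Vale.Agent.P219.End.WeakPot

/-!
# P219 / End : averages of the truncated kernel over balls (B3f)
-/

open MeasureTheory Set Metric
open scoped ENNReal ContDiff Topology

namespace Vale.Agent.P219.End.Lim

variable {n : ℕ} (L : Lim n)

/-- a bound for `F` on `K × K` -/
theorem kav_bound : ∃ M : ℝ, 0 ≤ M ∧ ∀ c ∈ L.K, ∀ x ∈ L.K, L.F c x ≤ M := by
  obtain ⟨C, hC⟩ := (L.K_compact.prod L.K_compact).exists_bound_of_continuousOn
    (f := fun z : E n × E n => L.F z.1 z.2) L.F_smooth.continuous.continuousOn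
  refine ⟨max C 0, le_max_right _ _, fun c hc x hx => ?_⟩
  exact ((le_abs_self _).trans (hC (c, x) ⟨hc, hx⟩)).trans (le_max_left _ _)

/-- quasi-metric -/
theorem kav_tri : ∃ C : ℝ, 1 ≤ C ∧ ∀ c ∈ L.K, ∀ x ∈ L.K, ∀ y ∈ L.K,
    L.ds c x ≤ C * (L.ds c y + L.ds y x) := by
  obtain ⟨M, hM0, hM⟩ := L.kav_bound
  have hk := L.k2_nonneg
  refine ⟨√(1 + L.k2 * M / 2), ?_, ?_⟩
  · rw [Real.one_le_sqrt]
    have := mul_nonneg hk hM0
    linarith
  intro c hc x _ y hy
  rename_i hx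
  have h := L.tri c y x
  have e : ∀ a b, L.ds a b = √2 * √(L.F a b) := fun a b => by
    rw [ds, Real.sqrt_mul (by norm_num)]
  have h1 : √(1 + L.k2 * L.F c y / 2) ≤ √(1 + L.k2 * M / 2) := by
    apply Real.sqrt_le_sqrt
    have := mul_le_mul_of_nonneg_left (hM c hc y hy) hk
    linarith
  have h2 : √(1 + L.k2 * L.F y x / 2) ≤ √(1 + L.k2 * M / 2) := by
    apply Real.sqrt_le_sqrt
    have := mul_le_mul_of_nonneg_left (hM y hy x hx) hk
    linarith
  rw [e, e, e]
  have a1 := mul_le_mul_of_nonneg_left h1 (Real.sqrt_nonneg (L.F y x))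
  have a2 := mul_le_mul_of_nonneg_right h2 (Real.sqrt_nonneg (L.F c y))
  have a3 := mul_le_mul_of_nonneg_left (h.trans (add_le_add a1 a2)) (Real.sqrt_nonneg 2)
  calc √2 * √(L.F c x) ≤ _ := a3
    _ = _ := by ring

theorem kav_ds_comm (a b : E n) : L.ds a b = L.ds b a := by
  rw [ds, ds, L.F_comm]

theorem kav_ds_nonneg (a b : E n) : 0 ≤ L.ds a b := Real.sqrt_nonneg _

theorem kav_ds_cont (x : E n) : Continuous fun z : E n × E n => L.ds z.1 x := by
  have h : Continuous fun z : E n × E n => L.F z.1 x :=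
    L.F_smooth.continuous.comp (continuous_fst.prodMk continuous_const)
  exact (h.const_mul 2).sqrt

theorem kav_ds_cont' (x : E n) : Continuous fun z : E n × E n => L.ds x z.1 := by
  have h : Continuous fun z : E n × E n => L.F x z.1 :=
    L.F_smooth.continuous.comp (continuous_const.prodMk continuous_fst)
  exact (h.const_mul 2).sqrt

/-- lower bound of the bubble -/
theorem kav_ws {s : ℝ} (hs : L.Ad s) (c x : E n) : s / (s ^ 2 + L.ds c x ^ 2) ≤ L.ws c s x := by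
  obtain ⟨h0, h1, h2⟩ := hs
  have hF := L.F_nonneg c x
  have hd : L.ds c x ^ 2 = 2 * L.F c x := by rw [ds, Real.sq_sqrt (by linarith)]
  have hw : L.ws c s x = √(s ^ 2 / 2 * (2 - L.k2 * (s ^ 2 / 2))) / (L.F c x + s ^ 2 / 2) := rfl
  have hsq : s / 2 ≤ √(s ^ 2 / 2 * (2 - L.k2 * (s ^ 2 / 2))) := by
    apply Real.le_sqrt_of_sq_le
    have h3 : 0 ≤ s ^ 2 * (1 - L.k2 * s ^ 2) := mul_nonneg (sq_nonneg s) (by linarith)
    have h4 : s ^ 2 / 2 * (2 - L.k2 * (s ^ 2 / 2)) - (s / 2) ^ 2 =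
      s ^ 2 * (1 - L.k2 * s ^ 2) / 4 + s ^ 2 / 2 := by ring
    have h5 : 0 ≤ s ^ 2 := sq_nonneg s
    linarith
  rw [hw, hd, div_le_div_iff₀ (by positivity) (by positivity)]
  have h6 := mul_le_mul_of_nonneg_right hsq (show 0 ≤ s ^ 2 + 2 * L.F c x by positivity)
  linarith [show s * (L.F c x + s ^ 2 / 2) = s / 2 * (s ^ 2 + 2 * L.F c x) by ring]

/-- `s^m q^(m-j)` if `q ≥ 1 / (s A)` -/
theorem kav_low {m j s A q : ℝ} (hs : 0 < s) (hA : 0 < A) (hj : j ≤ m)
    (hq : 1 / (s * A) ≤ q) : s ^ j * A ^ (-(m - j)) ≤ s ^ m * q ^ (m - j) := by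
  have h0 : 0 < s * A := mul_pos hs hA
  have h1 : (1 / (s * A)) ^ (m - j) ≤ q ^ (m - j) :=
    Real.rpow_le_rpow (by positivity) hq (by linarith)
  have h2 : (1 / (s * A)) ^ (m - j) = s ^ (-(m - j)) * A ^ (-(m - j)) := by
    rw [one_div, Real.inv_rpow h0.le, ← Real.rpow_neg h0.le, Real.mul_rpow hs.le hA.le]
  have h3 : s ^ m * s ^ (-(m - j)) = s ^ j := by
    rw [← Real.rpow_add hs]
    congr 1
    ring
  calc s ^ j * A ^ (-(m - j)) = s ^ m * (1 / (s * A)) ^ (m - j) := by rw [h2, ← mul_assoc, h3]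
    _ ≤ _ := mul_le_mul_of_nonneg_left h1 (Real.rpow_nonneg hs.le _)

/-- the kernel is at most `d^(1-m)` -/
theorem kav_kS_le {S d : ℝ} (hS : 0 < S) (hd : 0 ≤ d) : L.kS S d ≤ d ^ (1 - L.m) := by
  have h1 : (S / (S + d)) ^ L.m ≤ 1 := by
    apply Real.rpow_le_one (by positivity)
    · rw [div_le_one (by positivity)]
      linarith
    · linarith [L.three_le]
  calc (S / (S + d)) ^ L.m * d ^ (1 - L.m) ≤ 1 * d ^ (1 - L.m) :=
        mul_le_mul_of_nonneg_right h1 (Real.rpow_nonneg hd _)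
    _ = _ := one_mul _

theorem kav_kS_nonneg {S d : ℝ} (hS : 0 < S) (hd : 0 ≤ d) : 0 ≤ L.kS S d :=
  mul_nonneg (Real.rpow_nonneg (by positivity) _) (Real.rpow_nonneg hd _)

/-- bound of the kernel away from zero -/
theorem kav_far {S d d₀ j : ℝ} (hS : 0 < S) (h0 : 0 < d₀) (hd : d₀ ≤ d) (hj : j ≤ L.m) :
    d ^ (j - 1) * L.kS S d ≤ (S / d₀) ^ L.m * d₀ ^ (j - L.m) := by
  have hdp : 0 < d := lt_of_lt_of_le h0 hd
  have h1 : (S / (S + d)) ^ L.m ≤ (S / d₀) ^ L.m := by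
    apply Real.rpow_le_rpow (by positivity) _ (by linarith [L.three_le])
    exact div_le_div_of_nonneg_left hS.le h0 (by linarith)
  have h2 : d ^ (j - L.m) ≤ d₀ ^ (j - L.m) :=
    Real.rpow_le_rpow_of_nonpos h0 hd (by linarith)
  calc d ^ (j - 1) * L.kS S d = (S / (S + d)) ^ L.m * (d ^ (j - 1) * d ^ (1 - L.m)) := by
        rw [kS]; ring
    _ = (S / (S + d)) ^ L.m * d ^ (j - L.m) := by
        rw [← Real.rpow_add hdp]
        congr 2
        ring
    _ ≤ _ := mul_le_mul h1 h2 (Real.rpow_nonneg hdp.le _) (Real.rpow_nonneg (by positivity) _)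

theorem kav_of_lintegral {E' : Set (E n × E n)} {f : E n × E n → ℝ} (hf : Measurable f)
    (h0 : ∀ z, 0 ≤ f z) {B : ℝ} (hB : 0 ≤ B)
    (h : ∫⁻ z in E', ENNReal.ofReal (f z) ∂L.V ≤ ENNReal.ofReal B) : ∫ z in E', f z ∂L.V ≤ B := by
  rw [integral_eq_lintegral_of_nonneg_ae (Filter.Eventually.of_forall h0) hf.aestronglyMeasurable]
  exact ENNReal.toReal_le_of_le_ofReal hB h

theorem kav_main {Cu : ℝ} (hCu : 0 < Cu)
    (hud : ∀ c ∈ L.K, ∀ s : ℝ, 0 < s → L.V.real {z | L.ds c z.1 ≤ s} ≤ Cu * s ^ L.m)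
    {N Λ : ℝ} (hN : 1 ≤ N) (hΛ : 1 ≤ Λ) {j : ℝ} (hj1 : 1 ≤ j) (hj2 : j ≤ 2) :
    ∃ C > 0, ∀ c ∈ L.K, ∀ s : ℝ, 0 < s → L.Ad (Λ * s) → ∀ x ∈ L.K,
      ∫ z in {z | L.ds c z.1 ≤ N * s}, L.ds z.1 x ^ (j - 1) * L.kS (Λ * s) (L.ds z.1 x) ∂L.V
        ≤ C * (s ^ L.m * L.ws c s x ^ (L.m - j)) := by
  obtain ⟨Ct, hCt, htri⟩ := L.kav_tri
  have hm := L.three_le
  have hmp : 0 < L.m := by linarith
  have hVf := L.V_fin
  set m := L.m with hmdef
  set A₁ : ℝ := 1 + 4 * Ct ^ 2 * N ^ 2 with hA₁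
  set C₁ : ℝ := (3 * Ct ^ 2 * N) ^ (j - 1) * ((2 ^ m * Cu + 1) * (Cu ^ (1 / m) * N)) with hC₁
  set C₂ : ℝ := (2 * Λ * Ct) ^ m * (2 * Ct) ^ (m - j) * (Cu * N ^ m) with hC₂
  have hC₁p : 0 < C₁ := by positivity
  have hC₂p : 0 < C₂ := by positivity
  refine ⟨C₁ * A₁ ^ (m - j) + C₂ * 2 ^ (m - j), by positivity, fun c hc s hs hAd x hx => ?_⟩
  have hAds : L.Ad s := by
    obtain ⟨h0, h1, h2⟩ := hAd
    have h3 : s ≤ Λ * s := le_mul_of_one_le_left hs.le hΛ
    refine ⟨hs, h3.trans h1, le_trans ?_ h2⟩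
    exact mul_le_mul_of_nonneg_left (pow_le_pow_left₀ hs.le h3 2) L.k2_nonneg
  have hS : 0 < Λ * s := hAd.1
  set E' : Set (E n × E n) := {z | L.ds c z.1 ≤ N * s} with hE'
  have hE'm : MeasurableSet E' := measurableSet_le (L.kav_ds_cont' c).measurable measurable_const
  set D := L.ds c x with hD
  have hD0 : 0 ≤ D := L.kav_ds_nonneg c x
  have hws := L.kav_ws hAds c x
  have hVE : L.V E' ≤ ENNReal.ofReal (Cu * (N * s) ^ m) := by
    rw [← ENNReal.ofReal_toReal (measure_ne_top L.V E')]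
    exact ENNReal.ofReal_le_ofReal (hud c hc (N * s) (by positivity))
  have hfm : Measurable fun z : E n × E n =>
      L.ds z.1 x ^ (j - 1) * L.kS (Λ * s) (L.ds z.1 x) := by
    have h1 := (L.kav_ds_cont x).measurable
    unfold kS
    exact (h1.pow_const _).mul (((measurable_const.div (measurable_const.add h1)).pow_const _).mul
      (h1.pow_const _))
  have hf0 : ∀ z : E n × E n, 0 ≤ L.ds z.1 x ^ (j - 1) * L.kS (Λ * s) (L.ds z.1 x) := fun z =>
    mul_nonneg (Real.rpow_nonneg (L.kav_ds_nonneg _ _) _)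
      (L.kav_kS_nonneg hS (L.kav_ds_nonneg _ _))
  rcases le_or_gt D (2 * Ct * N * s) with hnear | hfar
  · -- near case
    have hq : 1 / (s * A₁) ≤ L.ws c s x := by
      refine le_trans ?_ hws
      rw [div_le_div_iff₀ (by positivity) (by positivity)]
      have h1 : D ^ 2 ≤ (2 * Ct * N * s) ^ 2 := pow_le_pow_left₀ hD0 hnear 2
      have h2 : s * (s * A₁) = s ^ 2 + (2 * Ct * N * s) ^ 2 := by rw [hA₁]; ring
      rw [h2]
      linarith
    have hlow := kav_low (m := m) (j := j) hs (by positivity : 0 < A₁) (by linarith) hq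
    have hI : ∫ z in E', L.ds z.1 x ^ (j - 1) * L.kS (Λ * s) (L.ds z.1 x) ∂L.V ≤ C₁ * s ^ j := by
      apply L.kav_of_lintegral hfm hf0 (by positivity)
      have hgr : ∀ ρ > 0, L.V {z : E n × E n | L.ds z.1 x < ρ} ≤ ENNReal.ofReal (Cu * ρ ^ m) := by
        intro ρ hρ
        have h1 : {z : E n × E n | L.ds z.1 x < ρ} ⊆ {z | L.ds x z.1 ≤ ρ} := by
          intro z hz
          have hz' : L.ds z.1 x < ρ := hz
          show L.ds x z.1 ≤ ρ
          rw [L.kav_ds_comm]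
          exact hz'.le
        refine (measure_mono h1).trans ?_
        rw [← ENNReal.ofReal_toReal (measure_ne_top L.V {z | L.ds x z.1 ≤ ρ})]
        exact ENNReal.ofReal_le_ofReal (hud x hx ρ hρ)
      have hG := WS.lintegral_rpow_le_of_growth (V := L.V) (m := m) (Λ := Cu) (by linarith) hCu.le
        (L.kav_ds_cont x).measurable (fun z => L.kav_ds_nonneg _ _) hgr
        (E := E') (measure_ne_top _ _)
      have hVE2 : L.V E' ^ (1 / m) ≤ ENNReal.ofReal (Cu ^ (1 / m) * (N * s)) := by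
        refine (ENNReal.rpow_le_rpow hVE (by positivity)).trans ?_
        rw [ENNReal.ofReal_rpow_of_pos (by positivity)]
        apply ENNReal.ofReal_le_ofReal
        rw [Real.mul_rpow hCu.le (by positivity), ← Real.rpow_mul (by positivity),
          mul_one_div_cancel hmp.ne', Real.rpow_one]
      have hZ0 : 0 < 3 * Ct ^ 2 * N * s := by positivity
      calc ∫⁻ z in E', ENNReal.ofReal (L.ds z.1 x ^ (j - 1) * L.kS (Λ * s) (L.ds z.1 x)) ∂L.V
          ≤ ∫⁻ z in E', ENNReal.ofReal ((3 * Ct ^ 2 * N * s) ^ (j - 1)) *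
              ENNReal.ofReal (L.ds z.1 x ^ (1 - m)) ∂L.V := by
            apply lintegral_mono_ae
            rw [ae_restrict_iff' hE'm]
            filter_upwards [L.V_supp] with z hz hzE
            rw [← ENNReal.ofReal_mul (Real.rpow_nonneg hZ0.le _)]
            apply ENNReal.ofReal_le_ofReal
            have hdz := L.kav_ds_nonneg z.1 x
            have h1 : L.ds z.1 x ≤ 3 * Ct ^ 2 * N * s := by
              have h2 := htri z.1 hz.1 x hx c hc
              have h3 : L.ds z.1 c ≤ N * s := by rw [L.kav_ds_comm]; exact hzE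
              have h4 : L.ds z.1 x ≤ Ct * (N * s + 2 * Ct * N * s) :=
                h2.trans (mul_le_mul_of_nonneg_left (add_le_add h3 hnear) (by linarith))
              have h5 : N * s ≤ Ct * (N * s) := le_mul_of_one_le_left (by positivity) hCt
              have h6 : Ct * (N * s + 2 * Ct * N * s) ≤ Ct * (Ct * (N * s) + 2 * Ct * N * s) :=
                mul_le_mul_of_nonneg_left (by linarith) (by linarith)
              calc L.ds z.1 x ≤ _ := h4
                _ ≤ _ := h6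
                _ = _ := by ring
            exact mul_le_mul (Real.rpow_le_rpow hdz h1 (by linarith)) (L.kav_kS_le hS hdz)
              (L.kav_kS_nonneg hS hdz) (Real.rpow_nonneg hZ0.le _)
        _ = ENNReal.ofReal ((3 * Ct ^ 2 * N * s) ^ (j - 1)) *
              ∫⁻ z in E', ENNReal.ofReal (L.ds z.1 x ^ (1 - m)) ∂L.V := by
            rw [lintegral_const_mul' _ _ ENNReal.ofReal_ne_top]
        _ ≤ ENNReal.ofReal ((3 * Ct ^ 2 * N * s) ^ (j - 1)) *
              (ENNReal.ofReal (2 ^ m * Cu + 1) * ENNReal.ofReal (Cu ^ (1 / m) * (N * s))) :=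
            mul_le_mul' le_rfl (hG.trans (mul_le_mul' le_rfl hVE2))
        _ = ENNReal.ofReal (C₁ * s ^ j) := by
            rw [← ENNReal.ofReal_mul (by positivity), ← ENNReal.ofReal_mul (by positivity)]
            congr 1
            rw [Real.mul_rpow (by positivity) hs.le, hC₁]
            have h7 : s ^ j = s ^ (j - 1) * s := by
              rw [← Real.rpow_add_one hs.ne', sub_add_cancel]
            rw [h7]
            ring
    have h8 : C₁ * s ^ j = C₁ * A₁ ^ (m - j) * (s ^ j * A₁ ^ (-(m - j))) := by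
      have h9 : A₁ ^ (m - j) * A₁ ^ (-(m - j)) = 1 := by
        rw [← Real.rpow_add (by positivity), add_neg_cancel, Real.rpow_zero]
      calc C₁ * s ^ j = C₁ * s ^ j * (A₁ ^ (m - j) * A₁ ^ (-(m - j))) := by rw [h9, mul_one]
        _ = _ := by ring
    calc _ ≤ C₁ * s ^ j := hI
      _ = C₁ * A₁ ^ (m - j) * (s ^ j * A₁ ^ (-(m - j))) := h8
      _ ≤ C₁ * A₁ ^ (m - j) * (s ^ m * L.ws c s x ^ (m - j)) :=
          mul_le_mul_of_nonneg_left hlow (by positivity)
      _ ≤ _ := by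
          apply mul_le_mul_of_nonneg_right
          · have : 0 ≤ C₂ * 2 ^ (m - j) := by positivity
            linarith
          · have hwp : 0 ≤ L.ws c s x := le_trans (by positivity) hq
            positivity
  · -- far case
    have hρ : ∃ ρ : ℝ, D = s * ρ ∧ 2 * Ct * N < ρ := by
      refine ⟨D / s, by field_simp, ?_⟩
      rw [lt_div_iff₀ hs]
      exact hfar
    obtain ⟨ρ, hDρ, hρ1⟩ := hρ
    have hCtN : 1 ≤ Ct * N := one_le_mul_of_one_le_of_one_le hCt hN
    have hρ2 : 1 ≤ ρ := by linarith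
    have hρ0 : 0 < ρ := by linarith
    have hq : 1 / (s * (2 * ρ ^ 2)) ≤ L.ws c s x := by
      refine le_trans ?_ hws
      rw [← hD, hDρ, div_le_div_iff₀ (by positivity) (by positivity)]
      have h1 : (1 : ℝ) ≤ ρ ^ 2 := one_le_pow₀ hρ2
      have h2 : s ^ 2 ≤ s ^ 2 * ρ ^ 2 := le_mul_of_one_le_right (sq_nonneg s) h1
      have h3 : s * (s * (2 * ρ ^ 2)) = s ^ 2 * ρ ^ 2 + s ^ 2 * ρ ^ 2 := by ring
      rw [h3]
      linarith [show (s * ρ) ^ 2 = s ^ 2 * ρ ^ 2 by ring]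
    have hlow := kav_low (m := m) (j := j) hs (by positivity : 0 < 2 * ρ ^ 2) (by linarith) hq
    set d₀ : ℝ := s * ρ / (2 * Ct) with hd₀
    have hd₀p : 0 < d₀ := by positivity
    have hI : ∫ z in E', L.ds z.1 x ^ (j - 1) * L.kS (Λ * s) (L.ds z.1 x) ∂L.V ≤
        (Λ * s / d₀) ^ m * d₀ ^ (j - m) * (Cu * (N * s) ^ m) := by
      apply L.kav_of_lintegral hfm hf0 (by positivity)
      calc ∫⁻ z in E', ENNReal.ofReal (L.ds z.1 x ^ (j - 1) * L.kS (Λ * s) (L.ds z.1 x)) ∂L.V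
          ≤ ∫⁻ _z in E', ENNReal.ofReal ((Λ * s / d₀) ^ m * d₀ ^ (j - m)) ∂L.V := by
            apply lintegral_mono_ae
            rw [ae_restrict_iff' hE'm]
            filter_upwards [L.V_supp] with z hz hzE
            apply ENNReal.ofReal_le_ofReal
            apply L.kav_far hS hd₀p _ (by linarith)
            have h2 := htri c hc x hx z.1 hz.1
            have h3 : L.ds c z.1 ≤ N * s := hzE
            have h4 : s * ρ ≤ Ct * (N * s + L.ds z.1 x) := by
              rw [← hDρ]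
              exact h2.trans (mul_le_mul_of_nonneg_left (by linarith) (by linarith))
            have h5 : 2 * Ct * N * s ≤ ρ * s := mul_le_mul_of_nonneg_right hρ1.le hs.le
            rw [hd₀, div_le_iff₀ (by positivity)]
            linarith [show Ct * (N * s + L.ds z.1 x) = 2 * Ct * N * s / 2 +
              L.ds z.1 x * (2 * Ct) / 2 by ring]
        _ = ENNReal.ofReal ((Λ * s / d₀) ^ m * d₀ ^ (j - m)) * L.V E' := by
            rw [lintegral_const, Measure.restrict_apply_univ]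
        _ ≤ ENNReal.ofReal ((Λ * s / d₀) ^ m * d₀ ^ (j - m)) *
              ENNReal.ofReal (Cu * (N * s) ^ m) := mul_le_mul' le_rfl hVE
        _ = _ := by rw [← ENNReal.ofReal_mul (by positivity)]
    have hval : (Λ * s / d₀) ^ m * d₀ ^ (j - m) * (Cu * (N * s) ^ m) =
        C₂ * (s ^ j * ρ ^ (j - 2 * m)) := by
      have e1 : Λ * s / d₀ = 2 * Λ * Ct / ρ := by
        rw [hd₀]
        field_simp
      have e2 : (2 * Λ * Ct / ρ) ^ m = (2 * Λ * Ct) ^ m * ρ ^ (-m) := by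
        rw [Real.div_rpow (by positivity) hρ0.le, Real.rpow_neg hρ0.le, div_eq_mul_inv]
      have e3 : d₀ ^ (j - m) = s ^ (j - m) * ρ ^ (j - m) * (2 * Ct) ^ (m - j) := by
        rw [hd₀, Real.div_rpow (by positivity) (by positivity), Real.mul_rpow hs.le hρ0.le,
          div_eq_mul_inv, ← Real.rpow_neg (by positivity), neg_sub]
      have e4 : (N * s) ^ m = N ^ m * s ^ m := Real.mul_rpow (by positivity) hs.le
      have e5 : s ^ j = s ^ (j - m) * s ^ m := by
        rw [← Real.rpow_add hs, sub_add_cancel]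
      have e6 : ρ ^ (j - 2 * m) = ρ ^ (-m) * ρ ^ (j - m) := by
        rw [← Real.rpow_add hρ0]
        congr 1
        ring
      rw [e1, e2, e3, e4, e5, e6, hC₂]
      ring
    have hcmp : s ^ j * ρ ^ (j - 2 * m) ≤ 2 ^ (m - j) * (s ^ j * (2 * ρ ^ 2) ^ (-(m - j))) := by
      have e1 : (2 * ρ ^ 2 : ℝ) ^ (-(m - j)) = 2 ^ (-(m - j)) * ρ ^ (2 * (j - m)) := by
        rw [Real.mul_rpow (by norm_num) (by positivity), ← Real.rpow_natCast ρ 2,
          ← Real.rpow_mul hρ0.le]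
        congr 2
        push_cast
        ring
      have e2 : (2 : ℝ) ^ (m - j) * 2 ^ (-(m - j)) = 1 := by
        rw [← Real.rpow_add (by norm_num), add_neg_cancel, Real.rpow_zero]
      have e3 : ρ ^ (j - 2 * m) ≤ ρ ^ (2 * (j - m)) :=
        Real.rpow_le_rpow_of_exponent_le hρ2 (by linarith)
      rw [e1]
      calc s ^ j * ρ ^ (j - 2 * m) ≤ s ^ j * ρ ^ (2 * (j - m)) :=
            mul_le_mul_of_nonneg_left e3 (Real.rpow_nonneg hs.le _)
        _ = ((2 : ℝ) ^ (m - j) * 2 ^ (-(m - j))) * (s ^ j * ρ ^ (2 * (j - m))) := by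
            rw [e2, one_mul]
        _ = _ := by ring
    calc _ ≤ _ := hI
      _ = C₂ * (s ^ j * ρ ^ (j - 2 * m)) := hval
      _ ≤ C₂ * (2 ^ (m - j) * (s ^ j * (2 * ρ ^ 2) ^ (-(m - j)))) :=
          mul_le_mul_of_nonneg_left hcmp hC₂p.le
      _ ≤ C₂ * (2 ^ (m - j) * (s ^ m * L.ws c s x ^ (m - j))) := by
          apply mul_le_mul_of_nonneg_left _ hC₂p.le
          exact mul_le_mul_of_nonneg_left hlow (by positivity)
      _ = C₂ * 2 ^ (m - j) * (s ^ m * L.ws c s x ^ (m - j)) := by ring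
      _ ≤ _ := by
          apply mul_le_mul_of_nonneg_right
          · have : 0 ≤ C₁ * A₁ ^ (m - j) := by positivity
            linarith
          · have hwp : 0 ≤ L.ws c s x := le_trans (by positivity) hq
            positivity

/-- B3f average of the kernel -/
theorem kS_avg
    (hud : ∃ C > 0, (∀ c ∈ L.K, ∀ s : ℝ, 0 < s →
      L.V.real {z | L.ds c z.1 ≤ s} ≤ C * s ^ L.m) ∧
      ∀ c ∈ L.K, ∀ s : ℝ, L.Ad s → ∫ z, L.ws c s z.1 ^ L.m ∂L.V ≤ C)
    (N Λ : ℝ) (hN : 1 ≤ N) (hΛ : 1 ≤ Λ) : ∃ C > 0, ∀ c ∈ L.K, ∀ s : ℝ, 0 < s →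
    L.Ad (Λ * s) → ∀ x ∈ L.K,
    (∫ z in {z | L.ds c z.1 ≤ N * s}, L.kS (Λ * s) (L.ds z.1 x) ∂L.V
      ≤ C * s ^ L.m * L.ws c s x ^ (L.m - 1)) ∧
    ∫ z in {z | L.ds c z.1 ≤ N * s}, L.ds z.1 x * L.kS (Λ * s) (L.ds z.1 x) ∂L.V
      ≤ C * s ^ L.m * L.ws c s x ^ (L.m - 2) := by
  obtain ⟨Cu, hCu, hud, -⟩ := hud
  obtain ⟨C₁, hC₁, h1⟩ := L.kav_main hCu hud hN hΛ (j := 1) le_rfl (by norm_num)
  obtain ⟨C₂, hC₂, h2⟩ := L.kav_main hCu hud hN hΛ (j := 2) (by norm_num) le_rfl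
  refine ⟨max C₁ C₂, lt_max_of_lt_left hC₁, fun c hc s hs hAd x hx => ?_⟩
  have hAds : L.Ad s := by
    obtain ⟨h0, h1, h2⟩ := hAd
    have h3 : s ≤ Λ * s := le_mul_of_one_le_left hs.le hΛ
    refine ⟨hs, h3.trans h1, le_trans ?_ h2⟩
    exact mul_le_mul_of_nonneg_left (pow_le_pow_left₀ hs.le h3 2) L.k2_nonneg
  have hw : 0 ≤ L.ws c s x := le_trans (by positivity) (L.kav_ws hAds c x)
  constructor
  · have h := h1 c hc s hs hAd x hx
    simp only [sub_self, Real.rpow_zero, one_mul] at h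
    refine h.trans ?_
    rw [mul_assoc]
    exact mul_le_mul_of_nonneg_right (le_max_left _ _) (by positivity)
  · have h := h2 c hc s hs hAd x hx
    simp only [show (2 : ℝ) - 1 = 1 by norm_num, Real.rpow_one] at h
    refine h.trans ?_
    rw [mul_assoc]
    exact mul_le_mul_of_nonneg_right (le_max_right _ _) (by positivity)

end Vale.Agent.P219.End.Lim
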