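import Mathlib

/-! # P219 / End : integrals of antitone radial kernels against a measure of growth `m` -/

open MeasureTheory Set Filter
open scoped ENNReal Topology

namespace Vale.Agent.P219.End.Cake

variable {X : Type*} [MeasurableSpace X]

/-- Growth of order `m` with constant `C` for the function `r`. -/
structure Gr (μ : Measure X) (r : X → ℝ) (C m : ℝ) : Prop where
  meas : Measurable r
  nonneg : ∀ x, 0 ≤ r x
  const : 0 ≤ C
  growth : ∀ t : ℝ, 0 < t → μ {x | r x ≤ t} ≤ ENNReal.ofReal (C * t ^ m)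

/-- The comparison measure on the line. -/
noncomputable def nu (C m : ℝ) : Measure ℝ :=
  (volume.restrict (Ioi 0)).withDensity fun t => ENNReal.ofReal (C * m * t ^ (m - 1))

theorem lint_pow {C T m : ℝ} (hC : 0 ≤ C) (hm : 1 ≤ m) (hT : 0 ≤ T) :
    ∫⁻ t in Ioc 0 T, ENNReal.ofReal (C * m * t ^ (m - 1)) = ENNReal.ofReal (C * T ^ m) := by
  rw [← ofReal_integral_eq_lintegral_ofReal]
  · rw [← intervalIntegral.integral_of_le hT, intervalIntegral.integral_const_mul,
      integral_rpow (Or.inl (by linarith)), sub_add_cancel, Real.zero_rpow (by linarith)]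
    congr 1
    field_simp
    ring
  · exact ((intervalIntegral.intervalIntegrable_rpow' (by linarith)).const_mul _).1
  · refine (ae_restrict_iff' measurableSet_Ioc).2 (ae_of_all _ fun t ht => ?_)
    have := ht.1.le
    show (0 : ℝ) ≤ C * m * t ^ (m - 1)
    positivity

theorem nu_Ioc {C T m : ℝ} (hC : 0 ≤ C) (hm : 1 ≤ m) (hT : 0 ≤ T) :
    nu C m (Ioc 0 T) = ENNReal.ofReal (C * T ^ m) := by
  rw [nu, withDensity_apply _ measurableSet_Ioc, Measure.restrict_restrict measurableSet_Ioc,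
    inter_eq_left.2 (fun t ht => ht.1), lint_pow hC hm hT]

/-- Lower sets of the half line. -/
theorem lower_le {μ : Measure X} {r : X → ℝ} {C m : ℝ} (h : Gr μ r C m) (hm : 1 ≤ m)
    {L : Set ℝ} (hL : L ⊆ Ioi 0) (hlow : ∀ a ∈ L, Ioc 0 a ⊆ L) :
    μ (r ⁻¹' L) ≤ nu C m L := by
  classical
  by_cases hne : L.Nonempty
  swap
  · rw [not_nonempty_iff_eq_empty.1 hne]; simp
  have key : ∀ a ∈ L, μ (r ⁻¹' Ioc 0 a) ≤ nu C m L := by
    intro a ha
    have h0 : 0 < a := hL ha
    calc μ (r ⁻¹' Ioc 0 a) ≤ μ {x | r x ≤ a} := measure_mono fun x hx => hx.2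
      _ ≤ ENNReal.ofReal (C * a ^ m) := h.growth a h0
      _ = nu C m (Ioc 0 a) := (nu_Ioc h.const hm h0.le).symm
      _ ≤ nu C m L := measure_mono (hlow a ha)
  by_cases hbd : BddAbove L
  · by_cases hmax : sSup L ∈ L
    · have : r ⁻¹' L ⊆ r ⁻¹' Ioc 0 (sSup L) := fun x hx => ⟨hL hx, le_csSup hbd hx⟩
      exact (measure_mono this).trans (key _ hmax)
    · obtain ⟨u, hu, hlim, huL⟩ := exists_seq_tendsto_sSup hne hbd
      have hsub : r ⁻¹' L ⊆ ⋃ k, r ⁻¹' Ioc 0 (u k) := by
        intro x hx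
        have hlt : r x < sSup L := lt_of_le_of_ne (le_csSup hbd hx) fun he => hmax (he ▸ hx)
        obtain ⟨k, hk⟩ := ((hlim.eventually (lt_mem_nhds hlt))).exists
        exact mem_iUnion.2 ⟨k, hL hx, hk.le⟩
      have hmono : Monotone fun k => r ⁻¹' Ioc 0 (u k) :=
        fun i j hij x hx => ⟨hx.1, hx.2.trans (hu hij)⟩
      refine (measure_mono hsub).trans ?_
      rw [hmono.measure_iUnion]
      exact iSup_le fun k => key _ (huL k)
  · have hsub : r ⁻¹' L ⊆ ⋃ k : ℕ, r ⁻¹' Ioc 0 (k : ℝ) := by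
      intro x hx
      obtain ⟨k, hk⟩ := exists_nat_ge (r x)
      exact mem_iUnion.2 ⟨k, hL hx, hk⟩
    have hmono : Monotone fun k : ℕ => r ⁻¹' Ioc 0 (k : ℝ) :=
      fun i j hij x hx => ⟨hx.1, hx.2.trans (by exact_mod_cast hij)⟩
    refine (measure_mono hsub).trans ?_
    rw [hmono.measure_iUnion]
    refine iSup_le fun k => ?_
    obtain ⟨a, ha, hka⟩ := not_bddAbove_iff.1 hbd k
    have hs : r ⁻¹' Ioc 0 (k : ℝ) ⊆ r ⁻¹' Ioc 0 a := fun x hx => ⟨hx.1, hx.2.trans hka.le⟩
    exact (measure_mono hs).trans (key a ha)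

theorem ae_pos {μ : Measure X} {r : X → ℝ} {C m : ℝ} (h : Gr μ r C m) (hm : 1 ≤ m) :
    ∀ᵐ x ∂μ, 0 < r x := by
  have h0 : μ {x | r x ≤ 0} = 0 := by
    have hle : ∀ t : ℝ, 0 < t → μ {x | r x ≤ 0} ≤ ENNReal.ofReal (C * t ^ m) := fun t ht =>
      (measure_mono fun x (hx : r x ≤ 0) => (show r x ≤ t from hx.trans ht.le)).trans
        (h.growth t ht)
    have hlim : Tendsto (fun t : ℝ => ENNReal.ofReal (C * t ^ m)) (𝓝[>] 0) (𝓝 0) := by
      have hc : ContinuousAt (fun t : ℝ => ENNReal.ofReal (C * t ^ m)) 0 :=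
        ENNReal.continuous_ofReal.continuousAt.comp
          (continuousAt_const.mul (Real.continuousAt_rpow_const _ _ (Or.inr (by linarith))))
      have := hc.tendsto
      simp only [Real.zero_rpow (show m ≠ 0 by linarith), mul_zero, ENNReal.ofReal_zero] at this
      exact this.mono_left nhdsWithin_le_nhds
    exact le_antisymm (ge_of_tendsto hlim (eventually_mem_nhdsWithin.mono fun t ht => hle t ht))
      zero_le
  rw [ae_iff]
  simpa only [not_lt] using h0

/-- Layer cake comparison. -/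
theorem lint_le {μ : Measure X} {r : X → ℝ} {C m : ℝ} (h : Gr μ r C m) (hm : 1 ≤ m)
    {φ : ℝ → ℝ} (hφ : AntitoneOn φ (Ioi 0)) (hφ0 : ∀ t, 0 < t → 0 ≤ φ t) (hφm : Measurable φ) :
    ∫⁻ x, ENNReal.ofReal (φ (r x)) ∂μ ≤
      ∫⁻ t in Ioi 0, ENNReal.ofReal (φ t) * ENNReal.ofReal (C * m * t ^ (m - 1)) := by
  have hpos := ae_pos h hm
  rw [lintegral_eq_lintegral_meas_lt μ (hpos.mono fun x hx => hφ0 _ hx)
    (hφm.comp h.meas).aemeasurable]
  have e1 : ∫⁻ t in Ioi 0, ENNReal.ofReal (φ t) * ENNReal.ofReal (C * m * t ^ (m - 1)) =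
      ∫⁻ t, ENNReal.ofReal (φ t) ∂nu C m := by
    rw [nu, lintegral_withDensity_eq_lintegral_mul _ (by fun_prop) (by fun_prop)]
    exact lintegral_congr fun t => by simp only [Pi.mul_apply]; ring
  have hnu : ∀ᵐ t ∂nu C m, (0 : ℝ) < t := by
    refine (withDensity_absolutelyContinuous _ _).ae_le ?_
    exact ae_restrict_mem measurableSet_Ioi
  rw [e1, lintegral_eq_lintegral_meas_lt _ (hnu.mono fun t ht => hφ0 t ht) hφm.aemeasurable]
  refine lintegral_mono fun l => ?_
  set L : Set ℝ := {t | 0 < t ∧ l < φ t} with hL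
  calc μ {x | l < φ (r x)} = μ (r ⁻¹' L) := by
        refine measure_congr ?_
        filter_upwards [hpos] with x hx
        exact propext ⟨fun hh => ⟨hx, hh⟩, fun hh => hh.2⟩
    _ ≤ nu C m L := lower_le h hm (fun t ht => ht.1) fun a ha b hb =>
        ⟨hb.1, ha.2.trans_le (hφ hb.1 ha.1 hb.2)⟩
    _ ≤ nu C m {t | l < φ t} := measure_mono fun t ht => ht.2

/-- the truncated kernel `(S / (S + t))^m t^(1-m)` -/
noncomputable def kr (m S t : ℝ) : ℝ := (S / (S + t)) ^ m * t ^ (1 - m)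

theorem kr_nonneg {m S t : ℝ} (hS : 0 ≤ S) (ht : 0 ≤ t) : 0 ≤ kr m S t := by
  unfold kr
  positivity

theorem kr_anti {m S : ℝ} (hm : 1 ≤ m) (hS : 0 < S) : AntitoneOn (kr m S) (Ioi 0) := by
  intro a ha b hb hab
  have ha0 : 0 < a := ha
  have hb0 : 0 < b := hb
  unfold kr
  refine mul_le_mul ?_ ?_ (by positivity) (by positivity)
  · refine Real.rpow_le_rpow (by positivity) ?_ (by linarith)
    exact div_le_div_of_nonneg_left hS.le (by linarith) (by linarith)
  · exact Real.rpow_le_rpow_of_nonpos ha0 hab (by linarith)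

theorem kr_meas (m S : ℝ) : Measurable (kr m S) := by
  unfold kr
  fun_prop

/-- Integral of the truncated kernel. -/
theorem lint_kr {μ : Measure X} {r : X → ℝ} {C m : ℝ} (h : Gr μ r C m) (hm : 1 < m)
    {S : ℝ} (hS : 0 < S) :
    ∫⁻ x, ENNReal.ofReal (kr m S (r x)) ∂μ ≤ ENNReal.ofReal (C * m * S / (m - 1)) := by
  have hC := h.const
  have hm1 : -m < -1 := by linarith
  have hm0 : 0 < m - 1 := by linarith
  have hint := integrableOn_Ioi_rpow_of_lt hm1 hS
  have hint2 : IntegrableOn (fun t : ℝ => (S + t) ^ (-m)) (Ioi 0) := by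
    have := (measurePreserving_add_left volume S).integrableOn_comp_preimage
      (MeasurableEquiv.addLeft S).measurableEmbedding (s := Ioi S) (f := fun t : ℝ => t ^ (-m))
    have h2 : (fun t : ℝ => S + t) ⁻¹' Ioi S = Ioi 0 := by
      ext t; simp
    rw [h2] at this
    exact this.2 hint
  have hval : ∫ t in Ioi 0, (S + t) ^ (-m) = S ^ (1 - m) / (m - 1) := by
    have h3 := (measurePreserving_add_left volume S).setIntegral_preimage_emb
      (MeasurableEquiv.addLeft S).measurableEmbedding (fun t : ℝ => t ^ (-m)) (Ioi S)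
    have h2 : (fun t : ℝ => S + t) ⁻¹' Ioi S = Ioi 0 := by
      ext t; simp
    rw [h2] at h3
    rw [h3, integral_Ioi_rpow_of_lt hm1 hS, neg_div, ← div_neg]
    congr 1
    · congr 1; ring
    · ring
  calc ∫⁻ x, ENNReal.ofReal (kr m S (r x)) ∂μ
      ≤ ∫⁻ t in Ioi 0, ENNReal.ofReal (kr m S t) * ENNReal.ofReal (C * m * t ^ (m - 1)) :=
        lint_le h hm.le (kr_anti hm.le hS) (fun t ht => kr_nonneg hS.le ht.le) (kr_meas m S)
    _ = ∫⁻ t in Ioi 0, ENNReal.ofReal (C * m * S ^ m * (S + t) ^ (-m)) := by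
        refine setLIntegral_congr_fun measurableSet_Ioi fun t ht => ?_
        have ht0 : 0 < t := ht
        rw [← ENNReal.ofReal_mul (kr_nonneg hS.le ht0.le)]
        congr 1
        unfold kr
        have e1 : t ^ (1 - m) * t ^ (m - 1) = 1 := by
          rw [← Real.rpow_add ht0]; simp
        have e2 : (S / (S + t)) ^ m = S ^ m * (S + t) ^ (-m) := by
          rw [Real.div_rpow hS.le (by positivity), Real.rpow_neg (by positivity), div_eq_mul_inv]
        rw [e2]
        calc S ^ m * (S + t) ^ (-m) * t ^ (1 - m) * (C * m * t ^ (m - 1))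
            = C * m * S ^ m * (S + t) ^ (-m) * (t ^ (1 - m) * t ^ (m - 1)) := by ring
          _ = _ := by rw [e1, mul_one]
    _ = ENNReal.ofReal (∫ t in Ioi 0, C * m * S ^ m * (S + t) ^ (-m)) := by
        rw [ofReal_integral_eq_lintegral_ofReal (hint2.const_mul _)]
        refine (ae_restrict_iff' measurableSet_Ioi).2 (ae_of_all _ fun t ht => ?_)
        have ht0 : (0 : ℝ) < t := ht
        show (0 : ℝ) ≤ C * m * S ^ m * (S + t) ^ (-m)
        positivity
    _ = ENNReal.ofReal (C * m * S / (m - 1)) := by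
        rw [integral_const_mul, hval]
        congr 1
        have e : S ^ m * S ^ (1 - m) = S := by
          rw [← Real.rpow_add hS]; simp
        calc C * m * S ^ m * (S ^ (1 - m) / (m - 1)) = C * m * (S ^ m * S ^ (1 - m)) / (m - 1) := by
              ring
          _ = _ := by rw [e]

end Vale.Agent.P219.End.Cake
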