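import Vale.Agent.P219.End.Pot
import Vale.Agent.P219.End.BMono
import Vale.Agent.P219.End.DensBub
import Vale.Agent.P219.End.LayerCake

/-!
# P219 / End : potential estimate (B3e), final form
-/

open MeasureTheory Set Metric Filter
open scoped ContDiff Topology

namespace Vale.Agent.P219.End

variable {n : ℕ}

namespace Lim

variable (L : Lim n)

theorem potF_kS_integrable {c : E n} (hc : c ∈ L.K) {S : ℝ} (hS : 0 < S) :
    Integrable (fun z => L.kS S (L.ds c z.1)) L.V := by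
  have hm : 1 < L.m := by linarith [L.three_le]
  obtain ⟨C, hC, hu, -⟩ := L.upper_density
  have hmeas : Measurable fun z : E n × E n => L.ds c z.1 :=
    ((L.potB_ds_cont c).comp continuous_fst).measurable
  have hGr : Cake.Gr L.V (fun z => L.ds c z.1) C L.m := by
    refine ⟨hmeas, fun z => L.potB_ds_nonneg c z.1, hC.le, fun t ht => ?_⟩
    rw [← ofReal_measureReal]
    exact ENNReal.ofReal_le_ofReal (hu c hc t ht)
  have h1 := Cake.lint_kr hGr hm hS
  have hm1 : Measurable fun z : E n × E n => L.kS S (L.ds c z.1) := L.potB_kk_meas S c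
  refine ⟨hm1.aestronglyMeasurable, ?_⟩
  rw [hasFiniteIntegral_iff_norm]
  refine lt_of_le_of_lt ?_ (lt_of_le_of_lt h1 ENNReal.ofReal_lt_top)
  refine lintegral_mono fun z => ENNReal.ofReal_le_ofReal (le_of_eq ?_)
  rw [Real.norm_eq_abs, abs_of_nonneg]
  · rfl
  · exact kk_nonneg hS.le (L.potB_ds_nonneg c z.1)

/-- B3e potential estimate -/
theorem pot : ∃ C > 0, ∀ᵐ z₀ ∂L.V, ∀ Φ : E n → ℝ, ContDiff ℝ ∞ Φ → (∀ x, 0 ≤ Φ x) →
    ∀ S, L.Ad S → sg L.m * Φ z₀.1 ≤ L.Js Φ z₀.1 S +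
      C * ∫ z, (Φ z.1 * L.ds z₀.1 z.1 + √(L.G Φ Φ z)) * L.kS S (L.ds z₀.1 z.1) ∂L.V :=
  L.pot_of L.upper_density L.dens_bub (fun hc _ hS => L.potF_kS_integrable hc hS)

end Lim

end Vale.Agent.P219.End
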