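import Vale.Agent.P219.End.Cone
import Vale.Agent.P219.End.BubAlg

/-!
# P219 / End : averaged upper bound of `g²` near the centre of a frame of small defect
-/

open MeasureTheory Set Metric
open scoped ENNReal ContDiff Topology

namespace Vale.Agent.P219.End

variable {n : ℕ}

namespace Lim

variable (L : Lim n)

/-- the error of the potential estimate for `Φ = g²`, at `p` -/
noncomputable def errS (c : E n) (s S : ℝ) (u : E n → ℝ) (p : E n × E n) : ℝ :=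
  ∫ z, (L.gs c s u z.1 ^ 2 * L.ds p.1 z.1 +
    √(L.G (fun x => L.gs c s u x ^ 2) (fun x => L.gs c s u x ^ 2) z)) *
      L.kS S (L.ds p.1 z.1) ∂L.V

theorem kS_nonneg_g {S d : ℝ} (hS : 0 ≤ S) (hd : 0 ≤ d) : 0 ≤ L.kS S d :=
  mul_nonneg (Real.rpow_nonneg (by positivity) _) (Real.rpow_nonneg hd _)

theorem errS_nonneg (c : E n) {s S : ℝ} (hS : 0 ≤ S) (u : E n → ℝ) (p : E n × E n) :
    0 ≤ L.errS c s S u p := by
  refine integral_nonneg fun z => ?_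
  have h1 := L.kS_nonneg_g hS (L.ds_nonneg p.1 z.1)
  have h2 := L.ds_nonneg p.1 z.1
  exact mul_nonneg (add_nonneg (mul_nonneg (sq_nonneg _) h2) (Real.sqrt_nonneg _)) h1

/-- B5b, from the other leaves -/
theorem sup_bound_of
    (centre : ∀ N η : ℝ, 1 ≤ N → 0 < η → ∃ Λ₀ ≥ (1 : ℝ), ∀ Λ ≥ Λ₀, ∀ c ∈ L.K, ∀ p ∈ L.K,
      ∀ s : ℝ, 0 < s → L.Ad (Λ * s) → L.ds c p ≤ N * s → ∀ x ∈ L.K,
      L.ws p (Λ * s) x ≤ (1 + η) * L.ws c (Λ * s) x)
    (upper : ∃ C > 0, (∀ c ∈ L.K, ∀ s : ℝ, 0 < s →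
      L.V.real {z | L.ds c z.1 ≤ s} ≤ C * s ^ L.m))
    (pot : ∃ C > 0, ∀ᵐ z₀ ∂L.V, ∀ Φ : E n → ℝ, ContDiff ℝ ∞ Φ → (∀ x, 0 ≤ Φ x) →
      ∀ S, L.Ad S → sg L.m * Φ z₀.1 ≤ L.Js Φ z₀.1 S +
        C * ∫ z, (Φ z.1 * L.ds z₀.1 z.1 + √(L.G Φ Φ z)) * L.kS S (L.ds z₀.1 z.1) ∂L.V)
    (sup_err : ∀ N Λ B : ℝ, 1 ≤ N → 1 ≤ Λ → ∃ C > 0, ∀ c ∈ L.K, ∀ s : ℝ, 0 < s →
      L.Ad (Λ * s) → ∀ u : E n → ℝ, SP u → ∀ δ : ℝ, 0 < δ → δ ≤ 1 →
      L.Def c (s ^ 2 / 2) u ≤ δ → (∫ z, u z.1 ^ 2 ∂L.V) ≤ δ →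
      (∫ z, u z.1 ^ 2 * L.ws c s z.1 ^ 2 ∂L.V) ≤ B →
      IntegrableOn (L.errS c s (Λ * s) u) {p | L.ds c p.1 ≤ N * s} L.V ∧
      ∫ p in {p | L.ds c p.1 ≤ N * s}, L.errS c s (Λ * s) u p ∂L.V ≤ C * √δ * s ^ L.m)
    (N η B : ℝ) (hN : 1 ≤ N) (hη : 0 < η) : ∃ C > 0, ∃ s₀ > 0, ∀ c ∈ L.K,
    ∀ s : ℝ, 0 < s → s ≤ s₀ →
    ∀ u : E n → ℝ, SP u → ∀ δ : ℝ, 0 < δ → δ ≤ 1 → L.Def c (s ^ 2 / 2) u ≤ δ →
    (∫ z, u z.1 ^ 2 ∂L.V) ≤ δ → (∫ z, u z.1 ^ 2 * L.ws c s z.1 ^ 2 ∂L.V) ≤ B →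
    ∫ z in {z | L.ds c z.1 ≤ N * s},
      max 0 (sg L.m * L.gs c s u z.1 ^ 2 -
        (1 + η) * ∫ y, u y.1 ^ 2 * L.ws c s y.1 ^ 2 ∂L.V) ∂L.V ≤ C * √δ * s ^ L.m := by
  have hm := L.m_pos
  have hk2 := L.k2_nonneg
  -- choice of the parameters
  obtain ⟨η', hη', hηm⟩ : ∃ η' > 0, (1 + η') ^ L.m ≤ 1 + η := by
    refine ⟨(1 + η) ^ (1 / L.m) - 1, ?_, ?_⟩
    · have : (1 : ℝ) < (1 + η) ^ (1 / L.m) :=
        Real.one_lt_rpow (by linarith) (by positivity)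
      linarith
    · rw [add_sub_cancel, ← Real.rpow_mul (by linarith), one_div, inv_mul_cancel₀ hm.ne',
        Real.rpow_one]
  obtain ⟨Λ, hΛ, hcen⟩ := centre N η' hN hη'
  obtain ⟨Cc, hCc, hcone⟩ := L.cone Λ B hΛ
  obtain ⟨Cu, hCu, hup⟩ := upper
  obtain ⟨Cp, hCp, hpot⟩ := pot
  obtain ⟨Ce, hCe, herr⟩ := sup_err N Λ B hN hΛ
  have hN0 : 0 < N := by linarith
  have hΛ0 : 0 < Λ := lt_of_lt_of_le one_pos hΛ
  refine ⟨(1 + η) * Cc * (Cu * N ^ L.m) + Cp * Ce, by positivity, 1 / (Λ * (1 + L.k2)),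
    by positivity, ?_⟩
  intro c hc s hs hs0 u hu δ hδ0 hδ1 hDef hR hB
  have hAd : L.Ad (Λ * s) := by
    have h1 : Λ * s ≤ 1 / (1 + L.k2) := by
      calc Λ * s ≤ Λ * (1 / (Λ * (1 + L.k2))) := by gcongr
        _ = 1 / (1 + L.k2) := by field_simp
    have h2 : 1 / (1 + L.k2) ≤ 1 := by
      rw [div_le_one (by positivity)]; linarith
    refine ⟨by positivity, h1.trans h2, ?_⟩
    have h3 : (Λ * s) ^ 2 ≤ 1 / (1 + L.k2) := by
      calc (Λ * s) ^ 2 = (Λ * s) * (Λ * s) := by ring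
        _ ≤ 1 * (1 / (1 + L.k2)) := by
            apply mul_le_mul (h1.trans h2) h1 (by positivity) (by positivity)
        _ = _ := one_mul _
    calc L.k2 * (Λ * s) ^ 2 ≤ L.k2 * (1 / (1 + L.k2)) := by gcongr
      _ ≤ 1 := by
          rw [mul_one_div, div_le_one (by positivity)]; linarith
  have hAs : L.Ad s := Ad.mono hAd hs (le_mul_of_one_le_left hs.le hΛ)
  have hgs : ContDiff ℝ ∞ (L.gs c s u) := L.gs_smooth hs (Ad.lt4 hAs) c hu.1
  have hΦ : ContDiff ℝ ∞ (fun x => L.gs c s u x ^ 2) := hgs.pow 2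
  obtain ⟨hei, hee⟩ := herr c hc s hs hAd u hu δ hδ0 hδ1 hDef hR hB
  have hco := hcone c hc s hs hAd u hu δ hδ0 hδ1 hDef hR hB
  set E₂ := ∫ y, u y.1 ^ 2 * L.ws c s y.1 ^ 2 ∂L.V with hE₂
  have hJs : L.Js (fun x => L.gs c s u x ^ 2) c s = E₂ := by
    rw [hE₂]
    unfold Js
    refine integral_congr_ae (Filter.Eventually.of_forall fun z => ?_)
    exact L.gs_sq_mul_m hs (Ad.lt4 hAs) c u z.1
  have hE₂0 : 0 ≤ E₂ := by
    rw [hE₂]
    exact integral_nonneg fun z => by positivity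
  set A : Set (E n × E n) := {z | L.ds c z.1 ≤ N * s} with hA
  have hAm : MeasurableSet A :=
    (isClosed_le ((L.ds_cont c).comp continuous_fst) continuous_const).measurableSet
  -- pointwise bound
  have hpt : ∀ᵐ z ∂(L.V.restrict A), max 0 (sg L.m * L.gs c s u z.1 ^ 2 - (1 + η) * E₂) ≤
      (1 + η) * Cc * √δ + Cp * L.errS c s (Λ * s) u z := by
    have h1 : ∀ᵐ z ∂(L.V.restrict A), z.1 ∈ L.K ∧ ‖z.2‖ = 1 := ae_restrict_of_ae L.V_supp
    have h2 := ae_restrict_of_ae (s := A) hpot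
    filter_upwards [h1, h2, ae_restrict_mem hAm] with z hz hp hzA
    have e0 := L.errS_nonneg c (s := s) (S := Λ * s) hAd.1.le u z
    refine max_le (by positivity) ?_
    have h3 := hp _ hΦ (fun x => sq_nonneg _) (Λ * s) hAd
    have h4 : L.Js (fun x => L.gs c s u x ^ 2) z.1 (Λ * s) ≤
        (1 + η) * L.Js (fun x => L.gs c s u x ^ 2) c (Λ * s) := by
      unfold Js
      rw [← integral_const_mul]
      have kg : Continuous fun z : E n × E n => L.gs c s u z.1 :=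
        hgs.continuous.comp continuous_fst
      have kw : ∀ c' : E n, Continuous fun z : E n × E n => L.ws c' (Λ * s) z.1 ^ L.m :=
        fun c' => (L.ws_smooth hAd c' L.m).continuous.comp continuous_fst
      have kw1 := kw z.1
      have kw2 := kw c
      refine L.integral_mono_of (by fun_prop) (by fun_prop) fun y hy _ => ?_
      have h5 := hcen Λ le_rfl c hc z.1 hz.1 s hs hAd hzA y.1 hy
      have h6 := L.ws_nonneg (s := Λ * s) hAd.1 z.1 y.1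
      have h7 : L.ws z.1 (Λ * s) y.1 ^ L.m ≤ (1 + η) * L.ws c (Λ * s) y.1 ^ L.m := by
        calc L.ws z.1 (Λ * s) y.1 ^ L.m ≤ ((1 + η') * L.ws c (Λ * s) y.1) ^ L.m :=
              Real.rpow_le_rpow h6 h5 hm.le
          _ = (1 + η') ^ L.m * L.ws c (Λ * s) y.1 ^ L.m :=
              Real.mul_rpow (by positivity) (L.ws_nonneg (s := Λ * s) hAd.1 c y.1)
          _ ≤ _ := mul_le_mul_of_nonneg_right hηm
              (Real.rpow_nonneg (L.ws_nonneg (s := Λ * s) hAd.1 c y.1) _)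
      calc L.gs c s u y.1 ^ 2 * L.ws z.1 (Λ * s) y.1 ^ L.m
          ≤ L.gs c s u y.1 ^ 2 * ((1 + η) * L.ws c (Λ * s) y.1 ^ L.m) :=
            mul_le_mul_of_nonneg_left h7 (sq_nonneg _)
        _ = _ := by ring
    have h8 : (1 + η) * L.Js (fun x => L.gs c s u x ^ 2) c (Λ * s) ≤
        (1 + η) * (E₂ + Cc * √δ) := by
      rw [hJs] at hco
      exact mul_le_mul_of_nonneg_left hco (by positivity)
    have h9 : L.errS c s (Λ * s) u z = ∫ y, (L.gs c s u y.1 ^ 2 * L.ds z.1 y.1 +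
      √(L.G (fun x => L.gs c s u x ^ 2) (fun x => L.gs c s u x ^ 2) y)) *
      L.kS (Λ * s) (L.ds z.1 y.1) ∂L.V := rfl
    rw [h9]
    linarith
  -- integration
  have hint : Integrable (fun z : E n × E n => max 0 (sg L.m * L.gs c s u z.1 ^ 2 -
      (1 + η) * E₂)) L.V := by
    have kg : Continuous fun z : E n × E n => L.gs c s u z.1 :=
      hgs.continuous.comp continuous_fst
    exact L.integrable_of_cont (by fun_prop)
  have hmeas : L.V.real A ≤ Cu * (N * s) ^ L.m := hup c hc (N * s) (by positivity)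
  calc ∫ z in A, max 0 (sg L.m * L.gs c s u z.1 ^ 2 - (1 + η) * E₂) ∂L.V
      ≤ ∫ z in A, ((1 + η) * Cc * √δ + Cp * L.errS c s (Λ * s) u z) ∂L.V := by
        refine integral_mono_ae hint.integrableOn ?_ hpt
        exact (integrable_const _).add (hei.const_mul Cp)
    _ = (1 + η) * Cc * √δ * L.V.real A + Cp * ∫ z in A, L.errS c s (Λ * s) u z ∂L.V := by
        rw [integral_add (integrable_const _) (hei.const_mul Cp), integral_const,
          integral_const_mul, smul_eq_mul, measureReal_restrict_apply_univ]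
        ring
    _ ≤ (1 + η) * Cc * √δ * (Cu * (N * s) ^ L.m) + Cp * (Ce * √δ * s ^ L.m) := by
        gcongr
    _ = _ := by
        rw [Real.mul_rpow hN0.le hs.le]
        ring

end Lim

end Vale.Agent.P219.End
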