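import Vale.Agent.P219.End.SupBd1

/-!
# P219 / End : the error half of `sup_bound` (leaf B5b), part 2: Tonelli
-/

open MeasureTheory Set Metric
open scoped ENNReal ContDiff Topology

namespace Vale.Agent.P219.End.Lim

variable {n : ℕ} (L : Lim n)

theorem sb_ds_meas (c : E n) : Measurable fun z : E n × E n => L.ds c z.1 :=
  (L.sb_ds_cont.comp (continuous_const.prodMk continuous_fst)).measurable

theorem sb_ball_meas (c : E n) (r : ℝ) : MeasurableSet {z : E n × E n | L.ds c z.1 ≤ r} :=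
  measurableSet_le (L.sb_ds_meas c) measurable_const

theorem sb_kS_int' (hint : L.KInt) {S : ℝ} (hS : 0 < S) {x : E n} (hx : x ∈ L.K) :
    Integrable (fun z : E n × E n => L.kS S (L.ds z.1 x)) L.V := by
  have h := hint x hx S hS
  simp_rw [L.sb_ds_comm x] at h
  exact h

theorem sb_dskS_int (hint : L.KInt) {S : ℝ} (hS : 0 < S) {x : E n} (hx : x ∈ L.K) :
    Integrable (fun z : E n × E n => L.ds z.1 x * L.kS S (L.ds z.1 x)) L.V := by
  have hc : Continuous fun z : E n × E n => L.ds z.1 x :=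
    L.sb_ds_cont.comp (continuous_fst.prodMk continuous_const)
  obtain ⟨C, hC⟩ := L.K_compact.exists_bound_of_continuousOn
    (f := fun y => L.ds y x) (L.sb_ds_cont.comp (continuous_id.prodMk continuous_const)).continuousOn
  refine (L.sb_kS_int' hint hS hx).bdd_mul (c := C) hc.aestronglyMeasurable ?_
  filter_upwards [L.V_supp] with z hz
  exact hC _ hz.1

/-- integrability of the error in its first variable -/
theorem erk_int_left (hint : L.KInt) {S : ℝ} (hS : 0 < S) (g : E n → ℝ) {z : E n × E n}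
    (hz : z.1 ∈ L.K) : Integrable (fun z₀ => L.erk S g z₀ z) L.V := by
  have h1 := (L.sb_dskS_int hint hS hz).const_mul (g z.1 ^ 2)
  have h2 := (L.sb_kS_int' hint hS hz).const_mul √(L.G (fun x => g x ^ 2) (fun x => g x ^ 2) z)
  refine (h1.add h2).congr (Filter.Eventually.of_forall fun z₀ => ?_)
  simp only [erk, Pi.add_apply]
  ring

/-- integrability of the error in its second variable -/
theorem erk_int_right (hint : L.KInt) {S : ℝ} (hS : 0 < S) {g : E n → ℝ} (hg : ContDiff ℝ ∞ g)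
    {z₀ : E n × E n} (hz : z₀.1 ∈ L.K) : Integrable (L.erk S g z₀) L.V := by
  have hg1 : ContDiff ℝ 1 fun x => g x ^ 2 := (hg.pow 2).of_le one_le_inf
  have hc : Continuous fun z : E n × E n =>
      g z.1 ^ 2 * L.ds z₀.1 z.1 + √(L.G (fun x => g x ^ 2) (fun x => g x ^ 2) z) := by
    have e1 : Continuous fun z : E n × E n => L.ds z₀.1 z.1 :=
      L.sb_ds_cont.comp (continuous_const.prodMk continuous_fst)
    have e2 : Continuous fun z : E n × E n => g z.1 ^ 2 := (hg.continuous.comp continuous_fst).pow 2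
    exact (e2.mul e1).add (L.G_cont hg1 hg1).sqrt
  have hK : IsCompact (L.K ×ˢ sphere (0 : E n) 1) := L.K_compact.prod (isCompact_sphere 0 1)
  obtain ⟨C, hC⟩ := hK.exists_bound_of_continuousOn hc.continuousOn
  refine (hint z₀.1 hz S hS).bdd_mul (c := C) hc.aestronglyMeasurable ?_
  filter_upwards [L.V_supp] with z hz
  exact hC z ⟨hz.1, by simpa using hz.2⟩

theorem erk_nonneg {S : ℝ} (hS : 0 ≤ S) (g : E n → ℝ) (z₀ z : E n × E n) :
    0 ≤ L.erk S g z₀ z := by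
  have h1 := L.sb_kS_nonneg hS (L.sb_ds_nonneg z₀.1 z.1)
  have h2 := L.sb_ds_nonneg z₀.1 z.1
  unfold erk
  positivity

/-- Tonelli for the error -/
theorem erk_tonelli (hint : L.KInt) {S : ℝ} (hS : 0 < S) {g : E n → ℝ} (hg : ContDiff ℝ ∞ g)
    {T : Set (E n × E n)} {Φ : E n × E n → ℝ} (hΦ : Integrable Φ L.V)
    (hb : ∀ z : E n × E n, z.1 ∈ L.K → ‖z.2‖ = 1 → ∫ z₀ in T, L.erk S g z₀ z ∂L.V ≤ Φ z) :
    Integrable (fun z₀ => ∫ z, L.erk S g z₀ z ∂L.V) (L.V.restrict T) ∧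
      ∫ z₀ in T, (∫ z, L.erk S g z₀ z ∂L.V) ∂L.V ≤ ∫ z, Φ z ∂L.V := by
  have hm := L.erk_meas S hg
  have hsm : StronglyMeasurable (Function.uncurry (L.erk S g)) := hm.stronglyMeasurable
  have hnn : ∀ z : E n × E n, 0 ≤ ∫ z₀ in T, L.erk S g z₀ z ∂L.V := fun z =>
    integral_nonneg fun z₀ => L.erk_nonneg hS.le g z₀ z
  have hI : Integrable (Function.uncurry (L.erk S g)) ((L.V.restrict T).prod L.V) := by
    refine (integrable_prod_iff' hsm.aestronglyMeasurable).2 ⟨?_, ?_⟩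
    · filter_upwards [L.V_supp] with z hz
      exact (L.erk_int_left hint hS g hz.1).integrableOn
    · have e : (fun y => ∫ x, ‖Function.uncurry (L.erk S g) (x, y)‖ ∂(L.V.restrict T)) =
          fun z => ∫ z₀ in T, L.erk S g z₀ z ∂L.V := by
        funext z
        refine integral_congr_ae (Filter.Eventually.of_forall fun z₀ => ?_)
        exact Real.norm_of_nonneg (L.erk_nonneg hS.le g z₀ z)
      rw [e]
      refine hΦ.mono' (hsm.integral_prod_left' (μ := L.V.restrict T)).aestronglyMeasurable ?_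
      filter_upwards [L.V_supp] with z hz
      rw [Real.norm_of_nonneg (hnn z)]
      exact hb z hz.1 hz.2
  refine ⟨hI.integral_prod_left, ?_⟩
  rw [integral_integral_swap hI]
  refine integral_mono_ae hI.integral_prod_right hΦ ?_
  filter_upwards [L.V_supp] with z hz
  exact hb z hz.1 hz.2

/-- **the error half** -/
theorem sup_err (hint : L.KInt) (havg : L.KAvg) (N Λ B : ℝ) (hN : 1 ≤ N) (hΛ : 1 ≤ Λ) :
    ∃ C > 0, ∀ c ∈ L.K, ∀ s : ℝ, 0 < s → L.Ad (Λ * s) → L.Ad s → ∀ u : E n → ℝ, SP u →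
    ∀ δ : ℝ, 0 < δ → δ ≤ 1 → L.Def c (s ^ 2 / 2) u ≤ δ →
    (∫ z, u z.1 ^ 2 ∂L.V) ≤ δ → (∫ z, u z.1 ^ 2 * L.ws c s z.1 ^ 2 ∂L.V) ≤ B →
    Integrable (fun z₀ => ∫ z, L.erk (Λ * s) (L.gs c s u) z₀ z ∂L.V)
      (L.V.restrict {z | L.ds c z.1 ≤ N * s}) ∧
    ∫ z₀ in {z | L.ds c z.1 ≤ N * s}, (∫ z, L.erk (Λ * s) (L.gs c s u) z₀ z ∂L.V) ∂L.V ≤
      C * √δ * s ^ L.m := by
  obtain ⟨C, hC0, hC⟩ := havg N Λ hN hΛ
  have hm := L.m_pos
  have hm2 := L.m_sub_pos
  refine ⟨C * (1 + |B| + L.m * (L.m - 2) / 4), by positivity, ?_⟩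
  intro c hc s hs hAdL hAd u hu δ hδ hδ1 hD hR hB
  set g := L.gs c s u with hg
  have hgs : ContDiff ℝ ∞ g := L.sb_gs_smooth hAd c hu
  have hg0 : ∀ x, 0 ≤ g x := fun x => (L.sb_gs_pos hAd c hu x).le
  have hS : 0 < Λ * s := by positivity
  have hδs : 0 < √δ := Real.sqrt_pos.2 hδ
  have hδδ : δ ≤ √δ := by
    have e := Real.mul_self_sqrt hδ.le
    have e2 : √δ ≤ 1 := by
      rw [← Real.sqrt_one]
      exact Real.sqrt_le_sqrt hδ1
    nlinarith
  have hw := fun x => L.sb_ws_pos hAd c x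
  have hwc : ∀ a : ℝ, Continuous fun z : E n × E n => L.ws c s z.1 ^ a := fun a =>
    (L.sb_wsp_smooth hAd c a).continuous.comp continuous_fst
  have huc : Continuous fun z : E n × E n => u z.1 ^ 2 := (hu.1.continuous.comp continuous_fst).pow 2
  have hwc2 : Continuous fun z : E n × E n => L.ws c s z.1 ^ 2 :=
    ((L.sb_ws_smooth hAd c).continuous.comp continuous_fst).pow 2
  have hGc := L.G_cont (hgs.of_le one_le_inf) (hgs.of_le one_le_inf)
  set Φ : E n × E n → ℝ := fun z => C * s ^ L.m * (u z.1 ^ 2 +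
    (√δ * (u z.1 ^ 2 * L.ws c s z.1 ^ 2) +
      (√δ)⁻¹ * (L.ws c s z.1 ^ (L.m - 2) * L.G g g z))) with hΦ
  have hΦc : Continuous Φ := by
    have := hwc (L.m - 2)
    rw [hΦ]
    fun_prop
  have hb : ∀ z : E n × E n, z.1 ∈ L.K → ‖z.2‖ = 1 →
      ∫ z₀ in {z | L.ds c z.1 ≤ N * s}, L.erk (Λ * s) g z₀ z ∂L.V ≤ Φ z := by
    intro z hz hz2
    have hG0 : 0 ≤ L.G g g z := L.G_self_nonneg g hz2
    obtain ⟨a1, a2⟩ := hC c hc s hs hAdL z.1 hz
    have e0 : ∫ z₀ in {z | L.ds c z.1 ≤ N * s}, L.erk (Λ * s) g z₀ z ∂L.V =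
        g z.1 ^ 2 * (∫ z₀ in {z | L.ds c z.1 ≤ N * s},
          L.ds z₀.1 z.1 * L.kS (Λ * s) (L.ds z₀.1 z.1) ∂L.V) +
        √(L.G (fun x => g x ^ 2) (fun x => g x ^ 2) z) *
          ∫ z₀ in {z | L.ds c z.1 ≤ N * s}, L.kS (Λ * s) (L.ds z₀.1 z.1) ∂L.V := by
      rw [← integral_const_mul, ← integral_const_mul, ← integral_add]
      · refine integral_congr_ae (Filter.Eventually.of_forall fun z₀ => ?_)
        simp only [erk]
        ring
      · exact ((L.sb_dskS_int hint hS hz).const_mul _).integrableOn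
      · exact ((L.sb_kS_int' hint hS hz).const_mul _).integrableOn
    rw [e0, L.sb_sqrt_G (hgs.of_le one_le_inf) hg0 z]
    have b1 := mul_le_mul_of_nonneg_left a2 (sq_nonneg (g z.1))
    have b2 := mul_le_mul_of_nonneg_left a1
      (show 0 ≤ 2 * g z.1 * √(L.G g g z) by have := hg0 z.1; positivity)
    have c1 : g z.1 ^ 2 * (C * s ^ L.m * L.ws c s z.1 ^ (L.m - 2)) = C * s ^ L.m * u z.1 ^ 2 := by
      rw [← L.sb_gs_sq hAd c u z.1]
      ring
    set a : ℝ := L.ws c s z.1 ^ (L.m / 2) with ha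
    set b : ℝ := L.ws c s z.1 ^ ((L.m - 2) / 2) with hb'
    have ha0 : 0 < a := Real.rpow_pos_of_pos (hw z.1) _
    have hb0 : 0 < b := Real.rpow_pos_of_pos (hw z.1) _
    have hab : L.ws c s z.1 ^ (L.m - 1) = a * b := by
      rw [ha, hb', ← Real.rpow_add (hw z.1)]
      congr 1
      ring
    have ha2 : a ^ 2 = L.ws c s z.1 ^ L.m := by
      rw [ha, ← Real.rpow_natCast, ← Real.rpow_mul (hw z.1).le]
      norm_num
    have hb2 : b ^ 2 = L.ws c s z.1 ^ (L.m - 2) := by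
      rw [hb', ← Real.rpow_natCast, ← Real.rpow_mul (hw z.1).le]
      norm_num
    have c2 : 2 * g z.1 * √(L.G g g z) * L.ws c s z.1 ^ (L.m - 1) ≤
        √δ * (u z.1 ^ 2 * L.ws c s z.1 ^ 2) +
          (√δ)⁻¹ * (L.ws c s z.1 ^ (L.m - 2) * L.G g g z) := by
      rw [← L.sb_gs_sq' hAd c u z.1, hab, ← ha2, ← hb2]
      have hsq := Real.mul_self_sqrt hG0
      set q := √(L.G g g z) with hq
      rw [← hsq]
      have key : 0 ≤ (√δ * (g z.1 * a) - b * q) ^ 2 := sq_nonneg _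
      have e3 : √δ * (g z.1 ^ 2 * a ^ 2) + (√δ)⁻¹ * (b ^ 2 * (q * q)) -
          2 * g z.1 * q * (a * b) = (√δ)⁻¹ * (√δ * (g z.1 * a) - b * q) ^ 2 := by
        field_simp
        ring
      have e4 : 0 ≤ (√δ)⁻¹ * (√δ * (g z.1 * a) - b * q) ^ 2 := by positivity
      have e5 : L.gs c s u z.1 = g z.1 := rfl
      rw [e5]
      linarith
    have hCs : 0 ≤ C * s ^ L.m := by positivity
    have c3 := mul_le_mul_of_nonneg_left c2 hCs
    rw [hΦ]
    calc _ ≤ g z.1 ^ 2 * (C * s ^ L.m * L.ws c s z.1 ^ (L.m - 2)) +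
          2 * g z.1 * √(L.G g g z) * (C * s ^ L.m * L.ws c s z.1 ^ (L.m - 1)) := add_le_add b1 b2
      _ = C * s ^ L.m * u z.1 ^ 2 +
          C * s ^ L.m * (2 * g z.1 * √(L.G g g z) * L.ws c s z.1 ^ (L.m - 1)) := by
        rw [c1]
        ring
      _ ≤ _ := by
        simp only
        rw [mul_add (C * s ^ L.m)]
        linarith
  obtain ⟨h1, h2⟩ := L.erk_tonelli hint hS hgs (L.integrable_of_cont hΦc) hb
  refine ⟨h1, h2.trans ?_⟩
  have hi1 : Integrable (fun z : E n × E n => u z.1 ^ 2) L.V := L.integrable_of_cont huc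
  have hi2 : Integrable (fun z : E n × E n => u z.1 ^ 2 * L.ws c s z.1 ^ 2) L.V :=
    L.integrable_of_cont (huc.mul hwc2)
  have hi3 : Integrable (fun z : E n × E n => L.ws c s z.1 ^ (L.m - 2) * L.G g g z) L.V :=
    L.integrable_of_cont ((hwc _).mul hGc)
  have e1 : ∫ z, Φ z ∂L.V = C * s ^ L.m * ((∫ z, u z.1 ^ 2 ∂L.V) +
      (√δ * (∫ z, u z.1 ^ 2 * L.ws c s z.1 ^ 2 ∂L.V) +
        (√δ)⁻¹ * ∫ z, L.ws c s z.1 ^ (L.m - 2) * L.G g g z ∂L.V)) := by
    have e2 : ∫ z, (√δ * (u z.1 ^ 2 * L.ws c s z.1 ^ 2) +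
        (√δ)⁻¹ * (L.ws c s z.1 ^ (L.m - 2) * L.G g g z)) ∂L.V =
        √δ * (∫ z, u z.1 ^ 2 * L.ws c s z.1 ^ 2 ∂L.V) +
        (√δ)⁻¹ * ∫ z, L.ws c s z.1 ^ (L.m - 2) * L.G g g z ∂L.V := by
      rw [integral_add (hi2.const_mul _) (hi3.const_mul _), integral_const_mul, integral_const_mul]
    have hi4 : Integrable (fun z : E n × E n => √δ * (u z.1 ^ 2 * L.ws c s z.1 ^ 2) +
        (√δ)⁻¹ * (L.ws c s z.1 ^ (L.m - 2) * L.G g g z)) L.V :=
      (hi2.const_mul _).add (hi3.const_mul _)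
    rw [← e2, ← integral_add hi1 hi4, ← integral_const_mul]
  rw [e1]
  have hgr := L.sb_grad hAd hc hu hD
  have f1 : √δ * (∫ z, u z.1 ^ 2 * L.ws c s z.1 ^ 2 ∂L.V) ≤ √δ * |B| :=
    mul_le_mul_of_nonneg_left (hB.trans (le_abs_self B)) hδs.le
  have f2 : (√δ)⁻¹ * ∫ z, L.ws c s z.1 ^ (L.m - 2) * L.G g g z ∂L.V ≤
      √δ * (L.m * (L.m - 2) / 4) := by
    have e2 := mul_le_mul_of_nonneg_left hgr (inv_nonneg.2 hδs.le)
    refine e2.trans (le_of_eq ?_)
    have e := Real.mul_self_sqrt hδ.le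
    nth_rewrite 2 [← e]
    field_simp
  calc _ ≤ C * s ^ L.m * (√δ + (√δ * |B| + √δ * (L.m * (L.m - 2) / 4))) := by
        have hCs : 0 ≤ C * s ^ L.m := by positivity
        refine mul_le_mul_of_nonneg_left ?_ hCs
        have := hR.trans hδδ
        linarith
    _ = _ := by ring

end Vale.Agent.P219.End.Lim
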