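import Vale.Agent.P219.End.LimSob
import Vale.Agent.P219.End.PotF
import Vale.Agent.P219.End.Centre
import Vale.Agent.P219.End.KernAvg
import Vale.Agent.P219.End.SupBd
import Vale.Agent.P219.End.SupBd2

/-!
# P219 / End : the averaged upper bound, without hypotheses (`Lim.wsob` is in `LimSob.lean`)
-/

open MeasureTheory Set Metric
open scoped ENNReal ContDiff Topology

namespace Vale.Agent.P219.End

variable {n : ℕ}

namespace Lim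

variable (L : Lim n)

theorem kInt : L.KInt := fun _ hc _ hS => L.potF_kS_integrable hc hS

theorem kAvg : L.KAvg := fun N Λ hN hΛ => L.kS_avg L.upper_density N Λ hN hΛ

theorem Ad.of_mul {L : Lim n} {Λ s : ℝ} (hΛ : 1 ≤ Λ) (hs : 0 < s) (h : L.Ad (Λ * s)) : L.Ad s := by
  have h1 : s ≤ Λ * s := by nlinarith
  refine ⟨hs, h1.trans h.2.1, ?_⟩
  have h2 : s ^ 2 ≤ (Λ * s) ^ 2 := pow_le_pow_left₀ hs.le h1 2
  exact (mul_le_mul_of_nonneg_left h2 L.k2_nonneg).trans h.2.2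

/-- B5b -/
theorem sup_bound (N η B : ℝ) (hN : 1 ≤ N) (hη : 0 < η) : ∃ C > 0, ∃ s₀ > 0, ∀ c ∈ L.K,
    ∀ s : ℝ, 0 < s → s ≤ s₀ →
    ∀ u : E n → ℝ, SP u → ∀ δ : ℝ, 0 < δ → δ ≤ 1 → L.Def c (s ^ 2 / 2) u ≤ δ →
    (∫ z, u z.1 ^ 2 ∂L.V) ≤ δ → (∫ z, u z.1 ^ 2 * L.ws c s z.1 ^ 2 ∂L.V) ≤ B →
    ∫ z in {z | L.ds c z.1 ≤ N * s},
      max 0 (sg L.m * L.gs c s u z.1 ^ 2 -
        (1 + η) * ∫ y, u y.1 ^ 2 * L.ws c s y.1 ^ 2 ∂L.V) ∂L.V ≤ C * √δ * s ^ L.m := by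
  refine L.sup_bound_of (fun N η hN hη => L.centre hN hη) ?_ L.pot ?_ N η B hN hη
  · obtain ⟨C, hC, h, -⟩ := L.upper_density
    exact ⟨C, hC, h⟩
  · intro N Λ B hN hΛ
    obtain ⟨C, hC, h⟩ := L.sup_err L.kInt L.kAvg N Λ B hN hΛ
    exact ⟨C, hC, fun c hc s hs hAd u hu δ hδ hδ1 hD hR hB =>
      h c hc s hs hAd (hAd.of_mul hΛ hs) u hu δ hδ hδ1 hD hR hB⟩

end Lim

end Vale.Agent.P219.End
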