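import Vale.Agent.P219.End.EndGame
import Vale.Agent.P219.End.PlugB
import Vale.Agent.P219.End.KernInt

/-!
# P219 / End : the end game, without hypotheses
-/

open MeasureTheory Set Metric
open scoped ENNReal ContDiff Topology

namespace Vale.Agent.P219.End

variable {n : ℕ}

namespace Lim

variable (L : Lim n)

/-- B5c -/
theorem end_game (η : ℝ) (hη : 0 < η) : ∃ δ > 0, ∀ c ∈ L.K, ∀ ε : ℝ, 0 < ε → L.k2 * ε < 2 →
    ∀ u : E n → ℝ, SP u → ∫ z, u z.1 ^ L.ps ∂L.V = 1 → L.Def c ε u ≤ δ →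
    (∫ z, u z.1 ^ 2 ∂L.V) ≤ δ → sg L.m ^ (2 / L.m) - η ≤ L.En u :=
  L.end_game_of L.wsob L.tail (fun N η B hN hη => L.sup_bound N η B hN hη) η hη

end Lim

end Vale.Agent.P219.End
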