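import Vale.Agent.P219.End.Basic
import Vale.Agent.P219.End.TiltPow

/-!
# P219 / End : rigidity of the limit object (block L9)

If the sharp conformal Michael-Simon-Sobolev inequality holds on a limit object and constants are
extremal, then the distance to a suitable centre is constant almost everywhere.
-/

open MeasureTheory Set Metric
open scoped ENNReal ContDiff

namespace Vale.Agent.P219.End

variable {n : ℕ}

namespace Lim

variable (L : Lim n)

theorem rg_mass_pos : 0 < L.V.real univ := by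
  have h := L.V_ne
  rw [measureReal_def]
  exact ENNReal.toReal_pos (by rwa [Ne, Measure.measure_univ_eq_zero]) (measure_ne_top _ _)

theorem rg_sg_pos : 0 < sg L.m := by
  have h := L.m_pos
  unfold sg
  have h1 := Real.Gamma_pos_of_pos h
  have h2 := Real.Gamma_pos_of_pos (half_pos h)
  positivity

/-- energy of a constant -/
theorem rg_En_one : L.En (fun _ => 1) = (L.H0 ^ 2 / L.m ^ 2 - L.k2) * L.V.real univ := by
  unfold En
  have h : ∀ z, L.G (fun _ => (1 : ℝ)) (fun _ => 1) z = 0 := by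
    intro z
    show gv _ _ _ = 0
    rw [D_const, gv_zero_left]
  simp [h]

/-- energy of a tilt `(1 + e θ) ^ (1 / ps)` -/
theorem rg_ps_pos : 2 < L.ps := by
  unfold ps
  rw [lt_div_iff₀ L.m_sub_pos]
  linarith

theorem rg_ps_inv : 2 / L.ps = (L.m - 2) / L.m := by
  unfold ps
  have h1 := L.m_pos
  have h2 := L.m_sub_pos
  field_simp

/-- the tilt -/
noncomputable def rgTilt (θ : E n → ℝ) (e : ℝ) (x : E n) : ℝ := (1 + e * θ x) ^ (1 / L.ps)

variable {L}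

theorem rgTilt_smooth {θ : E n → ℝ} (hθ : ContDiff ℝ ∞ θ) {e : ℝ} (h : ∀ x, 0 < 1 + e * θ x) :
    ContDiff ℝ ∞ (L.rgTilt θ e) := by
  unfold rgTilt
  exact (contDiff_const.add (contDiff_const.mul hθ)).rpow_const_of_ne fun x => (h x).ne'

theorem rgTilt_pos {θ : E n → ℝ} {e : ℝ} (h : ∀ x, 0 < 1 + e * θ x) (x : E n) :
    0 < L.rgTilt θ e x := Real.rpow_pos_of_pos (h x) _

theorem rgTilt_ps {θ : E n → ℝ} {e : ℝ} (h : ∀ x, 0 < 1 + e * θ x) (x : E n) :
    L.rgTilt θ e x ^ L.ps = 1 + e * θ x := by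
  have h1 := L.rg_ps_pos
  unfold rgTilt
  rw [← Real.rpow_mul (h x).le, one_div, inv_mul_cancel₀ (by linarith), Real.rpow_one]

theorem rgTilt_sq {θ : E n → ℝ} {e : ℝ} (h : ∀ x, 0 < 1 + e * θ x) (x : E n) :
    L.rgTilt θ e x ^ 2 = (1 + e * θ x) ^ (2 / L.ps) := by
  unfold rgTilt
  rw [← Real.rpow_natCast, ← Real.rpow_mul (h x).le]
  congr 1
  push_cast
  ring

theorem rgTilt_G {θ : E n → ℝ} (hθ : ContDiff ℝ ∞ θ) {e : ℝ} (h : ∀ x, 0 < 1 + e * θ x)
    (z : E n × E n) : L.G (L.rgTilt θ e) (L.rgTilt θ e) z =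
      e ^ 2 / L.ps ^ 2 * (1 + e * θ z.1) ^ (-(2 - 2 / L.ps)) * L.G θ θ z := by
  have hp := L.rg_ps_pos
  have hd : DifferentiableAt ℝ θ z.1 := (hθ.differentiable (by simp)) _
  have h1 : HasDerivAt (fun t : ℝ => (1 + e * t) ^ (1 / L.ps))
      (e * (1 / L.ps) * (1 + e * θ z.1) ^ (1 / L.ps - 1)) (θ z.1) := by
    have h2 : HasDerivAt (fun t : ℝ => 1 + e * t) e (θ z.1) := by
      simpa using ((hasDerivAt_id (θ z.1)).const_mul e).const_add 1
    exact h2.rpow_const (Or.inl (h z.1).ne')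
  have h3 : D L.A (L.rgTilt θ e) z.1 =
      (e * (1 / L.ps) * (1 + e * θ z.1) ^ (1 / L.ps - 1)) • D L.A θ z.1 := D_comp h1 hd
  show gv _ _ _ = _ * gv _ _ _
  rw [h3, gv_smul_left, gv_smul_right]
  have h4 : (1 + e * θ z.1) ^ (-(2 - 2 / L.ps)) =
      (1 + e * θ z.1) ^ (1 / L.ps - 1) * (1 + e * θ z.1) ^ (1 / L.ps - 1) := by
    rw [← Real.rpow_add (h z.1)]
    congr 1
    ring
  rw [h4]
  ring

variable (L)

/-- the energy inequality for a pair of tilts -/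
theorem rg_pair (hC : ∀ u : E n → ℝ, ContDiff ℝ ∞ u → (∀ x, 0 < u x) →
      sg L.m ^ (2 / L.m) * (∫ z, u z.1 ^ L.ps ∂L.V) ^ (2 / L.ps) ≤ L.En u)
    (heq : (L.H0 ^ 2 / L.m ^ 2 - L.k2) * L.V.real univ ^ (2 / L.m) ≤ sg L.m ^ (2 / L.m))
    {θ : E n → ℝ} (hθ : ContDiff ℝ ∞ θ) (hle : ∀ x, |θ x| ≤ 1) (h0 : ∫ z, θ z.1 ∂L.V = 0)
    (hk : 0 ≤ L.H0 ^ 2 / L.m ^ 2 - L.k2) {e : ℝ} (he : 0 < e) (he2 : e ≤ 1 / 2) :
    (L.H0 ^ 2 / L.m ^ 2 - L.k2) * (2 / L.ps * (1 - 2 / L.ps)) * ∫ z, θ z.1 ^ 2 ∂L.V ≤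
      4 / (L.m * (L.m - 2)) / L.ps ^ 2 * (2 * ∫ z, L.G θ θ z ∂L.V) +
      e * ((L.H0 ^ 2 / L.m ^ 2 - L.k2) * L.V.real univ +
        4 / (L.m * (L.m - 2)) / L.ps ^ 2 * (11 * ∫ z, L.G θ θ z ∂L.V)) := by
  have hp := L.rg_ps_pos
  have hm := L.m_pos
  have hm2 := L.m_sub_pos
  set H := L.H0 ^ 2 / L.m ^ 2 - L.k2 with hH
  set c := 2 / L.ps with hc
  have hc0 : 0 < c := by positivity
  have hc1 : c < 1 := by rw [hc, div_lt_one (by linarith)]; exact hp
  set B := 4 / (L.m * (L.m - 2)) with hB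
  have hB0 : 0 < B := by positivity
  have hsmall : ∀ x, |e * θ x| ≤ 1 / 2 := by
    intro x
    rw [abs_mul, abs_of_pos he]
    calc e * |θ x| ≤ e * 1 := mul_le_mul_of_nonneg_left (hle x) he.le
      _ ≤ 1 / 2 := by linarith
  have hp1 : ∀ x, 0 < 1 + e * θ x := fun x => by linarith [(abs_le.1 (hsmall x)).1]
  have hp2 : ∀ x, 0 < 1 + -e * θ x := fun x => by linarith [(abs_le.1 (hsmall x)).2]
  have hθc : Continuous fun z : E n × E n => θ z.1 := hθ.continuous.comp continuous_fst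
  have hθ1 : ContDiff ℝ 1 θ := hθ.of_le (by exact_mod_cast le_top)
  -- mass
  have hmass : ∀ e' : ℝ, (∀ x, 0 < 1 + e' * θ x) →
      ∫ z, L.rgTilt θ e' z.1 ^ L.ps ∂L.V = L.V.real univ := by
    intro e' he'
    have h1 : ∀ z : E n × E n, L.rgTilt θ e' z.1 ^ L.ps = 1 + e' * θ z.1 :=
      fun z => rgTilt_ps he' z.1
    simp only [h1]
    rw [integral_add (integrable_const _) ((L.integrable_of_cont hθc).const_mul _),
      integral_const_mul, h0]
    simp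
  have key : ∀ e' : ℝ, (∀ x, 0 < 1 + e' * θ x) → H * L.V.real univ ≤ L.En (L.rgTilt θ e') := by
    intro e' he'
    refine le_trans ?_ (hC _ (rgTilt_smooth hθ he') (rgTilt_pos he'))
    rw [hmass e' he']
    have h2 : L.V.real univ = L.V.real univ ^ (2 / L.m) * L.V.real univ ^ (2 / L.ps) := by
      rw [← Real.rpow_add L.rg_mass_pos, L.rg_ps_inv]
      have : 2 / L.m + (L.m - 2) / L.m = 1 := by field_simp; ring
      rw [this, Real.rpow_one]
    calc H * L.V.real univ = H * L.V.real univ ^ (2 / L.m) * L.V.real univ ^ (2 / L.ps) := by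
          rw [mul_assoc, ← h2]
      _ ≤ _ := by gcongr
  have k1 := key e hp1
  have k2 := key (-e) hp2
  -- expansions
  unfold En at k1 k2
  simp only [rgTilt_G hθ hp1, rgTilt_sq hp1] at k1
  simp only [rgTilt_G hθ hp2, rgTilt_sq hp2] at k2
  rw [← hH, ← hc, ← hB] at k1 k2
  have hcG : Continuous (L.G θ θ) := L.G_cont hθ1 hθ1
  have ci : ∀ (e' : ℝ) (r : ℝ), (∀ x, 0 < 1 + e' * θ x) →
      Continuous fun z : E n × E n => (1 + e' * θ z.1) ^ r := by
    intro e' r he'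
    exact (continuous_const.add (continuous_const.mul hθc)).rpow_const
      fun z => Or.inl (he' z.1).ne'
  have i1 := L.integrable_of_cont (ci e c hp1)
  have i2 := L.integrable_of_cont (ci (-e) c hp2)
  have j1 : Integrable (fun z : E n × E n =>
      e ^ 2 / L.ps ^ 2 * (1 + e * θ z.1) ^ (-(2 - c)) * L.G θ θ z) L.V :=
    L.integrable_of_cont ((continuous_const.mul (ci e (-(2 - c)) hp1)).mul hcG)
  have j2 : Integrable (fun z : E n × E n =>
      (-e) ^ 2 / L.ps ^ 2 * (1 + -e * θ z.1) ^ (-(2 - c)) * L.G θ θ z) L.V :=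
    L.integrable_of_cont ((continuous_const.mul (ci (-e) (-(2 - c)) hp2)).mul hcG)
  have s1 : ∫ z, (1 + e * θ z.1) ^ c ∂L.V + ∫ z, (1 + -e * θ z.1) ^ c ∂L.V ≤
      2 * L.V.real univ - c * (1 - c) * e ^ 2 * ∫ z, θ z.1 ^ 2 ∂L.V + e ^ 3 * L.V.real univ := by
    rw [← integral_add i1 i2]
    have hR : 2 * L.V.real univ - c * (1 - c) * e ^ 2 * ∫ z, θ z.1 ^ 2 ∂L.V +
        e ^ 3 * L.V.real univ =
        ∫ z, (2 - c * (1 - c) * e ^ 2 * θ z.1 ^ 2 + e ^ 3) ∂L.V := by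
      have hi : Integrable (fun z : E n × E n => c * (1 - c) * e ^ 2 * θ z.1 ^ 2) L.V :=
        L.integrable_of_cont (continuous_const.mul (hθc.pow 2))
      have hi2 : Integrable (fun z : E n × E n => 2 - c * (1 - c) * e ^ 2 * θ z.1 ^ 2) L.V :=
        L.integrable_of_cont (continuous_const.sub (continuous_const.mul (hθc.pow 2)))
      rw [integral_add hi2 (integrable_const _),
        integral_sub (integrable_const _) hi, integral_const_mul]
      simp [mul_comm]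
    rw [hR]
    refine L.integral_mono_of ((ci e c hp1).add (ci (-e) c hp2)) (by fun_prop) ?_
    intro z _ _
    have h3 := rpow_even hc0 hc1 (hsmall z.1)
    have h4 : |e * θ z.1| ^ 3 ≤ e ^ 3 := by
      rw [abs_mul, abs_of_pos he, mul_pow]
      have : |θ z.1| ^ 3 ≤ 1 := pow_le_one₀ (abs_nonneg _) (hle _)
      nlinarith [pow_pos he 3]
    have h5 : 1 + -e * θ z.1 = 1 - e * θ z.1 := by ring
    simp only [h5]
    nlinarith
  have s2 : ∫ z, e ^ 2 / L.ps ^ 2 * (1 + e * θ z.1) ^ (-(2 - c)) * L.G θ θ z ∂L.V +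
      ∫ z, (-e) ^ 2 / L.ps ^ 2 * (1 + -e * θ z.1) ^ (-(2 - c)) * L.G θ θ z ∂L.V ≤
      e ^ 2 / L.ps ^ 2 * ((2 + 11 * e ^ 2) * ∫ z, L.G θ θ z ∂L.V) := by
    rw [← integral_add j1 j2, ← integral_const_mul, ← integral_const_mul]
    refine L.integral_mono_of (((continuous_const.mul (ci e (-(2 - c)) hp1)).mul hcG).add
      ((continuous_const.mul (ci (-e) (-(2 - c)) hp2)).mul hcG)) (by fun_prop) ?_
    intro z _ hz
    have h3 := rpow_even' (b := 2 - c) (by linarith) (by linarith) (hsmall z.1)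
    have hG := L.G_self_nonneg θ hz
    have h4 : (e * θ z.1) ^ 2 ≤ e ^ 2 := by
      rw [mul_pow]
      have : θ z.1 ^ 2 ≤ 1 := by
        rw [← sq_abs]
        exact pow_le_one₀ (abs_nonneg _) (hle _)
      nlinarith [pow_pos he 2]
    have h5 : 1 + -e * θ z.1 = 1 - e * θ z.1 := by ring
    simp only [h5, neg_sq]
    have h6 : (1 + e * θ z.1) ^ (-(2 - c)) + (1 - e * θ z.1) ^ (-(2 - c)) ≤ 2 + 11 * e ^ 2 := by
      linarith
    have h7 := mul_le_mul_of_nonneg_left (mul_le_mul_of_nonneg_right h6 hG)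
      (show 0 ≤ e ^ 2 / L.ps ^ 2 by positivity)
    linarith
  have h8 := mul_le_mul_of_nonneg_left s1 hk
  have h9 := mul_le_mul_of_nonneg_left s2 hB0.le
  have hG0 : 0 ≤ ∫ z, L.G θ θ z ∂L.V := L.integral_nonneg_of fun z _ hz => L.G_self_nonneg θ hz
  have h10 : e ^ 2 * (H * (c * (1 - c)) * ∫ z, θ z.1 ^ 2 ∂L.V) ≤
      e ^ 2 * (B / L.ps ^ 2 * (2 * ∫ z, L.G θ θ z ∂L.V) +
      (e * (H * L.V.real univ) + e ^ 2 * (B / L.ps ^ 2 * (11 * ∫ z, L.G θ θ z ∂L.V)))) := by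
    have : B * (e ^ 2 / L.ps ^ 2 * ((2 + 11 * e ^ 2) * ∫ z, L.G θ θ z ∂L.V)) =
      e ^ 2 * (B / L.ps ^ 2 * (2 * ∫ z, L.G θ θ z ∂L.V) +
      (e ^ 2 * (B / L.ps ^ 2 * (11 * ∫ z, L.G θ θ z ∂L.V)))) := by ring
    nlinarith
  have h11 := le_of_mul_le_mul_left h10 (by positivity)
  refine h11.trans ?_
  have h12 : e ^ 2 * (B / L.ps ^ 2 * (11 * ∫ z, L.G θ θ z ∂L.V)) ≤
      e * (B / L.ps ^ 2 * (11 * ∫ z, L.G θ θ z ∂L.V)) := by
    refine mul_le_mul_of_nonneg_right (by nlinarith) ?_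
    positivity
  linarith

/-- the infinitesimal form -/
theorem rg_inf (hC : ∀ u : E n → ℝ, ContDiff ℝ ∞ u → (∀ x, 0 < u x) →
      sg L.m ^ (2 / L.m) * (∫ z, u z.1 ^ L.ps ∂L.V) ^ (2 / L.ps) ≤ L.En u)
    (heq : (L.H0 ^ 2 / L.m ^ 2 - L.k2) * L.V.real univ ^ (2 / L.m) ≤ sg L.m ^ (2 / L.m))
    {θ : E n → ℝ} (hθ : ContDiff ℝ ∞ θ) (hle : ∀ x, |θ x| ≤ 1) (h0 : ∫ z, θ z.1 ∂L.V = 0)
    (hk : 0 ≤ L.H0 ^ 2 / L.m ^ 2 - L.k2) :
    L.m * (L.H0 ^ 2 / L.m ^ 2 - L.k2) * ∫ z, θ z.1 ^ 2 ∂L.V ≤ ∫ z, L.G θ θ z ∂L.V := by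
  have hm := L.m_pos
  have hm2 := L.m_sub_pos
  set a := (L.H0 ^ 2 / L.m ^ 2 - L.k2) * (2 / L.ps * (1 - 2 / L.ps)) * ∫ z, θ z.1 ^ 2 ∂L.V with ha
  set b := 4 / (L.m * (L.m - 2)) / L.ps ^ 2 * (2 * ∫ z, L.G θ θ z ∂L.V) with hb
  set C := (L.H0 ^ 2 / L.m ^ 2 - L.k2) * L.V.real univ +
        4 / (L.m * (L.m - 2)) / L.ps ^ 2 * (11 * ∫ z, L.G θ θ z ∂L.V) with hCd
  have h1 : ∀ e : ℝ, 0 < e → e ≤ 1 / 2 → a ≤ b + e * C :=
    fun e he he2 => L.rg_pair hC heq hθ hle h0 hk he he2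
  have hG0 : 0 ≤ ∫ z, L.G θ θ z ∂L.V := L.integral_nonneg_of fun z _ hz => L.G_self_nonneg θ hz
  have hC0 : 0 ≤ C := by
    have := L.rg_mass_pos
    have h2 : 0 < 4 / (L.m * (L.m - 2)) / L.ps ^ 2 := by
      have := L.rg_ps_pos
      positivity
    rw [hCd]
    positivity
  have h2 : a ≤ b := by
    refine le_of_forall_pos_le_add fun δ hδ => ?_
    have h3 : 0 < min (1 / 2) (δ / (C + 1)) := lt_min (by norm_num) (by positivity)
    refine (h1 _ h3 (min_le_left _ _)).trans ?_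
    have h4 : min (1 / 2) (δ / (C + 1)) * C ≤ δ := by
      calc min (1 / 2) (δ / (C + 1)) * C ≤ δ / (C + 1) * C :=
            mul_le_mul_of_nonneg_right (min_le_right _ _) hC0
        _ ≤ δ / (C + 1) * (C + 1) := mul_le_mul_of_nonneg_left (by linarith) (by positivity)
        _ = δ := by field_simp
    linarith
  have h3 : a = 2 * (L.m - 2) / L.m ^ 3 *
      (L.m * (L.H0 ^ 2 / L.m ^ 2 - L.k2) * ∫ z, θ z.1 ^ 2 ∂L.V) := by
    rw [ha, L.rg_ps_inv]
    field_simp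
    ring
  have h4 : b = 2 * (L.m - 2) / L.m ^ 3 * ∫ z, L.G θ θ z ∂L.V := by
    rw [hb]
    unfold ps
    field_simp
    ring
  rw [h3, h4] at h2
  exact le_of_mul_le_mul_left h2 (by positivity)

/-- gradient of a function of `F c` -/
theorem rg_G_comp (c : E n) {φ : ℝ → ℝ} {φ' : ℝ} {z : E n × E n}
    (h : HasDerivAt φ φ' (L.F c z.1)) :
    L.G (fun x => φ (L.F c x)) (L.F c) z = φ' * L.G (L.F c) (L.F c) z := by
  show gv _ _ _ = _ * gv _ _ _
  rw [D_comp h ((L.Fc_smooth c).differentiable (by simp) _), gv_smul_left]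

theorem rg_inv_smooth (c : E n) {ε : ℝ} (hε : 0 < ε) :
    ContDiff ℝ ∞ fun x => (L.F c x + ε)⁻¹ :=
  ((L.Fc_smooth c).add contDiff_const).inv fun x => by
    have := L.F_nonneg c x
    positivity

theorem rg_inv2_smooth (c : E n) {ε : ℝ} (hε : 0 < ε) :
    ContDiff ℝ ∞ fun x => ((L.F c x + ε) ^ 2)⁻¹ :=
  (((L.Fc_smooth c).add contDiff_const).pow 2).inv fun x => by
    have := L.F_nonneg c x
    positivity

theorem rg_dl_inv (c : E n) {ε : ℝ} (hε : 0 < ε) (z : E n × E n) :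
    L.dl c (fun x => (L.F c x + ε)⁻¹) z =
      (L.H0 * L.nc c z - L.m * (1 + L.k2 * L.F c z.1)) / (L.F c z.1 + ε) +
        L.G (L.F c) (L.F c) z / (L.F c z.1 + ε) ^ 2 := by
  have hF := L.F_nonneg c z.1
  have hne : L.F c z.1 + ε ≠ 0 := by positivity
  have h1 : HasDerivAt (fun t : ℝ => (t + ε)⁻¹) (-1 / (L.F c z.1 + ε) ^ 2) (L.F c z.1) :=
    ((hasDerivAt_id (L.F c z.1)).add_const ε).inv hne
  unfold dl
  rw [L.rg_G_comp c h1]
  field_simp
  ring

theorem rg_dl_inv2 (c : E n) {ε : ℝ} (hε : 0 < ε) (z : E n × E n) :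
    L.dl c (fun x => ((L.F c x + ε) ^ 2)⁻¹) z =
      (L.H0 * L.nc c z - L.m * (1 + L.k2 * L.F c z.1)) / (L.F c z.1 + ε) ^ 2 +
        2 * L.G (L.F c) (L.F c) z / (L.F c z.1 + ε) ^ 3 := by
  have hF := L.F_nonneg c z.1
  have hne : L.F c z.1 + ε ≠ 0 := by positivity
  have h1 : HasDerivAt (fun t : ℝ => ((t + ε) ^ 2)⁻¹) (-(2 * (L.F c z.1 + ε)) /
      ((L.F c z.1 + ε) ^ 2) ^ 2) (L.F c z.1) := by
    have h2 : HasDerivAt (fun t : ℝ => (t + ε) ^ 2) (2 * (L.F c z.1 + ε)) (L.F c z.1) :=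
      (((hasDerivAt_id (L.F c z.1)).add_const ε).pow 2).congr_deriv (by simp)
    exact h2.inv (by positivity)
  unfold dl
  rw [L.rg_G_comp c h1]
  field_simp
  ring

theorem rg_w_sq (c : E n) {ε : ℝ} (hε : 0 < ε) (hk : L.k2 * ε < 2) (x : E n) :
    L.w c ε x ^ 2 = ε * (2 - L.k2 * ε) / (L.F c x + ε) ^ 2 := by
  unfold w bub
  rw [div_pow, Real.sq_sqrt]
  have : 0 < 2 - L.k2 * ε := by linarith
  positivity

/-- the exact identity for the defect of constants -/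
theorem rg_ident (c : E n) {ε : ℝ} (hε : 0 < ε) (hk : L.k2 * ε < 2) (z : E n × E n) :
    L.H0 ^ 2 / L.m ^ 2 - L.k2 - L.w c ε z.1 ^ 2 =
      (L.m - 2) / L.m * (L.G (L.F c) (L.F c) z / (L.F c z.1 + ε) ^ 2) +
      (L.H0 / L.m - L.nc c z / (L.F c z.1 + ε)) ^ 2 +
      2 / L.m * L.dl c (fun x => (L.F c x + ε)⁻¹) z := by
  have hm := L.m_pos
  have hF := L.F_nonneg c z.1
  have hne : 0 < L.F c z.1 + ε := by positivity
  rw [L.rg_w_sq c hε hk, L.rg_dl_inv c hε, L.G_FF]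
  field_simp
  ring

theorem rg_ae_zero {f : E n × E n → ℝ} (hf : Continuous f)
    (h : ∀ z : E n × E n, z.1 ∈ L.K → ‖z.2‖ = 1 → 0 ≤ f z) (h0 : ∫ z, f z ∂L.V ≤ 0) :
    ∀ᵐ z ∂L.V, f z = 0 := by
  have h1 : 0 ≤ᵐ[L.V] f := by
    filter_upwards [L.V_supp] with z hz
    exact h z hz.1 hz.2
  exact (integral_eq_zero_iff_of_nonneg_ae h1 (L.integrable_of_cont hf)).1
    (le_antisymm h0 (L.integral_nonneg_of h))

/-- **Rigidity of the limit object.** If the sharp inequality holds on `L` and constants are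
extremal, then `F c` is constant almost everywhere for some `c ∈ K`. -/
theorem rigid (hC : ∀ u : E n → ℝ, ContDiff ℝ ∞ u → (∀ x, 0 < u x) →
      sg L.m ^ (2 / L.m) * (∫ z, u z.1 ^ L.ps ∂L.V) ^ (2 / L.ps) ≤ L.En u)
    (heq : (L.H0 ^ 2 / L.m ^ 2 - L.k2) * L.V.real univ ^ (2 / L.m) ≤ sg L.m ^ (2 / L.m)) :
    0 < L.H0 ^ 2 / L.m ^ 2 - L.k2 ∧ ∃ c ∈ L.K, ∃ a : ℝ, 0 ≤ a ∧
      2 * a + L.k2 * a ^ 2 = (L.H0 ^ 2 / L.m ^ 2 - L.k2)⁻¹ ∧ ∀ᵐ z ∂L.V, L.F c z.1 = a := by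
  have hm := L.m_pos
  have hm2 := L.m_sub_pos
  have hM := L.rg_mass_pos
  -- positivity
  have hκ : 0 < L.H0 ^ 2 / L.m ^ 2 - L.k2 := by
    have h1 := hC (fun _ => 1) contDiff_const (fun _ => one_pos)
    rw [L.rg_En_one] at h1
    have h2 : 0 < sg L.m ^ (2 / L.m) * (∫ z : E n × E n, (1 : ℝ) ^ L.ps ∂L.V) ^ (2 / L.ps) := by
      have h3 : ∫ z : E n × E n, (1 : ℝ) ^ L.ps ∂L.V = L.V.real univ := by simp
      rw [h3]
      have := Real.rpow_pos_of_pos L.rg_sg_pos (2 / L.m)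
      have := Real.rpow_pos_of_pos hM (2 / L.ps)
      positivity
    exact pos_of_mul_pos_left (h2.trans_le h1) hM.le
  refine ⟨hκ, ?_⟩
  set κ := L.H0 ^ 2 / L.m ^ 2 - L.k2 with hκd
  obtain ⟨c, hc, ε, hε, hkε, θ, hθ, hsum, hgam, hbar⟩ :=
    L.bary (fun _ => 1) contDiff_const (fun _ => one_pos)
  refine ⟨c, hc, ?_⟩
  have hF0 : ∀ x, 0 < L.F c x + ε := fun x => by
    have := L.F_nonneg c x
    positivity
  -- the trace inequality
  have hθ1 : ∀ i, ContDiff ℝ 1 (θ i) := fun i => (hθ i).of_le (by exact_mod_cast le_top)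
  have hθle : ∀ i x, |θ i x| ≤ 1 := by
    intro i x
    rw [← sq_le_one_iff_abs_le_one, ← hsum x]
    exact Finset.single_le_sum (f := fun i => θ i x ^ 2) (fun j _ => sq_nonneg _)
      (Finset.mem_univ i)
  have hFc : Continuous fun z : E n × E n => L.F c z.1 := (L.Fc_cont c).comp continuous_fst
  have hwc : Continuous fun z : E n × E n => L.w c ε z.1 ^ 2 := by
    have : (fun z : E n × E n => L.w c ε z.1 ^ 2) =
        fun z : E n × E n => ε * (2 - L.k2 * ε) / (L.F c z.1 + ε) ^ 2 := by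
      funext z
      exact L.rg_w_sq c hε hkε z.1
    rw [this]
    refine continuous_const.div ((hFc.add continuous_const).pow 2) fun z => ?_
    have := hF0 z.1
    positivity
  have htr : κ * L.V.real univ ≤ ∫ z, L.w c ε z.1 ^ 2 ∂L.V := by
    have h1 : ∀ i, L.m * κ * ∫ z, θ i z.1 ^ 2 ∂L.V ≤ ∫ z, L.G (θ i) (θ i) z ∂L.V := by
      intro i
      refine L.rg_inf hC heq (hθ i) (hθle i) ?_ hκ.le
      have := hbar i
      simpa using this
    have h2 := Finset.sum_le_sum fun i (_ : i ∈ Finset.univ) => h1 i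
    have i2 : ∀ i ∈ Finset.univ, Integrable (fun z : E n × E n => θ i z.1 ^ 2) L.V := by
      intro i _
      exact L.integrable_of_cont (((hθ i).continuous.comp continuous_fst).pow 2)
    have i3 : ∀ i ∈ Finset.univ, Integrable (fun z : E n × E n => L.G (θ i) (θ i) z) L.V := by
      intro i _
      exact L.integrable_of_cont (L.G_cont (hθ1 i) (hθ1 i))
    rw [← Finset.mul_sum, ← integral_finsetSum _ i2, ← integral_finsetSum _ i3] at h2
    have h3 : ∫ z : E n × E n, ∑ i, θ i z.1 ^ 2 ∂L.V = L.V.real univ := by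
      simp [hsum]
    have h4 : ∫ z, ∑ i, L.G (θ i) (θ i) z ∂L.V ≤ ∫ z, L.m * L.w c ε z.1 ^ 2 ∂L.V := by
      refine integral_mono_ae (integrable_finsetSum _ i3)
        (L.integrable_of_cont (continuous_const.mul hwc)) ?_
      filter_upwards [hgam] with z hz
      exact hz
    rw [h3] at h2
    rw [integral_const_mul] at h4
    have h5 : L.m * (κ * L.V.real univ) ≤ L.m * ∫ z, L.w c ε z.1 ^ 2 ∂L.V := by linarith
    exact le_of_mul_le_mul_left h5 hm
  -- the three terms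
  have hG := L.G_cont (L.Fc_smooth1 c) (L.Fc_smooth1 c)
  have c1 : Continuous fun z : E n × E n => L.G (L.F c) (L.F c) z / (L.F c z.1 + ε) ^ 2 :=
    hG.div ((hFc.add continuous_const).pow 2) fun z => by
      have := hF0 z.1
      positivity
  have c2 : Continuous fun z : E n × E n =>
      (L.H0 / L.m - L.nc c z / (L.F c z.1 + ε)) ^ 2 :=
    (continuous_const.sub ((L.nc_cont c).div (hFc.add continuous_const)
      fun z => (hF0 z.1).ne')).pow 2
  have s1 : ContDiff ℝ 1 fun x => (L.F c x + ε)⁻¹ :=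
    (L.rg_inv_smooth c hε).of_le (by exact_mod_cast le_top)
  have s2 : ContDiff ℝ 1 fun x => ((L.F c x + ε) ^ 2)⁻¹ :=
    (L.rg_inv2_smooth c hε).of_le (by exact_mod_cast le_top)
  have c3 := L.dl_cont c s1
  have hint : κ * L.V.real univ - ∫ z, L.w c ε z.1 ^ 2 ∂L.V =
      (L.m - 2) / L.m * ∫ z, L.G (L.F c) (L.F c) z / (L.F c z.1 + ε) ^ 2 ∂L.V +
      ∫ z, (L.H0 / L.m - L.nc c z / (L.F c z.1 + ε)) ^ 2 ∂L.V +
      2 / L.m * L.Dl c (fun x => (L.F c x + ε)⁻¹) := by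
    have i1 := (L.integrable_of_cont c1).const_mul ((L.m - 2) / L.m)
    have i2 := L.integrable_of_cont c2
    have i3 := (L.integrable_of_cont c3).const_mul (2 / L.m)
    have i12 : Integrable (fun z => (L.m - 2) / L.m *
        (L.G (L.F c) (L.F c) z / (L.F c z.1 + ε) ^ 2) +
        (L.H0 / L.m - L.nc c z / (L.F c z.1 + ε)) ^ 2) L.V := i1.add i2
    rw [Dl_eq, ← integral_const_mul, ← integral_const_mul, ← integral_add i1 i2,
      ← integral_add i12 i3]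
    have h1 : κ * L.V.real univ = ∫ z : E n × E n, κ ∂L.V := by simp [mul_comm]
    rw [h1, ← integral_sub (integrable_const _) (L.integrable_of_cont hwc)]
    refine integral_congr_ae (Filter.Eventually.of_forall fun z => ?_)
    exact L.rg_ident c hε hkε z
  have p1 : 0 ≤ ∫ z, L.G (L.F c) (L.F c) z / (L.F c z.1 + ε) ^ 2 ∂L.V :=
    L.integral_nonneg_of fun z _ hz => div_nonneg (L.G_self_nonneg _ hz) (sq_nonneg _)
  have p2 : 0 ≤ ∫ z, (L.H0 / L.m - L.nc c z / (L.F c z.1 + ε)) ^ 2 ∂L.V :=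
    integral_nonneg fun z => sq_nonneg _
  have p3 : 0 ≤ L.Dl c (fun x => (L.F c x + ε)⁻¹) :=
    L.Dl_nonneg hc (L.rg_inv_smooth c hε) fun x => (inv_pos.2 (hF0 x)).le
  have p1' : 0 ≤ (L.m - 2) / L.m * ∫ z, L.G (L.F c) (L.F c) z / (L.F c z.1 + ε) ^ 2 ∂L.V := by
    positivity
  have p3' : 0 ≤ 2 / L.m * L.Dl c (fun x => (L.F c x + ε)⁻¹) := by positivity
  have z1 : ∫ z, L.G (L.F c) (L.F c) z / (L.F c z.1 + ε) ^ 2 ∂L.V ≤ 0 := by
    have h1 : (L.m - 2) / L.m * ∫ z, L.G (L.F c) (L.F c) z / (L.F c z.1 + ε) ^ 2 ∂L.V ≤ 0 := by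
      linarith
    exact nonpos_of_mul_nonpos_right h1 (by positivity)
  have z2 : ∫ z, (L.H0 / L.m - L.nc c z / (L.F c z.1 + ε)) ^ 2 ∂L.V ≤ 0 := by linarith
  have z3 : L.Dl c (fun x => (L.F c x + ε)⁻¹) = 0 := by
    have h1 : 2 / L.m * L.Dl c (fun x => (L.F c x + ε)⁻¹) ≤ 0 := by linarith
    exact le_antisymm (nonpos_of_mul_nonpos_right h1 (by positivity)) p3
  have a1 := L.rg_ae_zero c1
    (fun z _ hz => div_nonneg (L.G_self_nonneg _ hz) (sq_nonneg _)) z1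
  have a2 := L.rg_ae_zero c2 (fun z _ _ => sq_nonneg _) z2
  -- the second weight
  have z4 : L.Dl c (fun x => ((L.F c x + ε) ^ 2)⁻¹) = 0 := by
    refine le_antisymm ?_ (L.Dl_nonneg hc (L.rg_inv2_smooth c hε) fun x => by
      have := hF0 x
      positivity)
    have h1 := L.Dl_mono hc (L.rg_inv2_smooth c hε)
      (contDiff_const.mul (L.rg_inv_smooth c hε) : ContDiff ℝ ∞ fun x => ε⁻¹ * (L.F c x + ε)⁻¹)
      (fun x => by
        have h2 := hF0 x
        have h3 := L.F_nonneg c x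
        rw [← mul_inv, sq]
        exact inv_anti₀ (by positivity) (by gcongr; linarith))
    rw [L.Dl_smul c ε⁻¹ s1, z3, mul_zero] at h1
    exact h1
  -- conclusion
  set h := L.H0 / L.m with hh
  have hκ2 : κ = h ^ 2 - L.k2 := by rw [hκd, hh, div_pow]
  set a := (1 - h ^ 2 * ε) / κ with ha
  have hκa : κ * a = 1 - h ^ 2 * ε := by rw [ha]; field_simp
  have hfin : ∫ z, L.m * κ * (L.F c z.1 - a) ^ 2 / (L.F c z.1 + ε) ^ 2 ∂L.V = 0 := by
    have h1 : ∫ z, L.m * κ * (L.F c z.1 - a) ^ 2 / (L.F c z.1 + ε) ^ 2 ∂L.V =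
        L.Dl c (fun x => (L.F c x + ε)⁻¹) -
          (a + ε) * L.Dl c (fun x => ((L.F c x + ε) ^ 2)⁻¹) := by
      rw [Dl_eq, Dl_eq, ← integral_const_mul,
        ← integral_sub (L.dl_integrable c s1) ((L.dl_integrable c s2).const_mul _)]
      refine integral_congr_ae ?_
      filter_upwards [a1, a2] with z h3 h4
      have h5 := (hF0 z.1).ne'
      have h6 : L.G (L.F c) (L.F c) z = 0 := by
        rcases div_eq_zero_iff.1 h3 with h7 | h7
        · exact h7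
        · exact absurd h7 (pow_ne_zero 2 h5)
      have h7 : L.nc c z = h * (L.F c z.1 + ε) := by
        have h8 := pow_eq_zero_iff (two_ne_zero) |>.1 h4
        rw [sub_eq_zero, eq_div_iff h5] at h8
        exact h8.symm
      have h9 : L.H0 = L.m * h := by rw [hh]; field_simp
      rw [L.rg_dl_inv c hε, L.rg_dl_inv2 c hε, h6, h7, h9]
      have h10 : L.m * h * (h * (L.F c z.1 + ε)) - L.m * (1 + L.k2 * L.F c z.1) =
          L.m * κ * (L.F c z.1 - a) := by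
        have : κ * (L.F c z.1 - a) = κ * L.F c z.1 - (1 - h ^ 2 * ε) := by rw [mul_sub, hκa]
        rw [mul_assoc L.m κ, this, hκ2]
        ring
      rw [h10]
      field_simp
      ring
    rw [h1, z3, z4]
    ring
  have c5 : Continuous fun z : E n × E n =>
      L.m * κ * (L.F c z.1 - a) ^ 2 / (L.F c z.1 + ε) ^ 2 :=
    (continuous_const.mul ((hFc.sub continuous_const).pow 2)).div
      ((hFc.add continuous_const).pow 2) fun z => by
        have := hF0 z.1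
        positivity
  have a3 := L.rg_ae_zero c5 (fun z _ _ => by positivity) hfin.le
  have a4 : ∀ᵐ z ∂L.V, L.F c z.1 = a := by
    filter_upwards [a3] with z hz
    have h5 := (hF0 z.1).ne'
    have h6 : L.m * κ * (L.F c z.1 - a) ^ 2 = 0 := by
      rcases div_eq_zero_iff.1 hz with h7 | h7
      · exact h7
      · exact absurd h7 (pow_ne_zero 2 h5)
    have h7 : (L.F c z.1 - a) ^ 2 = 0 := by
      rcases mul_eq_zero.1 h6 with h8 | h8
      · exact absurd h8 (by positivity)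
      · exact h8
    exact sub_eq_zero.1 (pow_eq_zero_iff (two_ne_zero) |>.1 h7)
  -- a point
  have hne : (ae L.V).NeBot := ae_neBot.2 L.V_ne
  obtain ⟨z, hz1, hz2, hz3⟩ := (a1.and (a2.and a4)).exists
  have h5 := (hF0 z.1).ne'
  have h6 : L.G (L.F c) (L.F c) z = 0 := by
    rcases div_eq_zero_iff.1 hz1 with h7 | h7
    · exact h7
    · exact absurd h7 (pow_ne_zero 2 h5)
  have h7 : L.nc c z = h * (L.F c z.1 + ε) := by
    have h8 := pow_eq_zero_iff (two_ne_zero) |>.1 hz2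
    rw [sub_eq_zero, eq_div_iff h5] at h8
    exact h8.symm
  rw [L.G_FF, h7, hz3] at h6
  refine ⟨a, hz3 ▸ L.F_nonneg c z.1, ?_, a4⟩
  have haε : 0 < a + ε := hz3 ▸ hF0 z.1
  have e1 : h ^ 2 * (a + ε) = 1 + L.k2 * a := by
    have : κ * a = (h ^ 2 - L.k2) * a := by rw [hκ2]
    linarith
  have e2 : 2 * a + L.k2 * a ^ 2 = (1 + L.k2 * a) * (a + ε) := by
    have : h ^ 2 * (a + ε) ^ 2 = (1 + L.k2 * a) * (a + ε) := by
      rw [sq (a + ε), ← mul_assoc, e1]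
    linarith
  have e3 : a = (1 + L.k2 * a) * ε := by linarith
  rw [e2]
  refine eq_inv_of_mul_eq_one_left ?_
  have e4 : κ * (a + ε) = 1 - L.k2 * ε := by
    have : κ * ε = (h ^ 2 - L.k2) * ε := by rw [hκ2]
    linarith
  calc (1 + L.k2 * a) * (a + ε) * κ = (1 + L.k2 * a) * (κ * (a + ε)) := by ring
    _ = (1 + L.k2 * a) * (1 - L.k2 * ε) := by rw [e4]
    _ = 1 + L.k2 * (a - (1 + L.k2 * a) * ε) := by ring
    _ = 1 := by rw [← e3]; ring

end Lim

end Vale.Agent.P219.End
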