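import Vale.Agent.P219.End.Final0
import Vale.Agent.P219.End.EndGameB
import Vale.Agent.P219.End.AvgN
import Vale.Agent.P219.End.PlugB
import Vale.Agent.P219.End.KernInt
import Vale.Agent.P219.End.Rigid

/-!
# P219 / End : the sharp Sobolev inequality on the limit object, and its consequences
-/

open MeasureTheory Set Metric
open scoped ENNReal ContDiff Topology

namespace Vale.Agent.P219.End

variable {n : ℕ}

namespace Lim

variable (L : Lim n)

theorem hEnd : L.HEnd := by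
  obtain ⟨CW, hCW, hW⟩ := L.wsob
  obtain ⟨CT, hCT, hT⟩ := L.tail
  exact fun η hη => L.end_game_of hCW hW hCT hT L.sup_bound η hη

theorem hNear : L.HNear := fun lam hlam δ hδ => L.near_min lam hlam δ hδ

/-- sharp Sobolev inequality on `V` -/
theorem sob {u : E n → ℝ} (hu : SP u) :
    sg L.m ^ (2 / L.m) * (∫ z, u z.1 ^ L.ps ∂L.V) ^ (2 / L.ps) ≤ L.En u :=
  L.sob_of L.hEnd L.hNear hu

/-- **Theorem W** -/
theorem main : sg L.m ^ (2 / L.m) ≤
    (L.H0 ^ 2 / L.m ^ 2 - L.k2) * L.V.real univ ^ (2 / L.m) :=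
  L.main_of L.hEnd L.hNear

/-- equality case of Theorem W: `F_c` is constant `V`-almost everywhere -/
theorem main_rigid (h : (L.H0 ^ 2 / L.m ^ 2 - L.k2) * L.V.real univ ^ (2 / L.m) ≤
    sg L.m ^ (2 / L.m)) :
    0 < L.H0 ^ 2 / L.m ^ 2 - L.k2 ∧ ∃ c ∈ L.K, ∃ a : ℝ, 0 ≤ a ∧
      2 * a + L.k2 * a ^ 2 = (L.H0 ^ 2 / L.m ^ 2 - L.k2)⁻¹ ∧ ∀ᵐ z ∂L.V, L.F c z.1 = a :=
  L.rigid (fun _ hu h0 => L.sob ⟨hu, h0⟩) h

end Lim

end Vale.Agent.P219.End
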