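import Vale.Agent.P219.End.Ident2
import Vale.Agent.P219.End.Bub

/-!
# P219 / End : the conclusion, from the end game and the averaging lemma (given as hypotheses)
-/

open MeasureTheory Set Metric
open scoped ENNReal ContDiff Topology

namespace Vale.Agent.P219.End

variable {n : ℕ}

namespace Lim

variable (L : Lim n)

/-- statement of the end game -/
def HEnd : Prop := ∀ η > 0, ∃ δ > 0, ∀ c ∈ L.K, ∀ ε : ℝ, 0 < ε → L.k2 * ε < 2 →
    ∀ u : E n → ℝ, SP u → ∫ z, u z.1 ^ L.ps ∂L.V = 1 → L.Def c ε u ≤ δ →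
    (∫ z, u z.1 ^ 2 ∂L.V) ≤ δ → sg L.m ^ (2 / L.m) - η ≤ L.En u

/-- statement of the averaging lemma -/
def HNear : Prop := ∀ lam > 0, ∀ δ > 0, ∃ τ > 0, ∀ u : E n → ℝ, SP u →
    ∫ z, u z.1 ^ L.ps ∂L.V = 1 →
    (∀ v : E n → ℝ, SP v → ∫ z, v z.1 ^ L.ps ∂L.V = 1 →
      L.En u + lam * (∫ z, u z.1 ^ 2 ∂L.V) ≤ L.En v + lam * (∫ z, v z.1 ^ 2 ∂L.V) + τ) →
    ∃ c ∈ L.K, ∃ ε : ℝ, 0 < ε ∧ L.k2 * ε < 2 ∧ L.Def c ε u ≤ δ ∧ ∫ z, u z.1 ^ 2 ∂L.V ≤ δ

/-- statement of the averaging lemma for constants -/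
def HConst : Prop := ∀ u₀ > 0, ∫ _z, u₀ ^ L.ps ∂L.V = 1 →
    (∀ v : E n → ℝ, SP v → ∫ z, v z.1 ^ L.ps ∂L.V = 1 → L.En (fun _ => u₀) ≤ L.En v) →
    ∃ c ∈ L.K, ∃ ε : ℝ, 0 < ε ∧ L.k2 * ε < 2 ∧ L.Def c ε (fun _ => u₀) = 0

theorem exists_admissible : ∃ c ∈ L.K, ∃ ε : ℝ, 0 < ε ∧ L.k2 * ε < 2 := by
  obtain ⟨c, hc, ε, h1, h2, -⟩ := L.bary (fun _ => 1) contDiff_const fun _ => one_pos
  exact ⟨c, hc, ε, h1, h2⟩

theorem En_nonneg {u : E n → ℝ} (hu : ContDiff ℝ ∞ u) : 0 ≤ L.En u := by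
  obtain ⟨c, hc, ε, h1, h2⟩ := L.exists_admissible
  refine le_trans ?_ (L.w_le_En hc h1 h2 hu)
  exact integral_nonneg fun z => mul_nonneg (sq_nonneg _) (sq_nonneg _)

theorem ps_pos : 0 < L.ps := by
  have h1 := L.m_pos
  have h2 := L.m_sub_pos
  unfold ps
  positivity

theorem one_sub_ps : 1 - 2 / L.ps = 2 / L.m := by
  have h1 := L.m_pos.ne'
  have h2 := L.m_sub_pos.ne'
  unfold ps
  field_simp
  ring

theorem Vuniv_pos : 0 < L.V.real univ := by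
  have h : L.V univ ≠ 0 := fun h => L.V_ne (Measure.measure_univ_eq_zero.1 h)
  exact ENNReal.toReal_pos h (measure_ne_top _ _)

theorem En_const_mul (a : ℝ) {u : E n → ℝ} (hu : ContDiff ℝ ∞ u) :
    L.En (fun x => a * u x) = a ^ 2 * L.En u := by
  have e : ∀ z, L.G (fun x => a * u x) (fun x => a * u x) z = a ^ 2 * L.G u u z := by
    intro z
    show gv _ _ _ = _ * gv _ _ _
    rw [D_const_mul a ((hu.differentiable (by simp)) _), gv_smul_left, gv_smul_right]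
    ring
  have e2 : ∀ z : E n × E n, (a * u z.1) ^ 2 = a ^ 2 * u z.1 ^ 2 := fun z => mul_pow _ _ _
  unfold En
  simp only [e, e2]
  rw [integral_const_mul, integral_const_mul]
  ring

theorem SP.const_mul {u : E n → ℝ} (hu : SP u) {a : ℝ} (ha : 0 < a) : SP fun x => a * u x :=
  ⟨contDiff_const.mul hu.1, fun x => mul_pos ha (hu.2 x)⟩

theorem ups_cont {u : E n → ℝ} (hu : SP u) : Continuous fun z : E n × E n => u z.1 ^ L.ps :=
  (hu.1.continuous.comp continuous_fst).rpow_const fun z => Or.inl (hu.2 z.1).ne'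

theorem int_ups_pos {u : E n → ℝ} (hu : SP u) : 0 < ∫ z, u z.1 ^ L.ps ∂L.V := by
  have h0 : ∀ z : E n × E n, 0 < u z.1 ^ L.ps := fun z => Real.rpow_pos_of_pos (hu.2 _) _
  rw [integral_pos_iff_support_of_nonneg (fun z => (h0 z).le) (L.integrable_of_cont (L.ups_cont hu))]
  have : Function.support (fun z : E n × E n => u z.1 ^ L.ps) = univ := by
    ext z
    simp [(h0 z).ne']
  rw [this]
  exact pos_iff_ne_zero.2 fun h => L.V_ne (Measure.measure_univ_eq_zero.1 h)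

theorem int_ups_mul {u : E n → ℝ} (hu : SP u) {a : ℝ} (ha : 0 < a) :
    ∫ z, (a * u z.1) ^ L.ps ∂L.V = a ^ L.ps * ∫ z, u z.1 ^ L.ps ∂L.V := by
  rw [← integral_const_mul]
  refine integral_congr_ae (Filter.Eventually.of_forall fun z => ?_)
  exact Real.mul_rpow ha.le (hu.2 _).le

/-- the normalised function -/
theorem exists_normalised {u : E n → ℝ} (hu : SP u) : ∃ a > 0,
    ∫ z, (a * u z.1) ^ L.ps ∂L.V = 1 ∧ a ^ 2 * (∫ z, u z.1 ^ L.ps ∂L.V) ^ (2 / L.ps) = 1 := by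
  have hI := L.int_ups_pos hu
  have hp := L.ps_pos
  refine ⟨(∫ z, u z.1 ^ L.ps ∂L.V) ^ (-(1 / L.ps)), Real.rpow_pos_of_pos hI _, ?_, ?_⟩
  · rw [L.int_ups_mul hu (Real.rpow_pos_of_pos hI _), ← Real.rpow_mul hI.le,
      show -(1 / L.ps) * L.ps = -1 by field_simp, Real.rpow_neg_one, inv_mul_cancel₀ hI.ne']
  · rw [← Real.rpow_natCast, ← Real.rpow_mul hI.le, ← Real.rpow_add hI,
      show -(1 / L.ps) * ((2 : ℕ) : ℝ) + 2 / L.ps = 0 by push_cast; ring, Real.rpow_zero]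

theorem SP_one : SP (fun _ : E n => (1 : ℝ)) := ⟨contDiff_const, fun _ => one_pos⟩

/-- lower bound for the regularised quotient -/
theorem reg_lower (hE : L.HEnd) (hN : L.HNear) {lam : ℝ} (hlam : 0 < lam) {v : E n → ℝ}
    (hv : SP v) (hv1 : ∫ z, v z.1 ^ L.ps ∂L.V = 1) :
    sg L.m ^ (2 / L.m) ≤ L.En v + lam * ∫ z, v z.1 ^ 2 ∂L.V := by
  refine le_of_forall_pos_sub_le fun η hη => ?_
  obtain ⟨δ, hδ, hE'⟩ := hE (η / 2) (by positivity)
  obtain ⟨τ, hτ, hN'⟩ := hN lam hlam δ hδ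
  set S : Set ℝ := {t | ∃ w : E n → ℝ, SP w ∧ ∫ z, w z.1 ^ L.ps ∂L.V = 1 ∧
    t = L.En w + lam * ∫ z, w z.1 ^ 2 ∂L.V} with hS
  have hb : ∀ t ∈ S, 0 ≤ t := by
    rintro t ⟨w, hw, -, rfl⟩
    have h1 := L.En_nonneg hw.1
    have h2 : 0 ≤ ∫ z, w z.1 ^ 2 ∂L.V := integral_nonneg fun z => sq_nonneg _
    positivity
  have hbdd : BddBelow S := ⟨0, hb⟩
  have hvS : L.En v + lam * ∫ z, v z.1 ^ 2 ∂L.V ∈ S := ⟨v, hv, hv1, rfl⟩
  obtain ⟨t, ⟨w, hw, hw1, rfl⟩, ht⟩ := Real.lt_sInf_add_pos ⟨_, hvS⟩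
    (ε := min τ (η / 2)) (lt_min hτ (by positivity))
  have hmin : ∀ v' : E n → ℝ, SP v' → ∫ z, v' z.1 ^ L.ps ∂L.V = 1 →
      L.En w + lam * (∫ z, w z.1 ^ 2 ∂L.V) ≤
        L.En v' + lam * (∫ z, v' z.1 ^ 2 ∂L.V) + min τ (η / 2) := by
    intro v' hv' hv1'
    have := csInf_le hbdd (a := L.En v' + lam * ∫ z, v' z.1 ^ 2 ∂L.V) ⟨v', hv', hv1', rfl⟩
    linarith
  obtain ⟨c, hc, ε, hε, hk, hD, hR⟩ := hN' w hw hw1 fun v' hv' hv1' =>
    (hmin v' hv' hv1').trans (by linarith [min_le_left τ (η / 2)])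
  have h1 := hE' c hc ε hε hk w hw hw1 hD hR
  have h2 := hmin v hv hv1
  have h3 : 0 ≤ lam * ∫ z, w z.1 ^ 2 ∂L.V :=
    mul_nonneg hlam.le (integral_nonneg fun z => sq_nonneg _)
  linarith [min_le_right τ (η / 2)]

/-- sharp lower bound, normalised functions -/
theorem norm_lower (hE : L.HEnd) (hN : L.HNear) {v : E n → ℝ}
    (hv : SP v) (hv1 : ∫ z, v z.1 ^ L.ps ∂L.V = 1) : sg L.m ^ (2 / L.m) ≤ L.En v := by
  have hR : 0 ≤ ∫ z, v z.1 ^ 2 ∂L.V := integral_nonneg fun z => sq_nonneg _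
  refine le_of_forall_pos_sub_le fun η hη => ?_
  have h := L.reg_lower hE hN (lam := η / (1 + ∫ z, v z.1 ^ 2 ∂L.V)) (by positivity) hv hv1
  have h2 : η / (1 + ∫ z, v z.1 ^ 2 ∂L.V) * (∫ z, v z.1 ^ 2 ∂L.V) ≤ η := by
    rw [div_mul_eq_mul_div, div_le_iff₀ (by positivity)]
    nlinarith
  linarith

/-- sharp Sobolev inequality on `V` -/
theorem sob_of (hE : L.HEnd) (hN : L.HNear) {u : E n → ℝ} (hu : SP u) :
    sg L.m ^ (2 / L.m) * (∫ z, u z.1 ^ L.ps ∂L.V) ^ (2 / L.ps) ≤ L.En u := by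
  obtain ⟨a, ha, h1, h2⟩ := L.exists_normalised hu
  have h := L.norm_lower hE hN (SP.const_mul hu ha) h1
  rw [L.En_const_mul a hu.1] at h
  have h3 : 0 ≤ (∫ z, u z.1 ^ L.ps ∂L.V) ^ (2 / L.ps) := Real.rpow_nonneg (L.int_ups_pos hu).le _
  calc sg L.m ^ (2 / L.m) * (∫ z, u z.1 ^ L.ps ∂L.V) ^ (2 / L.ps)
      ≤ a ^ 2 * L.En u * (∫ z, u z.1 ^ L.ps ∂L.V) ^ (2 / L.ps) := mul_le_mul_of_nonneg_right h h3
    _ = a ^ 2 * (∫ z, u z.1 ^ L.ps ∂L.V) ^ (2 / L.ps) * L.En u := by ring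
    _ = L.En u := by rw [h2, one_mul]

theorem En_const (a : ℝ) : L.En (fun _ => a) =
    (L.H0 ^ 2 / L.m ^ 2 - L.k2) * (L.V.real univ * a ^ 2) := by
  have e : ∀ z, L.G (fun _ => a) (fun _ => a) z = 0 := by
    intro z
    show gv _ _ _ = 0
    rw [D_const, gv_zero_left]
  unfold En
  simp only [e, integral_zero, mul_zero, zero_add, integral_const, smul_eq_mul]

/-- **Theorem W** -/
theorem main_of (hE : L.HEnd) (hN : L.HNear) : sg L.m ^ (2 / L.m) ≤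
    (L.H0 ^ 2 / L.m ^ 2 - L.k2) * L.V.real univ ^ (2 / L.m) := by
  have h := L.sob_of hE hN (SP_one (n := n))
  have hV := L.Vuniv_pos
  rw [L.En_const 1] at h
  simp only [Real.one_rpow, integral_const, smul_eq_mul, mul_one, one_pow] at h
  have h1 : L.V.real univ = L.V.real univ ^ (2 / L.ps) * L.V.real univ ^ (2 / L.m) := by
    rw [← Real.rpow_add hV, ← L.one_sub_ps, add_sub_cancel, Real.rpow_one]
  have h2 : 0 < L.V.real univ ^ (2 / L.ps) := Real.rpow_pos_of_pos hV _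
  have h3 : sg L.m ^ (2 / L.m) * L.V.real univ ^ (2 / L.ps) ≤
      ((L.H0 ^ 2 / L.m ^ 2 - L.k2) * L.V.real univ ^ (2 / L.m)) * L.V.real univ ^ (2 / L.ps) := by
    refine h.trans (le_of_eq ?_)
    conv_lhs => rw [h1]
    ring
  exact le_of_mul_le_mul_right h3 h2

/-- equality case of Theorem W -/
theorem main_eq_of (hE : L.HEnd) (hN : L.HNear) (hC : L.HConst) (h : sg L.m ^ (2 / L.m) =
    (L.H0 ^ 2 / L.m ^ 2 - L.k2) * L.V.real univ ^ (2 / L.m)) :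
    ∃ c ∈ L.K, ∃ ε : ℝ, 0 < ε ∧ L.k2 * ε < 2 ∧ L.Def c ε (fun _ => 1) = 0 ∧
      (∀ᵐ z ∂L.V, L.G (L.F c) (L.F c) z = 0) ∧
      (∀ᵐ z ∂L.V, L.H0 / L.m = L.nc c z / (L.F c z.1 + ε)) ∧
      L.Dl c (fun x => 1 / (L.F c x + ε)) = 0 := by
  have hV := L.Vuniv_pos
  have hm := L.m_pos
  have hm2 := L.m_sub_pos
  obtain ⟨a, ha, h1, h2⟩ := L.exists_normalised (SP_one (n := n))
  simp only [mul_one] at h1
  -- the constant `a` is a minimizer
  have hEa : L.En (fun _ => a) = sg L.m ^ (2 / L.m) := by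
    rw [L.En_const, h]
    simp only [Real.one_rpow, integral_const, smul_eq_mul, mul_one] at h2
    have h3 : L.V.real univ = L.V.real univ ^ (2 / L.ps) * L.V.real univ ^ (2 / L.m) := by
      rw [← Real.rpow_add hV, ← L.one_sub_ps, add_sub_cancel, Real.rpow_one]
    have h4 : L.V.real univ * a ^ 2 = L.V.real univ ^ (2 / L.m) := by
      calc L.V.real univ * a ^ 2
          = L.V.real univ ^ (2 / L.ps) * L.V.real univ ^ (2 / L.m) * a ^ 2 := by rw [← h3]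
        _ = (a ^ 2 * L.V.real univ ^ (2 / L.ps)) * L.V.real univ ^ (2 / L.m) := by ring
        _ = L.V.real univ ^ (2 / L.m) := by rw [h2, one_mul]
    rw [h4]
  obtain ⟨c, hc, ε, hε, hk, hD⟩ := hC a ha h1 fun v hv hv1 => by
    rw [hEa]
    exact L.norm_lower hE hN hv hv1
  -- scale to `1`
  have hD1 : L.Def c ε (fun _ => 1) = 0 := by
    have e1 := L.En_const_mul a (u := fun _ => 1) contDiff_const
    simp only [mul_one] at e1
    have e2 : ∫ z, a ^ 2 * L.w c ε z.1 ^ 2 ∂L.V = a ^ 2 * ∫ z, L.w c ε z.1 ^ 2 ∂L.V :=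
      integral_const_mul _ _
    have e3 : ∫ z, (1 : ℝ) ^ 2 * L.w c ε z.1 ^ 2 ∂L.V = ∫ z, L.w c ε z.1 ^ 2 ∂L.V := by
      simp only [one_pow, one_mul]
    have e4 : L.Def c ε (fun _ => a) = a ^ 2 * L.Def c ε (fun _ => 1) := by
      unfold Def
      rw [e1, e2, e3]
      ring
    rw [e4] at hD
    rcases mul_eq_zero.1 hD with h5 | h5
    · exact absurd h5 (by positivity)
    · exact h5
  have h1c : ContDiff ℝ ∞ (fun _ : E n => (1 : ℝ)) := contDiff_const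
  have hd1 := L.d1_nonneg (c := c) hε hk (fun _ => 1)
  have hd2 := L.d2_nonneg (c := c) (ε := ε) (fun _ => 1)
  have hd3 := L.d3_nonneg hc hε h1c
  have hd1' := L.d1_le hc hε hk h1c
  have hd2' := L.d2_le hc hε hk h1c
  have hd3' := L.d3_le hc hε hk h1c
  rw [hD1, mul_zero] at hd1' hd3'
  rw [hD1] at hd2'
  have g1 : L.d1 c ε (fun _ => 1) = 0 := le_antisymm hd1' hd1
  have g2 : L.d2 c ε (fun _ => 1) = 0 := le_antisymm hd2' hd2
  have g3 : L.Dl c (L.tf c ε (fun _ => 1)) = 0 := le_antisymm hd3' hd3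
  refine ⟨c, hc, ε, hε, hk, hD1, ?_, ?_, ?_⟩
  · -- the tangential gradient of the bubble vanishes
    have cw : Continuous fun z : E n × E n => L.w c ε z.1 ^ (L.m - 2) :=
      (L.w_rpow_smooth hε hk (L.m - 2)).continuous.comp continuous_fst
    have hgs : ContDiff ℝ 1 (L.gq c ε fun _ => 1) := (L.gq_smooth hε hk h1c le_rfl).of_le one_le_inf
    have hint := L.integrable_of_cont (cw.mul (L.G_cont hgs hgs))
    have hnn : 0 ≤ᵐ[L.V] fun z => L.w c ε z.1 ^ (L.m - 2) *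
        L.G (L.gq c ε fun _ => 1) (L.gq c ε fun _ => 1) z := by
      filter_upwards [L.V_supp] with z hz
      exact mul_nonneg (Real.rpow_nonneg (L.w_pos hε hk z.1).le _) (L.G_self_nonneg _ hz.2)
    have hz0 := (integral_eq_zero_iff_of_nonneg_ae hnn hint).1 g1
    filter_upwards [hz0] with z hz
    have h5 := L.G_gq hε hk (u := fun _ => 1) contDiff_const z (c := c)
    have h6 : L.G (fun _ => (1 : ℝ)) (fun _ => 1) z = 0 := by
      show gv _ _ _ = 0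
      rw [D_const, gv_zero_left]
    have h7 : L.G (fun _ => (1 : ℝ)) (L.F c) z = 0 := by
      show gv _ _ _ = 0
      rw [D_const, gv_zero_left]
    have h8 : L.w c ε z.1 ^ (L.m - 2) *
      L.G (L.gq c ε fun _ => 1) (L.gq c ε fun _ => 1) z = 0 := hz
    rw [h8, h6, h7, mul_zero, add_zero, zero_add] at h5
    have h9 : L.G (L.F c) (L.F c) z = ‖D L.A (L.F c) z.1‖ ^ 2 - L.nc c z ^ 2 := gv_self _ _
    rw [h9]
    have hFe := L.Fe_pos (c := c) hε z.1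
    have h10 : 0 < ((L.m - 2) / 2 * (1 / (L.F c z.1 + ε))) ^ 2 := by positivity
    rcases mul_eq_zero.1 h5.symm with h11 | h11
    · exact absurd h11 h10.ne'
    · exact h11
  · have hp : ∀ z : E n × E n, L.F c z.1 + ε ≠ 0 := fun z => (L.Fe_pos hε z.1).ne'
    have cF : Continuous fun z : E n × E n => L.F c z.1 := (L.Fc_cont c).comp continuous_fst
    have cq : Continuous fun z : E n × E n =>
        (1 : ℝ) ^ 2 * (L.H0 / L.m - L.nc c z / (L.F c z.1 + ε)) ^ 2 :=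
      continuous_const.mul ((continuous_const.sub ((L.nc_cont c).div
        (cF.add continuous_const) hp)).pow 2)
    have hz0 := (integral_eq_zero_iff_of_nonneg_ae (Filter.Eventually.of_forall fun z => by
      positivity) (L.integrable_of_cont cq)).1 g2
    filter_upwards [hz0] with z hz
    have h5 : (L.H0 / L.m - L.nc c z / (L.F c z.1 + ε)) ^ 2 = 0 := by
      have h6 : (1 : ℝ) ^ 2 * (L.H0 / L.m - L.nc c z / (L.F c z.1 + ε)) ^ 2 = 0 := hz
      rwa [one_pow, one_mul] at h6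
    have h7 := pow_eq_zero_iff (two_ne_zero) |>.1 h5
    linarith
  · have e : L.tf c ε (fun _ => 1) = fun x => 1 / (L.F c x + ε) := by
      funext x
      unfold tf
      rw [one_pow]
    rw [← e]
    exact g3

end Lim

end Vale.Agent.P219.End
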