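import Vale.Agent.P219.End.Defs
import Vale.Agent.P219.End.Chi
import Vale.Agent.P219.TPH.CurvH

/-! # The conformal frames in a Cartan-Hadamard geometry

`FG G k c x = (cosh (k r) - 1) / k²`, `r = d(c, x)`. The map `θ = (θ₀, θ_v)` with
`θ₀ = (ε - (1 - k² ε) F) / (F + ε)`, `θ_v = w (sn r / r) log_c x`, `w = √(ε (2 - k² ε)) / (F + ε)`
takes values in the unit sphere and `∑ |∇_S θ_i|² ≤ (n - 1) w²`.
-/

open MeasureTheory Set Metric
open scoped ENNReal ContDiff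

namespace Vale.Agent.P219.End

open Vale.Agent.P219.TP Vale.Agent.P219.TPH

variable {n : ℕ}

/-- The Rauch comparison used by the frames. -/
def SnLe (G : Geo n) (k : ℝ) : Prop :=
  ∀ x v z : E n, inner ℝ v z = 0 → sn k ‖v‖ * ‖z‖ ≤ ‖v‖ * ‖G.T x v z‖

theorem snLe_zero (G : Geo n) : SnLe G 0 := by
  intro x v z _
  have h : sn 0 ‖v‖ = ‖v‖ := by simp [sn]
  rw [h]
  exact mul_le_mul_of_nonneg_left (G.norm_le_T x v z) (norm_nonneg _)

theorem snLe_of_curv (G : Geo n) {k : ℝ} (hk : 0 ≤ k) (hG : Curv G k) : SnLe G k := by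
  intro x v z h
  by_cases hv : v = 0
  · subst hv
    simp [sn_zero]
  · exact norm_T_sn hk hG hv h

/-- `(cosh (k r) - 1) / k²`, `r = d(c, x)` -/
noncomputable def FG (G : Geo n) (k : ℝ) (c x : E n) : ℝ := ff k (‖G.lg c x‖ ^ 2)

section
variable (G : Geo n) (k : ℝ)

theorem FG_smooth : ContDiff ℝ ∞ fun z : E n × E n => FG G k z.1 z.2 :=
  (ff_smooth k).comp (G.lg_smooth.norm_sq ℝ)

theorem FG_smooth_right (c : E n) : ContDiff ℝ ∞ (FG G k c) :=
  (ff_smooth k).comp ((G.lg_smooth_right c).norm_sq ℝ)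

theorem FG_nonneg (c x : E n) : 0 ≤ FG G k c x := ff_nonneg k _

theorem FG_comm (c x : E n) : FG G k c x = FG G k x c := by
  unfold FG
  rw [G.norm_lg_comm]

theorem FG_self (c : E n) : FG G k c c = 0 := by
  unfold FG
  rw [G.lg_self, norm_zero, ff_sq]
  simp [sn_zero]

theorem FG_pos (hk : 0 ≤ k) {c x : E n} (h : c ≠ x) : 0 < FG G k c x := by
  unfold FG
  rw [ff_sq]
  have h1 : 0 < ‖G.lg c x‖ := norm_pos_iff.2 fun h0 => h (G.lg_eq_zero.1 h0)
  have h2 := sn_pos hk (half_pos h1)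
  positivity

theorem sn_sq_eq_FG (c x : E n) :
    sn k ‖G.lg c x‖ ^ 2 = 2 * FG G k c x + k ^ 2 * FG G k c x ^ 2 := sn_sq_eq_ff k _

/-- the gradient of `F` -/
theorem fderiv_FG (c x η : E n) :
    fderiv ℝ (FG G k c) x (G.A x η) = -(chi k (‖G.lg c x‖ ^ 2) * inner ℝ (G.lg x c) η) := by
  have h1 := (G.hasFDerivAt_sq c x η).1
  have h2 : HasDerivAt (ff k) (chi k (‖G.lg c x‖ ^ 2) / 2) (2 * (‖G.lg c x‖ ^ 2 / 2)) := by
    have e : 2 * (‖G.lg c x‖ ^ 2 / 2) = ‖G.lg c x‖ ^ 2 := by ring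
    rw [e]
    exact hasDerivAt_ff_sq k (sq_nonneg _)
  have h3 : HasFDerivAt (FG G k c)
      ((chi k (‖G.lg c x‖ ^ 2) / 2) • ((2 : ℝ) • fderiv ℝ (fun y => ‖G.lg c y‖ ^ 2 / 2) x)) x := by
    have h4 := h2.comp_hasFDerivAt x (h1.const_mul (2 : ℝ))
    have e : FG G k c = ff k ∘ fun y => 2 * (‖G.lg c y‖ ^ 2 / 2) := by
      funext y
      simp only [FG, Function.comp_apply]
      congr 1
      ring
    rw [e]
    exact h4
  rw [h3.fderiv, smul_apply, smul_apply, G.fderiv_sq]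
  simp only [smul_eq_mul]
  ring

/-- the gradient of `F`, in the frame -/
theorem D_FG (c x : E n) : D G.A (FG G k c) x = -(chi k (‖G.lg c x‖ ^ 2) • G.lg x c) := by
  refine ext_inner_right ℝ fun η => ?_
  unfold D
  rw [InnerProductSpace.toDual_symm_apply, ContinuousLinearMap.comp_apply, fderiv_FG,
    inner_neg_left, real_inner_smul_left]

theorem norm_D_FG (c x : E n) :
    ‖D G.A (FG G k c) x‖ ^ 2 = 2 * FG G k c x + k ^ 2 * FG G k c x ^ 2 := by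
  rw [D_FG, norm_neg, norm_smul, mul_pow, Real.norm_eq_abs, sq_abs, ← sn_sq_eq_FG,
    G.norm_lg_comm x c, sn_eq_chi]
  ring

end

/-! ### The frame functions -/

/-- `√(ε (2 - k² ε))` -/
noncomputable def q0 (k ε : ℝ) : ℝ := √(ε * (2 - k ^ 2 * ε))

theorem q0_pos {k ε : ℝ} (hε : 0 < ε) (h : k ^ 2 * ε < 2) : 0 < q0 k ε :=
  Real.sqrt_pos.2 (mul_pos hε (by linarith))

theorem q0_sq {k ε : ℝ} (hε : 0 < ε) (h : k ^ 2 * ε < 2) : q0 k ε ^ 2 = ε * (2 - k ^ 2 * ε) :=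
  Real.sq_sqrt (mul_pos hε (by linarith)).le

/-- the vector part of the frame -/
noncomputable def thv (G : Geo n) (k : ℝ) (c : E n) (ε : ℝ) (x : E n) : E n :=
  (q0 k ε / (FG G k c x + ε) * chi k (‖G.lg c x‖ ^ 2)) • G.lg c x

/-- the scalar part of the frame -/
noncomputable def th0 (G : Geo n) (k : ℝ) (c : E n) (ε : ℝ) (x : E n) : ℝ :=
  (ε - (1 - k ^ 2 * ε) * FG G k c x) / (FG G k c x + ε)

/-- the frame -/
noncomputable def thf (G : Geo n) (k : ℝ) (c : E n) (ε : ℝ) (i : Fin (n + 1)) (x : E n) : ℝ :=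
  (Fin.cons (th0 G k c ε x) (fun j => thv G k c ε x j) : Fin (n + 1) → ℝ) i

theorem thf_zero (G : Geo n) (k : ℝ) (c : E n) (ε : ℝ) (x : E n) :
    thf G k c ε 0 x = th0 G k c ε x := rfl

theorem thf_succ (G : Geo n) (k : ℝ) (c : E n) (ε : ℝ) (j : Fin n) (x : E n) :
    thf G k c ε j.succ x = thv G k c ε x j := rfl

section
variable (G : Geo n) {k ε : ℝ} (hε : 0 < ε) (hε2 : k ^ 2 * ε < 2)
include hε

theorem FGe_pos (k : ℝ) (c x : E n) : 0 < FG G k c x + ε := by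
  have := FG_nonneg G k c x
  linarith

theorem th0_smooth (k : ℝ) (c : E n) : ContDiff ℝ ∞ (th0 G k c ε) :=
  (contDiff_const.sub (contDiff_const.mul (FG_smooth_right G k c))).div
    ((FG_smooth_right G k c).add contDiff_const) fun x => (FGe_pos G hε k c x).ne'

theorem thv_smooth (k : ℝ) (c : E n) : ContDiff ℝ ∞ (thv G k c ε) := by
  have h1 : ContDiff ℝ ∞ fun x => q0 k ε / (FG G k c x + ε) :=
    contDiff_const.div ((FG_smooth_right G k c).add contDiff_const)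
      fun x => (FGe_pos G hε k c x).ne'
  have h2 : ContDiff ℝ ∞ fun x => chi k (‖G.lg c x‖ ^ 2) :=
    (chi_smooth k).comp ((G.lg_smooth_right c).norm_sq ℝ)
  exact (h1.mul h2).smul (G.lg_smooth_right c)

theorem thf_smooth (k : ℝ) (c : E n) (i : Fin (n + 1)) : ContDiff ℝ ∞ (thf G k c ε i) := by
  refine Fin.cases ?_ (fun j => ?_) i
  · exact th0_smooth G hε k c
  · have h := contDiff_euclidean.1 (thv_smooth G hε k c) j
    exact h

include hε2

omit hε2 in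
theorem norm_thv_sq (c x : E n) :
    ‖thv G k c ε x‖ ^ 2 = q0 k ε ^ 2 * (2 * FG G k c x + k ^ 2 * FG G k c x ^ 2) /
      (FG G k c x + ε) ^ 2 := by
  unfold thv
  have hp := (FGe_pos G hε k c x).ne'
  rw [norm_smul, mul_pow, Real.norm_eq_abs, sq_abs, ← sn_sq_eq_FG, sn_eq_chi]
  field_simp

theorem thf_sq (c x : E n) : ∑ i, thf G k c ε i x ^ 2 = 1 := by
  rw [Fin.sum_univ_succ]
  have h1 : ∑ j : Fin n, thf G k c ε j.succ x ^ 2 = ‖thv G k c ε x‖ ^ 2 := by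
    rw [EuclideanSpace.real_norm_sq_eq]
    rfl
  have hp := FGe_pos G hε k c x
  rw [h1, norm_thv_sq G hε, q0_sq hε hε2, thf_zero, th0]
  rw [div_pow, ← add_div, div_eq_one_iff_eq (by positivity)]
  ring

end

/-! ### The energy of the frame -/

/-- `cs = χ + 2 r² χ'` -/
theorem cs_eq_chi (k r : ℝ) :
    cs k r = chi k (r ^ 2) + 2 * r ^ 2 * deriv (chi k) (r ^ 2) := by
  have h1 : HasDerivAt (fun r => r * chi k (r ^ 2))
      (1 * chi k (r ^ 2) + r * (deriv (chi k) (r ^ 2) * (2 * r))) r := by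
    have h2 : HasDerivAt (chi k) (deriv (chi k) (r ^ 2)) (r ^ 2) :=
      ((chi_smooth k).differentiable (by simp) _).hasDerivAt
    have h3 : HasDerivAt (fun r : ℝ => r ^ 2) (2 * r) r := by
      simpa using hasDerivAt_pow 2 r
    exact (hasDerivAt_id r).mul (HasDerivAt.comp (h₂ := chi k) (h := fun r : ℝ => r ^ 2) r h2 h3)
  have h4 := hasDerivAt_sn k r
  have e : sn k = fun r => r * chi k (r ^ 2) := funext (sn_eq_chi k)
  rw [e] at h4
  rw [h4.unique h1]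
  ring

/-- lower bound of the differential of the exponential map -/
theorem T_lower (G : Geo n) {k : ℝ} (hk : 0 ≤ k) (hS : SnLe G k) (c X y : E n) (hX : X ≠ 0) :
    inner ℝ X y ^ 2 / ‖X‖ ^ 2 +
        chi k (‖X‖ ^ 2) ^ 2 * (‖y‖ ^ 2 - inner ℝ X y ^ 2 / ‖X‖ ^ 2) ≤ ‖G.T c X y‖ ^ 2 := by
  have hr : 0 < ‖X‖ := norm_pos_iff.2 hX
  set b : ℝ := inner ℝ X y with hb
  obtain ⟨z, hz⟩ : ∃ z, z = y - (b / ‖X‖ ^ 2) • X := ⟨_, rfl⟩
  have hy : y = (b / ‖X‖ ^ 2) • X + z := by rw [hz]; abel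
  have hXz : inner ℝ X z = 0 := by
    rw [hz, inner_sub_right, real_inner_smul_right, real_inner_self_eq_norm_sq, ← hb]
    field_simp
    ring
  have h1 : chi k (‖X‖ ^ 2) * ‖z‖ ≤ ‖G.T c X z‖ := by
    have h := hS c X z hXz
    rw [sn_eq_chi, mul_assoc] at h
    exact le_of_mul_le_mul_left h hr
  have h2 : inner ℝ (G.T c X X) (G.T c X z) = 0 := by rw [G.gauss, hXz]
  have h3 : ‖G.T c X X‖ ^ 2 = ‖X‖ ^ 2 := by
    rw [← real_inner_self_eq_norm_sq, G.gauss, real_inner_self_eq_norm_sq]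
  have h4 : ‖G.T c X y‖ ^ 2 = b ^ 2 / ‖X‖ ^ 2 + ‖G.T c X z‖ ^ 2 := by
    rw [hy, map_add, map_smul, norm_add_sq_real, real_inner_smul_left, h2, norm_smul, mul_pow, h3,
      Real.norm_eq_abs, sq_abs]
    field_simp
    ring
  have h5 : ‖y‖ ^ 2 = b ^ 2 / ‖X‖ ^ 2 + ‖z‖ ^ 2 := by
    conv_lhs => rw [hy]
    rw [norm_add_sq_real, real_inner_smul_left, hXz, norm_smul, mul_pow,
      Real.norm_eq_abs, sq_abs]
    field_simp
    ring
  have h6 : (chi k (‖X‖ ^ 2) * ‖z‖) ^ 2 ≤ ‖G.T c X z‖ ^ 2 :=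
    pow_le_pow_left₀ (mul_nonneg (chi_pos hk).le (norm_nonneg _)) h1 2
  rw [h4, h5]
  nlinarith

/-- The derivative of the frame along a direction. -/
theorem thf_energy (G : Geo n) {k ε : ℝ} (hk : 0 ≤ k) (hS : SnLe G k) (hε : 0 < ε)
    (hε2 : k ^ 2 * ε < 2) (c x v : E n) :
    ∑ i, (fderiv ℝ (thf G k c ε i) x (G.A x v)) ^ 2 ≤
      (q0 k ε / (FG G k c x + ε)) ^ 2 * ‖v‖ ^ 2 := by
  -- the data
  obtain ⟨η, hη⟩ : ∃ η, η = G.A x v := ⟨_, rfl⟩
  obtain ⟨X, hX⟩ : ∃ X, X = G.lg c x := ⟨_, rfl⟩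
  obtain ⟨y, hy⟩ : ∃ y, y = fderiv ℝ (G.lg c) x η := ⟨_, rfl⟩
  have hTv : G.T c X y = v := by
    apply G.A_injective x
    have h1 := G.fderiv_ex_eq c X
    have h2 : G.ex c X = x := by rw [hX, G.ex_lg]
    have h3 : fderiv ℝ (G.ex c) X y = η := by
      have h4 : HasFDerivAt (fun x => G.ex c (G.lg c x))
          ((fderiv ℝ (G.ex c) X).comp (fderiv ℝ (G.lg c) x)) x := by
        rw [hX]
        exact (G.ex_diff c _).hasFDerivAt.comp x (G.lg_diff c x).hasFDerivAt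
      have h5 : (fun x => G.ex c (G.lg c x)) = id := by
        funext x
        exact G.ex_lg c x
      rw [h5] at h4
      have h6 := h4.unique (hasFDerivAt_id x)
      have h7 := congrArg (fun L : E n →L[ℝ] E n => L η) h6
      rw [hy]
      simpa using h7
    rw [h1, ContinuousLinearMap.comp_apply, h2] at h3
    rw [h3, hη]
  -- derivatives along the line
  have hl : HasDerivAt (fun t : ℝ => x + t • η) η 0 := by
    simpa using ((hasDerivAt_id (0 : ℝ)).smul_const η).const_add x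
  have hx0 : x + (0 : ℝ) • η = x := by simp
  have hXd : HasDerivAt (fun t : ℝ => G.lg c (x + t • η)) y 0 := by
    have h := (G.lg_diff c (x + (0 : ℝ) • η)).hasFDerivAt.comp_hasDerivAt (0 : ℝ) hl
    rw [hx0] at h
    rw [hy]
    exact h
  have hX0 : G.lg c (x + (0 : ℝ) • η) = X := by rw [hx0, hX]
  obtain ⟨s, hs⟩ : ∃ s, s = ‖X‖ ^ 2 := ⟨_, rfl⟩
  obtain ⟨b, hb⟩ : ∃ b : ℝ, b = inner ℝ X y := ⟨_, rfl⟩
  have hsd : HasDerivAt (fun t : ℝ => ‖G.lg c (x + t • η)‖ ^ 2) (2 * b) 0 := by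
    have h := hXd.norm_sq
    rw [hX0] at h
    rw [hb]
    exact h
  have hs0 : ‖G.lg c (x + (0 : ℝ) • η)‖ ^ 2 = s := by rw [hX0, hs]
  have hs' : 0 ≤ s := by rw [hs]; positivity
  obtain ⟨ch, hch⟩ : ∃ ch, ch = chi k s := ⟨_, rfl⟩
  obtain ⟨ch', hch'⟩ : ∃ ch', ch' = deriv (chi k) s := ⟨_, rfl⟩
  obtain ⟨f, hf⟩ : ∃ f, f = FG G k c x := ⟨_, rfl⟩
  have hchd : HasDerivAt (fun t : ℝ => chi k (‖G.lg c (x + t • η)‖ ^ 2)) (ch' * (2 * b)) 0 := by
    have h1 : HasDerivAt (chi k) ch' (‖G.lg c (x + (0 : ℝ) • η)‖ ^ 2) := by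
      rw [hs0, hch']
      exact ((chi_smooth k).differentiable (by simp) _).hasDerivAt
    exact HasDerivAt.comp (h₂ := chi k) (h := fun t : ℝ => ‖G.lg c (x + t • η)‖ ^ 2) 0 h1 hsd
  have hFd : HasDerivAt (fun t : ℝ => FG G k c (x + t • η)) (ch / 2 * (2 * b)) 0 := by
    have h1 : HasDerivAt (ff k) (ch / 2) (‖G.lg c (x + (0 : ℝ) • η)‖ ^ 2) := by
      rw [hs0, hch]
      exact hasDerivAt_ff_sq k hs'
    exact HasDerivAt.comp (h₂ := ff k) (h := fun t : ℝ => ‖G.lg c (x + t • η)‖ ^ 2) 0 h1 hsd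
  have hF0 : FG G k c (x + (0 : ℝ) • η) = f := by rw [hx0, hf]
  have hch0 : chi k (‖G.lg c (x + (0 : ℝ) • η)‖ ^ 2) = ch := by rw [hs0, hch]
  have hfe : 0 < f + ε := by rw [hf]; exact FGe_pos G hε k c x
  obtain ⟨q, hq⟩ : ∃ q, q = q0 k ε := ⟨_, rfl⟩
  have hqp : 0 < q := by rw [hq]; exact q0_pos hε hε2
  have hq2 : q ^ 2 = ε * (2 - k ^ 2 * ε) := by rw [hq]; exact q0_sq hε hε2
  -- derivative of the scalar part
  have h0d : HasDerivAt (fun t : ℝ => th0 G k c ε (x + t • η))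
      (-(q ^ 2 / (f + ε) ^ 2 * (ch * b))) 0 := by
    have h1 := (hFd.const_mul (1 - k ^ 2 * ε)).const_sub ε
    have h2 := h1.fun_div (hFd.add_const ε) (by rw [hF0]; exact hfe.ne')
    rw [hF0] at h2
    refine h2.congr_deriv ?_
    rw [hq2]
    field_simp
    ring
  have hvd : HasDerivAt (fun t : ℝ => thv G k c ε (x + t • η))
      ((-(q / (f + ε) ^ 2 * (ch * b)) * ch + q / (f + ε) * (ch' * (2 * b))) • X +
        (q / (f + ε) * ch) • y) 0 := by
    have h1 : HasDerivAt (fun t : ℝ => q0 k ε / (FG G k c (x + t • η) + ε))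
        (-(q / (f + ε) ^ 2 * (ch * b))) 0 := by
      have h2 := (hasDerivAt_const (0 : ℝ) (q0 k ε)).fun_div (hFd.add_const ε)
        (by rw [hF0]; exact hfe.ne')
      rw [hF0, ← hq] at h2
      rw [← hq]
      refine h2.congr_deriv ?_
      field_simp
      ring
    have h3 := (h1.fun_mul hchd).fun_smul hXd
    rw [hX0, ← hs, ← hch, hF0, ← hq] at h3
    have h4 : (fun t : ℝ => thv G k c ε (x + t • η)) = fun t : ℝ =>
        (q / (FG G k c (x + t • η) + ε) * chi k (‖G.lg c (x + t • η)‖ ^ 2)) •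
          G.lg c (x + t • η) := by
      funext t
      rw [thv, hq]
    rw [h4]
    refine h3.congr_deriv ?_
    rw [add_comm]
  -- the components
  have hcomp : ∀ i, fderiv ℝ (thf G k c ε i) x η =
      (Fin.cons (-(q ^ 2 / (f + ε) ^ 2 * (ch * b))) (fun j =>
        ((-(q / (f + ε) ^ 2 * (ch * b)) * ch + q / (f + ε) * (ch' * (2 * b))) • X +
        (q / (f + ε) * ch) • y : E n) j) : Fin (n + 1) → ℝ) i := by
    intro i
    have h1 : HasDerivAt (fun t : ℝ => thf G k c ε i (x + t • η))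
        (fderiv ℝ (thf G k c ε i) x η) 0 := by
      have h2 : HasFDerivAt (thf G k c ε i) (fderiv ℝ (thf G k c ε i) x) (x + (0 : ℝ) • η) := by
        rw [hx0]
        exact ((thf_smooth G hε k c i).differentiable (by simp) x).hasFDerivAt
      exact h2.comp_hasDerivAt (0 : ℝ) hl
    refine h1.unique ?_
    refine Fin.cases ?_ (fun j => ?_) i
    · exact h0d
    · exact (EuclideanSpace.proj j : E n →L[ℝ] ℝ).hasFDerivAt.comp_hasDerivAt (0 : ℝ) hvd
  rw [← hη]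
  simp only [hcomp]
  rw [Fin.sum_univ_succ]
  simp only [Fin.cons_zero, Fin.cons_succ]
  obtain ⟨Y, hY⟩ : ∃ Y, Y = (-(q / (f + ε) ^ 2 * (ch * b)) * ch + q / (f + ε) * (ch' * (2 * b))) • X +
        (q / (f + ε) * ch) • y := ⟨_, rfl⟩
  rw [← hY, ← hq, ← hf]
  have h1 : ∑ j : Fin n, (Y j) ^ 2 = ‖Y‖ ^ 2 := (EuclideanSpace.real_norm_sq_eq Y).symm
  rw [h1]
  have h2 : ‖Y‖ ^ 2 = (-(q / (f + ε) ^ 2 * (ch * b)) * ch + q / (f + ε) * (ch' * (2 * b))) ^ 2 * s +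
      2 * (-(q / (f + ε) ^ 2 * (ch * b)) * ch + q / (f + ε) * (ch' * (2 * b))) *
        (q / (f + ε) * ch) * b + (q / (f + ε) * ch) ^ 2 * ‖y‖ ^ 2 := by
    rw [hY, norm_add_sq_real, norm_smul, norm_smul, mul_pow, mul_pow, Real.norm_eq_abs,
      Real.norm_eq_abs, sq_abs, sq_abs, real_inner_smul_left, real_inner_smul_right, ← hb, ← hs]
    ring
  rw [h2]
  by_cases hX00 : X = 0
  · -- the centre
    have hb0 : b = 0 := by rw [hb, hX00, inner_zero_left]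
    have hch1 : ch = 1 := by rw [hch, hs, hX00]; simp [chi_zero]
    have hv : ‖v‖ = ‖y‖ := by rw [← hTv, hX00, G.T_zero]
    have hs00 : s = 0 := by rw [hs, hX00]; simp
    rw [hb0, hch1, hv, hs00]
    apply le_of_eq
    ring
  · have hsp : 0 < s := by
      rw [hs]
      have := norm_pos_iff.2 hX00
      positivity
    have h3 := T_lower G hk hS c X y hX00
    rw [hTv, ← hs, ← hb, ← hch] at h3
    -- the identity
    have hcs := cs_eq_chi k ‖X‖
    have hcs2 := cs_eq_ff k ‖X‖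
    have hsn := sn_sq_eq_ff k ‖X‖
    have hff : ff k (‖X‖ ^ 2) = f := by rw [hf, hX]; rfl
    rw [← hs, ← hch, ← hch'] at hcs
    rw [hff] at hcs2 hsn
    have hsn2 : sn k ‖X‖ ^ 2 = s * ch ^ 2 := by
      rw [sn_eq_chi, ← hs, ← hch, mul_pow, ← hs]
    rw [hcs] at hcs2
    rw [hsn2] at hsn
    have key : (-(q ^ 2 / (f + ε) ^ 2 * (ch * b))) ^ 2 +
        ((-(q / (f + ε) ^ 2 * (ch * b)) * ch + q / (f + ε) * (ch' * (2 * b))) ^ 2 * s +
      2 * (-(q / (f + ε) ^ 2 * (ch * b)) * ch + q / (f + ε) * (ch' * (2 * b))) *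
        (q / (f + ε) * ch) * b + (q / (f + ε) * ch) ^ 2 * ‖y‖ ^ 2) =
        (q / (f + ε)) ^ 2 * (b ^ 2 / s + ch ^ 2 * (‖y‖ ^ 2 - b ^ 2 / s)) := by
      have e1 : q ^ 2 = ε * (2 - k ^ 2 * ε) := hq2
      have e2 : 2 * s * ch' = 1 + k ^ 2 * f - ch := by linarith
      have e3 : s * ch ^ 2 = 2 * f + k ^ 2 * f ^ 2 := hsn
      have e4 : (2 * s * ch' + ch - s * ch ^ 2 / (f + ε)) ^ 2 + q ^ 2 / (f + ε) ^ 2 * (s * ch ^ 2)
          = 1 := by
        rw [e2, e3, e1]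
        field_simp
        ring
      have e5 : (-(q ^ 2 / (f + ε) ^ 2 * (ch * b))) ^ 2 +
        ((-(q / (f + ε) ^ 2 * (ch * b)) * ch + q / (f + ε) * (ch' * (2 * b))) ^ 2 * s +
      2 * (-(q / (f + ε) ^ 2 * (ch * b)) * ch + q / (f + ε) * (ch' * (2 * b))) *
        (q / (f + ε) * ch) * b + (q / (f + ε) * ch) ^ 2 * ‖y‖ ^ 2) =
        (q / (f + ε)) ^ 2 * (b ^ 2 / s * ((2 * s * ch' + ch - s * ch ^ 2 / (f + ε)) ^ 2 +
          q ^ 2 / (f + ε) ^ 2 * (s * ch ^ 2)) + ch ^ 2 * (‖y‖ ^ 2 - b ^ 2 / s)) := by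
        field_simp
        ring
      rw [e5, e4, mul_one]
    rw [key]
    exact mul_le_mul_of_nonneg_left h3 (by positivity)

/-- trace over the hyperplane orthogonal to `ν` -/
theorem sum_perp_le {ι : Type*} [Fintype ι] {a : ι → E n} {W : ℝ} {ν : E n} (hν : ‖ν‖ = 1)
    (h : ∀ v : E n, ∑ i, inner ℝ (a i) v ^ 2 ≤ W * ‖v‖ ^ 2) :
    ∑ i, (inner ℝ (a i) (a i) - inner ℝ (a i) ν * inner ℝ (a i) ν) ≤ ((n : ℝ) - 1) * W := by
  obtain ⟨e, he⟩ : ∃ e : OrthonormalBasis (Fin n) ℝ (E n), e = EuclideanSpace.basisFun (Fin n) ℝ :=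
    ⟨_, rfl⟩
  have h1 : ∀ i, inner ℝ (a i) (a i) - inner ℝ (a i) ν * inner ℝ (a i) ν =
      ∑ j, inner ℝ (a i) (e j - inner ℝ (e j) ν • ν) ^ 2 := by
    intro i
    have h2 : ∑ j, inner ℝ (a i - inner ℝ (a i) ν • ν) (e j) ^ 2 =
        ‖a i - inner ℝ (a i) ν • ν‖ ^ 2 := by
      have := e.sum_sq_norm_inner_left (a i - inner ℝ (a i) ν • ν)
      simpa using this
    have h3 : ∀ j, inner ℝ (a i) (e j - inner ℝ (e j) ν • ν) =
        inner ℝ (a i - inner ℝ (a i) ν • ν) (e j) := by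
      intro j
      rw [inner_sub_right, inner_sub_left, real_inner_smul_right, real_inner_smul_left,
        real_inner_comm ν (e j)]
      ring
    simp only [h3]
    rw [h2, norm_sub_sq_real, norm_smul, real_inner_smul_right, mul_pow, hν,
      Real.norm_eq_abs, sq_abs, real_inner_self_eq_norm_sq]
    ring
  have h4 : ∀ j, ‖e j - inner ℝ (e j) ν • ν‖ ^ 2 = 1 - inner ℝ (e j) ν ^ 2 := by
    intro j
    rw [norm_sub_sq_real, norm_smul, real_inner_smul_right, mul_pow, hν,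
      Real.norm_eq_abs, sq_abs, e.norm_eq_one]
    ring
  have h5 : ∑ j, inner ℝ (e j) ν ^ 2 = 1 := by
    have := e.sum_sq_norm_inner_right ν
    rw [hν] at this
    simpa using this
  calc ∑ i, (inner ℝ (a i) (a i) - inner ℝ (a i) ν * inner ℝ (a i) ν) =
      ∑ i, ∑ j, inner ℝ (a i) (e j - inner ℝ (e j) ν • ν) ^ 2 := Finset.sum_congr rfl fun i _ => h1 i
    _ = ∑ j, ∑ i, inner ℝ (a i) (e j - inner ℝ (e j) ν • ν) ^ 2 := Finset.sum_comm
    _ ≤ ∑ j, W * ‖e j - inner ℝ (e j) ν • ν‖ ^ 2 := Finset.sum_le_sum fun j _ => h _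
    _ = ((n : ℝ) - 1) * W := by
      simp only [h4]
      rw [← Finset.mul_sum, Finset.sum_sub_distrib, h5]
      simp
      ring

/-- The energy of the frame along the hyperplane orthogonal to `ν`. -/
theorem thf_Gam (G : Geo n) {k ε : ℝ} (hk : 0 ≤ k) (hS : SnLe G k) (hε : 0 < ε)
    (hε2 : k ^ 2 * ε < 2) (c : E n) (z : E n × E n) (hz : ‖z.2‖ = 1) :
    ∑ i, Gam G.A (thf G k c ε i) (thf G k c ε i) z ≤
      ((n : ℝ) - 1) * bub (k ^ 2) (FG G k c) ε z.1 ^ 2 := by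
  refine sum_perp_le (a := fun i => D G.A (thf G k c ε i) z.1) hz fun v => ?_
  have h := thf_energy G hk hS hε hε2 c z.1 v
  have h1 : ∀ i, inner ℝ (D G.A (thf G k c ε i) z.1) v =
      fderiv ℝ (thf G k c ε i) z.1 (G.A z.1 v) := by
    intro i
    unfold D
    rw [InnerProductSpace.toDual_symm_apply, ContinuousLinearMap.comp_apply]
  simp only [h1]
  exact h

end Vale.Agent.P219.End
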