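import Vale.Agent.P219.End.FvPerB
import Vale.Agent.P219.End.Frames
import Vale.Agent.P219.End.BundleLim

/-! # The first variation density of the field `-ψ ∇F_p` -/

open MeasureTheory Set Metric
open scoped ENNReal ContDiff

namespace Vale.Agent.P219.End

open Vale.Agent.P219.TP Vale.Agent.P219.TPH

variable {n : ℕ} (G : Geo n) {k : ℝ}

/-- The rate of the field `-ψ ∇F_p`. -/
noncomputable def rateF (G : Geo n) (k : ℝ) (ψ : E n → ℝ) (p x : E n) : ℝ :=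
  ψ x * chi k (‖G.lg p x‖ ^ 2)

theorem rateF_smooth (k : ℝ) {ψ : E n → ℝ} (hψ : ContDiff ℝ ∞ ψ) (p : E n) :
    ContDiff ℝ ∞ (rateF G k ψ p) :=
  hψ.mul ((chi_smooth k).comp ((G.lg_smooth_right p).norm_sq ℝ))

theorem rateF_nonneg (hk : 0 ≤ k) {ψ : E n → ℝ} (hψ0 : ∀ x, 0 ≤ ψ x) (p x : E n) :
    0 ≤ rateF G k ψ p x := mul_nonneg (hψ0 x) (chi_pos hk).le

/-- gradient of the rate -/
theorem D_rateF {ψ : E n → ℝ} (hψ : ContDiff ℝ ∞ ψ) (p x : E n) :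
    G.D (rateF G k ψ p) x = chi k (‖G.lg p x‖ ^ 2) • G.D ψ x +
      (ψ x * (2 * deriv (chi k) (‖G.lg p x‖ ^ 2))) • (-G.lg x p) := by
  refine ext_inner_right ℝ fun η => ?_
  rw [G.inner_D, inner_add_left, real_inner_smul_left, real_inner_smul_left, G.inner_D,
    inner_neg_left]
  have h1 := (G.hasFDerivAt_sq p x η).1
  have h2 : HasDerivAt (chi k) (deriv (chi k) (2 * (‖G.lg p x‖ ^ 2 / 2)))
      (2 * (‖G.lg p x‖ ^ 2 / 2)) :=
    ((chi_smooth k).differentiable (by simp) _).hasDerivAt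
  have h3 : HasFDerivAt (fun y => chi k (‖G.lg p y‖ ^ 2))
      (deriv (chi k) (2 * (‖G.lg p x‖ ^ 2 / 2)) •
        ((2 : ℝ) • fderiv ℝ (fun y => ‖G.lg p y‖ ^ 2 / 2) x)) x := by
    have h4 := h2.comp_hasFDerivAt x (h1.const_mul (2 : ℝ))
    have e : (fun y => chi k (‖G.lg p y‖ ^ 2)) = chi k ∘ fun y => 2 * (‖G.lg p y‖ ^ 2 / 2) := by
      funext y
      simp only [Function.comp_apply]
      congr 1
      ring
    rw [e]
    exact h4
  have h5 : HasFDerivAt ψ (fderiv ℝ ψ x) x := (hψ.differentiable (by simp) x).hasFDerivAt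
  have h6 := h5.mul h3
  have h7 : fderiv ℝ (rateF G k ψ p) x = _ := h6.fderiv
  rw [h7]
  simp only [add_apply, smul_apply, smul_eq_mul, G.fderiv_sq]
  have e : 2 * (‖G.lg p x‖ ^ 2 / 2) = ‖G.lg p x‖ ^ 2 := by ring
  rw [e]
  ring

theorem kap_arith {ψ σ d cs r q nn Nn A B C : ℝ} (hr : r ≠ 0)
    (hq : σ * q = cs) (hcs : cs = σ + 2 * r ^ 2 * d) :
    ψ * σ * ((nn - 2) * q + 1) * Nn + (σ * A + ψ * (2 * d) * r ^ 2) * Nn -
      B * (σ * C + ψ * (2 * d) * B) / Nn + ψ * σ * (q - 1) * (B / r) ^ 2 / Nn =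
    (nn - 1) * cs * ψ * Nn + σ * A * Nn - σ * B * C / Nn := by
  have e1 : ψ * σ * ((nn - 2) * q + 1) = ψ * ((nn - 2) * cs + σ) := by
    rw [← hq]
    ring
  have e2 : ψ * σ * (q - 1) * (B / r) ^ 2 = ψ * (2 * d) * B ^ 2 := by
    have : σ * (q - 1) = 2 * r ^ 2 * d := by rw [mul_sub, hq, hcs]; ring
    rw [mul_assoc ψ, this, div_pow]
    field_simp
  rw [e1, e2, hcs]
  ring

/-- The first variation density of the field `-ψ ∇F_p`. -/
theorem kapU_rateF (hk : 0 ≤ k) {ψ : E n → ℝ} (hψ : ContDiff ℝ ∞ ψ) {p x : E n} (hx : x ≠ p)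
    (N : E n) :
    kapU G k (rateF G k ψ p) p x N = ((n : ℝ) - 1) * (1 + k ^ 2 * FG G k p x) * ψ x * ‖N‖ +
      inner ℝ (G.D ψ x) (G.D (FG G k p) x) * ‖N‖ -
      inner ℝ (G.D (FG G k p) x) N * inner ℝ (G.D ψ x) N / ‖N‖ := by
  have hv : G.lg p x ≠ 0 := by
    intro h0
    exact hx ((G.lg_eq_zero).mp h0).symm
  have hr : ‖G.lg p x‖ ≠ 0 := norm_ne_zero_iff.2 hv
  have hDF : G.D (FG G k p) x = chi k (‖G.lg p x‖ ^ 2) • (-G.lg x p) := by
    have h := D_FG G k p x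
    rw [smul_neg]
    exact h
  have hq : chi k (‖G.lg p x‖ ^ 2) * qct k ‖G.lg p x‖ = cs k ‖G.lg p x‖ := by
    have hσ : chi k (‖G.lg p x‖ ^ 2) ≠ 0 := (chi_pos hk).ne'
    rw [qct, sn_eq_chi]
    field_simp
  have hcs := cs_eq_chi k ‖G.lg p x‖
  have ha : inner ℝ (-G.lg x p) (-G.lg x p) = ‖G.lg p x‖ ^ 2 := by
    rw [real_inner_self_eq_norm_sq, fv_norm_a]
  have hcsF : 1 + k ^ 2 * FG G k p x = cs k ‖G.lg p x‖ := by
    rw [FG, ← cs_eq_ff]
  rw [kapU, D_rateF G hψ, hDF, hcsF, rateF]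
  simp only [inner_add_left, real_inner_smul_left, real_inner_smul_right, ha]
  have := kap_arith (ψ := ψ x) (nn := (n : ℝ)) (Nn := ‖N‖) (A := inner ℝ (G.D ψ x) (-G.lg x p))
    (B := inner ℝ (-G.lg x p) N) (C := inner ℝ (G.D ψ x) N) hr hq hcs
  rw [this]

/-- The perimeter density on the unit normal bundle. -/
noncomputable def aF (G : Geo n) (k : ℝ) (ψ : E n → ℝ) (p : E n) (z : E n × E n) : ℝ :=
  ((n : ℝ) - 1) * (1 + k ^ 2 * FG G k p z.1) * ψ z.1 + Gam G.A ψ (FG G k p) z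

/-- The volume density on the unit normal bundle. -/
noncomputable def bF (G : Geo n) (k : ℝ) (ψ : E n → ℝ) (p : E n) (z : E n × E n) : ℝ :=
  ψ z.1 * inner ℝ (D G.A (FG G k p) z.1) z.2

theorem kapU_eq_aF (hk : 0 ≤ k) {ψ : E n → ℝ} (hψ : ContDiff ℝ ∞ ψ) {p x : E n} (hx : x ≠ p)
    (h : E n → ℝ) :
    kapU G k (rateF G k ψ p) p x (G.D h x) = aF G k ψ p (x, nrm G h x) * ‖G.D h x‖ := by
  rw [kapU_rateF G hk hψ hx, aF, Gam]
  have e1 : D G.A ψ x = G.D ψ x := rfl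
  have e2 : D G.A (FG G k p) x = G.D (FG G k p) x := rfl
  simp only [e1, e2]
  by_cases hD : G.D h x = 0
  · rw [hD]
    simp
  have hDn : ‖G.D h x‖ ≠ 0 := norm_ne_zero_iff.2 hD
  have e3 : ∀ v : E n, inner ℝ v (nrm G h x) = -(inner ℝ v (G.D h x) / ‖G.D h x‖) := by
    intro v
    unfold nrm
    rw [inner_neg_right, real_inner_smul_right]
    ring
  rw [e3, e3]
  field_simp
  ring

theorem vol_eq_bF (ψ : E n → ℝ) (p x : E n) (h : E n → ℝ) :
    rateF G k ψ p x * inner ℝ (G.lg x p) (G.D h x) =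
      bF G k ψ p (x, nrm G h x) * ‖G.D h x‖ := by
  rw [bF, rateF]
  simp only [D_FG]
  by_cases hD : G.D h x = 0
  · rw [hD]
    simp
  have hDn : ‖G.D h x‖ ≠ 0 := norm_ne_zero_iff.2 hD
  unfold nrm
  rw [inner_neg_right, real_inner_smul_right, inner_neg_left, real_inner_smul_left]
  field_simp

theorem integral_kapU_eq (hn : 2 ≤ n) (hk : 0 ≤ k) {ψ : E n → ℝ} (hψ : ContDiff ℝ ∞ ψ) (p : E n)
    (h : E n → ℝ) :
    ∫ x, kapU G k (rateF G k ψ p) p x (G.D h x) ∂G.vol =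
      ∫ x, aF G k ψ p (x, nrm G h x) * ‖G.D h x‖ ∂G.vol := by
  have hae : ∀ᵐ x ∂G.vol, x ≠ p := by
    have hac : G.vol ≪ volume := withDensity_absolutelyContinuous _ _
    refine hac.ae_le ?_
    have : Nonempty (Fin n) := ⟨⟨0, by omega⟩⟩
    exact compl_mem_ae_iff.mpr (measure_singleton p)
  refine integral_congr_ae ?_
  filter_upwards [hae] with x hx
  exact kapU_eq_aF G hk hψ hx h

theorem integral_vol_eq (ψ : E n → ℝ) (p : E n) (h : E n → ℝ) :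
    ∫ x, rateF G k ψ p x * inner ℝ (G.lg x p) (G.D h x) ∂G.vol =
      ∫ x, bF G k ψ p (x, nrm G h x) * ‖G.D h x‖ ∂G.vol :=
  integral_congr_ae (Filter.Eventually.of_forall fun x => vol_eq_bF G ψ p x h)

end Vale.Agent.P219.End
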