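import Vale.Agent.P219.TPH.AreaH
import Vale.Agent.P219.TPH.DetExp
import Vale.Agent.P219.TP.PerContract
import Vale.Agent.P219.SA.Func

/-! # First variation of the total variation, general contraction field

`u` is a smooth nonnegative function, `Ψ x = ex p ((1 - t u(x)) • lg p x)`. In curvature `≤ -k²` the
total variation satisfies the first variation inequality with the Hessian of `r²/2` bounded below
by the one of the model, uniformly for all test functions supported in a geodesic ball. -/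

open MeasureTheory Set Metric
open scoped ENNReal ContDiff

namespace Vale.Agent.P219.End

open Vale.Agent.P219.TP Vale.Agent.P219.TPH

variable {n : ℕ}

/-- `q(r) = r ct_k(r)`. -/
noncomputable def qct (k r : ℝ) : ℝ := r * cs k r / sn k r

/-- First variation density of area of the contraction field `-u ∇(r²/2)` (lower bound of the
divergence on the level), `a = ∇(r²/2) = - lg x p`, `N = Dh`. -/
noncomputable def kapU (G : Geo n) (k : ℝ) (u : E n → ℝ) (p x N : E n) : ℝ :=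
  u x * (((n : ℝ) - 2) * qct k ‖G.lg p x‖ + 1) * ‖N‖ + inner ℝ (G.D u x) (-G.lg x p) * ‖N‖ -
    inner ℝ (-G.lg x p) N * inner ℝ (G.D u x) N / ‖N‖ +
    u x * (qct k ‖G.lg p x‖ - 1) * (inner ℝ (-G.lg x p) N / ‖G.lg p x‖) ^ 2 / ‖N‖

/-! ### Linear algebra -/

theorem fv_linear (hn : 2 ≤ n) {B : E n →L[ℝ] E n} {e ζ N y : E n} {α β : ℝ}
    (he : ‖e‖ = 1) (hζ : inner ℝ e ζ = 0) (hα : 0 < α) (hβ : 0 < β)
    (hBξ : ∀ ξ, ‖B ξ‖ ^ 2 ≤ (α * inner ℝ e ξ - inner ℝ ζ ξ) ^ 2 +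
      β ^ 2 * (‖ξ‖ ^ 2 - inner ℝ e ξ ^ 2))
    (hy : ∀ ξ, inner ℝ y (B ξ) = inner ℝ N ξ) :
    |B.det| * ‖y‖ ≤ β ^ (n - 2) *
      ‖(β * inner ℝ e N) • e + α • (N - inner ℝ e N • e) + inner ℝ e N • ζ‖ := by
  by_cases hB : B.det = 0
  · rw [hB, abs_zero, zero_mul]
    positivity
  set C := linAlgC e ζ α β with hC
  have hCd : C.det = α * β ^ (n - 1) := linAlgC_det hn he hζ hβ
  have hee : inner ℝ e e = (1 : ℝ) := by rw [real_inner_self_eq_norm_sq, he, one_pow]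
  have hζe : inner ℝ ζ e = (0 : ℝ) := by rw [real_inner_comm]; exact hζ
  have hCn : ∀ ξ, ‖C ξ‖ ^ 2 = (α * inner ℝ e ξ - inner ℝ ζ ξ) ^ 2 +
      β ^ 2 * (‖ξ‖ ^ 2 - inner ℝ e ξ ^ 2) := by
    intro ξ
    rw [hC, linAlgC_apply e ζ α hβ]
    have hee' : inner ℝ ξ e = inner ℝ e ξ := real_inner_comm _ _
    rw [← real_inner_self_eq_norm_sq, ← real_inner_self_eq_norm_sq ξ]
    simp only [inner_add_left, inner_add_right, inner_sub_left, inner_sub_right,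
      real_inner_smul_left, real_inner_smul_right, hee, hee']
    ring
  set Ne := inner ℝ e N with hNe
  set Np : E n := N - Ne • e with hNp
  have heNp : inner ℝ e Np = (0 : ℝ) := by
    rw [hNp, inner_sub_right, real_inner_smul_right, hee, mul_one, sub_self]
  have hNpe : inner ℝ Np e = (0 : ℝ) := by rw [real_inner_comm]; exact heNp
  set z : E n := (Ne / α) • e + β⁻¹ • (Np + (Ne / α) • ζ) with hz
  have hzC : ∀ ξ, inner ℝ z (C ξ) = inner ℝ N ξ := by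
    intro ξ
    rw [hC, linAlgC_apply e ζ α hβ, hz]
    have h1 : inner ℝ N ξ = Ne * inner ℝ e ξ + inner ℝ Np ξ := by
      rw [hNp, inner_sub_left, real_inner_smul_left]
      ring
    rw [h1]
    simp only [inner_add_left, inner_add_right, inner_sub_right,
      real_inner_smul_left, real_inner_smul_right, hee, hζe, hNpe]
    field_simp
    ring
  have h1 := det_mul_norm_le hB (C := C) (by rw [hCd]; positivity) (fun ξ => by
    have h2 := hBξ ξ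
    rw [← hCn] at h2
    exact (pow_le_pow_iff_left₀ (norm_nonneg _) (norm_nonneg _) (by norm_num)).1 h2) hy hzC
  refine h1.trans (le_of_eq ?_)
  have hzz : (α * β) • z = (β * Ne) • e + α • Np + Ne • ζ := by
    rw [hz]
    have e1 : α * β * (Ne / α) = β * Ne := by field_simp
    have e2 : α * β * β⁻¹ = α := by field_simp
    have e3 : α * (Ne / α) = Ne := by field_simp
    rw [smul_add, smul_smul, smul_smul, e1, e2, smul_add, smul_smul, e3, add_assoc]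
  have hnz : α * β * ‖z‖ = ‖(β * Ne) • e + α • Np + Ne • ζ‖ := by
    rw [← hzz, norm_smul, Real.norm_eq_abs, abs_of_pos (by positivity)]
  rw [hCd, abs_of_pos (by positivity), ← hnz]
  obtain ⟨m, rfl⟩ : ∃ m, n = m + 2 := ⟨n - 2, by omega⟩
  have e1 : m + 2 - 1 = m + 1 := by omega
  have e2 : m + 2 - 2 = m := by omega
  rw [e1, e2, pow_succ]
  ring

/-- the covector `ζ` -/
theorem fv_zeta {G : Geo n} {p v : E n} (hv : v ≠ 0) {D : E n →L[ℝ] ℝ} {t : ℝ}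
    {Ti : E n →L[ℝ] E n} (hTi1 : ∀ z, Ti (G.T p v z) = z) :
    ∃ ζ : E n, (∀ ξ, inner ℝ ζ ξ = t * ‖v‖ * D (Ti ξ - (inner ℝ v (Ti ξ) / ‖v‖ ^ 2) • v)) ∧
      inner ℝ (‖v‖⁻¹ • G.T p v v) ζ = 0 := by
  have hr : 0 < ‖v‖ := norm_pos_iff.2 hv
  set l : E n →L[ℝ] ℝ := (t * ‖v‖) • D.comp
    (Ti - ((‖v‖ ^ 2)⁻¹ • (innerSL ℝ v).comp Ti).smulRight v) with hl
  have hlapp : ∀ ξ, l ξ = t * ‖v‖ *
      D (Ti ξ - (inner ℝ v (Ti ξ) / ‖v‖ ^ 2) • v) := fun ξ => by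
    rw [hl]
    simp only [smul_apply, ContinuousLinearMap.comp_apply, sub_apply,
      ContinuousLinearMap.smulRight_apply, innerSL_apply_apply, smul_eq_mul]
    rw [div_eq_inv_mul]
  have hζξ : ∀ ξ, inner ℝ ((InnerProductSpace.toDual ℝ (E n)).symm l) ξ = l ξ := fun ξ => by
    rw [InnerProductSpace.toDual_symm_apply]
  refine ⟨(InnerProductSpace.toDual ℝ (E n)).symm l, fun ξ => ?_, ?_⟩
  · rw [hζξ, hlapp]
  · rw [real_inner_comm, hζξ, hlapp, map_smul, hTi1, real_inner_smul_right,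
      real_inner_self_eq_norm_sq]
    have h2 : ‖v‖⁻¹ • v - (‖v‖⁻¹ * ‖v‖ ^ 2 / ‖v‖ ^ 2) • v = 0 := by
      rw [mul_div_assoc, div_self (pow_ne_zero 2 hr.ne'), mul_one, sub_self]
    rw [h2, map_zero, mul_zero]

theorem fvQ_norm {G : Geo n} {k : ℝ} (hk : 0 ≤ k) (hG : MonoSn G k) {p v : E n} (hv : v ≠ 0)
    {β bh : ℝ} (hβ : 0 < β) (hβ1 : β ≤ 1) (hbh : bh = sn k (β * ‖v‖) / sn k ‖v‖)
    {Ti : E n →L[ℝ] E n} (hTi : ∀ ξ, G.T p v (Ti ξ) = ξ) (ξ : E n) :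
    ‖arhQ G p v β (β / bh) Ti ξ‖ ≤ ‖ξ‖ := by
  have hr : 0 < ‖v‖ := norm_pos_iff.2 hv
  have hsr := sn_pos hk hr
  have hsb := sn_pos hk (mul_pos hβ hr)
  have hbh0 : 0 < bh := by rw [hbh]; positivity
  have hc : 0 < β / bh := by positivity
  have hp := arh_perp v (Ti ξ) hv
  have h1 : ‖ξ‖ ^ 2 = (inner ℝ v (Ti ξ) / ‖v‖) ^ 2 +
      ‖G.T p v (Ti ξ - (inner ℝ v (Ti ξ) / ‖v‖ ^ 2) • v)‖ ^ 2 := by
    have := G.pyth (p := p) (z := Ti ξ) hv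
    rwa [hTi] at this
  have h2 : β / bh * ‖G.T p (β • v) (Ti ξ - (inner ℝ v (Ti ξ) / ‖v‖ ^ 2) • v)‖ ≤
      ‖G.T p v (Ti ξ - (inner ℝ v (Ti ξ) / ‖v‖ ^ 2) • v)‖ := by
    have h3 := hG p v _ β hp hβ hβ1
    have h4 : β / bh = β * sn k ‖v‖ / sn k (β * ‖v‖) := by
      rw [hbh]
      field_simp
    rw [h4, div_mul_eq_mul_div, div_le_iff₀ hsb]
    linarith
  have h5 : ‖arhQ G p v β (β / bh) Ti ξ‖ ^ 2 = (inner ℝ v (Ti ξ) / ‖v‖) ^ 2 +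
      (β / bh * ‖G.T p (β • v) (Ti ξ - (inner ℝ v (Ti ξ) / ‖v‖ ^ 2) • v)‖) ^ 2 := by
    rw [arhQ_apply G hv hc, norm_add_sq_real, real_inner_smul_left,
      real_inner_smul_right, G.gauss_smul hβ.ne', hp, norm_smul, norm_smul,
      arh_T_smul_norm G hβ.ne', Real.norm_eq_abs, Real.norm_eq_abs, abs_of_pos hc, mul_pow, sq_abs]
    field_simp
    ring
  have h6 := pow_le_pow_left₀ (by positivity) h2 2
  exact le_of_sq_le_sq (by rw [h5, h1]; linarith) (norm_nonneg _)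

/-- The frame matrix of the contraction. -/
theorem fv_frame (hn : 2 ≤ n) {G : Geo n} {k : ℝ} (hk : 0 ≤ k) (hG : MonoSn G k) {θ : E n → ℝ}
    {p v : E n} {t : ℝ} (hv : v ≠ 0) (ht : 0 ≤ t) (hθ0 : 0 ≤ θ v) (hβ : 0 < 1 - t * θ v)
    (hα : 0 < 1 - t * (θ v + fderiv ℝ θ v v))
    {Ti : E n →L[ℝ] E n} (hTi1 : ∀ z, Ti (G.T p v z) = z) (hTi2 : ∀ ξ, G.T p v (Ti ξ) = ξ)
    {N y : E n} (hy : ∀ ξ, inner ℝ y (G.radB θ p t v Ti ξ) = inner ℝ N ξ) {bh : ℝ}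
    (hbh : bh = sn k ((1 - t * θ v) * ‖v‖) / sn k ‖v‖) {g : E n}
    (hg : ∀ ξ, inner ℝ g ξ = fderiv ℝ θ v (Ti ξ)) :
    |(G.radB θ p t v Ti).det| * ‖y‖ ≤ bh ^ (n - 2) *
      ‖(N - t • ((θ v + inner ℝ g (G.T p v v)) • N - inner ℝ (G.T p v v) N • g)) +
        ((bh - 1 + t * θ v) * (inner ℝ (G.T p v v) N / ‖v‖ ^ 2)) • G.T p v v‖ := by
  have hr : 0 < ‖v‖ := norm_pos_iff.2 hv
  have hr0 : ‖v‖ ≠ 0 := hr.ne'
  have hβ1 : 1 - t * θ v ≤ 1 := by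
    have := mul_nonneg ht hθ0
    linarith
  have hbh0 : 0 < bh := by
    rw [hbh]
    exact div_pos (sn_pos hk (mul_pos hβ hr)) (sn_pos hk hr)
  have hc : 0 < (1 - t * θ v) / bh := div_pos hβ hbh0
  obtain ⟨ζ, hζ1, hζ2⟩ := fv_zeta (D := fderiv ℝ θ v) (t := t) hv hTi1
  have hee : ‖‖v‖⁻¹ • G.T p v v‖ = 1 := by
    have h1 := arh_T_smul_norm G (p := p) (v := v) one_ne_zero
    rw [one_smul] at h1
    rw [norm_smul, norm_inv, norm_norm, h1, inv_mul_cancel₀ hr.ne']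
  have hee' : ‖‖v‖⁻¹ • G.T p ((1 - t * θ v) • v) v‖ = 1 := by
    rw [norm_smul, norm_inv, norm_norm, arh_T_smul_norm G hβ.ne', inv_mul_cancel₀ hr.ne']
  have heξ : ∀ ξ, inner ℝ (‖v‖⁻¹ • G.T p v v) ξ = inner ℝ v (Ti ξ) / ‖v‖ := fun ξ => by
    rw [real_inner_smul_left, ← G.gauss p v (Ti ξ), hTi2]
    field_simp
  have hQp : ∀ ξ, inner ℝ (‖v‖⁻¹ • G.T p v v) ξ = 0 →
      inner ℝ (‖v‖⁻¹ • G.T p ((1 - t * θ v) • v) v)
        (arhQ G p v (1 - t * θ v) ((1 - t * θ v) / bh) Ti ξ) = 0 := fun ξ hξ => by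
    rw [heξ, div_eq_zero_iff, or_iff_left hr.ne'] at hξ
    rw [arhQ_apply G hv hc, hξ, zero_div, zero_smul, zero_add, zero_smul, sub_zero,
      real_inner_smul_left, real_inner_smul_right, G.gauss_smul hβ.ne', hξ, mul_zero, mul_zero]
  have hBformula := arh_B G hv hβ hbh0 hTi1 hTi2 hζ1
  set e : E n := ‖v‖⁻¹ • G.T p v v with he
  set e' : E n := ‖v‖⁻¹ • G.T p ((1 - t * θ v) • v) v with he'
  clear_value e e'
  have hBξ : ∀ ξ, ‖G.radB θ p t v Ti ξ‖ ^ 2 ≤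
      ((1 - t * (θ v + fderiv ℝ θ v v)) * inner ℝ e ξ - inner ℝ ζ ξ) ^ 2 +
      bh ^ 2 * (‖ξ‖ ^ 2 - inner ℝ e ξ ^ 2) := by
    intro ξ
    rw [hBformula]
    have h1 := fvQ_norm hk hG hv hβ hβ1 hbh hTi2 (ξ - inner ℝ e ξ • e)
    have h2 := hQp (ξ - inner ℝ e ξ • e) (by
      rw [inner_sub_right, real_inner_smul_right, real_inner_self_eq_norm_sq, hee]
      ring)
    rw [norm_add_sq_real, real_inner_smul_left, real_inner_smul_right, h2, norm_smul, norm_smul,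
      hee', Real.norm_eq_abs, Real.norm_eq_abs, mul_pow, mul_pow, sq_abs, sq_abs,
      ← arh_norm_perp hee]
    have h3 := pow_le_pow_left₀ (norm_nonneg _) h1 2
    have h4 : (0 : ℝ) ≤ bh ^ 2 := sq_nonneg _
    nlinarith
  have hmain := fv_linear hn hee hζ2 hα hbh0 hBξ hy
  refine hmain.trans (le_of_eq ?_)
  congr 1
  -- the vector identity
  have hDv : fderiv ℝ θ v v = inner ℝ g (G.T p v v) := by
    rw [hg, hTi1]
  have hζg : ζ = (t * ‖v‖) • g - (t * inner ℝ g (G.T p v v)) • e := by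
    refine ext_inner_right ℝ fun ξ => ?_
    rw [hζ1, inner_sub_left, real_inner_smul_left, real_inner_smul_left, hg, ← hDv, map_sub,
      map_smul, smul_eq_mul, heξ]
    field_simp
  have heN : inner ℝ e N = inner ℝ (G.T p v v) N / ‖v‖ := by
    rw [he, real_inner_smul_left]
    field_simp
  rw [hζg, hDv]
  have hTe : G.T p v v = ‖v‖ • e := by
    rw [he, smul_smul, mul_inv_cancel₀ hr0, one_smul]
  congr 1
  set s : ℝ := inner ℝ g (G.T p v v) with hs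
  set w : ℝ := inner ℝ (G.T p v v) N with hw
  rw [heN, hTe]
  simp only [smul_sub, smul_add, smul_smul, sub_smul, add_smul]
  have e1 : w / ‖v‖ * (t * ‖v‖) = t * w := by field_simp
  have e2 : (bh - 1 + t * θ v) * (w / ‖v‖ ^ 2) * ‖v‖ = (bh - 1 + t * θ v) * (w / ‖v‖) := by
    field_simp
  rw [e1, e2]
  module

/-! ### The scalar expansion -/

theorem fv_norm_le {N W : E n} (hN : N ≠ 0) : ‖W‖ ≤ (‖N‖ ^ 2 + ‖W‖ ^ 2) / (2 * ‖N‖) := by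
  have h : 0 < ‖N‖ := norm_pos_iff.2 hN
  rw [le_div_iff₀ (by positivity)]
  nlinarith [sq_nonneg (‖N‖ - ‖W‖)]

/-- Expansion of the vector factor. -/
theorem fv_vec {K t θ q bh : ℝ} {a g N : E n} (hK : 0 ≤ K) (ht : 0 ≤ t) (ht1 : t ≤ 1)
    (hθ0 : 0 ≤ θ) (hθ : θ ≤ K) (ha0 : a ≠ 0) (ha : ‖a‖ ≤ K) (hg : ‖g‖ ≤ K) (hq1 : 1 ≤ q)
    (hq : q ≤ K) (hb1 : 1 - t * (θ * q) ≤ bh) (hb2 : bh ≤ 1 - t * (θ * q) + K * t ^ 2)
    (hN : N ≠ 0) :
    ‖(N - t • ((θ + inner ℝ g a) • N - inner ℝ a N • g)) +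
        ((bh - 1 + t * θ) * (inner ℝ a N / ‖a‖ ^ 2)) • a‖ ≤
      ‖N‖ * (1 + t * -((θ + inner ℝ g a) - inner ℝ a N * inner ℝ g N / ‖N‖ ^ 2 +
        θ * (q - 1) * (inner ℝ a N / ‖a‖) ^ 2 / ‖N‖ ^ 2) +
        ((2 * K + 3 * K ^ 2) ^ 2 / 2 + K) * t ^ 2) := by
  have hNp : 0 < ‖N‖ := norm_pos_iff.2 hN
  have hap : 0 < ‖a‖ := norm_pos_iff.2 ha0
  set w : ℝ := inner ℝ a N with hw
  set s : ℝ := inner ℝ g a with hs
  set c : ℝ := bh - 1 + t * θ with hc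
  set U : E n := (θ + s) • N - w • g with hU
  set X : E n := (c * (w / ‖a‖ ^ 2)) • a with hX
  have hwb : |w| ≤ ‖a‖ * ‖N‖ := abs_real_inner_le_norm a N
  have hsb : |s| ≤ K ^ 2 := by
    refine (abs_real_inner_le_norm g a).trans ?_
    rw [sq]
    exact mul_le_mul hg ha (norm_nonneg _) hK
  have hwa : |w / ‖a‖| ≤ ‖N‖ := by
    rw [abs_div, abs_norm, div_le_iff₀ hap, mul_comm]
    exact hwb
  have hwa2 : (w / ‖a‖) ^ 2 ≤ ‖N‖ ^ 2 := by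
    rw [← sq_abs]
    exact pow_le_pow_left₀ (abs_nonneg _) hwa 2
  have hc1 : -(t * (θ * (q - 1))) ≤ c := by rw [hc]; linarith
  have hc2 : c ≤ -(t * (θ * (q - 1))) + K * t ^ 2 := by rw [hc]; linarith
  have hθq0 : 0 ≤ θ * (q - 1) := mul_nonneg hθ0 (by linarith)
  have hθq : θ * (q - 1) ≤ K ^ 2 := by
    rw [sq]
    exact mul_le_mul hθ (by linarith) (by linarith) hK
  have ht2 : t ^ 2 ≤ t := by nlinarith
  have hcb : |c| ≤ t * (K ^ 2 + K) := by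
    rw [abs_le]
    have i1 : t * (θ * (q - 1)) ≤ t * K ^ 2 := mul_le_mul_of_nonneg_left hθq ht
    have i2 : K * t ^ 2 ≤ K * t := mul_le_mul_of_nonneg_left ht2 hK
    have i3 : 0 ≤ t * (θ * (q - 1)) := mul_nonneg ht hθq0
    have i4 : 0 ≤ K * t := mul_nonneg hK ht
    constructor
    · nlinarith
    · nlinarith [mul_nonneg ht (sq_nonneg K)]
  have hXn : ‖X‖ ≤ t * (K ^ 2 + K) * ‖N‖ := by
    have e1 : ‖X‖ = |c| * |w / ‖a‖| := by
      rw [hX, norm_smul, Real.norm_eq_abs, abs_mul, mul_assoc]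
      congr 1
      rw [abs_div, abs_div, abs_norm, abs_pow, abs_norm]
      field_simp
    rw [e1]
    exact mul_le_mul hcb hwa (abs_nonneg _) (by positivity)
  have hUn : ‖U‖ ≤ (K + 2 * K ^ 2) * ‖N‖ := by
    have h1 : ‖U‖ ≤ ‖(θ + s) • N‖ + ‖w • g‖ := norm_sub_le _ _
    rw [norm_smul, norm_smul, Real.norm_eq_abs, Real.norm_eq_abs] at h1
    have h2 : |θ + s| ≤ K + K ^ 2 := by
      refine (abs_add_le _ _).trans ?_
      rw [abs_of_nonneg hθ0]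
      linarith
    have h3 : |w| * ‖g‖ ≤ K ^ 2 * ‖N‖ := by
      calc |w| * ‖g‖ ≤ (‖a‖ * ‖N‖) * K := mul_le_mul hwb hg (norm_nonneg _) (by positivity)
        _ ≤ (K * ‖N‖) * K := by gcongr
        _ = K ^ 2 * ‖N‖ := by ring
    have h4 : |θ + s| * ‖N‖ ≤ (K + K ^ 2) * ‖N‖ := mul_le_mul_of_nonneg_right h2 hNp.le
    linarith
  set Z : E n := -(t • U) + X with hZ
  have hZn : ‖Z‖ ≤ t * (2 * K + 3 * K ^ 2) * ‖N‖ := by
    have h1 : ‖Z‖ ≤ ‖-(t • U)‖ + ‖X‖ := norm_add_le _ _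
    rw [norm_neg, norm_smul, Real.norm_eq_abs, abs_of_nonneg ht] at h1
    have h2 : t * ‖U‖ ≤ t * ((K + 2 * K ^ 2) * ‖N‖) := mul_le_mul_of_nonneg_left hUn ht
    nlinarith
  have hW : N - t • U + X = N + Z := by rw [hZ]; abel
  rw [hW]
  have h1 := fv_norm_le (W := N + Z) hN
  have h2 : ‖N + Z‖ ^ 2 = ‖N‖ ^ 2 + 2 * inner ℝ N Z + ‖Z‖ ^ 2 := norm_add_sq_real N Z
  have hNZ : inner ℝ N Z = -(t * ((θ + s) * ‖N‖ ^ 2 - w * inner ℝ g N)) + c * (w / ‖a‖) ^ 2 := by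
    rw [hZ, hU, hX, inner_add_right, inner_neg_right, real_inner_smul_right, inner_sub_right,
      real_inner_smul_right, real_inner_smul_right, real_inner_smul_right,
      real_inner_self_eq_norm_sq, real_inner_comm g N, real_inner_comm a N, ← hw]
    field_simp
  have h3 : ‖Z‖ ^ 2 ≤ (t * (2 * K + 3 * K ^ 2) * ‖N‖) ^ 2 := pow_le_pow_left₀ (norm_nonneg _) hZn 2
  have h4 : c * (w / ‖a‖) ^ 2 ≤ -(t * (θ * (q - 1))) * (w / ‖a‖) ^ 2 + K * t ^ 2 * ‖N‖ ^ 2 := by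
    have i1 : c * (w / ‖a‖) ^ 2 ≤ (-(t * (θ * (q - 1))) + K * t ^ 2) * (w / ‖a‖) ^ 2 :=
      mul_le_mul_of_nonneg_right hc2 (sq_nonneg _)
    have i2 : K * t ^ 2 * (w / ‖a‖) ^ 2 ≤ K * t ^ 2 * ‖N‖ ^ 2 :=
      mul_le_mul_of_nonneg_left hwa2 (by positivity)
    linarith
  have h5 : ‖N‖ ^ 2 + ‖N + Z‖ ^ 2 ≤ 2 * ‖N‖ * (‖N‖ * (1 + t * -((θ + s) -
      w * inner ℝ g N / ‖N‖ ^ 2 + θ * (q - 1) * (w / ‖a‖) ^ 2 / ‖N‖ ^ 2) +
        ((2 * K + 3 * K ^ 2) ^ 2 / 2 + K) * t ^ 2)) := by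
    have e1 : 2 * ‖N‖ * (‖N‖ * (1 + t * -((θ + s) -
      w * inner ℝ g N / ‖N‖ ^ 2 + θ * (q - 1) * (w / ‖a‖) ^ 2 / ‖N‖ ^ 2) +
        ((2 * K + 3 * K ^ 2) ^ 2 / 2 + K) * t ^ 2)) =
        2 * ‖N‖ ^ 2 - 2 * t * ((θ + s) * ‖N‖ ^ 2 - w * inner ℝ g N) -
          2 * (t * (θ * (q - 1)) * (w / ‖a‖) ^ 2) +
          (t * (2 * K + 3 * K ^ 2) * ‖N‖) ^ 2 + 2 * (K * t ^ 2 * ‖N‖ ^ 2) := by
      field_simp
      ring
    rw [e1, h2, hNZ]
    linarith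
  refine h1.trans ?_
  rw [div_le_iff₀ (by positivity)]
  linarith

/-- The expansion of the area factor. -/
theorem fv_scalar (j : ℕ) {K : ℝ} (hK : 0 ≤ K) : ∃ C : ℝ, 0 ≤ C ∧
    ∀ (t θ q bh : ℝ) (a g N : E n), 0 ≤ t → t ≤ 1 → 0 ≤ θ → θ ≤ K → a ≠ 0 → ‖a‖ ≤ K → ‖g‖ ≤ K →
      1 ≤ q → q ≤ K → 0 ≤ bh → 1 - t * (θ * q) ≤ bh → bh ≤ 1 - t * (θ * q) + K * t ^ 2 →
      bh ^ j * ‖(N - t • ((θ + inner ℝ g a) • N - inner ℝ a N • g)) +
          ((bh - 1 + t * θ) * (inner ℝ a N / ‖a‖ ^ 2)) • a‖ ≤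
        ‖N‖ - t * (θ * ((j : ℝ) * q + 1) * ‖N‖ + inner ℝ g a * ‖N‖ -
          inner ℝ a N * inner ℝ g N / ‖N‖ + θ * (q - 1) * (inner ℝ a N / ‖a‖) ^ 2 / ‖N‖) +
          C * t ^ 2 * ‖N‖ := by
  obtain ⟨D, hD, hpow⟩ := detExp_pow j (K ^ 2) K (by positivity) hK
  set D2 : ℝ := (2 * K + 3 * K ^ 2) ^ 2 / 2 + K with hD2
  have hD20 : 0 ≤ D2 := by positivity
  refine ⟨(j * K ^ 2) * (K + 3 * K ^ 2) + D + D2 + (j * K ^ 2) * D2 + (K + 3 * K ^ 2) * D + D * D2,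
    by positivity, ?_⟩
  intro t θ q bh a g N ht ht1 hθ0 hθ ha0 ha hg hq1 hq hb0 hb1 hb2
  by_cases hN : N = 0
  · rw [hN]
    simp
  have hNp : 0 < ‖N‖ := norm_pos_iff.2 hN
  have hap : 0 < ‖a‖ := norm_pos_iff.2 ha0
  have h1 := fv_vec hK ht ht1 hθ0 hθ ha0 ha hg hq1 hq hb1 hb2 hN
  rw [← hD2] at h1
  set W : E n := (N - t • ((θ + inner ℝ g a) • N - inner ℝ a N • g)) +
          ((bh - 1 + t * θ) * (inner ℝ a N / ‖a‖ ^ 2)) • a with hW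
  set w : ℝ := inner ℝ a N with hw
  set s : ℝ := inner ℝ g a with hs
  set B : ℝ := (θ + s) - w * inner ℝ g N / ‖N‖ ^ 2 + θ * (q - 1) * (w / ‖a‖) ^ 2 / ‖N‖ ^ 2 with hB
  have hθq : θ * q ≤ K ^ 2 := by
    rw [sq]
    exact mul_le_mul hθ hq (by linarith) hK
  have hθq0 : 0 ≤ θ * q := mul_nonneg hθ0 (by linarith)
  have h2 := hpow bh t (-(θ * q)) ht ht1 hb0 (by rw [abs_neg, abs_of_nonneg hθq0]; exact hθq)
    (by linarith)
  have hwb : |w| ≤ ‖a‖ * ‖N‖ := abs_real_inner_le_norm a N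
  have hsb : |s| ≤ K ^ 2 := by
    refine (abs_real_inner_le_norm g a).trans ?_
    rw [sq]
    exact mul_le_mul hg ha (norm_nonneg _) hK
  have hB1 : |w * inner ℝ g N / ‖N‖ ^ 2| ≤ K ^ 2 := by
    rw [abs_div, abs_mul, abs_pow, abs_norm, div_le_iff₀ (by positivity)]
    have i1 : |inner ℝ g N| ≤ ‖g‖ * ‖N‖ := abs_real_inner_le_norm g N
    calc |w| * |inner ℝ g N| ≤ (‖a‖ * ‖N‖) * (‖g‖ * ‖N‖) :=
          mul_le_mul hwb i1 (abs_nonneg _) (by positivity)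
      _ ≤ (K * ‖N‖) * (K * ‖N‖) := by gcongr
      _ = K ^ 2 * ‖N‖ ^ 2 := by ring
  have hwa2 : (w / ‖a‖) ^ 2 ≤ ‖N‖ ^ 2 := by
    have hwa : |w / ‖a‖| ≤ ‖N‖ := by
      rw [abs_div, abs_norm, div_le_iff₀ hap, mul_comm]
      exact hwb
    rw [← sq_abs]
    exact pow_le_pow_left₀ (abs_nonneg _) hwa 2
  have hB2 : |θ * (q - 1) * (w / ‖a‖) ^ 2 / ‖N‖ ^ 2| ≤ K ^ 2 := by
    have i0 : 0 ≤ θ * (q - 1) := mul_nonneg hθ0 (by linarith)
    rw [abs_of_nonneg (by positivity), div_le_iff₀ (by positivity)]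
    have i1 : θ * (q - 1) ≤ K ^ 2 := by
      rw [sq]
      exact mul_le_mul hθ (by linarith) (by linarith) hK
    exact mul_le_mul i1 hwa2 (sq_nonneg _) (by positivity)
  have hBb : |-B| ≤ K + 3 * K ^ 2 := by
    rw [abs_neg, hB]
    have i1 := abs_add_le ((θ + s) - w * inner ℝ g N / ‖N‖ ^ 2)
      (θ * (q - 1) * (w / ‖a‖) ^ 2 / ‖N‖ ^ 2)
    have i2 := abs_sub (θ + s) (w * inner ℝ g N / ‖N‖ ^ 2)
    have i3 := abs_add_le θ s
    rw [abs_of_nonneg hθ0] at i3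
    linarith
  have h3 : ‖W‖ / ‖N‖ ≤ 1 + t * -B + D2 * t ^ 2 := by
    rw [div_le_iff₀ hNp, mul_comm _ ‖N‖]
    exact h1
  have h4 := detExp_mul ht ht1 (pow_nonneg hb0 j) (div_nonneg (norm_nonneg W) hNp.le) hD hD20
    (A := j * K ^ 2) (B := K + 3 * K ^ 2) (by
      rw [abs_mul, abs_neg, abs_of_nonneg hθq0, abs_of_nonneg (Nat.cast_nonneg j)]
      exact mul_le_mul_of_nonneg_left hθq (Nat.cast_nonneg j)) hBb h2 h3
  have h5 : bh ^ j * ‖W‖ = (bh ^ j * (‖W‖ / ‖N‖)) * ‖N‖ := by field_simp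
  rw [h5]
  refine (mul_le_mul_of_nonneg_right h4 hNp.le).trans (le_of_eq ?_)
  rw [hB]
  field_simp
  ring

end Vale.Agent.P219.End
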