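import Vale.Agent.P219.End.FvPer

/-! # First variation of the total variation, general contraction field: uniform statement -/

open MeasureTheory Set Metric
open scoped ENNReal ContDiff

namespace Vale.Agent.P219.End

open Vale.Agent.P219.TP Vale.Agent.P219.TPH

variable {n : ℕ} (G : Geo n) {k : ℝ}

theorem fv_norm_a (p x : E n) : ‖-G.lg x p‖ = ‖G.lg p x‖ := by
  rw [norm_neg, G.norm_lg_comm]

theorem fv_T_self (p x : E n) : G.T p (G.lg p x) (G.lg p x) = -G.lg x p := by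
  rw [G.T_self, G.lg_back']

/-- The gradient of `u`, computed with the rate `θ = u ∘ ex p`. -/
theorem fv_grad {p x : E n} {u θ : E n → ℝ} (hu : ContDiff ℝ ∞ u)
    (hev : θ =ᶠ[nhds (G.lg p x)] fun v => u (G.ex p v)) {Ti : E n →L[ℝ] E n}
    (hTi2 : ∀ ξ, G.T p (G.lg p x) (Ti ξ) = ξ) :
    DifferentiableAt ℝ θ (G.lg p x) ∧
      ∀ ξ, inner ℝ (G.D u x) ξ = fderiv ℝ θ (G.lg p x) (Ti ξ) := by
  have hx : G.ex p (G.lg p x) = x := G.ex_lg p x
  have hud : DifferentiableAt ℝ u (G.ex p (G.lg p x)) := hu.differentiable (by simp) _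
  have hed : DifferentiableAt ℝ (G.ex p) (G.lg p x) := G.differentiable_ex p _
  have h1 : HasFDerivAt (fun v => u (G.ex p v))
      ((fderiv ℝ u (G.ex p (G.lg p x))).comp (fderiv ℝ (G.ex p) (G.lg p x))) (G.lg p x) :=
    hud.hasFDerivAt.comp _ hed.hasFDerivAt
  have h2 := h1.congr_of_eventuallyEq hev
  refine ⟨h2.differentiableAt, fun ξ => ?_⟩
  rw [h2.fderiv, G.inner_D, ContinuousLinearMap.comp_apply, ← G.T_spec, hTi2, hx]

theorem fv_bh_low {r s : ℝ} (hk : 0 ≤ k) (hr : 0 < r) (hs0 : 0 ≤ s) (hs1 : s ≤ 1) :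
    1 - s * qct k r ≤ sn k ((1 - s) * r) / sn k r := by
  have hp := sn_pos hk hr
  have h1 := h1_up hk (mul_nonneg (sub_nonneg.2 hs1) hr.le)
    (show (1 - s) * r ≤ r by nlinarith)
  rw [le_div_iff₀ hp]
  have e : (1 - s * qct k r) * sn k r = sn k r - cs k r * (s * r) := by
    rw [qct]
    field_simp
  have e2 : r - (1 - s) * r = s * r := by ring
  rw [e]
  rw [e2] at h1
  linarith

theorem fv_pointwise (hn : 2 ≤ n) (hk : 0 ≤ k) (hG : MonoSn G k) (o : E n) {ρ : ℝ} {p : E n}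
    (hp : ‖G.lg o p‖ ≤ ρ) {u : E n → ℝ} (hu : ContDiff ℝ ∞ u) (hu0 : ∀ x, 0 ≤ u x) :
    ∃ C t₀ : ℝ, 0 ≤ C ∧ 0 < t₀ ∧ ∀ (x : E n) (t : ℝ), 0 ≤ t → t ≤ t₀ → ‖G.lg o x‖ ≤ ρ → x ≠ p →
      ∀ θ : E n → ℝ, (∀ v, ‖v‖ < 2 * ρ + 1 → θ v = u (G.ex p v)) → ∀ N y : E n,
      (∀ ξ η, G.A (G.rad θ p t x) η = fderiv ℝ (G.rad θ p t) x (G.A x ξ) →
        inner ℝ y η = inner ℝ N ξ) →
      G.w (G.rad θ p t x) * |(fderiv ℝ (G.rad θ p t) x).det| * ‖y‖ ≤
        G.w x * (‖N‖ - t * kapU G k u p x N + C * t ^ 2 * ‖N‖) := by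
  -- the constants
  have hBc := G.isCompact_gball o ρ
  obtain ⟨K₁, hK₁⟩ := hBc.exists_bound_of_continuousOn hu.continuous.continuousOn
  have hDc : Continuous (G.D u) := perc_D_cont G (hu.of_le (by exact_mod_cast le_top))
  obtain ⟨K₂, hK₂⟩ := hBc.exists_bound_of_continuousOn hDc.continuousOn
  obtain ⟨C₁, hC₁, hexp⟩ := bh_expand hk (2 * ρ)
  have hρ : 0 ≤ ρ := (norm_nonneg _).trans hp
  have hK₁0 : 0 ≤ K₁ := (norm_nonneg _).trans (hK₁ p hp)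
  have hK₂0 : 0 ≤ K₂ := (norm_nonneg _).trans (hK₂ p hp)
  have hcs0 : 0 ≤ cs k (2 * ρ) := zero_le_one.trans (one_le_cs _ _)
  set K : ℝ := K₁ + K₂ + 2 * ρ + cs k (2 * ρ) + C₁ * K₁ ^ 2 with hKdef
  have hC₁' : 0 ≤ C₁ * K₁ ^ 2 := by positivity
  have hK0 : 0 ≤ K := by rw [hKdef]; positivity
  obtain ⟨C, hC, hscal⟩ := fv_scalar (n := n) (n - 2) hK0
  refine ⟨C, 1 / (2 * (K₁ + K₁ + K₂ * (2 * ρ) + 1)), hC, by positivity, ?_⟩
  intro x t ht ht1 hx hxp θ hθ N y hy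
  set v := G.lg p x with hv
  have hv2 : ‖v‖ ≤ 2 * ρ := perc_norm_lg_le G hp hx
  have hvne : v ≠ 0 := by
    intro h0
    exact hxp ((G.lg_eq_zero).mp h0).symm
  have hvpos : 0 < ‖v‖ := norm_pos_iff.mpr hvne
  have hvlt : ‖v‖ < 2 * ρ + 1 := by linarith
  have hev : θ =ᶠ[nhds v] fun v => u (G.ex p v) := by
    have h1 : {w : E n | ‖w‖ < 2 * ρ + 1} ∈ nhds v :=
      (isOpen_lt continuous_norm continuous_const).mem_nhds hvlt
    filter_upwards [h1] with w hw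
    exact hθ w hw
  have hθv : θ v = u x := by
    rw [hθ v hvlt, hv, G.ex_lg]
  obtain ⟨Ti, hTi1, hTi2⟩ := G.exists_T_inv p v
  obtain ⟨hdiff, hg⟩ := fv_grad G hu hev hTi2
  have hux : u x ≤ K₁ := (le_abs_self _).trans (hK₁ x hx)
  have hDx : ‖G.D u x‖ ≤ K₂ := hK₂ x hx
  have hT : G.T p v v = -G.lg x p := fv_T_self G p x
  have hTn : ‖G.T p v v‖ = ‖v‖ := by rw [hT, fv_norm_a]
  have hDv : fderiv ℝ θ v v = inner ℝ (G.D u x) (G.T p v v) := by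
    rw [hg, hTi1]
  have hDvb : |fderiv ℝ θ v v| ≤ K₂ * (2 * ρ) := by
    rw [hDv]
    refine (abs_real_inner_le_norm _ _).trans ?_
    rw [hTn]
    exact mul_le_mul hDx hv2 (norm_nonneg _) hK₂0
  have hden : 0 < 2 * (K₁ + K₁ + K₂ * (2 * ρ) + 1) := by positivity
  have ht2 : t * (2 * (K₁ + K₁ + K₂ * (2 * ρ) + 1)) ≤ 1 := by
    rwa [le_div_iff₀ hden] at ht1
  have hKρ : 0 ≤ t * (K₂ * (2 * ρ)) := by positivity
  have htK₁ : 0 ≤ t * K₁ := by positivity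
  have ht1' : t ≤ 1 := by nlinarith
  have htθ : t * θ v ≤ 1 / 2 := by
    rw [hθv]
    have := mul_le_mul_of_nonneg_left hux ht
    nlinarith
  have hθ0 : 0 ≤ θ v := by rw [hθv]; exact hu0 x
  have hβ : 0 < 1 - t * θ v := by linarith
  have hα : 0 < 1 - t * (θ v + fderiv ℝ θ v v) := by
    have h1 : t * fderiv ℝ θ v v ≤ t * (K₂ * (2 * ρ)) :=
      mul_le_mul_of_nonneg_left ((le_abs_self _).trans hDvb) ht
    have h2 : t * θ v ≤ t * K₁ := by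
      rw [hθv]
      exact mul_le_mul_of_nonneg_left hux ht
    nlinarith
  have hAB : ∀ ξ, G.A (G.rad θ p t x) (G.radB θ p t v Ti ξ) =
      fderiv ℝ (G.rad θ p t) x (G.A x ξ) := fun ξ => G.fderiv_rad hdiff hTi2 ξ
  set bh : ℝ := sn k ((1 - t * θ v) * ‖v‖) / sn k ‖v‖ with hbh
  have h1 := fv_frame hn hk hG hvne ht hθ0 hβ hα hTi1 hTi2 (fun ξ => hy ξ _ (hAB ξ)) hbh hg
  have hbh0 : 0 ≤ bh := by
    rw [hbh]
    exact (div_pos (sn_pos hk (mul_pos hβ hvpos)) (sn_pos hk hvpos)).le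
  obtain ⟨hc1, hc2⟩ := ctr_bounds hk hvpos
  have hq1 : 1 ≤ qct k ‖v‖ := hc1
  have hqK : qct k ‖v‖ ≤ K := by
    have : qct k ‖v‖ ≤ cs k (2 * ρ) := hc2.trans (cs_mono hk hvpos.le hv2)
    rw [hKdef]
    linarith
  have htθ0 : 0 ≤ t * θ v := mul_nonneg ht hθ0
  have hlow : 1 - t * (θ v * qct k ‖v‖) ≤ bh := by
    have := fv_bh_low (k := k) (r := ‖v‖) (s := t * θ v) hk hvpos htθ0 (by linarith)
    rw [← mul_assoc]
    exact this
  have hup : bh ≤ 1 - t * (θ v * qct k ‖v‖) + K * t ^ 2 := by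
    have h2 := hexp ‖v‖ (t * θ v) hvpos hv2 htθ0 htθ
    have h3 : C₁ * (t * θ v) ^ 2 ≤ K * t ^ 2 := by
      have h4 : θ v ^ 2 ≤ K₁ ^ 2 := pow_le_pow_left₀ hθ0 (by rw [hθv]; exact hux) 2
      have h5 : C₁ * θ v ^ 2 ≤ K := by
        have := mul_le_mul_of_nonneg_left h4 hC₁
        rw [hKdef]
        linarith
      calc C₁ * (t * θ v) ^ 2 = (C₁ * θ v ^ 2) * t ^ 2 := by ring
        _ ≤ K * t ^ 2 := mul_le_mul_of_nonneg_right h5 (sq_nonneg t)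
    have h6 : t * (θ v * qct k ‖v‖) = t * θ v * (‖v‖ * cs k ‖v‖ / sn k ‖v‖) := by
      rw [qct]
      ring
    rw [h6]
    linarith
  have hane : G.T p v v ≠ 0 := by
    rw [← norm_pos_iff, hTn]
    exact hvpos
  have h2 := hscal t (θ v) (qct k ‖v‖) bh (G.T p v v) (G.D u x) N ht ht1' hθ0
    (by rw [hθv, hKdef]; linarith) hane (by rw [hTn, hKdef]; linarith)
    (by rw [hKdef]; linarith) hq1 hqK hbh0 hlow hup
  rw [hTn] at h2
  have h3 := h1.trans h2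
  rw [G.w_det_rad hAB, mul_assoc]
  refine mul_le_mul_of_nonneg_left (h3.trans (le_of_eq ?_)) (G.w_pos x).le
  rw [kapU, ← hv, hθv, hT]
  have hcast : ((n - 2 : ℕ) : ℝ) = (n : ℝ) - 2 := by
    rw [Nat.cast_sub hn]
    norm_num
  rw [hcast]

/-! ### Integration -/

theorem fv_qct_abs (hk : 0 ≤ k) {r L : ℝ} (hr : 0 ≤ r) (hL : r ≤ L) : |qct k r| ≤ cs k L := by
  rcases hr.eq_or_lt with h | h
  · rw [← h, qct, zero_mul, zero_div, abs_zero]
    exact zero_le_one.trans (one_le_cs _ _)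
  · obtain ⟨hc1, hc2⟩ := ctr_bounds hk h
    have h1 : 0 ≤ qct k r := zero_le_one.trans hc1
    rw [abs_of_nonneg h1]
    exact hc2.trans (cs_mono hk h.le hL)

theorem fv_kapU_abs (hn : 2 ≤ n) {u : E n → ℝ} {p x N : E n} {K : ℝ} (hK : 0 ≤ K)
    (h1 : |u x| ≤ K) (h2 : ‖G.D u x‖ ≤ K) (h3 : ‖G.lg p x‖ ≤ K)
    (h4 : |qct k ‖G.lg p x‖| ≤ K) :
    |kapU G k u p x N| ≤ (K * (n * K + 1) + K ^ 2 + K ^ 2 + K * (K + 1)) * ‖N‖ := by
  by_cases hN : N = 0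
  · rw [hN, kapU]
    simp
  have hNp : 0 < ‖N‖ := norm_pos_iff.2 hN
  have ha : ‖-G.lg x p‖ ≤ K := by rw [fv_norm_a]; exact h3
  set a : E n := -G.lg x p with hadef
  have hw : |inner ℝ a N| ≤ ‖G.lg p x‖ * ‖N‖ := by
    rw [← fv_norm_a G p x]
    exact abs_real_inner_le_norm a N
  have hn2 : |(n : ℝ) - 2| ≤ n := by
    have : (2 : ℝ) ≤ n := by exact_mod_cast hn
    rw [abs_of_nonneg (by linarith)]
    linarith
  have t1 : |u x * (((n : ℝ) - 2) * qct k ‖G.lg p x‖ + 1) * ‖N‖| ≤ K * (n * K + 1) * ‖N‖ := by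
    rw [abs_mul, abs_mul, abs_norm]
    have i1 : |((n : ℝ) - 2) * qct k ‖G.lg p x‖ + 1| ≤ n * K + 1 := by
      refine (abs_add_le _ _).trans ?_
      rw [abs_mul, abs_one]
      have := mul_le_mul hn2 h4 (abs_nonneg _) (Nat.cast_nonneg n)
      linarith
    gcongr
  have t2 : |inner ℝ (G.D u x) a * ‖N‖| ≤ K ^ 2 * ‖N‖ := by
    rw [abs_mul, abs_norm, sq]
    have i1 : |inner ℝ (G.D u x) a| ≤ K * K :=
      (abs_real_inner_le_norm _ _).trans (mul_le_mul h2 ha (norm_nonneg _) hK)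
    gcongr
  have t3 : |inner ℝ a N * inner ℝ (G.D u x) N / ‖N‖| ≤ K ^ 2 * ‖N‖ := by
    rw [abs_div, abs_mul, abs_norm, div_le_iff₀ hNp]
    have i1 : |inner ℝ a N| ≤ K * ‖N‖ := hw.trans (mul_le_mul_of_nonneg_right h3 hNp.le)
    have i2 : |inner ℝ (G.D u x) N| ≤ K * ‖N‖ :=
      (abs_real_inner_le_norm _ _).trans (mul_le_mul_of_nonneg_right h2 hNp.le)
    calc |inner ℝ a N| * |inner ℝ (G.D u x) N| ≤ (K * ‖N‖) * (K * ‖N‖) :=
          mul_le_mul i1 i2 (abs_nonneg _) (by positivity)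
      _ = K ^ 2 * ‖N‖ * ‖N‖ := by ring
  have t4 : |u x * (qct k ‖G.lg p x‖ - 1) * (inner ℝ a N / ‖G.lg p x‖) ^ 2 / ‖N‖| ≤
      K * (K + 1) * ‖N‖ := by
    have i1 : |inner ℝ a N / ‖G.lg p x‖| ≤ ‖N‖ := by
      rcases (norm_nonneg (G.lg p x)).eq_or_lt with h | h
      · rw [← h, div_zero, abs_zero]
        exact hNp.le
      · rw [abs_div, abs_norm, div_le_iff₀ h, mul_comm]
        exact hw
    have i2 : (inner ℝ a N / ‖G.lg p x‖) ^ 2 ≤ ‖N‖ ^ 2 := by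
      rw [← sq_abs]
      exact pow_le_pow_left₀ (abs_nonneg _) i1 2
    have i3 : |qct k ‖G.lg p x‖ - 1| ≤ K + 1 := by
      refine (abs_sub _ _).trans ?_
      rw [abs_one]
      linarith
    rw [abs_div, abs_mul, abs_mul, abs_norm, abs_of_nonneg (sq_nonneg (inner ℝ a N / ‖G.lg p x‖)),
      div_le_iff₀ hNp]
    calc |u x| * |qct k ‖G.lg p x‖ - 1| * (inner ℝ a N / ‖G.lg p x‖) ^ 2 ≤
        (K * (K + 1)) * ‖N‖ ^ 2 := by
          refine mul_le_mul (mul_le_mul h1 i3 (abs_nonneg _) hK) i2 (sq_nonneg _) (by positivity)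
      _ = K * (K + 1) * ‖N‖ * ‖N‖ := by ring
  rw [kapU, ← hadef]
  refine (abs_add_le _ _).trans ?_
  have j1 := abs_sub (u x * (((n : ℝ) - 2) * qct k ‖G.lg p x‖ + 1) * ‖N‖ +
    inner ℝ (G.D u x) a * ‖N‖) (inner ℝ a N * inner ℝ (G.D u x) N / ‖N‖)
  have j2 := abs_add_le (u x * (((n : ℝ) - 2) * qct k ‖G.lg p x‖ + 1) * ‖N‖)
    (inner ℝ (G.D u x) a * ‖N‖)
  linarith

theorem fv_kapU_measurable {u : E n → ℝ} (hu : ContDiff ℝ ∞ u) (p : E n) {h : E n → ℝ}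
    (hh : ContDiff ℝ 1 h) : Measurable fun x => kapU G k u p x (G.D h x) := by
  have hD := (perc_D_cont G hh).measurable
  have hDu := (perc_D_cont G (hu.of_le (by exact_mod_cast le_top) : ContDiff ℝ 1 u)).measurable
  have hlg1 : Measurable fun x => ‖G.lg p x‖ :=
    (G.lg_smooth.continuous.comp (continuous_const.prodMk continuous_id)).norm.measurable
  have hlg2 : Measurable fun x => -G.lg x p :=
    (G.lg_smooth.continuous.comp (continuous_id.prodMk continuous_const)).neg.measurable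
  have hu1 := hu.continuous.measurable
  have hq : Measurable fun x => qct k ‖G.lg p x‖ := by
    unfold qct
    exact (hlg1.mul ((contDiff_cs k).continuous.measurable.comp hlg1)).div
      ((contDiff_sn k).continuous.measurable.comp hlg1)
  unfold kapU
  exact ((((hu1.mul ((hq.const_mul _).add_const 1)).mul hD.norm).add
    ((hDu.inner hlg2).mul hD.norm)).sub (((hlg2.inner hD).mul (hDu.inner hD)).div hD.norm)).add
    (((hu1.mul (hq.sub_const 1)).mul (((hlg2.inner hD).div hlg1).pow_const 2)).div hD.norm)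

theorem fv_kapU_zero (u : E n → ℝ) (p x : E n) : kapU G k u p x 0 = 0 := by
  rw [kapU]
  simp

theorem fv_kapU_integrable (hn : 2 ≤ n) (hk : 0 ≤ k) {u : E n → ℝ} (hu : ContDiff ℝ ∞ u)
    {o p : E n} {ρ : ℝ} (hp : ‖G.lg o p‖ ≤ ρ) {h : E n → ℝ} (hh : G.Cls o ρ h) :
    Integrable (fun x => kapU G k u p x (G.D h x)) G.vol := by
  have hBc := G.isCompact_gball o ρ
  obtain ⟨K₁, hK₁⟩ := hBc.exists_bound_of_continuousOn hu.continuous.continuousOn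
  have hDc : Continuous (G.D u) := perc_D_cont G (hu.of_le (by exact_mod_cast le_top))
  obtain ⟨K₂, hK₂⟩ := hBc.exists_bound_of_continuousOn hDc.continuousOn
  have hρ : 0 ≤ ρ := (norm_nonneg _).trans hp
  have hK₁0 : 0 ≤ K₁ := (norm_nonneg _).trans (hK₁ p hp)
  have hK₂0 : 0 ≤ K₂ := (norm_nonneg _).trans (hK₂ p hp)
  have hcs0 : 0 ≤ cs k (2 * ρ) := zero_le_one.trans (one_le_cs _ _)
  set K : ℝ := K₁ + K₂ + 2 * ρ + cs k (2 * ρ) with hKdef
  have hK0 : 0 ≤ K := by rw [hKdef]; positivity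
  refine ((perc_D_integrable G hh).const_mul
    (K * (n * K + 1) + K ^ 2 + K ^ 2 + K * (K + 1))).mono'
    (fv_kapU_measurable G hu p hh.smooth).aestronglyMeasurable
    (Filter.Eventually.of_forall fun x => ?_)
  by_cases hB : ‖G.lg o x‖ ≤ ρ
  · have hv2 : ‖G.lg p x‖ ≤ 2 * ρ := perc_norm_lg_le G hp hB
    refine fv_kapU_abs G hn hK0 ?_ ?_ ?_ ?_
    · have := hK₁ x hB
      rw [Real.norm_eq_abs] at this
      linarith
    · have := hK₂ x hB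
      linarith
    · linarith
    · have := fv_qct_abs hk (norm_nonneg (G.lg p x)) hv2
      linarith
  · rw [perc_D_of_eventually G (perc_D_zero G hh (not_le.mp hB)), fv_kapU_zero]
    simp

/-- FIRST VARIATION OF THE TOTAL VARIATION under the contraction
`Ψ x = ex p ((1 - t u(x)) • lg p x)`, uniformly in `h`. -/
theorem fv_per (hn : 2 ≤ n) (hk : 0 ≤ k) (hG : MonoSn G k) (o : E n) {ρ : ℝ} {p : E n}
    (hp : ‖G.lg o p‖ ≤ ρ) {u : E n → ℝ} (hu : ContDiff ℝ ∞ u) (hu0 : ∀ x, 0 ≤ u x) :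
    ∃ C t₀ : ℝ, 0 ≤ C ∧ 0 < t₀ ∧ ∀ (t : ℝ) (h : E n → ℝ), 0 ≤ t → t ≤ t₀ → G.Cls o ρ h →
      ∀ θ : E n → ℝ, (∀ v, ‖v‖ < 2 * ρ + 1 → θ v = u (G.ex p v)) → ∀ Ψ : E n ≃ₜ E n,
      (∀ x, Ψ x = G.rad θ p t x) → ContDiff ℝ ∞ Ψ → ContDiff ℝ ∞ Ψ.symm →
      G.per (h ∘ Ψ.symm) ≤
        G.per h - t * (∫ x, kapU G k u p x (G.D h x) ∂G.vol) + C * t ^ 2 * G.per h := by
  obtain ⟨C, t₀, hC0, ht₀, hmain⟩ := fv_pointwise G hn hk hG o hp hu hu0
  refine ⟨C, t₀, hC0, ht₀, ?_⟩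
  intro t h ht0 ht1 hh θ hθ Ψ hΨ hΨ1 hΨ2
  have hfun : (Ψ : E n → E n) = G.rad θ p t := funext hΨ
  set κ : E n → ℝ := fun x => kapU G k u p x (G.D h x) with hκ
  have hkint : Integrable κ G.vol := fv_kapU_integrable G hn hk hu hp hh
  have hDint := perc_D_integrable G hh
  have hgint : Integrable (fun x => ‖G.D h x‖ - t * κ x + C * t ^ 2 * ‖G.D h x‖) G.vol :=
    (hDint.sub (hkint.const_mul t)).add (hDint.const_mul _)
  have hae : ∀ᵐ x ∂G.vol, x ≠ p := by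
    have hac : G.vol ≪ volume := withDensity_absolutelyContinuous _ _
    refine hac.ae_le ?_
    have : Nonempty (Fin n) := ⟨⟨0, by omega⟩⟩
    exact compl_mem_ae_iff.mpr (measure_singleton p)
  have hcmp : ∀ᵐ x ∂G.vol, ‖G.D (h ∘ Ψ.symm) (Ψ x)‖ *
      (G.w (Ψ x) * |(fderiv ℝ Ψ x).det| / G.w x) ≤
        ‖G.D h x‖ - t * κ x + C * t ^ 2 * ‖G.D h x‖ := by
    filter_upwards [hae] with x hx
    have hw := G.w_pos x
    by_cases hB : ‖G.lg o x‖ ≤ ρ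
    · have h1 := hmain x t ht0 ht1 hB hx θ hθ (G.D h x)
        (G.D (h ∘ Ψ.symm) (Ψ x)) (fun ξ η hη => by
          refine D_comp_symm G hΨ1 hΨ2 hh.smooth x ξ η ?_
          rw [hfun]
          exact hη)
      rw [← hfun] at h1
      have h2 : ‖G.D (h ∘ Ψ.symm) (Ψ x)‖ * (G.w (Ψ x) * |(fderiv ℝ Ψ x).det| / G.w x) =
          (G.w (Ψ x) * |(fderiv ℝ Ψ x).det| * ‖G.D (h ∘ Ψ.symm) (Ψ x)‖) / G.w x := by ring
      rw [h2, div_le_iff₀ hw, mul_comm _ (G.w x)]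
      exact h1
    · have h1 := perc_D_zero G hh (not_le.mp hB)
      have h2 : (h ∘ Ψ.symm) =ᶠ[nhds (Ψ x)] fun _ => 0 := by
        have h3 : Filter.Tendsto Ψ.symm (nhds (Ψ x)) (nhds x) := by
          have h4 := Ψ.symm.continuous.tendsto (Ψ x)
          rwa [Ψ.symm_apply_apply] at h4
        exact h3.eventually h1
      have h5 := perc_D_of_eventually G h1
      have h6 := perc_D_of_eventually G h2
      rw [hκ]
      simp only [h5, h6, norm_zero, zero_mul, mul_zero, sub_zero, add_zero, fv_kapU_zero, le_refl]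
  have e1 : G.per (h ∘ Ψ.symm) = ∫ x, ‖G.D (h ∘ Ψ.symm) (Ψ x)‖ *
      (G.w (Ψ x) * |(fderiv ℝ Ψ x).det| / G.w x) ∂G.vol :=
    integral_vol_comp G hΨ1 (fun y => ‖G.D (h ∘ Ψ.symm) y‖)
  have e2 : ∫ x, (‖G.D h x‖ - t * κ x + C * t ^ 2 * ‖G.D h x‖) ∂G.vol =
      G.per h - t * (∫ x, κ x ∂G.vol) + C * t ^ 2 * G.per h := by
    have i1 : Integrable (fun x => ‖G.D h x‖ - t * κ x) G.vol := hDint.sub (hkint.const_mul t)
    rw [integral_add i1 (hDint.const_mul _),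
      integral_sub hDint (hkint.const_mul t), integral_const_mul, integral_const_mul]
    rfl
  rw [e1, ← e2]
  refine integral_mono_of_nonneg (Filter.Eventually.of_forall fun x => ?_) hgint hcmp
  have hw := G.w_pos x
  have hw2 := G.w_pos (Ψ x)
  positivity

end Vale.Agent.P219.End
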