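import Vale.Agent.P219.End.Basic

/-!
# P219 / End : elementary facts on the bubbles (for `G3`)
-/

open MeasureTheory Set Metric
open scoped ENNReal ContDiff

namespace Vale.Agent.P219.End

variable {n : ℕ}

namespace Lim

variable (L : Lim n)

/-- `ε (2 - k2 ε)` -/
noncomputable def kap_g (ε : ℝ) : ℝ := ε * (2 - L.k2 * ε)

theorem kap_pos_g {ε : ℝ} (h0 : 0 < ε) (h : L.k2 * ε < 2) : 0 < L.kap_g ε :=
  mul_pos h0 (by linarith)

theorem kap_le_g {ε : ℝ} (h0 : 0 < ε) : L.kap_g ε ≤ 2 * ε := by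
  unfold kap_g
  have := mul_nonneg L.k2_nonneg h0.le
  nlinarith

theorem le_kap_g {ε : ℝ} (h0 : 0 < ε) (h : L.k2 * ε ≤ 1) : ε ≤ L.kap_g ε := by
  unfold kap_g
  nlinarith

theorem Fe_pos_g (c x : E n) {ε : ℝ} (h0 : 0 < ε) : 0 < L.F c x + ε := by
  linarith [L.F_nonneg c x]

theorem w_eq_g (c x : E n) (ε : ℝ) : L.w c ε x = √(L.kap_g ε) / (L.F c x + ε) := rfl

theorem w_posB_g (c x : E n) {ε : ℝ} (h0 : 0 < ε) (h : L.k2 * ε < 2) : 0 < L.w c ε x :=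
  div_pos (Real.sqrt_pos.2 (L.kap_pos_g h0 h)) (L.Fe_pos_g c x h0)

theorem w_rpow_g (c x : E n) {ε : ℝ} (h0 : 0 < ε) (h : L.k2 * ε < 2) (q : ℝ) :
    L.w c ε x ^ q = L.kap_g ε ^ (q / 2) * (L.F c x + ε) ^ (-q) := by
  rw [w_eq_g, Real.div_rpow (Real.sqrt_nonneg _) (L.Fe_pos_g c x h0).le, Real.sqrt_eq_rpow,
    ← Real.rpow_mul (L.kap_pos_g h0 h).le, Real.rpow_neg (L.Fe_pos_g c x h0).le]
  rw [div_eq_mul_inv]
  congr 2
  ring

theorem w_sq_g (c x : E n) {ε : ℝ} (h0 : 0 < ε) (h : L.k2 * ε < 2) :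
    L.w c ε x ^ 2 = L.kap_g ε / (L.F c x + ε) ^ 2 := by
  rw [w_eq_g, div_pow, Real.sq_sqrt (L.kap_pos_g h0 h).le]

theorem w_contB_g (c : E n) {ε : ℝ} (h0 : 0 < ε) : Continuous (L.w c ε) := by
  unfold w bub
  exact continuous_const.div ((L.Fc_cont c).add continuous_const)
    (fun x => (L.Fe_pos_g c x h0).ne')

theorem w_smoothB_g (c : E n) {ε : ℝ} (h0 : 0 < ε) : ContDiff ℝ ∞ (L.w c ε) := by
  unfold w bub
  exact contDiff_const.div ((L.Fc_smooth c).add contDiff_const) (fun x => (L.Fe_pos_g c x h0).ne')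

theorem w_rpow_smoothB_g (c : E n) {ε : ℝ} (h0 : 0 < ε) (h : L.k2 * ε < 2) (q : ℝ) :
    ContDiff ℝ ∞ (fun x => L.w c ε x ^ q) :=
  (L.w_smoothB_g c h0).rpow_const_of_ne (fun x => (L.w_posB_g c x h0 h).ne')

/-- `F` is bounded on `K × K`. -/
theorem F_bound_g : ∃ B > 0, ∀ c ∈ L.K, ∀ x ∈ L.K, L.F c x ≤ B := by
  obtain ⟨C, hC⟩ := (L.K_compact.prod L.K_compact).exists_bound_of_continuousOn
    (L.F_smooth.continuous.continuousOn)
  refine ⟨|C| + 1, by positivity, fun c hc x hx => ?_⟩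
  have h := hC (c, x) ⟨hc, hx⟩
  have h1 := le_abs_self (L.F c x)
  have h2 := le_abs_self C
  simp only [Real.norm_eq_abs] at h
  linarith

/-- comparison of two bubbles with the same centre -/
theorem w_scale_g (c x : E n) {ε ε' Λ : ℝ} (h0 : 0 < ε) (h1 : ε ≤ ε') (h2 : ε' ≤ Λ * ε)
    (h3 : L.k2 * ε' ≤ 1) : L.w c ε' x ^ L.m ≤ (2 * Λ) ^ (L.m / 2) * L.w c ε x ^ L.m := by
  have h0' : 0 < ε' := lt_of_lt_of_le h0 h1
  have hk : L.k2 * ε ≤ 1 := le_trans (mul_le_mul_of_nonneg_left h1 L.k2_nonneg) h3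
  have hm := L.three_le
  have hΛ : 0 < Λ := by
    by_contra hneg
    push Not at hneg
    nlinarith
  rw [L.w_rpow_g c x h0' (by linarith), L.w_rpow_g c x h0 (by linarith), ← mul_assoc,
    ← Real.mul_rpow (by positivity) (L.kap_pos_g h0 (by linarith)).le]
  have a1 : L.kap_g ε' ≤ 2 * Λ * L.kap_g ε := by
    have b1 := L.kap_le_g h0'
    have b2 := L.le_kap_g h0 hk
    nlinarith
  have a2 : L.kap_g ε' ^ (L.m / 2) ≤ (2 * Λ * L.kap_g ε) ^ (L.m / 2) :=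
    Real.rpow_le_rpow (L.kap_pos_g h0' (by linarith)).le a1 (by linarith)
  have a3 : (L.F c x + ε') ^ (-L.m) ≤ (L.F c x + ε) ^ (-L.m) :=
    Real.rpow_le_rpow_of_nonpos (L.Fe_pos_g c x h0) (by linarith) (by linarith)
  exact mul_le_mul a2 a3 (Real.rpow_nonneg (L.Fe_pos_g c x h0').le _)
    (Real.rpow_nonneg (by have := L.kap_pos_g h0 (by linarith); positivity) _)

/-- `w² ≤ 2 / (F + ε)` -/
theorem w_sq_le_g (c x : E n) {ε : ℝ} (h0 : 0 < ε) (h : L.k2 * ε < 2) :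
    L.w c ε x ^ 2 ≤ 2 / (L.F c x + ε) := by
  rw [L.w_sq_g c x h0 h, div_le_div_iff₀ (by have := L.Fe_pos_g c x h0; positivity)
    (L.Fe_pos_g c x h0)]
  have h1 := L.kap_le_g h0
  have h2 := L.F_nonneg c x
  have h3 := L.Fe_pos_g c x h0
  have h4 : L.kap_g ε * (L.F c x + ε) ≤ (2 * (L.F c x + ε)) * (L.F c x + ε) := by
    apply mul_le_mul_of_nonneg_right _ h3.le
    linarith
  nlinarith

/-- `w² ≤ 2 / ε` -/
theorem w_sq_le'_g (c x : E n) {ε : ℝ} (h0 : 0 < ε) (h : L.k2 * ε < 2) :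
    L.w c ε x ^ 2 ≤ 2 / ε := by
  refine (L.w_sq_le_g c x h0 h).trans ?_
  exact div_le_div_of_nonneg_left (by norm_num) h0 (by linarith [L.F_nonneg c x])

/-- `w |∇F| ≤ √(2 + k2 B)` if `F ≤ B` -/
theorem w_mul_grad_le_g (c x : E n) {ε B : ℝ} (h0 : 0 < ε) (h : L.k2 * ε < 2)
    (hB : L.F c x ≤ B) :
    L.w c ε x * √(2 * L.F c x + L.k2 * L.F c x ^ 2) ≤ √(2 + L.k2 * B) := by
  have hF := L.F_nonneg c x
  have hk := L.k2_nonneg
  have hp := L.Fe_pos_g c x h0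
  have hw := (L.w_posB_g c x h0 h).le
  rw [show L.w c ε x = √(L.w c ε x ^ 2) from (Real.sqrt_sq hw).symm,
    ← Real.sqrt_mul (sq_nonneg _)]
  apply Real.sqrt_le_sqrt
  rw [L.w_sq_g c x h0 h, div_mul_eq_mul_div, div_le_iff₀ (by positivity)]
  have e1 : 2 * L.F c x + L.k2 * L.F c x ^ 2 ≤ (2 + L.k2 * B) * L.F c x := by
    nlinarith [mul_nonneg hk hF, mul_le_mul_of_nonneg_left hB (mul_nonneg hk hF)]
  have e2 : L.kap_g ε * (2 * L.F c x + L.k2 * L.F c x ^ 2) ≤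
      2 * ε * ((2 + L.k2 * B) * L.F c x) := by
    apply mul_le_mul (L.kap_le_g h0) e1 (by positivity) (by positivity)
  have e3 : 0 ≤ 2 + L.k2 * B := by
    have : 0 ≤ B := hF.trans hB
    positivity
  nlinarith [mul_nonneg e3 (sq_nonneg (L.F c x - ε)), mul_nonneg e3 (mul_nonneg hF h0.le),
    mul_nonneg e3 (sq_nonneg (L.F c x)), mul_nonneg e3 (sq_nonneg ε)]

end Lim

end Vale.Agent.P219.End
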