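import Vale.Agent.P219.End.G3Bub

/-!
# P219 / End : reversed monotonicity at the centre of a bubble with small defect
-/

open MeasureTheory Set Metric
open scoped ENNReal ContDiff

namespace Vale.Agent.P219.End

variable {n : ℕ}

namespace Lim

variable (L : Lim n)

/-- The formula for the derivative of `J`. -/
def DerivJ_g : Prop := ∀ (c : E n) (Φ : E n → ℝ), ContDiff ℝ ∞ Φ → ∀ ε : ℝ, 0 < ε → L.k2 * ε < 2 →
  HasDerivAt (fun e => L.J Φ c e) ((ε * (2 - L.k2 * ε))⁻¹ *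
    (L.Dl c (fun x => Φ x * L.w c ε x ^ L.m) - L.H0 * ∫ z, Φ z.1 * L.w c ε z.1 ^ L.m * L.nc c z ∂L.V +
      ∫ z, L.w c ε z.1 ^ L.m * L.G Φ (L.F c) z ∂L.V +
      L.m * ∫ z, Φ z.1 * L.w c ε z.1 ^ L.m * L.nc c z ^ 2 / (L.F c z.1 + ε) ∂L.V)) ε

/-- `g = u w^{-(m-2)/2}` -/
noncomputable def gq_g (c : E n) (ε : ℝ) (u : E n → ℝ) (x : E n) : ℝ :=
  u x * L.w c ε x ^ (-((L.m - 2) / 2))

theorem gq_smooth_g (c : E n) {ε : ℝ} (h0 : 0 < ε) (h : L.k2 * ε < 2) {u : E n → ℝ}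
    (hu : ContDiff ℝ ∞ u) : ContDiff ℝ ∞ (L.gq_g c ε u) :=
  hu.mul (L.w_rpow_smoothB_g c h0 h _)

theorem gq_pos_g (c : E n) {ε : ℝ} (h0 : 0 < ε) (h : L.k2 * ε < 2) {u : E n → ℝ}
    (hu : ∀ x, 0 < u x) (x : E n) : 0 < L.gq_g c ε u x :=
  mul_pos (hu x) (Real.rpow_pos_of_pos (L.w_posB_g c x h0 h) _)

/-- `g w^a = u` -/
theorem gq_mul_g (c : E n) {ε : ℝ} (h0 : 0 < ε) (h : L.k2 * ε < 2) (u : E n → ℝ) (x : E n) :
    L.gq_g c ε u x * L.w c ε x ^ ((L.m - 2) / 2) = u x := by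
  unfold gq_g
  rw [mul_assoc, ← Real.rpow_add (L.w_posB_g c x h0 h), neg_add_cancel, Real.rpow_zero, mul_one]

/-- `g² w^m = u² w²` -/
theorem gq_sq_g (c : E n) {ε : ℝ} (h0 : 0 < ε) (h : L.k2 * ε < 2) (u : E n → ℝ) (x : E n) :
    L.gq_g c ε u x ^ 2 * L.w c ε x ^ L.m = u x ^ 2 * L.w c ε x ^ 2 := by
  have hw := L.w_posB_g c x h0 h
  have e : L.w c ε x ^ L.m = (L.w c ε x ^ ((L.m - 2) / 2)) ^ 2 * L.w c ε x ^ 2 := by
    rw [← Real.rpow_natCast (L.w c ε x ^ ((L.m - 2) / 2)) 2, ← Real.rpow_mul hw.le,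
      ← Real.rpow_natCast (L.w c ε x) 2, ← Real.rpow_add hw]
    congr 1
    push_cast
    ring
  rw [e, ← mul_assoc, ← mul_pow, L.gq_mul_g c h0 h]

/-- `g w^m = w^a u w²` -/
theorem gq_one_g (c : E n) {ε : ℝ} (h0 : 0 < ε) (h : L.k2 * ε < 2) (u : E n → ℝ) (x : E n) :
    L.w c ε x ^ L.m * L.gq_g c ε u x =
      L.w c ε x ^ ((L.m - 2) / 2) * u x * L.w c ε x ^ 2 := by
  have hw := L.w_posB_g c x h0 h
  have e : L.w c ε x ^ L.m =
      L.w c ε x ^ ((L.m - 2) / 2) * L.w c ε x ^ ((L.m - 2) / 2) * L.w c ε x ^ 2 := by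
    rw [← Real.rpow_add hw, ← Real.rpow_natCast (L.w c ε x) 2, ← Real.rpow_add hw]
    congr 1
    push_cast
    ring
  rw [e, ← L.gq_mul_g c h0 h u x]
  ring

/-- The gradient of `g²`. -/
theorem G_sq_g {g F : E n → ℝ} (hg : ContDiff ℝ ∞ g) (z : E n × E n) :
    L.G (fun x => g x ^ 2) F z = 2 * g z.1 * L.G g F z := by
  have h : D L.A (fun x => g x ^ 2) z.1 = (2 * g z.1) • D L.A g z.1 := by
    have h1 : HasDerivAt (fun t : ℝ => t ^ 2) (2 * g z.1) (g z.1) := by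
      simpa using hasDerivAt_pow 2 (g z.1)
    exact D_comp h1 (hg.differentiable (by simp) _)
  show gv _ _ _ = 2 * g z.1 * gv _ _ _
  rw [h, gv_smul_left]

/-- Young's inequality for the gradient term. -/
theorem grad_term_le_g (c : E n) {ε B s : ℝ} (h0 : 0 < ε) (h : L.k2 * ε < 2) (hs : 0 < s)
    {u : E n → ℝ} (hu : ContDiff ℝ ∞ u) (hu0 : ∀ x, 0 < u x) {z : E n × E n}
    (hz : ‖z.2‖ = 1) (hB : L.F c z.1 ≤ B) :
    L.w c ε z.1 ^ L.m * |L.G (fun x => L.gq_g c ε u x ^ 2) (L.F c) z| ≤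
      √(2 + L.k2 * B) * (s⁻¹ * (L.w c ε z.1 ^ (L.m - 2) * L.G (L.gq_g c ε u) (L.gq_g c ε u) z) +
        s * (u z.1 ^ 2 * L.w c ε z.1 ^ 2)) := by
  set g := L.gq_g c ε u with hg
  have hgs : ContDiff ℝ ∞ g := L.gq_smooth_g c h0 h hu
  have hgp : 0 < g z.1 := L.gq_pos_g c h0 h hu0 z.1
  have hw := L.w_posB_g c z.1 h0 h
  set X := L.G g g z with hX
  have hX0 : 0 ≤ X := L.G_self_nonneg g hz
  have c1 : |L.G g (L.F c) z| ≤ √X * √(2 * L.F c z.1 + L.k2 * L.F c z.1 ^ 2) := by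
    refine (gv_abs_le hz.le _ _).trans ?_
    refine mul_le_mul_of_nonneg_left ?_ (Real.sqrt_nonneg _)
    apply Real.sqrt_le_sqrt
    refine (gv_self_le _ _).trans ?_
    exact (L.grad c z.1).le
  have c2 := L.w_mul_grad_le_g c z.1 h0 h hB
  set a := L.w c ε z.1 ^ ((L.m - 2) / 2) with ha
  have ha0 : 0 < a := Real.rpow_pos_of_pos hw _
  have ha2 : L.w c ε z.1 ^ (L.m - 2) = a ^ 2 := by
    rw [ha, ← Real.rpow_natCast (L.w c ε z.1 ^ ((L.m - 2) / 2)) 2, ← Real.rpow_mul hw.le]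
    congr 1
    push_cast
    ring
  rw [L.G_sq_g hgs, abs_mul, abs_of_pos (by positivity : (0:ℝ) < 2 * g z.1), ha2]
  calc L.w c ε z.1 ^ L.m * (2 * g z.1 * |L.G g (L.F c) z|)
      = 2 * (L.w c ε z.1 ^ L.m * g z.1) * |L.G g (L.F c) z| := by ring
    _ = 2 * (a * u z.1 * L.w c ε z.1 ^ 2) * |L.G g (L.F c) z| := by rw [L.gq_one_g c h0 h]
    _ ≤ 2 * (a * u z.1 * L.w c ε z.1 ^ 2) *
        (√X * √(2 * L.F c z.1 + L.k2 * L.F c z.1 ^ 2)) := by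
        refine mul_le_mul_of_nonneg_left c1 ?_
        have := hu0 z.1
        positivity
    _ = 2 * (a * √X) * (u z.1 * L.w c ε z.1) *
        (L.w c ε z.1 * √(2 * L.F c z.1 + L.k2 * L.F c z.1 ^ 2)) := by ring
    _ ≤ 2 * (a * √X) * (u z.1 * L.w c ε z.1) * √(2 + L.k2 * B) := by
        refine mul_le_mul_of_nonneg_left c2 ?_
        have := hu0 z.1
        positivity
    _ ≤ _ := by
        have y : 2 * (a * √X) * (u z.1 * L.w c ε z.1) ≤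
            s⁻¹ * (a ^ 2 * X) + s * (u z.1 ^ 2 * L.w c ε z.1 ^ 2) := by
          have y1 : a ^ 2 * X = (a * √X) ^ 2 := by rw [mul_pow, Real.sq_sqrt hX0]
          rw [y1, ← mul_pow]
          set p := a * √X
          set q := u z.1 * L.w c ε z.1
          have y2 : 0 ≤ s⁻¹ * (p - s * q) ^ 2 := by positivity
          have y3 : s⁻¹ * (p - s * q) ^ 2 = s⁻¹ * p ^ 2 - 2 * p * q + s * q ^ 2 := by
            field_simp
            ring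
          linarith
        calc _ = √(2 + L.k2 * B) * (2 * (a * √X) * (u z.1 * L.w c ε z.1)) := by ring
          _ ≤ _ := mul_le_mul_of_nonneg_left y (Real.sqrt_nonneg _)

/-- `∫ u² n²/(F+ε)²` is small. -/
theorem nc_term_le_g (c : E n) {ε δ : ℝ} (h0 : 0 < ε) {u : E n → ℝ}
    (hu : Continuous u)
    (hd2 : ∫ z, u z.1 ^ 2 * (L.H0 / L.m - L.nc c z / (L.F c z.1 + ε)) ^ 2 ∂L.V ≤ δ)
    (hR : ∫ z, u z.1 ^ 2 ∂L.V ≤ δ) :
    ∫ z, u z.1 ^ 2 * (L.nc c z / (L.F c z.1 + ε)) ^ 2 ∂L.V ≤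
      (2 + 2 * (L.H0 / L.m) ^ 2) * δ := by
  have k1 : Continuous fun z : E n × E n => u z.1 := hu.comp continuous_fst
  have k2 : Continuous fun z : E n × E n => L.nc c z / (L.F c z.1 + ε) := by
    refine (L.nc_cont c).div (((L.Fc_cont c).comp continuous_fst).add continuous_const) ?_
    intro z
    exact (L.Fe_pos_g c z.1 h0).ne'
  have i1 := L.integrable_of_cont (f := fun z => u z.1 ^ 2 *
    (L.H0 / L.m - L.nc c z / (L.F c z.1 + ε)) ^ 2) (by fun_prop)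
  have i2 := L.integrable_of_cont (f := fun z => u z.1 ^ 2) (by fun_prop)
  calc ∫ z, u z.1 ^ 2 * (L.nc c z / (L.F c z.1 + ε)) ^ 2 ∂L.V
      ≤ ∫ z, (2 * (u z.1 ^ 2 * (L.H0 / L.m - L.nc c z / (L.F c z.1 + ε)) ^ 2) +
          2 * (L.H0 / L.m) ^ 2 * u z.1 ^ 2) ∂L.V := by
        refine L.integral_mono_of (by fun_prop) (by fun_prop) fun z _ _ => ?_
        set t := L.nc c z / (L.F c z.1 + ε)
        set b := L.H0 / L.m
        have : 0 ≤ u z.1 ^ 2 * ((b - t) + b) ^ 2 := by positivity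
        nlinarith [mul_nonneg (sq_nonneg (u z.1)) (sq_nonneg (b - t - b)),
          mul_nonneg (sq_nonneg (u z.1)) (sq_nonneg (2 * b - t))]
    _ = 2 * ∫ z, u z.1 ^ 2 * (L.H0 / L.m - L.nc c z / (L.F c z.1 + ε)) ^ 2 ∂L.V +
          2 * (L.H0 / L.m) ^ 2 * ∫ z, u z.1 ^ 2 ∂L.V := by
        rw [integral_add (i1.const_mul 2) (i2.const_mul _), integral_const_mul,
          integral_const_mul]
    _ ≤ 2 * δ + 2 * (L.H0 / L.m) ^ 2 * δ := by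
        have : 0 ≤ 2 * (L.H0 / L.m) ^ 2 := by positivity
        nlinarith [mul_le_mul_of_nonneg_left hR this]
    _ = _ := by ring

/-- data common to the four terms -/
theorem gw_le_g (c : E n) {ε e C₁ : ℝ} (h0 : 0 < ε) (hk : L.k2 * ε < 2) {u : E n → ℝ}
    (hs : ∀ x, L.w c e x ^ L.m ≤ C₁ * L.w c ε x ^ L.m) (x : E n) :
    L.gq_g c ε u x ^ 2 * L.w c e x ^ L.m ≤ C₁ * (u x ^ 2 * L.w c ε x ^ 2) := by
  calc L.gq_g c ε u x ^ 2 * L.w c e x ^ L.m ≤ L.gq_g c ε u x ^ 2 * (C₁ * L.w c ε x ^ L.m) :=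
        mul_le_mul_of_nonneg_left (hs x) (sq_nonneg _)
    _ = C₁ * (L.gq_g c ε u x ^ 2 * L.w c ε x ^ L.m) := by ring
    _ = _ := by rw [L.gq_sq_g c h0 hk]

theorem term_one_g {c : E n} (hc : c ∈ L.K) {ε e C₁ δ : ℝ} (h0 : 0 < ε) (hk : L.k2 * ε < 2)
    (he0 : 0 < e) (hke : L.k2 * e < 2) (hC₁0 : 0 < C₁)
    {u : E n → ℝ} (hu : ContDiff ℝ ∞ u)
    (hs : ∀ x, L.w c e x ^ L.m ≤ C₁ * L.w c ε x ^ L.m)
    (hd3 : 2 / L.m * L.Dl c (fun x => u x ^ 2 / (L.F c x + ε)) ≤ δ) :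
    L.Dl c (fun x => L.gq_g c ε u x ^ 2 * L.w c e x ^ L.m) ≤ C₁ * L.m * δ := by
  have hm0 := L.m_pos
  have s1 : ContDiff ℝ ∞ (fun x => L.gq_g c ε u x ^ 2 * L.w c e x ^ L.m) :=
    ((L.gq_smooth_g c h0 hk hu).pow 2).mul (L.w_rpow_smoothB_g c he0 hke L.m)
  have s2 : ContDiff ℝ ∞ (fun x => u x ^ 2 / (L.F c x + ε)) :=
    (hu.pow 2).div ((L.Fc_smooth c).add contDiff_const) fun x => (L.Fe_pos_g c x h0).ne'
  have s3 : ContDiff ℝ ∞ (fun x => 2 * C₁ * (u x ^ 2 / (L.F c x + ε))) :=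
    contDiff_const.mul s2
  have h1 : L.Dl c (fun x => L.gq_g c ε u x ^ 2 * L.w c e x ^ L.m) ≤
      L.Dl c (fun x => 2 * C₁ * (u x ^ 2 / (L.F c x + ε))) := by
    refine L.Dl_mono hc s1 s3 fun x => ?_
    refine (L.gw_le_g c h0 hk hs x).trans ?_
    have h2 := L.w_sq_le_g c x h0 hk
    calc C₁ * (u x ^ 2 * L.w c ε x ^ 2) ≤ C₁ * (u x ^ 2 * (2 / (L.F c x + ε))) := by
          gcongr
      _ = _ := by ring
  rw [L.Dl_smul c _ (s2.of_le (by exact_mod_cast le_top))] at h1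
  have h3 : L.Dl c (fun x => u x ^ 2 / (L.F c x + ε)) ≤ L.m / 2 * δ := by
    have : L.Dl c (fun x => u x ^ 2 / (L.F c x + ε)) =
        L.m / 2 * (2 / L.m * L.Dl c (fun x => u x ^ 2 / (L.F c x + ε))) := by
      field_simp
    rw [this]
    exact mul_le_mul_of_nonneg_left hd3 (by positivity)
  calc _ ≤ _ := h1
    _ ≤ 2 * C₁ * (L.m / 2 * δ) := mul_le_mul_of_nonneg_left h3 (by positivity)
    _ = C₁ * L.m * δ := by ring

theorem term_two_g {c : E n} {ε e C₁ δ : ℝ} (h0 : 0 < ε) (hk : L.k2 * ε < 2)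
    (he0 : 0 < e) (hke : L.k2 * e < 2) (hC₁0 : 0 < C₁)
    {u : E n → ℝ} (hu : ContDiff ℝ ∞ u)
    (hs : ∀ x, L.w c e x ^ L.m ≤ C₁ * L.w c ε x ^ L.m)
    (hd2 : ∫ z, u z.1 ^ 2 * (L.H0 / L.m - L.nc c z / (L.F c z.1 + ε)) ^ 2 ∂L.V ≤ δ)
    (hR : ∫ z, u z.1 ^ 2 ∂L.V ≤ δ) :
    -(L.H0 * ∫ z, L.gq_g c ε u z.1 ^ 2 * L.w c e z.1 ^ L.m * L.nc c z ∂L.V) ≤
        C₁ * |L.H0| * (3 + 2 * (L.H0 / L.m) ^ 2) * δ := by
  have hn := L.nc_term_le_g c h0 hu.continuous hd2 hR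
  set b := L.H0 / L.m with hb
  have ku : Continuous fun z : E n × E n => u z.1 := hu.continuous.comp continuous_fst
  have kg : Continuous fun z : E n × E n => L.gq_g c ε u z.1 :=
    (L.gq_smooth_g c h0 hk hu).continuous.comp continuous_fst
  have kn := L.nc_cont c
  have kF : Continuous fun z : E n × E n => L.F c z.1 := (L.Fc_cont c).comp continuous_fst
  have kq : Continuous fun z : E n × E n => L.nc c z / (L.F c z.1 + ε) :=
    kn.div (kF.add continuous_const) fun z => (L.Fe_pos_g c z.1 h0).ne'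
  have kwe : Continuous fun z : E n × E n => L.w c e z.1 ^ L.m :=
    (L.w_rpow_smoothB_g c he0 hke L.m).continuous.comp continuous_fst
  have h1 : |∫ z, L.gq_g c ε u z.1 ^ 2 * L.w c e z.1 ^ L.m * L.nc c z ∂L.V| ≤
      C₁ * ((3 + 2 * b ^ 2) * δ) := by
    calc |∫ z, L.gq_g c ε u z.1 ^ 2 * L.w c e z.1 ^ L.m * L.nc c z ∂L.V|
        ≤ ∫ z, |L.gq_g c ε u z.1 ^ 2 * L.w c e z.1 ^ L.m * L.nc c z| ∂L.V :=
          abs_integral_le_integral_abs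
      _ ≤ ∫ z, C₁ * (u z.1 ^ 2 + u z.1 ^ 2 * (L.nc c z / (L.F c z.1 + ε)) ^ 2) ∂L.V := by
          refine L.integral_mono_of (by fun_prop) (by fun_prop) fun z _ _ => ?_
          have p1 : 0 ≤ L.gq_g c ε u z.1 ^ 2 * L.w c e z.1 ^ L.m :=
            mul_nonneg (sq_nonneg _) (Real.rpow_nonneg (L.w_posB_g c z.1 he0 hke).le _)
          rw [abs_mul, abs_of_nonneg p1]
          have hFp := L.Fe_pos_g c z.1 h0
          set t := L.nc c z / (L.F c z.1 + ε) with ht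
          have e1 : |L.nc c z| = |t| * (L.F c z.1 + ε) := by
            rw [ht, abs_div, abs_of_pos hFp]
            field_simp
          have e2 : L.w c ε z.1 ^ 2 * (L.F c z.1 + ε) ≤ 2 := by
            have := L.w_sq_le_g c z.1 h0 hk
            rwa [le_div_iff₀ hFp] at this
          have e3 : 2 * |t| ≤ 1 + t ^ 2 := by
            nlinarith [sq_nonneg (|t| - 1), sq_abs t]
          calc L.gq_g c ε u z.1 ^ 2 * L.w c e z.1 ^ L.m * |L.nc c z|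
              ≤ C₁ * (u z.1 ^ 2 * L.w c ε z.1 ^ 2) * |L.nc c z| :=
                mul_le_mul_of_nonneg_right (L.gw_le_g c h0 hk hs z.1) (abs_nonneg _)
            _ = C₁ * u z.1 ^ 2 * |t| * (L.w c ε z.1 ^ 2 * (L.F c z.1 + ε)) := by
                rw [e1]; ring
            _ ≤ C₁ * u z.1 ^ 2 * |t| * 2 :=
                mul_le_mul_of_nonneg_left e2 (by positivity)
            _ = C₁ * u z.1 ^ 2 * (2 * |t|) := by ring
            _ ≤ C₁ * u z.1 ^ 2 * (1 + t ^ 2) :=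
                mul_le_mul_of_nonneg_left e3 (by positivity)
            _ = _ := by ring
      _ = C₁ * (∫ z, u z.1 ^ 2 ∂L.V +
            ∫ z, u z.1 ^ 2 * (L.nc c z / (L.F c z.1 + ε)) ^ 2 ∂L.V) := by
          rw [integral_const_mul, integral_add (L.integrable_of_cont (by fun_prop))
            (L.integrable_of_cont (by fun_prop))]
      _ ≤ C₁ * ((3 + 2 * b ^ 2) * δ) := by
          refine mul_le_mul_of_nonneg_left ?_ hC₁0.le
          linarith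
  calc -(L.H0 * ∫ z, L.gq_g c ε u z.1 ^ 2 * L.w c e z.1 ^ L.m * L.nc c z ∂L.V)
      ≤ |L.H0 * ∫ z, L.gq_g c ε u z.1 ^ 2 * L.w c e z.1 ^ L.m * L.nc c z ∂L.V| := neg_le_abs _
    _ = |L.H0| * |∫ z, L.gq_g c ε u z.1 ^ 2 * L.w c e z.1 ^ L.m * L.nc c z ∂L.V| := abs_mul _ _
    _ ≤ |L.H0| * (C₁ * ((3 + 2 * b ^ 2) * δ)) := by gcongr
    _ = C₁ * |L.H0| * (3 + 2 * b ^ 2) * δ := by ring

theorem term_three_g {c : E n} (hc : c ∈ L.K) {ε e C₁ δ B E₂ : ℝ} (h0 : 0 < ε)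
    (hk : L.k2 * ε < 2) (he0 : 0 < e) (hke : L.k2 * e < 2) (hC₁0 : 0 < C₁) (hδ0 : 0 < δ)
    (hB : ∀ c ∈ L.K, ∀ x ∈ L.K, L.F c x ≤ B)
    {u : E n → ℝ} (hu : ContDiff ℝ ∞ u) (hu0 : ∀ x, 0 < u x)
    (hs : ∀ x, L.w c e x ^ L.m ≤ C₁ * L.w c ε x ^ L.m)
    (hd1 : 4 / (L.m * (L.m - 2)) *
        ∫ z, L.w c ε z.1 ^ (L.m - 2) * L.G (L.gq_g c ε u) (L.gq_g c ε u) z ∂L.V ≤ δ)
    (hE2 : ∫ z, u z.1 ^ 2 * L.w c ε z.1 ^ 2 ∂L.V ≤ E₂) :
    ∫ z, L.w c e z.1 ^ L.m * L.G (fun x => L.gq_g c ε u x ^ 2) (L.F c) z ∂L.V ≤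
        C₁ * √(2 + L.k2 * B) * (L.m * (L.m - 2) / 4 + E₂) * √δ := by
  have hm0 := L.m_pos
  have hm2 := L.m_sub_pos
  have hs0 : 0 < √δ := Real.sqrt_pos.2 hδ0
  set g := L.gq_g c ε u with hg
  have hgs : ContDiff ℝ ∞ g := L.gq_smooth_g c h0 hk hu
  have hg2 : ContDiff ℝ ∞ (fun x => g x ^ 2) := hgs.pow 2
  have ku : Continuous fun z : E n × E n => u z.1 := hu.continuous.comp continuous_fst
  have kw : Continuous fun z : E n × E n => L.w c ε z.1 := (L.w_contB_g c h0).comp continuous_fst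
  have kwe : Continuous fun z : E n × E n => L.w c e z.1 ^ L.m :=
    (L.w_rpow_smoothB_g c he0 hke L.m).continuous.comp continuous_fst
  have kGm : Continuous (L.G (fun x => g x ^ 2) (L.F c)) :=
    L.G_cont (hg2.of_le (by exact_mod_cast le_top)) (L.Fc_smooth1 c)
  have kG : Continuous (L.G g g) :=
    L.G_cont (hgs.of_le (by exact_mod_cast le_top)) (hgs.of_le (by exact_mod_cast le_top))
  have kw2 : Continuous fun z : E n × E n => L.w c ε z.1 ^ (L.m - 2) :=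
    (L.w_rpow_smoothB_g c h0 hk (L.m - 2)).continuous.comp continuous_fst
  set P : ℝ := √(2 + L.k2 * B) with hP
  have hP0 : 0 ≤ P := Real.sqrt_nonneg _
  have hd1' : ∫ z, L.w c ε z.1 ^ (L.m - 2) * L.G g g z ∂L.V ≤
      L.m * (L.m - 2) / 4 * δ := by
    have : ∫ z, L.w c ε z.1 ^ (L.m - 2) * L.G g g z ∂L.V = L.m * (L.m - 2) / 4 *
        (4 / (L.m * (L.m - 2)) * ∫ z, L.w c ε z.1 ^ (L.m - 2) * L.G g g z ∂L.V) := by
      field_simp
    rw [this]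
    exact mul_le_mul_of_nonneg_left hd1 (by positivity)
  calc ∫ z, L.w c e z.1 ^ L.m * L.G (fun x => g x ^ 2) (L.F c) z ∂L.V
      ≤ ∫ z, C₁ * (P * ((√δ)⁻¹ * (L.w c ε z.1 ^ (L.m - 2) * L.G g g z) +
          √δ * (u z.1 ^ 2 * L.w c ε z.1 ^ 2))) ∂L.V := by
        refine L.integral_mono_of (by fun_prop) (by fun_prop) fun z hz1 hz2 => ?_
        have hwe0 : 0 ≤ L.w c e z.1 ^ L.m := Real.rpow_nonneg (L.w_posB_g c z.1 he0 hke).le _
        calc L.w c e z.1 ^ L.m * L.G (fun x => g x ^ 2) (L.F c) z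
            ≤ L.w c e z.1 ^ L.m * |L.G (fun x => g x ^ 2) (L.F c) z| :=
              mul_le_mul_of_nonneg_left (le_abs_self _) hwe0
          _ ≤ C₁ * L.w c ε z.1 ^ L.m * |L.G (fun x => g x ^ 2) (L.F c) z| :=
              mul_le_mul_of_nonneg_right (hs _) (abs_nonneg _)
          _ = C₁ * (L.w c ε z.1 ^ L.m * |L.G (fun x => g x ^ 2) (L.F c) z|) := by ring
          _ ≤ _ := mul_le_mul_of_nonneg_left
              (L.grad_term_le_g c h0 hk hs0 hu hu0 hz2 (hB c hc z.1 hz1)) hC₁0.le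
    _ = C₁ * (P * ((√δ)⁻¹ * ∫ z, L.w c ε z.1 ^ (L.m - 2) * L.G g g z ∂L.V +
          √δ * ∫ z, u z.1 ^ 2 * L.w c ε z.1 ^ 2 ∂L.V)) := by
        rw [integral_const_mul, integral_const_mul,
          integral_add (L.integrable_of_cont (by fun_prop))
            (L.integrable_of_cont (by fun_prop)), integral_const_mul, integral_const_mul]
    _ ≤ C₁ * (P * ((√δ)⁻¹ * (L.m * (L.m - 2) / 4 * δ) + √δ * E₂)) := by gcongr
    _ = _ := by
        have : (√δ)⁻¹ * (L.m * (L.m - 2) / 4 * δ) = L.m * (L.m - 2) / 4 * √δ := by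
          nth_rewrite 2 [← Real.mul_self_sqrt hδ0.le]
          field_simp
        rw [this]
        ring

theorem term_four_g {c : E n} {ε e C₁ δ : ℝ} (h0 : 0 < ε) (hk : L.k2 * ε < 2)
    (he : ε ≤ e) (hke : L.k2 * e < 2) (hC₁0 : 0 < C₁)
    {u : E n → ℝ} (hu : ContDiff ℝ ∞ u)
    (hs : ∀ x, L.w c e x ^ L.m ≤ C₁ * L.w c ε x ^ L.m)
    (hd2 : ∫ z, u z.1 ^ 2 * (L.H0 / L.m - L.nc c z / (L.F c z.1 + ε)) ^ 2 ∂L.V ≤ δ)
    (hR : ∫ z, u z.1 ^ 2 ∂L.V ≤ δ) :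
    L.m * ∫ z, L.gq_g c ε u z.1 ^ 2 * L.w c e z.1 ^ L.m * L.nc c z ^ 2 / (L.F c z.1 + e) ∂L.V ≤
        2 * L.m * C₁ * (2 + 2 * (L.H0 / L.m) ^ 2) * δ := by
  have hn := L.nc_term_le_g c h0 hu.continuous hd2 hR
  have he0 : 0 < e := lt_of_lt_of_le h0 he
  have hm0 := L.m_pos
  set b := L.H0 / L.m with hb
  have ku : Continuous fun z : E n × E n => u z.1 := hu.continuous.comp continuous_fst
  have kg : Continuous fun z : E n × E n => L.gq_g c ε u z.1 :=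
    (L.gq_smooth_g c h0 hk hu).continuous.comp continuous_fst
  have kn := L.nc_cont c
  have kF : Continuous fun z : E n × E n => L.F c z.1 := (L.Fc_cont c).comp continuous_fst
  have kq : Continuous fun z : E n × E n => L.nc c z / (L.F c z.1 + ε) :=
    kn.div (kF.add continuous_const) fun z => (L.Fe_pos_g c z.1 h0).ne'
  have kwe : Continuous fun z : E n × E n => L.w c e z.1 ^ L.m :=
    (L.w_rpow_smoothB_g c he0 hke L.m).continuous.comp continuous_fst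
  have kd : Continuous fun z : E n × E n =>
      L.gq_g c ε u z.1 ^ 2 * L.w c e z.1 ^ L.m * L.nc c z ^ 2 / (L.F c z.1 + e) :=
    (((kg.pow 2).mul kwe).mul (kn.pow 2)).div (kF.add continuous_const)
      fun z => (L.Fe_pos_g c z.1 he0).ne'
  calc L.m * ∫ z, L.gq_g c ε u z.1 ^ 2 * L.w c e z.1 ^ L.m * L.nc c z ^ 2 /
          (L.F c z.1 + e) ∂L.V
      ≤ L.m * ∫ z, 2 * C₁ * (u z.1 ^ 2 * (L.nc c z / (L.F c z.1 + ε)) ^ 2) ∂L.V := by
        refine mul_le_mul_of_nonneg_left ?_ hm0.le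
        refine L.integral_mono_of kd (by fun_prop) fun z _ _ => ?_
        have hFp := L.Fe_pos_g c z.1 h0
        have hFe := L.Fe_pos_g c z.1 he0
        have e2 := L.w_sq_le_g c z.1 h0 hk
        rw [div_le_iff₀ hFe]
        calc L.gq_g c ε u z.1 ^ 2 * L.w c e z.1 ^ L.m * L.nc c z ^ 2
            ≤ C₁ * (u z.1 ^ 2 * L.w c ε z.1 ^ 2) * L.nc c z ^ 2 :=
              mul_le_mul_of_nonneg_right (L.gw_le_g c h0 hk hs z.1) (sq_nonneg _)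
          _ ≤ C₁ * (u z.1 ^ 2 * (2 / (L.F c z.1 + ε))) * L.nc c z ^ 2 := by gcongr
          _ = 2 * C₁ * (u z.1 ^ 2 * (L.nc c z / (L.F c z.1 + ε)) ^ 2) *
                (L.F c z.1 + ε) := by field_simp
          _ ≤ _ := by
              refine mul_le_mul_of_nonneg_left ?_ (by positivity)
              linarith
    _ = L.m * (2 * C₁ * ∫ z, u z.1 ^ 2 * (L.nc c z / (L.F c z.1 + ε)) ^ 2 ∂L.V) := by
        rw [integral_const_mul]
    _ ≤ L.m * (2 * C₁ * ((2 + 2 * b ^ 2) * δ)) := by gcongr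
    _ = 2 * L.m * C₁ * (2 + 2 * b ^ 2) * δ := by ring

/-- Reversed monotonicity. -/
theorem revmono_g (hM : L.DerivJ_g) {Λ E₂ : ℝ} (hΛ : 1 ≤ Λ) (hE : 0 ≤ E₂) :
    ∃ C > 0, ∀ c ∈ L.K, ∀ ε : ℝ, 0 < ε → L.k2 * (Λ * ε) ≤ 1 → ∀ u : E n → ℝ, ContDiff ℝ ∞ u →
      (∀ x, 0 < u x) → ∀ δ : ℝ, 0 < δ → δ ≤ 1 →
      4 / (L.m * (L.m - 2)) *
        ∫ z, L.w c ε z.1 ^ (L.m - 2) * L.G (L.gq_g c ε u) (L.gq_g c ε u) z ∂L.V ≤ δ →
      ∫ z, u z.1 ^ 2 * (L.H0 / L.m - L.nc c z / (L.F c z.1 + ε)) ^ 2 ∂L.V ≤ δ →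
      2 / L.m * L.Dl c (fun x => u x ^ 2 / (L.F c x + ε)) ≤ δ →
      ∫ z, u z.1 ^ 2 ∂L.V ≤ δ →
      ∫ z, u z.1 ^ 2 * L.w c ε z.1 ^ 2 ∂L.V ≤ E₂ →
      L.J (fun x => L.gq_g c ε u x ^ 2) c (Λ * ε) ≤
        L.J (fun x => L.gq_g c ε u x ^ 2) c ε + C * √δ := by
  obtain ⟨B, hB0, hB⟩ := L.F_bound_g
  have hm0 := L.m_pos
  have hm2 := L.m_sub_pos
  have hk2 := L.k2_nonneg
  set C₁ : ℝ := (2 * Λ) ^ (L.m / 2) with hC₁
  have hC₁0 : 0 < C₁ := Real.rpow_pos_of_pos (by linarith) _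
  set C₂ : ℝ := C₁ * L.m + C₁ * |L.H0| * (3 + 2 * (L.H0 / L.m) ^ 2) +
    C₁ * √(2 + L.k2 * B) * (L.m * (L.m - 2) / 4 + E₂) +
    2 * L.m * C₁ * (2 + 2 * (L.H0 / L.m) ^ 2) with hC₂
  have hC₂0 : 0 < C₂ := by positivity
  refine ⟨C₂ * Λ, by positivity, ?_⟩
  intro c hc ε h0 hkΛ u hu hu0 δ hδ0 hδ1 hd1 hd2 hd3 hR hE2
  have hεΛ : ε ≤ Λ * ε := le_mul_of_one_le_left h0.le hΛ
  have hk : L.k2 * ε < 2 := by
    have := mul_le_mul_of_nonneg_left hεΛ hk2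
    linarith
  have hg2 : ContDiff ℝ ∞ (fun x => L.gq_g c ε u x ^ 2) := (L.gq_smooth_g c h0 hk hu).pow 2
  have hsd : δ ≤ √δ := by
    have h1 : √δ ≤ 1 := Real.sqrt_le_one.2 hδ1
    calc δ = √δ * √δ := (Real.mul_self_sqrt hδ0.le).symm
      _ ≤ 1 * √δ := mul_le_mul_of_nonneg_right h1 (Real.sqrt_nonneg _)
      _ = √δ := one_mul _
  have hs0 : 0 < √δ := Real.sqrt_pos.2 hδ0
  -- bound of the derivative
  have hder : ∀ e ∈ Set.Icc ε (Λ * ε), (e * (2 - L.k2 * e))⁻¹ *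
      (L.Dl c (fun x => L.gq_g c ε u x ^ 2 * L.w c e x ^ L.m) -
        L.H0 * ∫ z, L.gq_g c ε u z.1 ^ 2 * L.w c e z.1 ^ L.m * L.nc c z ∂L.V +
      ∫ z, L.w c e z.1 ^ L.m * L.G (fun x => L.gq_g c ε u x ^ 2) (L.F c) z ∂L.V +
      L.m * ∫ z, L.gq_g c ε u z.1 ^ 2 * L.w c e z.1 ^ L.m * L.nc c z ^ 2 /
        (L.F c z.1 + e) ∂L.V) ≤ ε⁻¹ * (C₂ * √δ) := by
    intro e he
    have he0 : 0 < e := lt_of_lt_of_le h0 he.1
    have hke : L.k2 * e ≤ 1 := (mul_le_mul_of_nonneg_left he.2 hk2).trans hkΛ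
    have hke2 : L.k2 * e < 2 := by linarith
    have hs : ∀ x, L.w c e x ^ L.m ≤ C₁ * L.w c ε x ^ L.m := fun x =>
      L.w_scale_g c x h0 he.1 he.2 hke
    have T1 := L.term_one_g hc h0 hk he0 hke2 hC₁0 hu hs hd3
    have T2 := L.term_two_g h0 hk he0 hke2 hC₁0 hu hs hd2 hR
    have T3 := L.term_three_g hc h0 hk he0 hke2 hC₁0 hδ0 hB hu hu0 hs hd1 hE2
    have T4 := L.term_four_g h0 hk he.1 hke2 hC₁0 hu hs hd2 hR
    have T1' : C₁ * L.m * δ ≤ C₁ * L.m * √δ := mul_le_mul_of_nonneg_left hsd (by positivity)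
    have T2' : C₁ * |L.H0| * (3 + 2 * (L.H0 / L.m) ^ 2) * δ ≤
        C₁ * |L.H0| * (3 + 2 * (L.H0 / L.m) ^ 2) * √δ :=
      mul_le_mul_of_nonneg_left hsd (by positivity)
    have T4' : 2 * L.m * C₁ * (2 + 2 * (L.H0 / L.m) ^ 2) * δ ≤
        2 * L.m * C₁ * (2 + 2 * (L.H0 / L.m) ^ 2) * √δ :=
      mul_le_mul_of_nonneg_left hsd (by positivity)
    have hkap : ε ≤ e * (2 - L.k2 * e) := he.1.trans (L.le_kap_g he0 hke)
    have hi : (e * (2 - L.k2 * e))⁻¹ ≤ ε⁻¹ := inv_anti₀ h0 hkap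
    have hi0 : 0 < (e * (2 - L.k2 * e))⁻¹ := inv_pos.2 (lt_of_lt_of_le h0 hkap)
    calc _ ≤ (e * (2 - L.k2 * e))⁻¹ * (C₂ * √δ) := by
          refine mul_le_mul_of_nonneg_left ?_ hi0.le
          rw [hC₂]
          linarith
      _ ≤ _ := mul_le_mul_of_nonneg_right hi (by positivity)
  have hdr := fun (e : ℝ) (he : e ∈ Set.Icc ε (Λ * ε)) => hM c _ hg2 e
    (lt_of_lt_of_le h0 he.1)
    (by linarith [(mul_le_mul_of_nonneg_left he.2 hk2).trans hkΛ])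
  have hmv := (convex_Icc ε (Λ * ε)).image_sub_le_mul_sub_of_deriv_le
    (f := fun e => L.J (fun x => L.gq_g c ε u x ^ 2) c e)
    (fun e he => (hdr e he).continuousAt.continuousWithinAt)
    (fun e he => (hdr e (interior_subset he)).differentiableAt.differentiableWithinAt)
    (C := ε⁻¹ * (C₂ * √δ)) (fun e he => by
      rw [(hdr e (interior_subset he)).deriv]
      exact hder e (interior_subset he)) ε ⟨le_rfl, hεΛ⟩ (Λ * ε) ⟨hεΛ, le_rfl⟩ hεΛ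
  have h6 : ε⁻¹ * (C₂ * √δ) * (Λ * ε - ε) = C₂ * √δ * (Λ - 1) * (ε⁻¹ * ε) := by ring
  rw [h6, inv_mul_cancel₀ h0.ne', mul_one] at hmv
  have h7 : 0 ≤ C₂ * √δ := by positivity
  linarith

end Lim

end Vale.Agent.P219.End
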