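import Vale.Agent.P219.End.Defs

/-!
# P219, all dimensions: from Gaussian densities to bubble densities

`(f + ε) ^ (-m) = Γ(m)⁻¹ ∫ t ^ (m - 1) exp (- t (f + ε)) dt`, so `∫ w ^ m dμ` is a mixture of the
Gaussian integrals `∫ exp (- t f) dμ`.
-/

open MeasureTheory Set Metric Filter Topology

namespace Vale.Agent.P219.End

section
variable {X : Type*} [MeasurableSpace X]

lemma integrableOn_gam {a r : ℝ} (ha : 0 < a) (hr : 0 < r) :
    IntegrableOn (fun t : ℝ => t ^ (a - 1) * Real.exp (-(r * t))) (Ioi 0) := by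
  have h := integrableOn_rpow_mul_exp_neg_mul_rpow (s := a - 1) (p := 1) (b := r) (by linarith)
    one_pos hr
  refine h.congr_fun (fun t _ => ?_) measurableSet_Ioi
  simp only [Real.rpow_one, neg_mul]

lemma integrable_gam_prod (μ : Measure X) [IsFiniteMeasure μ] {f : X → ℝ} (hf : Measurable f)
    (h0 : ∀ x, 0 ≤ f x) {m ε : ℝ} (hm : 0 < m) (hε : 0 < ε) :
    Integrable (fun p : X × ℝ => p.2 ^ (m - 1) * Real.exp (-((f p.1 + ε) * p.2)))
      (μ.prod (volume.restrict (Ioi 0))) := by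
  have h1 : Integrable (fun p : X × ℝ => (1 : ℝ) * (p.2 ^ (m - 1) * Real.exp (-(ε * p.2))))
      (μ.prod (volume.restrict (Ioi 0))) :=
    (integrable_const (1 : ℝ)).mul_prod (integrableOn_gam hm hε)
  refine h1.mono' ?_ ?_
  · refine Measurable.aestronglyMeasurable ?_
    have hf1 : Measurable fun p : X × ℝ => f p.1 := hf.comp measurable_fst
    fun_prop
  · have hpos : ∀ᵐ p ∂(μ.prod (volume.restrict (Ioi (0 : ℝ)))), 0 < p.2 := by
      have h2 : ∀ᵐ t ∂(volume.restrict (Ioi (0 : ℝ))), 0 < t := by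
        filter_upwards [ae_restrict_mem measurableSet_Ioi] with t ht using ht
      exact (Measure.quasiMeasurePreserving_snd (μ := μ)
        (ν := volume.restrict (Ioi (0 : ℝ)))).ae h2
    filter_upwards [hpos] with p hp
    have h3 : 0 ≤ p.2 ^ (m - 1) := Real.rpow_nonneg hp.le _
    rw [norm_mul, Real.norm_of_nonneg h3, Real.norm_of_nonneg (Real.exp_pos _).le, one_mul]
    refine mul_le_mul_of_nonneg_left (Real.exp_le_exp.2 ?_) h3
    nlinarith [mul_nonneg (h0 p.1) hp.le]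

/-- The mixture formula. -/
theorem mix_eq (μ : Measure X) [IsFiniteMeasure μ] {f : X → ℝ} (hf : Measurable f)
    (h0 : ∀ x, 0 ≤ f x) {m ε : ℝ} (hm : 0 < m) (hε : 0 < ε) :
    Real.Gamma m * ∫ x, (f x + ε) ^ (-m) ∂μ =
      ∫ t in Ioi (0 : ℝ), t ^ (m - 1) * Real.exp (-(ε * t)) * ∫ x, Real.exp (-(t * f x)) ∂μ := by
  have h1 : ∀ x, Real.Gamma m * (f x + ε) ^ (-m) =
      ∫ t in Ioi (0 : ℝ), t ^ (m - 1) * Real.exp (-((f x + ε) * t)) := by
    intro x
    have hx : 0 < f x + ε := by linarith [h0 x]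
    rw [Real.integral_rpow_mul_exp_neg_mul_Ioi hm hx, one_div, Real.inv_rpow hx.le,
      Real.rpow_neg hx.le, mul_comm]
  rw [← integral_const_mul]
  simp_rw [h1]
  rw [integral_integral_swap (integrable_gam_prod μ hf h0 hm hε)]
  refine integral_congr_ae (Eventually.of_forall fun t => ?_)
  simp only
  rw [← integral_const_mul]
  refine integral_congr_ae (Eventually.of_forall fun x => ?_)
  simp only
  rw [mul_assoc, ← Real.exp_add]
  congr 2
  ring

lemma integrableOn_mix (μ : Measure X) [IsFiniteMeasure μ] {f : X → ℝ} (hf : Measurable f)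
    (h0 : ∀ x, 0 ≤ f x) {m ε : ℝ} (hm : 0 < m) (hε : 0 < ε) :
    IntegrableOn (fun t : ℝ => t ^ (m - 1) * Real.exp (-(ε * t)) *
      ∫ x, Real.exp (-(t * f x)) ∂μ) (Ioi 0) := by
  have h := (integrable_gam_prod μ hf h0 hm hε).integral_prod_right
  refine h.congr (Eventually.of_forall fun t => ?_)
  simp only
  rw [← integral_const_mul]
  refine integral_congr_ae (Eventually.of_forall fun x => ?_)
  simp only
  rw [mul_assoc, ← Real.exp_add]
  congr 2
  ring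

lemma sg_pos {m : ℝ} (hm : 0 < m) : 0 < sg m := by
  unfold sg
  have := Real.Gamma_pos_of_pos hm
  have := Real.Gamma_pos_of_pos (half_pos hm)
  positivity

/-- lower bound of the mixture, if the Gaussian densities at scale `t ≥ t₀` are at least `a` -/
theorem mix_lower (μ : Measure X) [IsFiniteMeasure μ] {f : X → ℝ} (hf : Measurable f)
    (h0 : ∀ x, 0 ≤ f x) {m ε t₀ a : ℝ} (hm : 0 < m) (hε : 0 < ε) (ht₀ : 0 < t₀) (ha : 0 ≤ a)
    (h : ∀ t ≥ t₀, a ≤ (t / (2 * Real.pi)) ^ (m / 2) * ∫ x, Real.exp (-(t * f x)) ∂μ) :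
    a * (2 * Real.pi) ^ (m / 2) * (ε ^ (-(m / 2)) * Real.Gamma (m / 2) - t₀ ^ (m / 2) / (m / 2)) ≤
      Real.Gamma m * ∫ x, (f x + ε) ^ (-m) ∂μ := by
  have hm2 : 0 < m / 2 := half_pos hm
  rw [mix_eq μ hf h0 hm hε]
  have hint := integrableOn_mix μ hf h0 hm hε
  have hg := integrableOn_gam hm2 hε
  -- restrict to `t > t₀`
  have h1 : ∫ t in Ioi t₀, t ^ (m - 1) * Real.exp (-(ε * t)) * ∫ x, Real.exp (-(t * f x)) ∂μ ≤
      ∫ t in Ioi (0 : ℝ), t ^ (m - 1) * Real.exp (-(ε * t)) *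
        ∫ x, Real.exp (-(t * f x)) ∂μ := by
    refine setIntegral_mono_set hint ?_ (Ioi_subset_Ioi ht₀.le).eventuallyLE
    filter_upwards [ae_restrict_mem measurableSet_Ioi] with t ht
    have : 0 ≤ ∫ x, Real.exp (-(t * f x)) ∂μ := integral_nonneg fun x => (Real.exp_pos _).le
    have h3 : 0 ≤ t ^ (m - 1) := Real.rpow_nonneg (le_of_lt ht) _
    simp only [Pi.zero_apply]
    positivity
  refine le_trans ?_ h1
  have h2 : ∫ t in Ioi t₀, a * (2 * Real.pi) ^ (m / 2) *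
      (t ^ (m / 2 - 1) * Real.exp (-(ε * t))) ≤
      ∫ t in Ioi t₀, t ^ (m - 1) * Real.exp (-(ε * t)) * ∫ x, Real.exp (-(t * f x)) ∂μ := by
    refine setIntegral_mono_on ((hg.mono_set (Ioi_subset_Ioi ht₀.le)).const_mul _)
      (hint.mono_set (Ioi_subset_Ioi ht₀.le)) measurableSet_Ioi ?_
    intro t ht
    have ht' : 0 < t := ht₀.trans ht
    have h3 := h t (le_of_lt ht)
    rw [Real.div_rpow ht'.le (by positivity), div_mul_eq_mul_div, le_div_iff₀ (by positivity)] at h3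
    have e1 : t ^ (m - 1) = t ^ (m / 2 - 1) * t ^ (m / 2) := by
      rw [← Real.rpow_add ht']
      congr 1
      ring
    rw [e1]
    calc a * (2 * Real.pi) ^ (m / 2) * (t ^ (m / 2 - 1) * Real.exp (-(ε * t)))
        ≤ (t ^ (m / 2) * ∫ x, Real.exp (-(t * f x)) ∂μ) *
          (t ^ (m / 2 - 1) * Real.exp (-(ε * t))) :=
          mul_le_mul_of_nonneg_right h3 (by positivity)
      _ = _ := by ring
  refine le_trans ?_ h2
  rw [integral_const_mul]
  refine mul_le_mul_of_nonneg_left ?_ (by positivity)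
  have h4 : ∫ t in Ioi (0 : ℝ), t ^ (m / 2 - 1) * Real.exp (-(ε * t)) =
      (∫ t in Ioc 0 t₀, t ^ (m / 2 - 1) * Real.exp (-(ε * t))) +
        ∫ t in Ioi t₀, t ^ (m / 2 - 1) * Real.exp (-(ε * t)) := by
    rw [← Ioc_union_Ioi_eq_Ioi ht₀.le]
    refine setIntegral_union (Ioc_disjoint_Ioi le_rfl) measurableSet_Ioi
      (hg.mono_set Ioc_subset_Ioi_self) (hg.mono_set (Ioi_subset_Ioi ht₀.le))
  rw [Real.integral_rpow_mul_exp_neg_mul_Ioi hm2 hε, one_div, Real.inv_rpow hε.le,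
    ← Real.rpow_neg hε.le] at h4
  have h5 : ∫ t in Ioc 0 t₀, t ^ (m / 2 - 1) * Real.exp (-(ε * t)) ≤ t₀ ^ (m / 2) / (m / 2) := by
    have h6 : ∫ t in Ioc 0 t₀, t ^ (m / 2 - 1) = t₀ ^ (m / 2) / (m / 2) := by
      rw [← intervalIntegral.integral_of_le ht₀.le, integral_rpow (Or.inl (by linarith)),
        Real.zero_rpow (by linarith)]
      simp
    rw [← h6]
    have h7 : IntegrableOn (fun t : ℝ => t ^ (m / 2 - 1)) (Ioc 0 t₀) := by
      rw [← intervalIntegrable_iff_integrableOn_Ioc_of_le ht₀.le]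
      exact intervalIntegral.intervalIntegrable_rpow' (by linarith)
    refine setIntegral_mono_on (hg.mono_set Ioc_subset_Ioi_self) h7 measurableSet_Ioc ?_
    intro t ht
    have h8 : 0 ≤ t ^ (m / 2 - 1) := Real.rpow_nonneg ht.1.le _
    have h9 : Real.exp (-(ε * t)) ≤ 1 := Real.exp_le_one_iff.2 (by nlinarith [ht.1])
    nlinarith
  linarith

/-- **Gaussian density at least one implies bubble density at least `σ_m`.** -/
theorem dens_of_gauss (μ : Measure X) [IsFiniteMeasure μ] {f : X → ℝ} (hf : Measurable f)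
    (h0 : ∀ x, 0 ≤ f x) {m : ℝ} (k2 : ℝ) (hm : 0 < m)
    (h : ∀ e > 0, ∃ t₀ > 0, ∀ t ≥ t₀,
      1 - e ≤ (t / (2 * Real.pi)) ^ (m / 2) * ∫ x, Real.exp (-(t * f x)) ∂μ) :
    ∀ e > 0, ∃ ε₀ > 0, ∀ ε, 0 < ε → ε < ε₀ →
      sg m - e ≤ ∫ x, (√(ε * (2 - k2 * ε)) / (f x + ε)) ^ m ∂μ := by
  intro e he
  have hm2 : 0 < m / 2 := half_pos hm
  have hG : 0 < Real.Gamma m := Real.Gamma_pos_of_pos hm
  have hG2 : 0 < Real.Gamma (m / 2) := Real.Gamma_pos_of_pos hm2
  have hs := sg_pos hm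
  set e' : ℝ := min (e / (2 * sg m)) 1 with he'
  have he'0 : 0 < e' := by positivity
  have he'1 : e' ≤ 1 := min_le_right _ _
  have he'2 : e' * sg m ≤ e / 2 := by
    calc e' * sg m ≤ e / (2 * sg m) * sg m :=
          mul_le_mul_of_nonneg_right (min_le_left _ _) hs.le
      _ = e / 2 := by field_simp
  obtain ⟨t₀, ht₀, ht⟩ := h e' he'0
  -- the limit function
  let g : ℝ → ℝ := fun ε => (2 - k2 * ε) ^ (m / 2) * ((1 - e') * (2 * Real.pi) ^ (m / 2) *
    (Real.Gamma (m / 2) - ε ^ (m / 2) * (t₀ ^ (m / 2) / (m / 2)))) / Real.Gamma m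
  have hgc : ContinuousAt g 0 := by
    refine ContinuousAt.div_const (ContinuousAt.mul ?_ ?_) _
    · refine ContinuousAt.rpow_const (by fun_prop) (Or.inl (by norm_num))
    · refine continuousAt_const.mul (continuousAt_const.sub (ContinuousAt.mul ?_ continuousAt_const))
      exact Real.continuousAt_rpow_const _ _ (Or.inr hm2.le)
  have hg0 : g 0 = (1 - e') * sg m := by
    simp only [g, mul_zero, sub_zero, Real.zero_rpow hm2.ne', zero_mul]
    unfold sg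
    rw [Real.mul_rpow (by norm_num) Real.pi_pos.le]
    have : (2 : ℝ) ^ m = 2 ^ (m / 2) * 2 ^ (m / 2) := by
      rw [← Real.rpow_add (by norm_num)]
      congr 1
      ring
    rw [this]
    ring
  have hev1 : ∀ᶠ ε in 𝓝 (0 : ℝ), sg m - e < g ε := by
    refine hgc.eventually_const_lt ?_
    rw [hg0]
    nlinarith
  have hev2 : ∀ᶠ ε in 𝓝 (0 : ℝ), 0 < 2 - k2 * ε := by
    have : ContinuousAt (fun ε : ℝ => 2 - k2 * ε) 0 := by fun_prop
    refine this.eventually_const_lt ?_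
    norm_num
  obtain ⟨ε₀, hε₀, hb⟩ := Metric.eventually_nhds_iff.1 (hev1.and hev2)
  refine ⟨ε₀, hε₀, fun ε hε hεε => ?_⟩
  obtain ⟨hb1, hb2⟩ := hb (y := ε) (by rw [Real.dist_eq, sub_zero, abs_of_pos hε]; exact hεε)
  refine hb1.le.trans ?_
  have hlow := mix_lower μ hf h0 hm hε ht₀ (by linarith) ht
  have e1 : ∫ x, (√(ε * (2 - k2 * ε)) / (f x + ε)) ^ m ∂μ =
      (ε * (2 - k2 * ε)) ^ (m / 2) * ∫ x, (f x + ε) ^ (-m) ∂μ := by
    rw [← integral_const_mul]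
    refine integral_congr_ae (Eventually.of_forall fun x => ?_)
    have hx : 0 < f x + ε := by linarith [h0 x]
    simp only
    rw [Real.div_rpow (Real.sqrt_nonneg _) hx.le, Real.sqrt_eq_rpow, ← Real.rpow_mul (by positivity),
      Real.rpow_neg hx.le, div_eq_mul_inv]
    congr 2
    ring
  rw [e1]
  have hC : 0 ≤ (ε * (2 - k2 * ε)) ^ (m / 2) := Real.rpow_nonneg (by positivity) _
  have h3 := mul_le_mul_of_nonneg_left hlow hC
  have h4 : g ε * Real.Gamma m = (ε * (2 - k2 * ε)) ^ (m / 2) * ((1 - e') *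
      (2 * Real.pi) ^ (m / 2) *
      (ε ^ (-(m / 2)) * Real.Gamma (m / 2) - t₀ ^ (m / 2) / (m / 2))) := by
    simp only [g]
    rw [div_mul_cancel₀ _ hG.ne', Real.mul_rpow hε.le hb2.le, Real.rpow_neg hε.le]
    have : ε ^ (m / 2) ≠ 0 := (Real.rpow_pos_of_pos hε _).ne'
    field_simp
  rw [← h4] at h3
  have h5 : g ε * Real.Gamma m ≤ (ε * (2 - k2 * ε)) ^ (m / 2) *
      (∫ x, (f x + ε) ^ (-m) ∂μ) * Real.Gamma m := by
    exact h3.trans (le_of_eq (by ring))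
  exact le_of_mul_le_mul_right h5 hG

end

variable {n : ℕ}

/-- The form of the field `dens` of `Lim`. -/
theorem dens_field (V : Measure (E n × E n)) [IsFiniteMeasure V] {F : E n → E n → ℝ}
    (hF : ∀ p, Measurable (F p)) (h0 : ∀ p x, 0 ≤ F p x) {m : ℝ} (k2 : ℝ) (hm : 0 < m) (p : E n)
    (h : ∀ e > 0, ∃ t₀ > 0, ∀ t ≥ t₀,
      1 - e ≤ (t / (2 * Real.pi)) ^ (m / 2) * ∫ z, Real.exp (-(t * F p z.1)) ∂V) :
    ∀ e > 0, ∃ ε₀ > 0, ∀ ε, 0 < ε → ε < ε₀ → sg m - e ≤ ∫ z, bub k2 (F p) ε z.1 ^ m ∂V :=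
  dens_of_gauss V ((hF p).comp measurable_fst) (fun z => h0 p z.1) k2 hm h

/-- `sg (n - 1)` is the area of the unit sphere of `ℝⁿ`. -/
theorem sg_sub_one (hn : 2 ≤ n) :
    sg ((n : ℝ) - 1) = 2 * Real.pi ^ ((n : ℝ) / 2) / Real.Gamma (n / 2) := by
  have hn' : (2 : ℝ) ≤ n := by exact_mod_cast hn
  unfold sg
  have hd := Real.Gamma_mul_Gamma_add_half (((n : ℝ) - 1) / 2)
  have h1 : ((n : ℝ) - 1) / 2 + 1 / 2 = n / 2 := by ring
  have h2 : 2 * (((n : ℝ) - 1) / 2) = n - 1 := by ring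
  rw [h1, h2] at hd
  have hG1 : 0 < Real.Gamma ((n : ℝ) - 1) := Real.Gamma_pos_of_pos (by linarith)
  have hG2 : 0 < Real.Gamma ((n : ℝ) / 2) := Real.Gamma_pos_of_pos (by positivity)
  rw [div_eq_div_iff hG1.ne' hG2.ne', mul_assoc, hd]
  have e1 : (2 : ℝ) ^ ((n : ℝ) - 1) * 2 ^ (1 - ((n : ℝ) - 1)) = 2 := by
    rw [← Real.rpow_add (by norm_num)]
    norm_num
  have e2 : Real.pi ^ (((n : ℝ) - 1) / 2) * √Real.pi = Real.pi ^ ((n : ℝ) / 2) := by
    rw [Real.sqrt_eq_rpow, ← Real.rpow_add Real.pi_pos, h1]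
  calc 2 ^ ((n : ℝ) - 1) * Real.pi ^ (((n : ℝ) - 1) / 2) *
        (Real.Gamma ((n : ℝ) - 1) * 2 ^ (1 - ((n : ℝ) - 1)) * √Real.pi)
      = (2 ^ ((n : ℝ) - 1) * 2 ^ (1 - ((n : ℝ) - 1))) *
        (Real.pi ^ (((n : ℝ) - 1) / 2) * √Real.pi) * Real.Gamma ((n : ℝ) - 1) := by ring
    _ = _ := by rw [e1, e2]

end Vale.Agent.P219.End
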