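import Vale.Agent.P219.End.Basic

/-!
# P219 / End : the exact identity for the energy and its consequences

`E(u) - ∫ u² w² = 4/(m(m-2)) ∫ w^{m-2} |∇_S g|² + ∫ u² (H₀/m - n_c/(F_c+ε))² + (2/m) Dl_c[u²/(F_c+ε)]`
for `u = g w^{(m-2)/2}`.
-/

open MeasureTheory Set Metric
open scoped ContDiff

namespace Vale.Agent.P219.End

variable {n : ℕ}

/-- the pointwise algebra of the exact identity; `gaa`, `gaf` and `ff - nc ^ 2` are the products of
the tangential parts of the gradients of `u` and `F`. -/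
theorem ident_alg {m u F ε k2 H gaa gaf nc ff : ℝ} (hm : 2 < m) (hG : 0 < F + ε)
    (hf : ff = 2 * F + k2 * F ^ 2) :
    (4 / (m * (m - 2))) * (gaa + 2 * ((m - 2) / 2 * (u / (F + ε))) * gaf +
        ((m - 2) / 2 * (u / (F + ε))) ^ 2 * (ff - nc ^ 2)) +
      u ^ 2 * (H / m - nc / (F + ε)) ^ 2 +
      (2 / m) * (H * (u ^ 2 / (F + ε)) * nc - m * (1 + k2 * F) * (u ^ 2 / (F + ε)) -
        ((2 * u / (F + ε)) * gaf - (u ^ 2 / (F + ε) ^ 2) * (ff - nc ^ 2))) =
    (4 / (m * (m - 2))) * gaa + (H ^ 2 / m ^ 2 - k2) * u ^ 2 -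
      u ^ 2 * (ε * (2 - k2 * ε) / (F + ε) ^ 2) := by
  have h1 : m ≠ 0 := by linarith
  have h2 : m - 2 ≠ 0 := by linarith
  have h3 : F + ε ≠ 0 := hG.ne'
  rw [hf]
  field_simp
  ring

namespace Lim

variable (L : Lim n)

/-- `γ = (m - 2) / 2` -/
noncomputable def gm : ℝ := (L.m - 2) / 2

theorem gm_pos : 0 < L.gm := by
  unfold gm
  linarith [L.m_sub_pos]

section bubble

variable {c : E n} {ε : ℝ} (hε : 0 < ε) (hk : L.k2 * ε < 2)

include hε in
theorem Fe_pos (x : E n) : 0 < L.F c x + ε := by linarith [L.F_nonneg c x]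

include hε hk in
theorem sqrt_pos' : 0 < √(ε * (2 - L.k2 * ε)) := Real.sqrt_pos.2 (mul_pos hε (by linarith))

include hε hk in
theorem w_pos (x : E n) : 0 < L.w c ε x := div_pos (L.sqrt_pos' hε hk) (L.Fe_pos hε x)

include hε hk in
theorem w_sq (x : E n) : L.w c ε x ^ 2 = ε * (2 - L.k2 * ε) / (L.F c x + ε) ^ 2 := by
  unfold w bub
  rw [div_pow, Real.sq_sqrt (mul_pos hε (by linarith)).le]

include hε in
theorem w_smooth : ContDiff ℝ ∞ (L.w c ε) := by
  unfold w bub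
  exact contDiff_const.div ((L.Fc_smooth c).add contDiff_const) fun x => (L.Fe_pos hε x).ne'

include hε hk in
theorem w_rpow_smooth (r : ℝ) : ContDiff ℝ ∞ fun x => L.w c ε x ^ r :=
  (L.w_smooth hε).rpow_const_of_ne fun x => (L.w_pos hε hk x).ne'

/-- the quotient `g = u / w^γ` -/
noncomputable def gq (c : E n) (ε : ℝ) (u : E n → ℝ) (x : E n) : ℝ := u x / L.w c ε x ^ L.gm

include hε hk in
theorem gq_smooth {u : E n → ℝ} {k : WithTop ℕ∞} (hu : ContDiff ℝ k u) (hk' : k ≤ ∞) :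
    ContDiff ℝ k (L.gq c ε u) :=
  hu.div ((L.w_rpow_smooth hε hk L.gm).of_le hk')
    fun x => (Real.rpow_pos_of_pos (L.w_pos hε hk x) _).ne'

include hε hk in
theorem gq_mul (u : E n → ℝ) (x : E n) : L.gq c ε u x * L.w c ε x ^ L.gm = u x :=
  div_mul_cancel₀ _ (Real.rpow_pos_of_pos (L.w_pos hε hk x) _).ne'

include hε hk in
/-- `∇ w^{-γ} = γ w^{-γ} ∇F / (F + ε)` -/
theorem D_w_rpow (r : ℝ) (x : E n) : D L.A (fun y => L.w c ε y ^ r) x =
    (-r * (L.w c ε x ^ r / (L.F c x + ε))) • D L.A (L.F c) x := by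
  have hF := (L.Fc_smooth1 c).differentiable (by norm_num) x
  have hp := L.Fe_pos (c := c) hε x
  have hs := L.sqrt_pos' hε hk
  have hw := L.w_pos (c := c) hε hk x
  have h1 : HasDerivAt (fun f : ℝ => (√(ε * (2 - L.k2 * ε)) / (f + ε)) ^ r)
      (-r * (L.w c ε x ^ r / (L.F c x + ε))) (L.F c x) := by
    have h2 : HasDerivAt (fun f : ℝ => √(ε * (2 - L.k2 * ε)) / (f + ε))
        (-(√(ε * (2 - L.k2 * ε)) / (L.F c x + ε) ^ 2)) (L.F c x) := by
      have h3 := ((hasDerivAt_id (L.F c x)).add_const ε).inv hp.ne'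
      have h4 := h3.const_mul (√(ε * (2 - L.k2 * ε)))
      refine (h4.congr_deriv ?_).congr_of_eventuallyEq ?_
      · simp only [id]
        ring
      · exact Filter.Eventually.of_forall fun f => by simp [div_eq_mul_inv]
    have h5 := h2.rpow_const (p := r) (Or.inl hw.ne')
    refine h5.congr_deriv ?_
    have h6 : √(ε * (2 - L.k2 * ε)) / (L.F c x + ε) = L.w c ε x := rfl
    have h7 : √(ε * (2 - L.k2 * ε)) / (L.F c x + ε) ^ 2 = L.w c ε x / (L.F c x + ε) := by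
      rw [← h6, div_div, sq]
    rw [h6, h7, Real.rpow_sub_one hw.ne']
    field_simp
  exact D_comp (A := L.A) (u := L.F c) (f := fun f : ℝ => (√(ε * (2 - L.k2 * ε)) / (f + ε)) ^ r)
    h1 hF

include hε hk in
/-- the gradient of the quotient -/
theorem D_gq {u : E n → ℝ} (hu : ContDiff ℝ 1 u) (x : E n) : D L.A (L.gq c ε u) x =
    (L.w c ε x ^ (-L.gm)) • (D L.A u x + (L.gm * (u x / (L.F c x + ε))) • D L.A (L.F c) x) := by
  have hw := L.w_pos (c := c) hε hk
  have e : L.gq c ε u = fun y => u y * L.w c ε y ^ (-L.gm) := by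
    funext y
    unfold gq
    rw [Real.rpow_neg (hw y).le, div_eq_mul_inv]
  have hd : DifferentiableAt ℝ (fun y => L.w c ε y ^ (-L.gm)) x :=
    ((L.w_rpow_smooth hε hk (-L.gm)).differentiable (by norm_num)) x
  rw [e, D_mul (hu.differentiable (by norm_num) x) hd, L.D_w_rpow hε hk, smul_add, smul_smul,
    smul_smul, add_comm]
  congr 2
  ring

include hε hk in
/-- first defect, pointwise -/
theorem G_gq {u : E n → ℝ} (hu : ContDiff ℝ 1 u) (z : E n × E n) :
    L.w c ε z.1 ^ (L.m - 2) * L.G (L.gq c ε u) (L.gq c ε u) z =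
      L.G u u z + 2 * ((L.m - 2) / 2 * (u z.1 / (L.F c z.1 + ε))) * L.G u (L.F c) z +
        ((L.m - 2) / 2 * (u z.1 / (L.F c z.1 + ε))) ^ 2 *
          (‖D L.A (L.F c) z.1‖ ^ 2 - L.nc c z ^ 2) := by
  have hw := L.w_pos (c := c) hε hk z.1
  have e1 : L.G (L.gq c ε u) (L.gq c ε u) z =
      gv (D L.A (L.gq c ε u) z.1) (D L.A (L.gq c ε u) z.1) z.2 := rfl
  have e2 : gv (D L.A (L.F c) z.1) (D L.A (L.F c) z.1) z.2 =
      ‖D L.A (L.F c) z.1‖ ^ 2 - L.nc c z ^ 2 := gv_self _ _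
  have e3 : L.G u (L.F c) z = gv (D L.A u z.1) (D L.A (L.F c) z.1) z.2 := rfl
  have e4 : L.G u u z = gv (D L.A u z.1) (D L.A u z.1) z.2 := rfl
  have e5 : L.w c ε z.1 ^ (L.m - 2) * (L.w c ε z.1 ^ (-L.gm) * L.w c ε z.1 ^ (-L.gm)) = 1 := by
    rw [← Real.rpow_add hw, ← Real.rpow_add hw]
    have : L.m - 2 + (-L.gm + -L.gm) = 0 := by
      unfold gm
      ring
    rw [this, Real.rpow_zero]
  rw [e1, L.D_gq hε hk hu, gv_smul_left, gv_smul_right, gv_add_left, gv_add_right, gv_add_right,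
    gv_smul_left, gv_smul_left, gv_smul_right, gv_smul_right, e2, ← e4, ← e3,
    gv_comm (D L.A (L.F c) z.1) (D L.A u z.1), ← e3]
  have e6 : ∀ X : ℝ, L.w c ε z.1 ^ (L.m - 2) * (L.w c ε z.1 ^ (-L.gm) *
      (L.w c ε z.1 ^ (-L.gm) * X)) = X := by
    intro X
    calc _ = (L.w c ε z.1 ^ (L.m - 2) * (L.w c ε z.1 ^ (-L.gm) * L.w c ε z.1 ^ (-L.gm))) * X := by
          ring
      _ = X := by rw [e5, one_mul]
  rw [e6]
  unfold gm
  ring

/-- the test function `u² / (F_c + ε)` -/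
noncomputable def tf (c : E n) (ε : ℝ) (u : E n → ℝ) (x : E n) : ℝ := u x ^ 2 / (L.F c x + ε)

include hε in
theorem tf_smooth {u : E n → ℝ} {k : WithTop ℕ∞} (hu : ContDiff ℝ k u) (hk' : k ≤ ∞) :
    ContDiff ℝ k (L.tf c ε u) :=
  (hu.pow 2).div (((L.Fc_smooth c).of_le hk').add contDiff_const) fun x => (L.Fe_pos hε x).ne'

include hε in
theorem tf_nonneg (u : E n → ℝ) (x : E n) : 0 ≤ L.tf c ε u x :=
  div_nonneg (sq_nonneg _) (L.Fe_pos hε x).le

include hε in
theorem G_tf {u : E n → ℝ} (hu : ContDiff ℝ 1 u) (z : E n × E n) :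
    L.G (L.tf c ε u) (L.F c) z = (2 * u z.1 / (L.F c z.1 + ε)) * L.G u (L.F c) z -
      (u z.1 ^ 2 / (L.F c z.1 + ε) ^ 2) * (‖D L.A (L.F c) z.1‖ ^ 2 - L.nc c z ^ 2) := by
  have hp := L.Fe_pos (c := c) hε z.1
  have hud := hu.differentiable (by norm_num) z.1
  have hF := (L.Fc_smooth1 c).differentiable (by norm_num) z.1
  have e2 : gv (D L.A (L.F c) z.1) (D L.A (L.F c) z.1) z.2 =
      ‖D L.A (L.F c) z.1‖ ^ 2 - L.nc c z ^ 2 := gv_self _ _
  have e : L.tf c ε u = fun y => u y ^ 2 * (L.F c y + ε)⁻¹ := by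
    funext y
    exact div_eq_mul_inv _ _
  have h1 : D L.A (fun y => u y ^ 2) z.1 = (2 * u z.1) • D L.A u z.1 := by
    have h := (hasDerivAt_pow 2 (u z.1))
    refine D_comp (A := L.A) (u := u) (f := fun t : ℝ => t ^ 2) (h.congr_deriv ?_) hud
    simp
  have h2 : D L.A (fun y => (L.F c y + ε)⁻¹) z.1 =
      (-((L.F c z.1 + ε) ^ 2)⁻¹) • D L.A (L.F c) z.1 := by
    have h := ((hasDerivAt_id (L.F c z.1)).add_const ε).inv hp.ne'
    refine D_comp (A := L.A) (u := L.F c) (f := fun t : ℝ => (t + ε)⁻¹) ?_ hF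
    refine (h.congr_deriv ?_).congr_of_eventuallyEq ?_
    · simp only [id]
      rw [neg_div, one_div]
    · exact Filter.Eventually.of_forall fun f => by simp
  have h3 : DifferentiableAt ℝ (fun y => (L.F c y + ε)⁻¹) z.1 :=
    (hF.add_const ε).inv hp.ne'
  have e3 : L.G (L.tf c ε u) (L.F c) z =
      gv (D L.A (L.tf c ε u) z.1) (D L.A (L.F c) z.1) z.2 := rfl
  have e4 : L.G u (L.F c) z = gv (D L.A u z.1) (D L.A (L.F c) z.1) z.2 := rfl
  rw [e3, e, D_mul (u := fun y => u y ^ 2) (hud.pow 2) h3, h1, h2, gv_add_left, gv_smul_left, gv_smul_left, gv_smul_left,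
    gv_smul_left, e2, e4]
  field_simp
  ring

end bubble

/-- THE EXACT IDENTITY -/
theorem ident {c : E n} {ε : ℝ} (hε : 0 < ε) (hk : L.k2 * ε < 2) {u : E n → ℝ}
    (hu : ContDiff ℝ 1 u) : L.Def c ε u =
      4 / (L.m * (L.m - 2)) *
          ∫ z, L.w c ε z.1 ^ (L.m - 2) * L.G (L.gq c ε u) (L.gq c ε u) z ∂L.V +
        ∫ z, u z.1 ^ 2 * (L.H0 / L.m - L.nc c z / (L.F c z.1 + ε)) ^ 2 ∂L.V +
        2 / L.m * L.Dl c (L.tf c ε u) := by
  have hp : ∀ z : E n × E n, L.F c z.1 + ε ≠ 0 := fun z => (L.Fe_pos hε z.1).ne'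
  have cu : Continuous fun z : E n × E n => u z.1 := hu.continuous.comp continuous_fst
  have cF : Continuous fun z : E n × E n => L.F c z.1 := (L.Fc_cont c).comp continuous_fst
  have cn := L.nc_cont c
  have cw : Continuous fun z : E n × E n => L.w c ε z.1 :=
    (L.w_smooth hε).continuous.comp continuous_fst
  have cwr : Continuous fun z : E n × E n => L.w c ε z.1 ^ (L.m - 2) :=
    (L.w_rpow_smooth hε hk (L.m - 2)).continuous.comp continuous_fst
  have h1i : (1 : WithTop ℕ∞) ≤ ∞ := by exact_mod_cast le_top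
  have cg : Continuous (L.G (L.gq c ε u) (L.gq c ε u)) :=
    L.G_cont (L.gq_smooth hε hk hu h1i) (L.gq_smooth hε hk hu h1i)
  have cG := L.G_cont hu hu
  have i1 : Integrable (fun z : E n × E n => L.w c ε z.1 ^ (L.m - 2) *
      L.G (L.gq c ε u) (L.gq c ε u) z) L.V := L.integrable_of_cont (cwr.mul cg)
  have i2 : Integrable (fun z : E n × E n => u z.1 ^ 2 *
      (L.H0 / L.m - L.nc c z / (L.F c z.1 + ε)) ^ 2) L.V :=
    L.integrable_of_cont ((cu.pow 2).mul ((continuous_const.sub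
      (cn.div (cF.add continuous_const) hp)).pow 2))
  have i3 := L.dl_integrable c (L.tf_smooth (c := c) hε hu h1i)
  have i4 := L.integrable_of_cont cG
  have i5 : Integrable (fun z : E n × E n => u z.1 ^ 2) L.V := L.integrable_of_cont (cu.pow 2)
  have i6 : Integrable (fun z : E n × E n => u z.1 ^ 2 * L.w c ε z.1 ^ 2) L.V :=
    L.integrable_of_cont ((cu.pow 2).mul (cw.pow 2))
  have i12 : Integrable (fun z : E n × E n => 4 / (L.m * (L.m - 2)) *
      (L.w c ε z.1 ^ (L.m - 2) * L.G (L.gq c ε u) (L.gq c ε u) z) + u z.1 ^ 2 *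
      (L.H0 / L.m - L.nc c z / (L.F c z.1 + ε)) ^ 2) L.V := (i1.const_mul _).add i2
  have i45 : Integrable (fun z : E n × E n => 4 / (L.m * (L.m - 2)) * L.G u u z +
      (L.H0 ^ 2 / L.m ^ 2 - L.k2) * u z.1 ^ 2) L.V := (i4.const_mul _).add (i5.const_mul _)
  unfold Def En
  rw [Dl_eq, ← integral_const_mul, ← integral_const_mul, ← integral_const_mul,
    ← integral_const_mul, ← integral_add (i1.const_mul _) i2,
    ← integral_add i12 (i3.const_mul _), ← integral_add (i4.const_mul _) (i5.const_mul _),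
    ← integral_sub i45 i6]
  refine integral_congr_ae (Filter.Eventually.of_forall fun z => ?_)
  have h1 := ident_alg (m := L.m) (u := u z.1) (F := L.F c z.1) (ε := ε) (k2 := L.k2) (H := L.H0)
    (gaa := L.G u u z) (gaf := L.G u (L.F c) z) (nc := L.nc c z)
    (ff := ‖D L.A (L.F c) z.1‖ ^ 2) (by linarith [L.three_le]) (L.Fe_pos hε z.1) (L.grad c z.1)
  have h2 := L.G_gq (c := c) hε hk hu z
  have h3 := L.G_tf (c := c) hε hu z
  simp only [dl]
  rw [h2, h3, L.w_sq hε hk]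
  have h4 : L.tf c ε u z.1 = u z.1 ^ 2 / (L.F c z.1 + ε) := rfl
  rw [h4, ← h1]

end Lim

end Vale.Agent.P219.End
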