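import Vale.Agent.P219.End.Alg

/-!
# P219: the kernel of the integrated bubble monotonicity
-/

namespace Vale.Agent.P219.End.Alg

open Real MeasureTheory Set

/-- `∫₀^{e1} ε^{m/2-1} (f+ε)^{-m} dε`, integrability -/
theorem kern0_integrableOn {m f e1 : ℝ} (hm : 0 < m) (hf : 0 < f) :
    IntegrableOn (fun ε : ℝ => ε ^ (m / 2 - 1) * (f + ε) ^ (-m)) (Ioc 0 e1) := by
  rcases le_or_gt e1 0 with h | h
  · rw [Ioc_eq_empty (not_lt.mpr h)]; exact integrableOn_empty
  have h1 : IntegrableOn (fun ε : ℝ => ε ^ (m / 2 - 1) * f ^ (-m)) (Ioc 0 e1) := by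
    have := (intervalIntegral.intervalIntegrable_rpow' (a := 0) (b := e1)
      (r := m / 2 - 1) (by linarith)).1
    exact this.mul_const _
  refine Integrable.mono' h1 ?_ ?_
  · apply ContinuousOn.aestronglyMeasurable _ measurableSet_Ioc
    apply ContinuousOn.mul
    · exact fun x hx => (Real.continuousAt_rpow_const x _ (Or.inl hx.1.ne')).continuousWithinAt
    · intro x hx
      have : 0 < f + x := by have := hx.1; positivity
      have h2 : ContinuousAt (fun ε : ℝ => f + ε) x := by fun_prop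
      exact (h2.rpow_const (Or.inl this.ne')).continuousWithinAt
  · refine (ae_restrict_mem measurableSet_Ioc).mono fun x hx => ?_
    have hx0 := hx.1
    have hp : 0 < f + x := by positivity
    rw [Real.norm_eq_abs, abs_of_nonneg (by positivity)]
    have : (f + x) ^ (-m) ≤ f ^ (-m) :=
      Real.rpow_le_rpow_of_nonpos hf (by linarith) (by linarith)
    gcongr

/-- first bound, good for `f` large -/
theorem kern0_le_far {m f e1 : ℝ} (hm : 0 < m) (hf : 0 < f) (he : 0 ≤ e1) :
    ∫ ε in Ioc 0 e1, ε ^ (m / 2 - 1) * (f + ε) ^ (-m) ≤ 2 / m * e1 ^ (m / 2) * f ^ (-m) := by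
  have h1 : IntegrableOn (fun ε : ℝ => ε ^ (m / 2 - 1) * f ^ (-m)) (Ioc 0 e1) := by
    have := (intervalIntegral.intervalIntegrable_rpow' (a := 0) (b := e1)
      (r := m / 2 - 1) (by linarith)).1
    exact this.mul_const _
  have h2 : ∫ ε in Ioc 0 e1, ε ^ (m / 2 - 1) * f ^ (-m) = 2 / m * e1 ^ (m / 2) * f ^ (-m) := by
    rw [← intervalIntegral.integral_of_le he, intervalIntegral.integral_mul_const,
      integral_rpow (Or.inl (by linarith))]
    rw [show m / 2 - 1 + 1 = m / 2 by ring, Real.zero_rpow (by positivity)]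
    field_simp
    ring
  rw [← h2]
  refine setIntegral_mono_on (kern0_integrableOn hm hf) h1 measurableSet_Ioc fun x hx => ?_
  have hx0 := hx.1
  have : (f + x) ^ (-m) ≤ f ^ (-m) :=
    Real.rpow_le_rpow_of_nonpos hf (by linarith) (by linarith)
  gcongr

/-- second bound, good for `f` small -/
theorem kern0_le_near {m f e1 : ℝ} (hm : 0 < m) (hf : 0 < f) :
    ∫ ε in Ioc 0 e1, ε ^ (m / 2 - 1) * (f + ε) ^ (-m) ≤ 4 / m * f ^ (-(m / 2)) := by
  rcases le_or_gt e1 f with h | h
  · rcases le_or_gt e1 0 with h0 | h0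
    · rw [Ioc_eq_empty (not_lt.mpr h0)]
      simp only [Measure.restrict_empty, integral_zero_measure]
      positivity
    · refine (kern0_le_far hm hf h0.le).trans ?_
      have h3 : e1 ^ (m / 2) ≤ f ^ (m / 2) := Real.rpow_le_rpow h0.le h (by positivity)
      have h4 : f ^ (m / 2) * f ^ (-m) = f ^ (-(m / 2)) := by
        rw [← Real.rpow_add hf]; ring_nf
      calc 2 / m * e1 ^ (m / 2) * f ^ (-m) ≤ 2 / m * f ^ (m / 2) * f ^ (-m) := by gcongr
        _ = 2 / m * f ^ (-(m / 2)) := by rw [mul_assoc, h4]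
        _ ≤ 4 / m * f ^ (-(m / 2)) := by gcongr; norm_num
  · have hsplit : Ioc 0 e1 = Ioc 0 f ∪ Ioc f e1 := (Ioc_union_Ioc_eq_Ioc hf.le h.le).symm
    have hI : IntegrableOn (fun ε : ℝ => ε ^ (-(m / 2) - 1)) (Ioc f e1) := by
      have := (integrableOn_Ioi_rpow_of_lt (a := -(m / 2) - 1) (by linarith) hf)
      exact this.mono_set Ioc_subset_Ioi_self
    have h1 : ∫ ε in Ioc f e1, ε ^ (m / 2 - 1) * (f + ε) ^ (-m) ≤ 2 / m * f ^ (-(m / 2)) := by
      calc ∫ ε in Ioc f e1, ε ^ (m / 2 - 1) * (f + ε) ^ (-m)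
          ≤ ∫ ε in Ioc f e1, ε ^ (-(m / 2) - 1) := by
            refine setIntegral_mono_on ((kern0_integrableOn (e1 := e1) hm hf).mono_set
              (Ioc_subset_Ioc_left hf.le)) hI measurableSet_Ioc fun x hx => ?_
            have hx0 : 0 < x := hf.trans hx.1
            have h5 : (f + x) ^ (-m) ≤ x ^ (-m) :=
              Real.rpow_le_rpow_of_nonpos hx0 (by linarith) (by linarith)
            calc x ^ (m / 2 - 1) * (f + x) ^ (-m) ≤ x ^ (m / 2 - 1) * x ^ (-m) := by gcongr
              _ = x ^ (-(m / 2) - 1) := by rw [← Real.rpow_add hx0]; ring_nf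
        _ ≤ ∫ ε in Ioi f, ε ^ (-(m / 2) - 1) := by
            refine setIntegral_mono_set
              (integrableOn_Ioi_rpow_of_lt (a := -(m / 2) - 1) (by linarith) hf) ?_
              (Filter.Eventually.of_forall fun x hx => hx.1)
            refine (ae_restrict_mem measurableSet_Ioi).mono fun x hx => ?_
            have hx0 : 0 < x := hf.trans hx
            simp only [Pi.zero_apply]
            positivity
        _ = 2 / m * f ^ (-(m / 2)) := by
            rw [integral_Ioi_rpow_of_lt (by linarith) hf]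
            rw [show -(m / 2) - 1 + 1 = -(m / 2) by ring]
            field_simp
    have h2 : ∫ ε in Ioc 0 f, ε ^ (m / 2 - 1) * (f + ε) ^ (-m) ≤ 2 / m * f ^ (-(m / 2)) := by
      refine (kern0_le_far hm hf hf.le).trans (le_of_eq ?_)
      rw [mul_assoc, ← Real.rpow_add hf]; ring_nf
    rw [hsplit, setIntegral_union (Ioc_disjoint_Ioc_of_le le_rfl) measurableSet_Ioc
      (kern0_integrableOn hm hf) ((kern0_integrableOn (e1 := e1) hm hf).mono_set
              (Ioc_subset_Ioc_left hf.le))]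
    calc _ ≤ 2 / m * f ^ (-(m / 2)) + 2 / m * f ^ (-(m / 2)) := add_le_add h2 h1
      _ = _ := by ring

end Vale.Agent.P219.End.Alg
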