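import Vale.Agent.P219.End.Bub

/-!
# P219 / End : lower limit of `J_Φ(p, s)` as `s → 0`
-/

open MeasureTheory Set Metric Filter
open scoped ENNReal ContDiff Topology

namespace Vale.Agent.P219.End

variable {n : ℕ}

theorem potL_sg_pos {m : ℝ} (hm : 0 < m) : 0 < sg m := by
  unfold sg
  have h1 := Real.Gamma_pos_of_pos (show 0 < m / 2 by positivity)
  have h2 := Real.Gamma_pos_of_pos hm
  have h3 := Real.pi_pos
  positivity

namespace Lim

variable (L : Lim n)

theorem potL_ws_nonneg {s : ℝ} (c x : E n) : 0 ≤ L.ws c s x := by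
  unfold ws w bub
  exact div_nonneg (Real.sqrt_nonneg _) (by have := L.F_nonneg c x; positivity)

/-- `w ≤ s / F` -/
theorem potL_ws_le {s f : ℝ} (hs : 0 < s) (hf : 0 < f) (c x : E n) (hx : f ≤ L.F c x) :
    L.ws c s x ≤ s / f := by
  unfold ws w bub
  have h1 : √(s ^ 2 / 2 * (2 - L.k2 * (s ^ 2 / 2))) ≤ s := by
    refine Real.sqrt_le_iff.2 ⟨hs.le, ?_⟩
    have : 0 ≤ L.k2 * (s ^ 2 / 2) := mul_nonneg L.k2_nonneg (by positivity)
    nlinarith [sq_nonneg s]
  have h2 : f ≤ L.F c x + s ^ 2 / 2 := by nlinarith [sq_nonneg s]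
  exact div_le_div₀ hs.le h1 hf h2

theorem potL_ws_cont {s : ℝ} (hs : 0 < s) (c : E n) : Continuous (L.ws c s) := by
  unfold ws w bub
  refine continuous_const.div ((L.Fc_cont c).add continuous_const) ?_
  intro x
  have := L.F_nonneg c x
  positivity

/-- B3e, the limit `s → 0` -/
theorem liminf_Js {p : E n} (hdens : ∀ δ > 0, ∀ᶠ s in 𝓝[>] (0 : ℝ),
      sg L.m - δ ≤ ∫ y, L.ws p s y.1 ^ L.m ∂L.V)
    {Φ : E n → ℝ} (hΦ : Continuous Φ) (h0 : ∀ x, 0 ≤ Φ x) {δ : ℝ} (hδ : 0 < δ) :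
    ∀ᶠ s in 𝓝[>] (0 : ℝ), sg L.m * Φ p - δ ≤ L.Js Φ p s := by
  have hm := L.m_pos
  have hsg : 0 < sg L.m := potL_sg_pos hm
  rcases (h0 p).eq_or_lt with ha | ha
  · refine Eventually.of_forall fun s => ?_
    rw [← ha, mul_zero, zero_sub]
    refine (neg_nonpos.2 hδ.le).trans ?_
    unfold Js
    refine integral_nonneg fun z => ?_
    exact mul_nonneg (h0 _) (Real.rpow_nonneg (L.potL_ws_nonneg _ _) _)
  set a : ℝ := Φ p with hadef
  obtain ⟨η, hη0, hηa, hη⟩ : ∃ η > 0, η ≤ a ∧ η * sg L.m ≤ δ / 4 := by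
    refine ⟨min a (δ / 4 / sg L.m), lt_min ha (by positivity), min_le_left _ _, ?_⟩
    calc min a (δ / 4 / sg L.m) * sg L.m ≤ δ / 4 / sg L.m * sg L.m :=
          mul_le_mul_of_nonneg_right (min_le_right _ _) hsg.le
      _ = δ / 4 := by field_simp
  -- the far region
  obtain ⟨f, hf0, hf⟩ : ∃ f > 0, ∀ x ∈ L.K, Φ x ≤ a - η → f ≤ L.F p x := by
    have hcl : IsClosed {x | Φ x ≤ a - η} := isClosed_le hΦ continuous_const
    have hc : IsCompact (L.K ∩ {x | Φ x ≤ a - η}) := L.K_compact.inter_right hcl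
    rcases (L.K ∩ {x | Φ x ≤ a - η}).eq_empty_or_nonempty with he | hne
    · refine ⟨1, one_pos, fun x hx hx' => ?_⟩
      have : x ∈ L.K ∩ {x | Φ x ≤ a - η} := ⟨hx, hx'⟩
      rw [he] at this
      exact this.elim
    · obtain ⟨x₀, hx₀, hmin⟩ := hc.exists_isMinOn hne (L.Fc_cont p).continuousOn
      refine ⟨L.F p x₀, ?_, fun x hx hx' => hmin ⟨hx, hx'⟩⟩
      refine L.F_pos p x₀ fun h => ?_
      have h2 : Φ x₀ ≤ a - η := hx₀.2
      rw [← h] at h2
      linarith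
  set T : ℝ := L.V.real univ with hT
  have hT0 : 0 ≤ T := measureReal_nonneg
  have hM : Tendsto (fun s : ℝ => a * (s / f) ^ L.m * T) (𝓝[>] 0) (𝓝 0) := by
    have h1 : Tendsto (fun s : ℝ => (s / f) ^ L.m) (𝓝 0) (𝓝 ((0 / f) ^ L.m)) := by
      have h2 : ContinuousAt (fun s : ℝ => s / f) 0 := by fun_prop
      exact h2.rpow_const (Or.inr hm.le)
    rw [zero_div, Real.zero_rpow hm.ne'] at h1
    have h3 := (h1.const_mul a).mul_const T
    rw [mul_zero, zero_mul] at h3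
    exact h3.mono_left nhdsWithin_le_nhds
  filter_upwards [self_mem_nhdsWithin, hdens (δ / 4 / (a + 1)) (by positivity),
    hM.eventually_le_const (show (0 : ℝ) < δ / 4 by positivity)] with s hs hd hMs
  have hs0 : (0 : ℝ) < s := hs
  have hwc : Continuous fun z : E n × E n => L.ws p s z.1 ^ L.m :=
    ((L.potL_ws_cont hs0 p).comp continuous_fst).rpow_const fun _ => Or.inr hm.le
  have key : (a - η) * (∫ z, L.ws p s z.1 ^ L.m ∂L.V) - a * (s / f) ^ L.m * T ≤ L.Js Φ p s := by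
    have e : (a - η) * (∫ z, L.ws p s z.1 ^ L.m ∂L.V) - a * (s / f) ^ L.m * T =
        ∫ z, ((a - η) * L.ws p s z.1 ^ L.m - a * (s / f) ^ L.m) ∂L.V := by
      rw [integral_sub ((L.integrable_of_cont hwc).const_mul _) (integrable_const _),
        integral_const_mul, integral_const, smul_eq_mul]
      ring
    rw [e]
    unfold Js
    refine integral_mono_ae
      (((L.integrable_of_cont hwc).const_mul _).sub (integrable_const _))
      (L.integrable_of_cont ((hΦ.comp continuous_fst).mul hwc)) ?_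
    filter_upwards [L.V_supp] with z hz
    have hw0 : 0 ≤ L.ws p s z.1 ^ L.m := Real.rpow_nonneg (L.potL_ws_nonneg _ _) _
    have hM0 : 0 ≤ a * (s / f) ^ L.m := by positivity
    show (a - η) * L.ws p s z.1 ^ L.m - a * (s / f) ^ L.m ≤ Φ z.1 * L.ws p s z.1 ^ L.m
    rcases le_or_gt (Φ z.1) (a - η) with hx | hx
    · have h1 := L.potL_ws_le hs0 hf0 p z.1 (hf z.1 hz.1 hx)
      have h2 : L.ws p s z.1 ^ L.m ≤ (s / f) ^ L.m :=
        Real.rpow_le_rpow (L.potL_ws_nonneg _ _) h1 hm.le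
      have h3 : (a - η) * L.ws p s z.1 ^ L.m ≤ a * (s / f) ^ L.m :=
        mul_le_mul (by linarith) h2 hw0 ha.le
      have h4 : 0 ≤ Φ z.1 * L.ws p s z.1 ^ L.m := mul_nonneg (h0 _) hw0
      linarith
    · have := mul_le_mul_of_nonneg_right hx.le hw0
      linarith
  have h5 : (a - η) * (sg L.m - δ / 4 / (a + 1)) ≤
      (a - η) * ∫ z, L.ws p s z.1 ^ L.m ∂L.V :=
    mul_le_mul_of_nonneg_left hd (by linarith)
  have h6 : (a - η) * (δ / 4 / (a + 1)) ≤ δ / 4 := by
    have h7 : (a - η) * (δ / 4 / (a + 1)) ≤ (a + 1) * (δ / 4 / (a + 1)) :=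
      mul_le_mul_of_nonneg_right (by linarith) (by positivity)
    refine h7.trans (le_of_eq ?_)
    field_simp
  nlinarith [key, h5, h6, hMs, hη]

end Lim

end Vale.Agent.P219.End
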