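import Vale.Agent.P219.End.PotB
import Vale.Agent.P219.End.PotL

/-!
# P219 / End : potential estimate (B3e)
-/

open MeasureTheory Set Metric Filter
open scoped ContDiff Topology

namespace Vale.Agent.P219.End

variable {n : ℕ}

namespace Lim

variable (L : Lim n)

theorem pot_of
    (upper_density : ∃ C > 0, (∀ c ∈ L.K, ∀ s : ℝ, 0 < s →
        L.V.real {z | L.ds c z.1 ≤ s} ≤ C * s ^ L.m) ∧
      ∀ c ∈ L.K, ∀ s : ℝ, L.Ad s → ∫ z, L.ws c s z.1 ^ L.m ∂L.V ≤ C)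
    (dens_bub : ∀ᵐ z ∂L.V, ∀ δ > 0, ∀ᶠ s in 𝓝[>] (0 : ℝ),
      sg L.m - δ ≤ ∫ y, L.ws z.1 s y.1 ^ L.m ∂L.V)
    (kS_integrable : ∀ {c : E n}, c ∈ L.K → ∀ {S : ℝ}, 0 < S →
      Integrable (fun z => L.kS S (L.ds c z.1)) L.V) :
    ∃ C > 0, ∀ᵐ z₀ ∂L.V, ∀ Φ : E n → ℝ, ContDiff ℝ ∞ Φ → (∀ x, 0 ≤ Φ x) →
    ∀ S, L.Ad S → sg L.m * Φ z₀.1 ≤ L.Js Φ z₀.1 S +
      C * ∫ z, (Φ z.1 * L.ds z₀.1 z.1 + √(L.G Φ Φ z)) * L.kS S (L.ds z₀.1 z.1) ∂L.V := by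
  obtain ⟨B, hB0, hB⟩ := L.potB_F_bound
  refine ⟨L.cP B, L.cP_pos hB0, ?_⟩
  filter_upwards [L.V_supp, dens_bub] with z₀ hz₀ hdens
  intro Φ hΦ h0 S hS
  have hp := hz₀.1
  have hd : ∀ᵐ z ∂L.V, 0 < L.ds z₀.1 z.1 := by
    obtain ⟨C, hC, hu, -⟩ := upper_density
    have h1 : L.V.real {z | L.ds z₀.1 z.1 = 0} = 0 := by
      refine le_antisymm (le_of_forall_pos_le_add fun e he => ?_) measureReal_nonneg
      have hm := L.m_pos
      have h2 : Tendsto (fun s : ℝ => C * s ^ L.m) (𝓝[>] 0) (𝓝 0) := by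
        have h3 : Tendsto (fun s : ℝ => C * s ^ L.m) (𝓝 0) (𝓝 (C * 0 ^ L.m)) :=
          ((Real.continuousAt_rpow_const 0 L.m (Or.inr hm.le)).const_mul C).tendsto
        rw [Real.zero_rpow hm.ne', mul_zero] at h3
        exact h3.mono_left nhdsWithin_le_nhds
      obtain ⟨s, hs1, hs2⟩ := ((h2.eventually (gt_mem_nhds he)).and self_mem_nhdsWithin).exists
      have hs2' : 0 < s := hs2
      have h4 : L.V.real {z | L.ds z₀.1 z.1 = 0} ≤ L.V.real {z | L.ds z₀.1 z.1 ≤ s} := by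
        refine measureReal_mono (fun z hz => ?_)
        have : L.ds z₀.1 z.1 = 0 := hz
        simp only [mem_setOf_eq, this]
        exact hs2'.le
      have h5 := hu z₀.1 hp s hs2'
      linarith
    have h6 : L.V {z | L.ds z₀.1 z.1 = 0} = 0 := (measureReal_eq_zero_iff).1 h1
    have h7 : ∀ᵐ z ∂L.V, ¬ L.ds z₀.1 z.1 = 0 := by
      rw [ae_iff]
      simpa using h6
    filter_upwards [h7] with z hz
    exact lt_of_le_of_ne (L.potB_ds_nonneg _ _) (Ne.symm hz)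
  have hkS : ∀ S : ℝ, 0 < S → Integrable (fun z => L.kS S (L.ds z₀.1 z.1)) L.V :=
    fun S hS => kS_integrable hp hS
  refine le_of_forall_pos_le_add fun δ hδ => ?_
  have h1 := L.liminf_Js (p := z₀.1) hdens hΦ.continuous h0 hδ
  have h2 : ∀ᶠ s in 𝓝[>] (0 : ℝ), 0 < s ∧ s ≤ S := by
    filter_upwards [Ioc_mem_nhdsGT hS.1] with s hs
    exact ⟨hs.1, hs.2⟩
  obtain ⟨s, hs1, hs2, hs3⟩ := (h1.and h2).exists
  have h3 := L.Js_le hp hB0 (fun x hx => hB z₀.1 hp x hx) hd hkS hΦ h0 hs2 hs3 hS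
  have h4 : L.Apot Φ z₀.1 S =
      ∫ z, (Φ z.1 * L.ds z₀.1 z.1 + √(L.G Φ Φ z)) * L.kS S (L.ds z₀.1 z.1) ∂L.V := rfl
  rw [h4] at h3
  linarith

end Lim

end Vale.Agent.P219.End
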