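import Mathlib

/-! # Weak type inequality implies a Sobolev inequality (truncation). -/

namespace Vale.Agent.P219.End.WS

open MeasureTheory Real

/-- A bound for the derivative of the smooth transition function. -/
theorem exists_deriv_bound : ∃ D : ℝ, 0 < D ∧ ∀ x, |deriv Real.smoothTransition x| ≤ D := by
  have hc : Continuous (deriv Real.smoothTransition) :=
    (Real.smoothTransition.contDiff (n := 1)).continuous_deriv le_rfl
  obtain ⟨x₀, _, hx₀⟩ := (isCompact_Icc (a := (-1 : ℝ)) (b := 2)).exists_isMaxOn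
    ⟨0, by norm_num, by norm_num⟩ (f := fun x => |deriv Real.smoothTransition x|)
    (hc.abs.continuousOn)
  refine ⟨|deriv Real.smoothTransition x₀| + 1, by positivity, fun x => ?_⟩
  by_cases hx : x ∈ Set.Icc (-1 : ℝ) 2
  · exact (hx₀ hx).trans (by simp)
  · have h0 : deriv Real.smoothTransition x = 0 := by
      rw [Set.mem_Icc, not_and_or, not_le, not_le] at hx
      rcases hx with hx | hx
      · have : Real.smoothTransition =ᶠ[nhds x] fun _ => 0 := by
          filter_upwards [Iio_mem_nhds (show x < 0 by linarith)] with y hy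
          exact Real.smoothTransition.zero_of_nonpos (le_of_lt hy)
        rw [this.deriv_eq, deriv_const]
      · have : Real.smoothTransition =ᶠ[nhds x] fun _ => 1 := by
          filter_upwards [Ioi_mem_nhds (show 1 < x by linarith)] with y hy
          exact Real.smoothTransition.one_of_one_le (le_of_lt hy)
        rw [this.deriv_eq, deriv_const]
    rw [h0, abs_zero]
    positivity

theorem deriv_smoothTransition_of_not_mem {x : ℝ} (hx : x ∉ Set.Ioo (0 : ℝ) 1) :
    deriv Real.smoothTransition x = 0 := by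
  rw [Set.mem_Ioo, not_and_or, not_lt, not_lt] at hx
  have hd : Differentiable ℝ Real.smoothTransition :=
    (Real.smoothTransition.contDiff (n := 1)).differentiable one_ne_zero
  rcases hx with hx | hx
  · -- minimum
    have h : IsLocalMin Real.smoothTransition x := by
      refine Filter.Eventually.of_forall fun y => ?_
      rw [Real.smoothTransition.zero_of_nonpos hx]
      exact Real.smoothTransition.nonneg y
    exact h.deriv_eq_zero
  · have h : IsLocalMax Real.smoothTransition x := by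
      refine Filter.Eventually.of_forall fun y => ?_
      rw [Real.smoothTransition.one_of_one_le hx]
      exact Real.smoothTransition.le_one y
    exact h.deriv_eq_zero

/-- The truncation between the levels `l` and `2 l`. -/
noncomputable def tr (l t : ℝ) : ℝ := l * Real.smoothTransition (t / l - 1)

theorem tr_contDiff (l : ℝ) : ContDiff ℝ (⊤ : ℕ∞) (tr l) := by
  unfold tr
  exact contDiff_const.mul (Real.smoothTransition.contDiff.comp
    ((contDiff_id.div_const l).sub contDiff_const))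

theorem tr_nonneg {l : ℝ} (hl : 0 < l) (t : ℝ) : 0 ≤ tr l t :=
  mul_nonneg hl.le (Real.smoothTransition.nonneg _)

theorem tr_le {l : ℝ} (hl : 0 < l) (t : ℝ) : tr l t ≤ if l < t then l else 0 := by
  unfold tr
  split_ifs with h
  · exact mul_le_of_le_one_right hl.le (Real.smoothTransition.le_one _)
  · rw [Real.smoothTransition.zero_of_nonpos, mul_zero]
    rw [sub_nonpos, div_le_one hl]
    exact not_lt.1 h

theorem tr_of_le {l t : ℝ} (hl : 0 < l) (ht : t ≤ l) : tr l t = 0 := by
  unfold tr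
  rw [Real.smoothTransition.zero_of_nonpos, mul_zero]
  rw [sub_nonpos, div_le_one hl]
  exact ht

theorem tr_of_ge {l t : ℝ} (hl : 0 < l) (ht : 2 * l ≤ t) : tr l t = l := by
  unfold tr
  rw [Real.smoothTransition.one_of_one_le, mul_one]
  rw [le_sub_iff_add_le, le_div_iff₀ hl]
  linarith

theorem deriv_tr {l : ℝ} (hl : 0 < l) (t : ℝ) :
    deriv (tr l) t = deriv Real.smoothTransition (t / l - 1) := by
  have hd : Differentiable ℝ Real.smoothTransition :=
    (Real.smoothTransition.contDiff (n := 1)).differentiable one_ne_zero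
  have h1 : HasDerivAt (fun t : ℝ => t / l - 1) (1 / l) t :=
    ((hasDerivAt_id t).div_const l).sub_const 1
  have h2 := ((hd (t / l - 1)).hasDerivAt.comp t h1).const_mul l
  have h3 : deriv (tr l) t = l * (deriv Real.smoothTransition (t / l - 1) * (1 / l)) := h2.deriv
  rw [h3]
  field_simp

theorem abs_deriv_tr_le {D : ℝ} (hD : ∀ x, |deriv Real.smoothTransition x| ≤ D) {l : ℝ}
    (hl : 0 < l) (t : ℝ) : |deriv (tr l) t| ≤ if l < t ∧ t < 2 * l then D else 0 := by
  rw [deriv_tr hl]
  split_ifs with h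
  · exact hD _
  · rw [deriv_smoothTransition_of_not_mem, abs_zero]
    rw [Set.mem_Ioo]
    intro h'
    refine h ⟨?_, ?_⟩
    · have := h'.1
      rw [sub_pos, one_lt_div hl] at this
      exact this
    · have := h'.2
      rw [sub_lt_iff_lt_add, div_lt_iff₀ hl] at this
      linarith

/-- dyadic sum of levels below `x` -/
theorem sum_levels_le (n : ℕ) : ∀ (l x : ℝ), 0 < l → 0 ≤ x →
    ∑ j ∈ Finset.range n, (if l / 2 ^ j < x then l / 2 ^ j else 0) ≤ 2 * x := by
  induction n with
  | zero => intro l x _ hx; simpa using hx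
  | succ n ih =>
    intro l x hl hx
    by_cases h : l < x
    · calc ∑ j ∈ Finset.range (n + 1), (if l / 2 ^ j < x then l / 2 ^ j else 0)
          ≤ ∑ j ∈ Finset.range (n + 1), l * (1 / 2) ^ j := by
            refine Finset.sum_le_sum fun j _ => ?_
            have : l / 2 ^ j = l * (1 / 2) ^ j := by rw [one_div, inv_pow]; rfl
            split_ifs
            · exact this.le
            · positivity
        _ = l * ∑ j ∈ Finset.range (n + 1), ((1 : ℝ) / 2) ^ j := by rw [Finset.mul_sum]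
        _ ≤ l * 2 := by
            refine mul_le_mul_of_nonneg_left ?_ hl.le
            rw [geom_sum_eq (by norm_num)]
            have h1 : (0 : ℝ) ≤ (1 / 2) ^ (n + 1) := by positivity
            have h2 : (((1 : ℝ) / 2) ^ (n + 1) - 1) / (1 / 2 - 1) =
                2 - 2 * (1 / 2) ^ (n + 1) := by ring
            rw [h2]
            linarith
        _ ≤ 2 * x := by linarith
    · rw [Finset.sum_range_succ']
      have h2 : ¬ l / 2 ^ 0 < x := by simpa using h
      rw [if_neg h2, add_zero]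
      have h3 := ih (l / 2) x (by positivity) hx
      have h4 : ∀ j : ℕ, l / 2 ^ (j + 1) = l / 2 / 2 ^ j := fun j => by
        rw [pow_succ', div_div]
      simp only [h4]
      exact h3

theorem sum_annuli_le (n : ℕ) {D : ℝ} (hD : 0 ≤ D) {l x : ℝ} (hl : 0 < l) :
    ∑ j ∈ Finset.range n, (if l / 2 ^ j < x ∧ x < 2 * (l / 2 ^ j) then D else 0) ≤ D := by
  classical
  rw [← Finset.sum_filter, Finset.sum_const, nsmul_eq_mul]
  have hcard : (Finset.filter (fun j : ℕ => l / 2 ^ j < x ∧ x < 2 * (l / 2 ^ j))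
      (Finset.range n)).card ≤ 1 := by
    rw [Finset.card_le_one]
    have key : ∀ a b : ℕ, a < b → x < 2 * (l / 2 ^ b) → l / 2 ^ a < x → False := by
      intro a b hab h1 h2
      have h3 : (2 : ℝ) ^ (a + 1) ≤ 2 ^ b := pow_le_pow_right₀ (by norm_num) hab
      have h4 : 2 * (l / 2 ^ b) ≤ l / 2 ^ a := by
        rw [mul_div_assoc', div_le_div_iff₀ (by positivity) (by positivity)]
        calc 2 * l * 2 ^ a = l * 2 ^ (a + 1) := by ring
          _ ≤ l * 2 ^ b := mul_le_mul_of_nonneg_left h3 hl.le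
      linarith
    intro a ha b hb
    rw [Finset.mem_filter] at ha hb
    rcases lt_trichotomy a b with h | h | h
    · exact (key a b h hb.2.2 ha.2.1).elim
    · exact h
    · exact (key b a h ha.2.2 hb.2.1).elim
  calc _ ≤ (1 : ℝ) * D := mul_le_mul_of_nonneg_right (by exact_mod_cast hcard) hD
    _ = D := one_mul D

/-- `∑ aᵢ ^ r ≤ (∑ aᵢ) ^ r` for `r ≥ 1`. -/
theorem sum_rpow_le {n : ℕ} {a : ℕ → ℝ} (ha : ∀ j, 0 ≤ a j) {r : ℝ} (hr : 1 ≤ r) :
    ∑ j ∈ Finset.range n, a j ^ r ≤ (∑ j ∈ Finset.range n, a j) ^ r := by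
  have hS : 0 ≤ ∑ j ∈ Finset.range n, a j := Finset.sum_nonneg fun j _ => ha j
  rcases hS.eq_or_lt with h0 | hpos
  · have h1 : ∀ j ∈ Finset.range n, a j = 0 :=
      (Finset.sum_eq_zero_iff_of_nonneg fun j _ => ha j).1 h0.symm
    rw [← h0, zero_rpow (by linarith), Finset.sum_eq_zero]
    intro j hj
    rw [h1 j hj, zero_rpow (by linarith)]
  · calc ∑ j ∈ Finset.range n, a j ^ r
        ≤ ∑ j ∈ Finset.range n, a j * (∑ j ∈ Finset.range n, a j) ^ (r - 1) := by
          refine Finset.sum_le_sum fun j hj => ?_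
          have hle : a j ≤ ∑ j ∈ Finset.range n, a j :=
            Finset.single_le_sum (fun i _ => ha i) hj
          rcases (ha j).eq_or_lt with h | h
          · rw [← h, zero_rpow (by linarith), zero_mul]
          · calc a j ^ r = a j * a j ^ (r - 1) := by
                  rw [← rpow_one_add' (ha j) (by linarith)]
                  congr 1
                  ring
              _ ≤ _ := mul_le_mul_of_nonneg_left (rpow_le_rpow (ha j) hle (by linarith)) (ha j)
      _ = (∑ j ∈ Finset.range n, a j) * (∑ j ∈ Finset.range n, a j) ^ (r - 1) := by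
          rw [Finset.sum_mul]
      _ = (∑ j ∈ Finset.range n, a j) ^ r := by
          rw [← rpow_one_add' hS (by linarith)]
          congr 1
          ring

variable {Z : Type*} [MeasurableSpace Z]

/-- The class of truncations. -/
structure IsTrunc (ψ : ℝ → ℝ) : Prop where
  smooth : ContDiff ℝ (⊤ : ℕ∞) ψ
  nonneg : ∀ t, 0 ≤ ψ t
  zero : ∃ a > 0, ∀ t ≤ a, ψ t = 0

theorem isTrunc_tr {l : ℝ} (hl : 0 < l) : IsTrunc (tr l) :=
  ⟨tr_contDiff l, tr_nonneg hl, l, hl, fun _ ht => tr_of_le hl ht⟩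

/-- The weak type inequality for all truncations of `u` (`g = |∇u|`). -/
def WT (V : Measure Z) (s C : ℝ) (u g : Z → ℝ) : Prop :=
  ∀ ψ : ℝ → ℝ, IsTrunc ψ → ∀ t : ℝ, 0 < t →
    t * (V.real {z | t ≤ ψ (u z)}) ^ s ≤ C * ∫ z, (|deriv ψ (u z)| * g z + ψ (u z)) ∂V


/-- Dyadic decomposition of `x ^ r`. -/
theorem rpow_le_sum {r : ℝ} (hr : 0 < r) {l x : ℝ} (hl : 0 < l) (hx0 : 0 ≤ x) (hx : x ≤ 4 * l)
    (n : ℕ) : x ^ r ≤ ∑ j ∈ Finset.range n,
      (if 2 * (l / 2 ^ j) ≤ x then (4 * (l / 2 ^ j)) ^ r else 0) + (4 * (l / 2 ^ n)) ^ r := by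
  induction n with
  | zero =>
    rw [Finset.range_zero, Finset.sum_empty, zero_add, pow_zero, div_one]
    exact rpow_le_rpow hx0 hx hr.le
  | succ n ih =>
    rw [Finset.sum_range_succ]
    have hpos : 0 ≤ (4 * (l / 2 ^ (n + 1))) ^ r := by positivity
    by_cases h : 2 * (l / 2 ^ n) ≤ x
    · rw [if_pos h]
      linarith
    · rw [if_neg h, add_zero]
      have h1 : x ≤ 4 * (l / 2 ^ (n + 1)) := by
        have h2 : 4 * (l / 2 ^ (n + 1)) = 2 * (l / 2 ^ n) := by
          rw [pow_succ]
          field_simp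
          ring
        rw [h2]
        exact (not_le.1 h).le
      have h3 : 0 ≤ ∑ j ∈ Finset.range n,
          (if 2 * (l / 2 ^ j) ≤ x then (4 * (l / 2 ^ j)) ^ r else 0) :=
        Finset.sum_nonneg fun j _ => by split_ifs <;> positivity
      linarith [rpow_le_rpow hx0 h1 hr.le]

/-- Strong `L¹` Sobolev inequality from the weak type inequality, by truncation. -/
theorem strong_of_weak {V : Measure Z} [IsFiniteMeasure V] {s C : ℝ} (hs : 0 < s) (hs1 : s ≤ 1)
    (hC : 0 ≤ C) {u g : Z → ℝ} (hum : Measurable u) (hu : ∀ z, 0 ≤ u z) {B : ℝ}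
    (huB : ∀ z, u z ≤ B) (hg : ∀ z, 0 ≤ g z) (hgi : Integrable g V)
    (hWT : WT V s C u g) {D : ℝ} (hD : ∀ x, |deriv Real.smoothTransition x| ≤ D) :
    (∫ z, u z ^ (1 / s) ∂V) ^ s ≤ 4 * (C * ∫ z, (D * g z + 2 * u z) ∂V) := by
  have hD0 : 0 ≤ D := (abs_nonneg _).trans (hD 0)
  set r : ℝ := 1 / s with hr
  have hr1 : 1 ≤ r := by rw [hr, le_div_iff₀ hs]; linarith
  have hr0 : 0 < r := by linarith
  have hsr : s * r = 1 := by rw [hr]; field_simp
  set l : ℝ := max B 1 / 4 with hl'
  have hl : 0 < l := by positivity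
  have huB' : ∀ z, u z ≤ 4 * l := fun z => by
    rw [hl']
    linarith [huB z, le_max_left B 1]
  -- integrability
  have hui : Integrable u V := Integrable.of_bound hum.aestronglyMeasurable B
    (Filter.Eventually.of_forall fun z => by rw [norm_of_nonneg (hu z)]; exact huB z)
  have hbdd : ∀ (f : Z → ℝ), Measurable f → (∀ z, 0 ≤ f z) → (∀ K : ℝ, (∀ z, f z ≤ K) →
      Integrable f V) := fun f hf h0 K hK => Integrable.of_bound hf.aestronglyMeasurable K
    (Filter.Eventually.of_forall fun z => by rw [norm_of_nonneg (h0 z)]; exact hK z)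
  have hlj : ∀ j : ℕ, 0 < l / 2 ^ j := fun j => by positivity
  have htrm : ∀ j : ℕ, Measurable fun z => tr (l / 2 ^ j) (u z) := fun j =>
    (tr_contDiff _).continuous.measurable.comp hum
  have hdm : ∀ j : ℕ, Measurable fun z => |deriv (tr (l / 2 ^ j)) (u z)| := fun j =>
    (((tr_contDiff _).continuous_deriv (by simp)).abs).measurable.comp hum
  have hi1 : ∀ j : ℕ, Integrable (fun z => |deriv (tr (l / 2 ^ j)) (u z)| * g z) V := fun j => by
    refine Integrable.mono' (hgi.const_mul D)
      ((hdm j).aestronglyMeasurable.mul hgi.aestronglyMeasurable)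
      (Filter.Eventually.of_forall fun z => ?_)
    rw [norm_of_nonneg (mul_nonneg (abs_nonneg _) (hg z))]
    refine mul_le_mul_of_nonneg_right ((abs_deriv_tr_le hD (hlj j) _).trans ?_) (hg z)
    split_ifs
    · exact le_rfl
    · exact hD0
  have hi2 : ∀ j : ℕ, Integrable (fun z => tr (l / 2 ^ j) (u z)) V := fun j =>
    hbdd _ (htrm j) (fun z => tr_nonneg (hlj j) _) (l / 2 ^ j) fun z =>
      (tr_le (hlj j) _).trans (by split_ifs; exacts [le_rfl, (hlj j).le])
  set T : ℝ := C * ∫ z, (D * g z + 2 * u z) ∂V with hT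
  have hTi : Integrable (fun z => D * g z + 2 * u z) V := (hgi.const_mul D).add (hui.const_mul 2)
  have hT0 : 0 ≤ T := mul_nonneg hC (integral_nonneg fun z => by
    have := hg z
    have := hu z
    positivity)
  let a : ℕ → ℝ := fun j => (l / 2 ^ j) * (V.real {z | 2 * (l / 2 ^ j) ≤ u z}) ^ s
  have ha0 : ∀ j, 0 ≤ a j := fun j => mul_nonneg (hlj j).le (rpow_nonneg measureReal_nonneg _)
  have ha1 : ∀ j, a j ≤ C * ∫ z, (|deriv (tr (l / 2 ^ j)) (u z)| * g z +
      tr (l / 2 ^ j) (u z)) ∂V := fun j => by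
    refine le_trans ?_ (hWT _ (isTrunc_tr (hlj j)) (l / 2 ^ j) (hlj j))
    refine mul_le_mul_of_nonneg_left (rpow_le_rpow measureReal_nonneg
      (measureReal_mono fun z hz => ?_) hs.le) (hlj j).le
    rw [Set.mem_ofPred_eq] at hz ⊢
    rw [tr_of_ge (hlj j) hz]
  have hsum : ∀ n : ℕ, ∑ j ∈ Finset.range n, a j ≤ T := by
    intro n
    calc ∑ j ∈ Finset.range n, a j
        ≤ ∑ j ∈ Finset.range n, C * ∫ z, (|deriv (tr (l / 2 ^ j)) (u z)| * g z +
            tr (l / 2 ^ j) (u z)) ∂V := Finset.sum_le_sum fun j _ => ha1 j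
      _ = C * ∫ z, (∑ j ∈ Finset.range n, (|deriv (tr (l / 2 ^ j)) (u z)| * g z +
            tr (l / 2 ^ j) (u z))) ∂V := by
          rw [← Finset.mul_sum, integral_finsetSum]
          exact fun j _ => (hi1 j).add (hi2 j)
      _ ≤ T := by
          refine mul_le_mul_of_nonneg_left (integral_mono (integrable_finsetSum _
            fun j _ => (hi1 j).add (hi2 j)) hTi fun z => ?_) hC
          change ∑ j ∈ Finset.range n, (|deriv (tr (l / 2 ^ j)) (u z)| * g z +
            tr (l / 2 ^ j) (u z)) ≤ D * g z + 2 * u z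
          rw [Finset.sum_add_distrib, ← Finset.sum_mul]
          refine add_le_add (mul_le_mul_of_nonneg_right ?_ (hg z)) ?_
          · exact (Finset.sum_le_sum fun j _ => abs_deriv_tr_le hD (hlj j) _).trans
              (sum_annuli_le n hD0 hl)
          · exact (Finset.sum_le_sum fun j _ => tr_le (hlj j) _).trans
              (sum_levels_le n l _ hl (hu z))
  have hmeas : ∀ c : ℝ, MeasurableSet {z | c ≤ u z} := fun c => measurableSet_le measurable_const hum
  have hmain : ∀ n : ℕ, ∫ z, u z ^ r ∂V ≤ (4 * T) ^ r + (4 * (l / 2 ^ n)) ^ r * V.real Set.univ := by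
    intro n
    have hint : ∀ j : ℕ, Integrable (fun z => if 2 * (l / 2 ^ j) ≤ u z then
        (4 * (l / 2 ^ j)) ^ r else 0) V := fun j => by
      have : (fun z => if 2 * (l / 2 ^ j) ≤ u z then (4 * (l / 2 ^ j)) ^ r else 0) =
          Set.indicator {z | 2 * (l / 2 ^ j) ≤ u z} fun _ => (4 * (l / 2 ^ j)) ^ r := by
        ext z
        rw [Set.indicator_apply]
        rfl
      rw [this]
      exact (integrable_const _).indicator (hmeas _)
    have hintv : ∀ j : ℕ, ∫ z, (if 2 * (l / 2 ^ j) ≤ u z then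
        (4 * (l / 2 ^ j)) ^ r else 0) ∂V = 4 ^ r * a j ^ r := fun j => by
      have : (fun z => if 2 * (l / 2 ^ j) ≤ u z then (4 * (l / 2 ^ j)) ^ r else 0) =
          Set.indicator {z | 2 * (l / 2 ^ j) ≤ u z} fun _ => (4 * (l / 2 ^ j)) ^ r := by
        ext z
        rw [Set.indicator_apply]
        rfl
      rw [this, integral_indicator_const _ (hmeas _), smul_eq_mul]
      simp only [a]
      rw [mul_rpow (by norm_num) (hlj j).le, mul_rpow (hlj j).le (rpow_nonneg measureReal_nonneg _),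
        ← rpow_mul measureReal_nonneg, hsr, rpow_one]
      ring
    calc ∫ z, u z ^ r ∂V
        ≤ ∫ z, (∑ j ∈ Finset.range n, (if 2 * (l / 2 ^ j) ≤ u z then
            (4 * (l / 2 ^ j)) ^ r else 0) + (4 * (l / 2 ^ n)) ^ r) ∂V := by
          refine integral_mono ?_ ?_ fun z => rpow_le_sum hr0 hl (hu z) (huB' z) n
          · exact hbdd _ (hum.pow_const r) (fun z => rpow_nonneg (hu z) _) ((4 * l) ^ r)
              fun z => rpow_le_rpow (hu z) (huB' z) hr0.le
          · exact (integrable_finsetSum _ fun j _ => hint j).add (integrable_const _)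
      _ = ∑ j ∈ Finset.range n, 4 ^ r * a j ^ r + (4 * (l / 2 ^ n)) ^ r * V.real Set.univ := by
          rw [integral_add (integrable_finsetSum _ fun j _ => hint j) (integrable_const _),
            integral_finsetSum _ fun j _ => hint j, integral_const, smul_eq_mul, mul_comm]
          congr 1
          exact Finset.sum_congr rfl fun j _ => hintv j
      _ ≤ (4 * T) ^ r + (4 * (l / 2 ^ n)) ^ r * V.real Set.univ := by
          refine add_le_add ?_ le_rfl
          rw [← Finset.mul_sum, mul_rpow (by norm_num) hT0]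
          refine mul_le_mul_of_nonneg_left ?_ (by positivity)
          exact (sum_rpow_le ha0 hr1).trans (rpow_le_rpow (Finset.sum_nonneg fun j _ => ha0 j)
            (hsum n) hr0.le)
  have hlim : Filter.Tendsto (fun n : ℕ => (4 * T) ^ r + (4 * (l / 2 ^ n)) ^ r * V.real Set.univ)
      Filter.atTop (nhds ((4 * T) ^ r + 0 * V.real Set.univ)) := by
    refine tendsto_const_nhds.add (Filter.Tendsto.mul_const _ ?_)
    have h1 : Filter.Tendsto (fun n : ℕ => 4 * (l / 2 ^ n)) Filter.atTop (nhds 0) := by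
      have h2 : Filter.Tendsto (fun n : ℕ => (4 * l) * (1 / 2 : ℝ) ^ n) Filter.atTop
          (nhds ((4 * l) * 0)) := (tendsto_pow_atTop_nhds_zero_of_lt_one (by norm_num)
            (by norm_num)).const_mul _
      rw [mul_zero] at h2
      refine h2.congr fun n => ?_
      rw [one_div, inv_pow]
      field_simp
    have h3 := h1.rpow_const (Or.inr hr0.le : (0 : ℝ) ≠ 0 ∨ 0 ≤ r)
    rwa [zero_rpow hr0.ne'] at h3
  have hfin : ∫ z, u z ^ r ∂V ≤ (4 * T) ^ r := by
    have := ge_of_tendsto' hlim hmain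
    linarith
  calc (∫ z, u z ^ r ∂V) ^ s ≤ ((4 * T) ^ r) ^ s :=
        rpow_le_rpow (integral_nonneg fun z => rpow_nonneg (hu z) _) hfin hs.le
    _ = 4 * T := by
        rw [← rpow_mul (by positivity), mul_comm r s, hsr, rpow_one]

/-- If `ψ` vanishes near `(-∞, 0]` then `ψ (t ^ q)` is a truncation. -/
theorem isTrunc_comp_rpow {ψ : ℝ → ℝ} (hψ : IsTrunc ψ) {q : ℝ} (hq : 0 < q) :
    IsTrunc (fun t => if 0 < t then ψ (t ^ q) else 0) := by
  obtain ⟨a, ha, h0⟩ := hψ.zero
  have hb : 0 < a ^ (1 / q) := rpow_pos_of_pos ha _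
  have hz : ∀ t ≤ a ^ (1 / q), (if 0 < t then ψ (t ^ q) else 0) = 0 := fun t ht => by
    split_ifs with h
    · refine h0 _ ?_
      calc t ^ q ≤ (a ^ (1 / q)) ^ q := rpow_le_rpow h.le ht hq.le
        _ = a := by rw [← rpow_mul ha.le, one_div, inv_mul_cancel₀ hq.ne', rpow_one]
    · rfl
  refine ⟨?_, fun t => ?_, a ^ (1 / q), hb, hz⟩
  · rw [contDiff_iff_contDiffAt]
    intro t
    rcases lt_or_ge 0 t with ht | ht
    · have h1 : (fun t => if 0 < t then ψ (t ^ q) else 0) =ᶠ[nhds t] fun t => ψ (t ^ q) := by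
        filter_upwards [Ioi_mem_nhds ht] with y hy
        exact if_pos hy
      refine ContDiffAt.congr_of_eventuallyEq ?_ h1
      exact hψ.smooth.contDiffAt.comp t (contDiffAt_id.rpow_const_of_ne ht.ne')
    · have h1 : (fun t => if 0 < t then ψ (t ^ q) else 0) =ᶠ[nhds t] fun _ => 0 := by
        filter_upwards [Iio_mem_nhds (lt_of_le_of_lt ht hb)] with y hy
        exact hz y (le_of_lt hy)
      exact contDiffAt_const.congr_of_eventuallyEq h1
  · split_ifs
    · exact hψ.nonneg _
    · exact le_rfl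

theorem WT.rpow {V : Measure Z} {s C : ℝ} {u g : Z → ℝ} (hu : ∀ z, 0 < u z)
    (h : WT V s C u g) {q : ℝ} (hq : 0 < q) :
    WT V s C (fun z => u z ^ q) (fun z => q * u z ^ (q - 1) * g z) := by
  intro ψ hψ t ht
  have h1 := h _ (isTrunc_comp_rpow hψ hq) t ht
  have e1 : ∀ z, (if 0 < u z then ψ (u z ^ q) else 0) = ψ (u z ^ q) := fun z => if_pos (hu z)
  have e2 : ∀ z, |deriv (fun t => if 0 < t then ψ (t ^ q) else 0) (u z)| * g z =
      |deriv ψ (u z ^ q)| * (q * u z ^ (q - 1) * g z) := fun z => by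
    have h2 : (fun t => if 0 < t then ψ (t ^ q) else 0) =ᶠ[nhds (u z)] fun t => ψ (t ^ q) := by
      filter_upwards [Ioi_mem_nhds (hu z)] with y hy
      exact if_pos hy
    rw [h2.deriv_eq]
    have h3 : HasDerivAt (fun t : ℝ => t ^ q) (q * u z ^ (q - 1)) (u z) :=
      Real.hasDerivAt_rpow_const (Or.inl (hu z).ne')
    have h4 : HasDerivAt ψ (deriv ψ (u z ^ q)) (u z ^ q) :=
      (hψ.smooth.differentiable (by simp)).differentiableAt.hasDerivAt
    have h5 : deriv (fun t => ψ (t ^ q)) (u z) = deriv ψ (u z ^ q) * (q * u z ^ (q - 1)) :=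
      (h4.comp (u z) h3).deriv
    rw [h5, abs_mul, abs_of_nonneg (mul_nonneg hq.le (rpow_nonneg (hu z).le _))]
    ring
  simp only [e1, e2] at h1
  exact h1

/-- Cauchy-Schwarz. -/
theorem integral_mul_le_sqrt {V : Measure Z} {f g : Z → ℝ} (hf : MemLp f 2 V) (hg : MemLp g 2 V)
    (hf0 : ∀ z, 0 ≤ f z) (hg0 : ∀ z, 0 ≤ g z) :
    ∫ z, f z * g z ∂V ≤ √(∫ z, f z ^ 2 ∂V) * √(∫ z, g z ^ 2 ∂V) := by
  have := integral_mul_le_Lp_mul_Lq_of_nonneg (μ := V) (p := 2) (q := 2)
    (Real.holderConjugate_iff.2 ⟨by norm_num, by norm_num⟩)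
    (Filter.Eventually.of_forall hf0) (Filter.Eventually.of_forall hg0)
    (by simpa using hf) (by simpa using hg)
  refine this.trans (le_of_eq ?_)
  rw [sqrt_eq_rpow, sqrt_eq_rpow]
  congr 2 <;> · refine integral_congr_ae (Filter.Eventually.of_forall fun z => ?_); simp

/-- The `L²` Sobolev inequality (exponent `2* = 2 m / (m - 2)`) from the weak type inequality with
exponent `s = (m - 1) / m`. -/
theorem sobolev_two {V : Measure Z} [IsFiniteMeasure V] {m C : ℝ} (hm : 2 < m)
    (hC : 0 ≤ C) {u g : Z → ℝ} (hum : Measurable u) (hu : ∀ z, 0 < u z) {B : ℝ}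
    (huB : ∀ z, u z ≤ B) (hg : ∀ z, 0 ≤ g z) (hg2 : MemLp g 2 V)
    (hWT : WT V ((m - 1) / m) C u g) {D : ℝ} (hD : ∀ x, |deriv Real.smoothTransition x| ≤ D) :
    (∫ z, u z ^ (2 * m / (m - 2)) ∂V) ^ ((m - 2) / m) ≤
      32 * C ^ 2 * ((D * (2 * (m - 1) / (m - 2))) ^ 2 * ∫ z, g z ^ 2 ∂V +
        4 * ∫ z, u z ^ 2 ∂V) := by
  have hD0 : 0 ≤ D := (abs_nonneg _).trans (hD 0)
  have hm1 : 0 < m - 1 := by linarith
  have hm2 : 0 < m - 2 := by linarith
  have hm0 : 0 < m := by linarith
  set q : ℝ := 2 * (m - 1) / (m - 2) with hq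
  have hq0 : 0 < q := by positivity
  have hq1 : 0 < q - 1 := by
    have : q - 1 = m / (m - 2) := by
      rw [hq]
      field_simp
      ring
    rw [this]
    positivity
  set s : ℝ := (m - 1) / m with hs
  have hs0 : 0 < s := by positivity
  have hs1 : s ≤ 1 := by rw [hs, div_le_one hm0]; linarith
  have e1 : q * (1 / s) = 2 * m / (m - 2) := by
    rw [hq, hs]
    field_simp
  have e2 : (q - 1) * 2 = 2 * m / (m - 2) := by
    rw [hq]
    field_simp
    ring
  have hbdd : ∀ (f : Z → ℝ), Measurable f → (∀ z, 0 ≤ f z) → (∀ K : ℝ, (∀ z, f z ≤ K) →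
      MemLp f 2 V) := fun f hf h0 K hK => MemLp.of_bound hf.aestronglyMeasurable K
    (Filter.Eventually.of_forall fun z => by rw [norm_of_nonneg (h0 z)]; exact hK z)
  have hu2 : MemLp u 2 V := hbdd u hum (fun z => (hu z).le) B huB
  have huq : MemLp (fun z => u z ^ (q - 1)) 2 V := hbdd _ (hum.pow_const _)
    (fun z => rpow_nonneg (hu z).le _) (B ^ (q - 1))
    fun z => rpow_le_rpow (hu z).le (huB z) hq1.le
  have hgi : Integrable (fun z => q * u z ^ (q - 1) * g z) V := by
    have : Integrable (fun z => u z ^ (q - 1) * g z) V := huq.integrable_mul hg2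
    refine (this.const_mul q).congr (Filter.Eventually.of_forall fun z => ?_)
    change q * (u z ^ (q - 1) * g z) = _
    ring
  have huqi : Integrable (fun z => u z ^ q) V := Integrable.of_bound
    (hum.pow_const _).aestronglyMeasurable (B ^ q) (Filter.Eventually.of_forall fun z => by
      rw [norm_of_nonneg (rpow_nonneg (hu z).le _)]
      exact rpow_le_rpow (hu z).le (huB z) hq0.le)
  have hmain := strong_of_weak (V := V) hs0 hs1 hC (hum.pow_const q)
    (fun z => rpow_nonneg (hu z).le q) (fun z => rpow_le_rpow (hu z).le (huB z) hq0.le)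
    (fun z => mul_nonneg (mul_nonneg hq0.le (rpow_nonneg (hu z).le _)) (hg z)) hgi
    (WT.rpow hu hWT hq0) hD
  set X : ℝ := ∫ z, u z ^ (2 * m / (m - 2)) ∂V with hX
  set G : ℝ := ∫ z, g z ^ 2 ∂V with hG
  set R : ℝ := ∫ z, u z ^ 2 ∂V with hR
  have hX0 : 0 ≤ X := integral_nonneg fun z => rpow_nonneg (hu z).le _
  have hG0 : 0 ≤ G := integral_nonneg fun z => sq_nonneg _
  have hR0 : 0 ≤ R := integral_nonneg fun z => sq_nonneg _
  have h1 : ∫ z, (u z ^ q) ^ (1 / s) ∂V = X := by
    rw [hX]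
    refine integral_congr_ae (Filter.Eventually.of_forall fun z => ?_)
    change (u z ^ q) ^ (1 / s) = _
    rw [← rpow_mul (hu z).le, e1]
  have hsq : ∫ z, (u z ^ (q - 1)) ^ 2 ∂V = X := by
    rw [hX]
    refine integral_congr_ae (Filter.Eventually.of_forall fun z => ?_)
    change (u z ^ (q - 1)) ^ 2 = _
    rw [← rpow_natCast, ← rpow_mul (hu z).le]
    congr 1
  have h2 : ∫ z, u z ^ (q - 1) * g z ∂V ≤ √X * √G := by
    have := integral_mul_le_sqrt huq hg2 (fun z => rpow_nonneg (hu z).le _) hg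
    rwa [hsq] at this
  have h3 : ∫ z, u z ^ q ∂V ≤ √X * √R := by
    have := integral_mul_le_sqrt huq hu2 (fun z => rpow_nonneg (hu z).le _) fun z => (hu z).le
    rw [hsq] at this
    refine le_trans (le_of_eq (integral_congr_ae (Filter.Eventually.of_forall fun z => ?_))) this
    change u z ^ q = u z ^ (q - 1) * u z
    rw [← rpow_add_one (hu z).ne']
    congr 1
    ring
  have h4 : ∫ z, (D * (q * u z ^ (q - 1) * g z) + 2 * u z ^ q) ∂V ≤
      √X * (D * q * √G + 2 * √R) := by
    rw [integral_add (hgi.const_mul D) (huqi.const_mul 2), integral_const_mul, integral_const_mul]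
    have h5 : ∫ z, q * u z ^ (q - 1) * g z ∂V = q * ∫ z, u z ^ (q - 1) * g z ∂V := by
      rw [← integral_const_mul]
      refine integral_congr_ae (Filter.Eventually.of_forall fun z => ?_)
      change q * u z ^ (q - 1) * g z = q * (u z ^ (q - 1) * g z)
      ring
    rw [h5]
    have h6 := mul_le_mul_of_nonneg_left h2 (mul_nonneg hD0 hq0.le)
    have h7 := mul_le_mul_of_nonneg_left h3 (show (0 : ℝ) ≤ 2 by norm_num)
    nlinarith [h6, h7]
  rw [h1] at hmain
  have hY0 : 0 ≤ D * q * √G + 2 * √R := by positivity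
  have h5 : X ^ s ≤ √X * (4 * C * (D * q * √G + 2 * √R)) :=
    calc X ^ s ≤ 4 * (C * ∫ z, (D * (q * u z ^ (q - 1) * g z) + 2 * u z ^ q) ∂V) := hmain
      _ ≤ 4 * (C * (√X * (D * q * √G + 2 * √R))) := by gcongr
      _ = _ := by ring
  rcases hX0.eq_or_lt with h0 | hpos
  · rw [← h0, zero_rpow (by positivity)]
    positivity
  · have hsX : 0 < √X := sqrt_pos.2 hpos
    have h6 : X ^ (s - 1 / 2) ≤ 4 * C * (D * q * √G + 2 * √R) := by
      rw [rpow_sub hpos, ← sqrt_eq_rpow, div_le_iff₀ hsX]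
      linarith
    have h7 : X ^ ((m - 2) / m) = (X ^ (s - 1 / 2)) ^ 2 := by
      rw [← rpow_natCast, ← rpow_mul hX0]
      congr 1
      rw [hs]
      push_cast
      field_simp
      ring
    rw [h7]
    calc (X ^ (s - 1 / 2)) ^ 2 ≤ (4 * C * (D * q * √G + 2 * √R)) ^ 2 :=
          pow_le_pow_left₀ (rpow_nonneg hX0 _) h6 2
      _ = 16 * C ^ 2 * (D * q * √G + 2 * √R) ^ 2 := by ring
      _ ≤ 16 * C ^ 2 * (2 * ((D * q * √G) ^ 2 + (2 * √R) ^ 2)) := by
          refine mul_le_mul_of_nonneg_left ?_ (by positivity)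
          nlinarith [sq_nonneg (D * q * √G - 2 * √R)]
      _ = _ := by
          rw [mul_pow (D * q), sq_sqrt hG0, mul_pow 2, sq_sqrt hR0]
          ring

end Vale.Agent.P219.End.WS
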