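import Vale.Agent.P219.End.BMono
import Vale.Agent.P219.End.DensBub
import Vale.Agent.P219.End.Pot
import Vale.Agent.P219.End.WeakSob
import Vale.Agent.P219.End.WeakPot

/-!
# P219 / End : the (non sharp) Sobolev inequality on the limit object

From the upper density bound and the potential estimate.
-/

open MeasureTheory Set Metric Filter
open scoped ENNReal ContDiff Topology

namespace Vale.Agent.P219.End

variable {n : ℕ}

/-- The kernel integral `∫_0^∞ e^(m/2-1) (f + e)^(1/2-m) de ≤ C f^((1-m)/2)`. -/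
theorem lint_kern {m f : ℝ} (hm : 1 < m) (hf : 0 < f) :
    ∫⁻ e in Ioi (0 : ℝ), ENNReal.ofReal (e ^ (m / 2 - 1) * (f + e) ^ (1 / 2 - m)) ≤
      ENNReal.ofReal ((2 / m + 2 / (m - 1)) * f ^ ((1 - m) / 2)) := by
  have hm1 : 0 < m - 1 := by linarith
  have hm0 : 0 < m := by linarith
  have hsplit : Ioi (0 : ℝ) = Ioc 0 f ∪ Ioi f := (Ioc_union_Ioi_eq_Ioi hf.le).symm
  rw [hsplit]
  refine (lintegral_union_le _ _ _).trans ?_
  have h1 : ∫⁻ e in Ioc 0 f, ENNReal.ofReal (e ^ (m / 2 - 1) * (f + e) ^ (1 / 2 - m)) ≤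
      ENNReal.ofReal (2 / m * f ^ ((1 - m) / 2)) := by
    calc ∫⁻ e in Ioc 0 f, ENNReal.ofReal (e ^ (m / 2 - 1) * (f + e) ^ (1 / 2 - m))
        ≤ ∫⁻ e in Ioc 0 f, ENNReal.ofReal (e ^ (m / 2 - 1) * f ^ (1 / 2 - m)) := by
          refine setLIntegral_mono' measurableSet_Ioc fun e he => ENNReal.ofReal_le_ofReal ?_
          refine mul_le_mul_of_nonneg_left ?_ (Real.rpow_nonneg he.1.le _)
          exact Real.rpow_le_rpow_of_nonpos hf (by linarith [he.1]) (by linarith)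
      _ = ENNReal.ofReal (∫ e in Ioc 0 f, e ^ (m / 2 - 1) * f ^ (1 / 2 - m)) := by
          rw [ofReal_integral_eq_lintegral_ofReal]
          · exact ((intervalIntegral.intervalIntegrable_rpow' (by linarith)).mul_const _).1
          · refine (ae_restrict_iff' measurableSet_Ioc).2 (Eventually.of_forall fun e he => ?_)
            exact mul_nonneg (Real.rpow_nonneg he.1.le _) (Real.rpow_nonneg hf.le _)
      _ = ENNReal.ofReal (2 / m * f ^ ((1 - m) / 2)) := by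
          congr 1
          rw [← intervalIntegral.integral_of_le hf.le, intervalIntegral.integral_mul_const,
            integral_rpow (Or.inl (by linarith)), sub_add_cancel, Real.zero_rpow (by positivity),
            sub_zero, div_mul_eq_mul_div, ← Real.rpow_add hf]
          rw [show m / 2 + (1 / 2 - m) = (1 - m) / 2 by ring]
          field_simp
  have h2 : ∫⁻ e in Ioi f, ENNReal.ofReal (e ^ (m / 2 - 1) * (f + e) ^ (1 / 2 - m)) ≤
      ENNReal.ofReal (2 / (m - 1) * f ^ ((1 - m) / 2)) := by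
    calc ∫⁻ e in Ioi f, ENNReal.ofReal (e ^ (m / 2 - 1) * (f + e) ^ (1 / 2 - m))
        ≤ ∫⁻ e in Ioi f, ENNReal.ofReal (e ^ (-(m + 1) / 2)) := by
          refine setLIntegral_mono' measurableSet_Ioi fun e he => ENNReal.ofReal_le_ofReal ?_
          have he' : f < e := he
          have he0 : 0 < e := hf.trans he'
          calc e ^ (m / 2 - 1) * (f + e) ^ (1 / 2 - m)
              ≤ e ^ (m / 2 - 1) * e ^ (1 / 2 - m) := by
                refine mul_le_mul_of_nonneg_left ?_ (Real.rpow_nonneg he0.le _)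
                exact Real.rpow_le_rpow_of_nonpos he0 (by linarith) (by linarith)
            _ = e ^ (-(m + 1) / 2) := by
                rw [← Real.rpow_add he0]
                congr 1
                ring
      _ = ENNReal.ofReal (∫ e in Ioi f, e ^ (-(m + 1) / 2)) := by
          rw [ofReal_integral_eq_lintegral_ofReal]
          · exact integrableOn_Ioi_rpow_of_lt (by linarith) hf
          · refine (ae_restrict_iff' measurableSet_Ioi).2 (Eventually.of_forall fun e he => ?_)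
            exact Real.rpow_nonneg (hf.trans he).le _
      _ = ENNReal.ofReal (2 / (m - 1) * f ^ ((1 - m) / 2)) := by
          congr 1
          rw [integral_Ioi_rpow_of_lt (by linarith) hf,
            show -(m + 1) / 2 + 1 = (1 - m) / 2 by ring]
          have h3 : (1 - m) / 2 ≠ 0 := by
            intro h
            linarith
          have h4 : m - 1 ≠ 0 := hm1.ne'
          rw [show (1 - m) / 2 = -((m - 1) / 2) by ring]
          field_simp
  refine (add_le_add h1 h2).trans (le_of_eq ?_)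
  rw [← ENNReal.ofReal_add (by positivity) (by positivity), add_mul]

namespace Lim

variable (L : Lim n)

/-- growth of the balls `{√F < ρ}`, from the upper density bound -/
theorem growth_of_upper {C : ℝ} (hUD : ∀ c ∈ L.K, ∀ a > 0,
    L.V.real {z | L.F c z.1 ≤ a} ≤ C * a ^ (L.m / 2)) {c : E n} (hc : c ∈ L.K) (ρ : ℝ)
    (hρ : ρ > 0) :
    L.V {p | √(L.F p.1 c) < ρ} ≤ ENNReal.ofReal (max C 0 * ρ ^ L.m) := by
  have h1 : {p : E n × E n | √(L.F p.1 c) < ρ} ⊆ {z | L.F c z.1 ≤ ρ ^ 2} := by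
    intro p hp
    have hp' : √(L.F p.1 c) < ρ := hp
    have h2 : L.F p.1 c ≤ ρ ^ 2 := by
      rw [← Real.sqrt_le_left hρ.le]
      exact hp'.le
    show L.F c p.1 ≤ ρ ^ 2
    rw [L.F_comm]
    exact h2
  refine (measure_mono h1).trans ?_
  rw [← ofReal_measureReal]
  refine ENNReal.ofReal_le_ofReal ((hUD c hc (ρ ^ 2) (by positivity)).trans ?_)
  have e : (ρ ^ 2) ^ (L.m / 2) = ρ ^ L.m := by
    rw [← Real.rpow_natCast ρ 2, ← Real.rpow_mul hρ.le]
    congr 1
    push_cast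
    ring
  rw [e]
  exact mul_le_mul_of_nonneg_right (le_max_left _ _) (Real.rpow_nonneg hρ.le _)

/-- gradient of a function of `u` -/
theorem G_comp {ψ : ℝ → ℝ} (hψ : Differentiable ℝ ψ) {u : E n → ℝ} (hu : Differentiable ℝ u)
    (η : ℝ) (z : E n × E n) :
    L.G (fun x => ψ (u x + η)) (fun x => ψ (u x + η)) z =
      deriv ψ (u z.1 + η) ^ 2 * L.G u u z := by
  have h1 : HasDerivAt (fun t => ψ (t + η)) (deriv ψ (u z.1 + η)) (u z.1) :=
    HasDerivAt.comp_add_const (u z.1) η (hψ (u z.1 + η)).hasDerivAt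
  have h3 := D_comp (A := L.A) (u := u) (x := z.1) h1 (hu z.1)
  show gv _ _ _ = _ * gv _ _ _
  rw [h3, gv_smul_left, gv_smul_right]
  ring

/-- The weak type inequality from the potential estimate. -/
theorem weak_of_pot {C C₁ C₂ : ℝ} (hUD : ∀ c ∈ L.K, ∀ a > 0,
    L.V.real {z | L.F c z.1 ≤ a} ≤ C * a ^ (L.m / 2)) (hC₁ : 0 ≤ C₁) (hC₂ : 0 ≤ C₂)
    (hpot : ∀ᵐ p ∂L.V, ∀ Φ : E n → ℝ, ContDiff ℝ ∞ Φ → (∀ x, 0 ≤ Φ x) →
      ENNReal.ofReal (Φ p.1) ≤
        ∫⁻ z, ENNReal.ofReal (C₁ * √(L.F p.1 z.1) ^ (1 - L.m)) *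
          ENNReal.ofReal (√(L.G Φ Φ z) + Φ z.1) ∂L.V +
        ENNReal.ofReal (C₂ * ∫ z, Φ z.1 ∂L.V)) :
    ∃ C₄ : ℝ, 0 ≤ C₄ ∧ ∀ Φ : E n → ℝ, ContDiff ℝ ∞ Φ → (∀ x, 0 ≤ Φ x) → ∀ t : ℝ, 0 < t →
      t * (L.V.real {z | t ≤ Φ z.1}) ^ ((L.m - 1) / L.m) ≤
        C₄ * ∫ z, (√(L.G Φ Φ z) + Φ z.1) ∂L.V := by
  classical
  have hm : 1 < L.m := by linarith [L.three_le]
  set C₃ : ℝ := C₁ * (2 ^ L.m * max C 0 + 1) with hC₃
  have hC₃0 : 0 ≤ C₃ := by positivity
  set K : E n × E n → E n × E n → ℝ≥0∞ := fun p z =>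
    if z.1 ∈ L.K then ENNReal.ofReal (C₁ * √(L.F p.1 z.1) ^ (1 - L.m)) else 0 with hK
  have hKset : MeasurableSet {q : (E n × E n) × (E n × E n) | q.2.1 ∈ L.K} :=
    L.K_compact.measurableSet.preimage (measurable_fst.comp measurable_snd)
  have hFm : Measurable fun q : (E n × E n) × (E n × E n) => L.F q.1.1 q.2.1 :=
    (L.F_smooth.continuous.comp (by fun_prop : Continuous fun q : (E n × E n) × (E n × E n) =>
      (q.1.1, q.2.1))).measurable
  have hKm : Measurable (Function.uncurry K) := by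
    have h1 : Function.uncurry K = fun q : (E n × E n) × (E n × E n) => if q.2.1 ∈ L.K then
        ENNReal.ofReal (C₁ * √(L.F q.1.1 q.2.1) ^ (1 - L.m)) else 0 := by
      funext q
      rfl
    rw [h1]
    refine Measurable.ite hKset ?_ measurable_const
    exact ((hFm.sqrt.pow_const _).const_mul _).ennreal_ofReal
  have hKint : ∀ z, ∀ E', MeasurableSet E' →
      ∫⁻ p in E', K p z ∂L.V ≤ ENNReal.ofReal C₃ * L.V E' ^ (1 / L.m) := by
    intro z E' _
    by_cases hz : z.1 ∈ L.K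
    · have h1 : ∀ p, K p z = ENNReal.ofReal C₁ *
          ENNReal.ofReal (√(L.F p.1 z.1) ^ (1 - L.m)) := by
        intro p
        rw [hK]
        simp only [hz, if_true]
        rw [ENNReal.ofReal_mul hC₁]
      simp only [h1]
      have hr : Measurable fun p : E n × E n => √(L.F p.1 z.1) :=
        ((L.F_smooth.continuous.comp (by fun_prop : Continuous fun p : E n × E n =>
          (p.1, z.1))).measurable).sqrt
      rw [lintegral_const_mul _ (hr.pow_const _).ennreal_ofReal]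
      have h2 := WS.lintegral_rpow_le_of_growth (V := L.V) (m := L.m) (Λ := max C 0) hm
        (le_max_right _ _) hr (fun _ => Real.sqrt_nonneg _)
        (fun ρ hρ => L.growth_of_upper hUD hz ρ hρ) (E := E') (measure_ne_top _ _)
      refine (mul_le_mul_right h2 _).trans (le_of_eq ?_)
      rw [← mul_assoc, ← ENNReal.ofReal_mul hC₁]
    · have h1 : ∀ p, K p z = 0 := by
        intro p
        rw [hK]
        simp only [hz, if_false]
      simp only [h1, lintegral_zero]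
      exact bot_le
  refine ⟨2 * (C₃ + C₂ * L.V.real univ ^ ((L.m - 1) / L.m)), by positivity,
    fun Φ hΦ hΦ0 t ht => ?_⟩
  have hΦc : Continuous fun z : E n × E n => Φ z.1 := hΦ.continuous.comp continuous_fst
  have hG : Continuous fun z : E n × E n => √(L.G Φ Φ z) + Φ z.1 :=
    ((L.G_cont (hΦ.of_le (by exact_mod_cast le_top)) (hΦ.of_le (by exact_mod_cast le_top))).sqrt).add
      hΦc
  have hg0 : ∀ z : E n × E n, 0 ≤ √(L.G Φ Φ z) + Φ z.1 := fun z =>
    add_nonneg (Real.sqrt_nonneg _) (hΦ0 _)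
  have h1 := WS.weak_of_potential (V := L.V) (m := L.m) (C₂ := C₂) (C₃ := C₃) hm hC₂ hC₃0
    (Φ := fun z => Φ z.1) (g := fun z => √(L.G Φ Φ z) + Φ z.1) hΦc.measurable (fun z => hΦ0 _)
    (L.integrable_of_cont hΦc) hG.measurable hg0 (L.integrable_of_cont hG) hKm hKint
    (by
      filter_upwards [hpot] with p hp
      refine (hp Φ hΦ hΦ0).trans (add_le_add_left (le_of_eq ?_) _)
      refine lintegral_congr_ae ?_
      filter_upwards [L.V_supp] with z hz
      rw [hK]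
      simp only [hz.1, if_true]) ht
  refine h1.trans ?_
  have h2 : ∫ z, ((√(L.G Φ Φ z) + Φ z.1) + Φ z.1) ∂L.V ≤
      2 * ∫ z, (√(L.G Φ Φ z) + Φ z.1) ∂L.V := by
    rw [← integral_const_mul]
    refine integral_mono (L.integrable_of_cont (hG.add hΦc))
      ((L.integrable_of_cont hG).const_mul 2) fun z => ?_
    have := Real.sqrt_nonneg (L.G Φ Φ z)
    simp only
    linarith
  calc (C₃ + C₂ * L.V.real univ ^ ((L.m - 1) / L.m)) *
        ∫ z, ((√(L.G Φ Φ z) + Φ z.1) + Φ z.1) ∂L.V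
      ≤ (C₃ + C₂ * L.V.real univ ^ ((L.m - 1) / L.m)) *
        (2 * ∫ z, (√(L.G Φ Φ z) + Φ z.1) ∂L.V) :=
        mul_le_mul_of_nonneg_left h2 (by positivity)
    _ = 2 * (C₃ + C₂ * L.V.real univ ^ ((L.m - 1) / L.m)) *
        ∫ z, (√(L.G Φ Φ z) + Φ z.1) ∂L.V := by ring

/-- The Sobolev inequality from the potential estimate in kernel form. -/
theorem sobolev_of_pot {C C₁ C₂ : ℝ} (hUD : ∀ c ∈ L.K, ∀ a > 0,
    L.V.real {z | L.F c z.1 ≤ a} ≤ C * a ^ (L.m / 2)) (hC₁ : 0 ≤ C₁) (hC₂ : 0 ≤ C₂)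
    (hpot : ∀ᵐ p ∂L.V, ∀ Φ : E n → ℝ, ContDiff ℝ ∞ Φ → (∀ x, 0 ≤ Φ x) →
      ENNReal.ofReal (Φ p.1) ≤
        ∫⁻ z, ENNReal.ofReal (C₁ * √(L.F p.1 z.1) ^ (1 - L.m)) *
          ENNReal.ofReal (√(L.G Φ Φ z) + Φ z.1) ∂L.V +
        ENNReal.ofReal (C₂ * ∫ z, Φ z.1 ∂L.V)) :
    ∃ C > 0, ∀ u : E n → ℝ, ContDiff ℝ ∞ u → (∀ x, 0 ≤ u x) →
      (∫ z, u z.1 ^ L.ps ∂L.V) ^ (2 / L.ps) ≤
        C * (∫ z, L.G u u z ∂L.V + ∫ z, u z.1 ^ 2 ∂L.V) := by
  classical
  have hm3 := L.three_le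
  have hm0 := L.m_pos
  have hm2 := L.m_sub_pos
  obtain ⟨C₄, hC₄, hweak⟩ := L.weak_of_pot hUD hC₁ hC₂ hpot
  obtain ⟨D, hD0, hD⟩ := WS.exists_deriv_bound
  set A₁ : ℝ := 32 * C₄ ^ 2 * (D * (2 * (L.m - 1) / (L.m - 2))) ^ 2 with hA₁
  set A₂ : ℝ := 32 * C₄ ^ 2 * 4 with hA₂
  have hA₁0 : 0 ≤ A₁ := by positivity
  have hA₂0 : 0 ≤ A₂ := by positivity
  refine ⟨A₁ + A₂ + 1, by positivity, fun u hu hu0 => ?_⟩
  have hu1 : ContDiff ℝ 1 u := hu.of_le (by exact_mod_cast le_top)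
  have huc : Continuous fun z : E n × E n => u z.1 := hu.continuous.comp continuous_fst
  have hGc : Continuous fun z : E n × E n => L.G u u z := L.G_cont hu1 hu1
  obtain ⟨B₀, hB₀⟩ := L.K_compact.exists_bound_of_continuousOn hu.continuous.continuousOn
  have hexp : 2 / L.ps = (L.m - 2) / L.m := by
    unfold ps
    field_simp
  have hps0 : 0 < L.ps := by
    unfold ps
    positivity
  have hG0 : ∀ᵐ z ∂L.V, 0 ≤ L.G u u z := by
    filter_upwards [L.V_supp] with z hz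
    exact L.G_self_nonneg u hz.2
  -- the inequality for `u + η`
  have key : ∀ η : ℝ, 0 < η → (∫ z, u z.1 ^ L.ps ∂L.V) ^ (2 / L.ps) ≤
      A₁ * (∫ z, L.G u u z ∂L.V) + A₂ * ∫ z, (u z.1 + η) ^ 2 ∂L.V := by
    intro η hη
    set U : E n × E n → ℝ := fun z => if z.1 ∈ L.K then u z.1 + η else 1 with hU
    have hUae : ∀ᵐ z ∂L.V, U z = u z.1 + η := by
      filter_upwards [L.V_supp] with z hz
      rw [hU]
      simp only [hz.1, if_true]
    have hUm : Measurable U := by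
      rw [hU]
      refine Measurable.ite ?_ ((huc.add continuous_const).measurable) measurable_const
      exact L.K_compact.measurableSet.preimage measurable_fst
    have hUpos : ∀ z, 0 < U z := by
      intro z
      rw [hU]
      simp only
      split_ifs
      · linarith [hu0 z.1]
      · exact one_pos
    have hUB : ∀ z, U z ≤ max (B₀ + η) 1 := by
      intro z
      rw [hU]
      simp only
      split_ifs with hz
      · refine le_trans ?_ (le_max_left _ _)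
        have := (le_abs_self _).trans (hB₀ z.1 hz)
        linarith
      · exact le_max_right _ _
    have hg2 : MemLp (fun z : E n × E n => √(L.G u u z)) 2 L.V := by
      rw [memLp_two_iff_integrable_sq hGc.sqrt.aestronglyMeasurable]
      exact L.integrable_of_cont (hGc.sqrt.pow 2)
    have hWT : WS.WT L.V ((L.m - 1) / L.m) C₄ U (fun z => √(L.G u u z)) := by
      intro ψ hψ t ht
      have hΦs : ContDiff ℝ ∞ fun x => ψ (u x + η) := hψ.smooth.comp (hu.add contDiff_const)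
      have h1 := hweak (fun x => ψ (u x + η)) hΦs (fun x => hψ.nonneg _) t ht
      have e1 : L.V.real {z | t ≤ ψ (U z)} = L.V.real {z | t ≤ ψ (u z.1 + η)} := by
        refine measureReal_congr ?_
        filter_upwards [hUae] with z hz
        refine propext ?_
        show t ≤ ψ (U z) ↔ t ≤ ψ (u z.1 + η)
        rw [hz]
      have hψd : Differentiable ℝ ψ := hψ.smooth.differentiable (by simp)
      have e2 : ∫ z, (|deriv ψ (U z)| * √(L.G u u z) + ψ (U z)) ∂L.V =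
          ∫ z, (√(L.G (fun x => ψ (u x + η)) (fun x => ψ (u x + η)) z) + ψ (u z.1 + η)) ∂L.V := by
        refine integral_congr_ae ?_
        filter_upwards [hUae] with z hz
        rw [hz, L.G_comp hψd (hu1.differentiable (by norm_num)) η z,
          Real.sqrt_mul (sq_nonneg _), Real.sqrt_sq_eq_abs]
      rw [e1, e2]
      exact h1
    have h2 := WS.sobolev_two (V := L.V) (m := L.m) (by linarith) hC₄ hUm hUpos hUB
      (fun z => Real.sqrt_nonneg _) hg2 hWT hD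
    have e3 : ∫ z, √(L.G u u z) ^ 2 ∂L.V = ∫ z, L.G u u z ∂L.V := by
      refine integral_congr_ae ?_
      filter_upwards [hG0] with z hz
      exact Real.sq_sqrt hz
    have e4 : ∫ z, U z ^ 2 ∂L.V = ∫ z, (u z.1 + η) ^ 2 ∂L.V := by
      refine integral_congr_ae ?_
      filter_upwards [hUae] with z hz
      rw [hz]
    have e5 : ∫ z, U z ^ (2 * L.m / (L.m - 2)) ∂L.V = ∫ z, (u z.1 + η) ^ L.ps ∂L.V := by
      refine integral_congr_ae ?_
      filter_upwards [hUae] with z hz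
      rw [hz]
      rfl
    rw [e3, e4, e5, ← hexp] at h2
    have h3 : ∫ z, u z.1 ^ L.ps ∂L.V ≤ ∫ z, (u z.1 + η) ^ L.ps ∂L.V := by
      refine integral_mono
        (L.integrable_of_cont (huc.rpow_const fun z => Or.inr hps0.le))
        (L.integrable_of_cont ((huc.add continuous_const).rpow_const fun z => Or.inr hps0.le))
        fun z => ?_
      exact Real.rpow_le_rpow (hu0 _) (by linarith) hps0.le
    have h4 : 0 ≤ ∫ z, u z.1 ^ L.ps ∂L.V :=
      integral_nonneg fun z => Real.rpow_nonneg (hu0 _) _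
    calc (∫ z, u z.1 ^ L.ps ∂L.V) ^ (2 / L.ps)
        ≤ (∫ z, (u z.1 + η) ^ L.ps ∂L.V) ^ (2 / L.ps) :=
          Real.rpow_le_rpow h4 h3 (by positivity)
      _ ≤ _ := h2
      _ = A₁ * (∫ z, L.G u u z ∂L.V) + A₂ * ∫ z, (u z.1 + η) ^ 2 ∂L.V := by
          rw [hA₁, hA₂]
          ring
  -- let `η` tend to zero
  have hlim : Tendsto (fun η : ℝ => A₁ * (∫ z, L.G u u z ∂L.V) +
      A₂ * (∫ z, u z.1 ^ 2 ∂L.V + 2 * η * ∫ z, u z.1 ∂L.V + η ^ 2 * L.V.real univ)) (𝓝[>] 0)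
      (𝓝 (A₁ * (∫ z, L.G u u z ∂L.V) + A₂ * ∫ z, u z.1 ^ 2 ∂L.V)) := by
    have h1 : Continuous fun η : ℝ => A₁ * (∫ z, L.G u u z ∂L.V) +
      A₂ * (∫ z, u z.1 ^ 2 ∂L.V + 2 * η * ∫ z, u z.1 ∂L.V + η ^ 2 * L.V.real univ) := by
      fun_prop
    have h2 := (h1.tendsto 0).mono_left (nhdsWithin_le_nhds (s := Ioi 0))
    simpa using h2
  have hfin : (∫ z, u z.1 ^ L.ps ∂L.V) ^ (2 / L.ps) ≤
      A₁ * (∫ z, L.G u u z ∂L.V) + A₂ * ∫ z, u z.1 ^ 2 ∂L.V := by
    refine ge_of_tendsto hlim ?_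
    filter_upwards [self_mem_nhdsWithin] with η hη
    refine (key η hη).trans (le_of_eq ?_)
    congr 2
    have i1 : Integrable (fun z : E n × E n => u z.1 ^ 2) L.V := L.integrable_of_cont (huc.pow 2)
    have i2 : Integrable (fun z : E n × E n => 2 * η * u z.1) L.V :=
      (L.integrable_of_cont huc).const_mul (2 * η)
    have i12 : Integrable (fun z : E n × E n => u z.1 ^ 2 + 2 * η * u z.1) L.V := i1.add i2
    calc ∫ z, (u z.1 + η) ^ 2 ∂L.V
        = ∫ z, (u z.1 ^ 2 + 2 * η * u z.1 + η ^ 2) ∂L.V := by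
          refine integral_congr_ae (Eventually.of_forall fun z => ?_)
          simp only
          ring
      _ = _ := by
          rw [integral_add i12 (integrable_const _), integral_add i1 i2,
            integral_const_mul, integral_const, smul_eq_mul]
          ring
  have h5 : 0 ≤ ∫ z, L.G u u z ∂L.V := integral_nonneg_of_ae hG0
  have h6 : 0 ≤ ∫ z, u z.1 ^ 2 ∂L.V := integral_nonneg fun z => sq_nonneg _
  have h7 : 0 ≤ A₂ * ∫ z, L.G u u z ∂L.V := by positivity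
  have h8 : 0 ≤ A₁ * ∫ z, u z.1 ^ 2 ∂L.V := by positivity
  linarith

/-- `ofReal (∫ f) ≤ ∫⁻ ofReal f` -/
theorem ofReal_integral_le {f : E n × E n → ℝ} (hf : Integrable f L.V) :
    ENNReal.ofReal (∫ z, f z ∂L.V) ≤ ∫⁻ z, ENNReal.ofReal (f z) ∂L.V := by
  calc ENNReal.ofReal (∫ z, f z ∂L.V) ≤ ENNReal.ofReal (∫ z, max (f z) 0 ∂L.V) := by
        refine ENNReal.ofReal_le_ofReal (integral_mono hf hf.pos_part fun z => le_max_left _ _)
    _ = ∫⁻ z, ENNReal.ofReal (max (f z) 0) ∂L.V :=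
        ofReal_integral_eq_lintegral_ofReal hf.pos_part
          (Eventually.of_forall fun z => le_max_right _ _)
    _ = ∫⁻ z, ENNReal.ofReal (f z) ∂L.V := by
        refine lintegral_congr fun z => ?_
        rcases le_total (f z) 0 with h | h
        · rw [max_eq_right h, ENNReal.ofReal_of_nonpos h, ENNReal.ofReal_zero]
        · rw [max_eq_left h]

theorem wsob_kS_nonneg {S : ℝ} (hS : 0 < S) (c x : E n) : 0 ≤ L.kS S (L.ds c x) := by
  have hd0 : 0 ≤ L.ds c x := Real.sqrt_nonneg _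
  unfold kS
  positivity

theorem wsob_kS_le {S : ℝ} (hS : 0 < S) (c x : E n) :
    L.kS S (L.ds c x) ≤ √(L.F c x) ^ (1 - L.m) := by
  have hm0 := L.m_pos
  have hm3 := L.three_le
  have hd0 : 0 ≤ L.ds c x := Real.sqrt_nonneg _
  unfold kS
  have h4 : (S / (S + L.ds c x)) ^ L.m ≤ 1 := by
    refine Real.rpow_le_one (by positivity) ?_ hm0.le
    rw [div_le_one (by positivity)]
    linarith
  have h5 : L.ds c x ^ (1 - L.m) ≤ √(L.F c x) ^ (1 - L.m) := by
    unfold ds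
    rw [Real.sqrt_mul two_pos.le, Real.mul_rpow (Real.sqrt_nonneg _) (Real.sqrt_nonneg _)]
    have h6 : √(2 : ℝ) ^ (1 - L.m) ≤ 1 := by
      refine Real.rpow_le_one_of_one_le_of_nonpos ?_ (by linarith)
      rw [Real.one_le_sqrt]
      norm_num
    exact mul_le_of_le_one_left (Real.rpow_nonneg (Real.sqrt_nonneg _) _) h6
  calc (S / (S + L.ds c x)) ^ L.m * L.ds c x ^ (1 - L.m)
      ≤ 1 * L.ds c x ^ (1 - L.m) :=
        mul_le_mul_of_nonneg_right h4 (Real.rpow_nonneg hd0 _)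
    _ ≤ _ := by rw [one_mul]; exact h5

/-- integrability of the kernel -/
theorem wsob_kS_integrable {c : E n} (hc : c ∈ L.K) {S : ℝ} (hS : 0 < S) :
    Integrable (fun z => L.kS S (L.ds c z.1)) L.V := by
  have hm : 1 < L.m := by linarith [L.three_le]
  have hr : Measurable fun p : E n × E n => √(L.F p.1 c) :=
    ((L.F_smooth.continuous.comp (by fun_prop : Continuous fun p : E n × E n =>
      (p.1, c))).measurable).sqrt
  have h2 := WS.lintegral_rpow_le_of_growth (V := L.V) (m := L.m) (Λ := max L.Cu 0) hm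
    (le_max_right _ _) hr (fun _ => Real.sqrt_nonneg _)
    (fun ρ hρ => L.growth_of_upper (fun c hc a ha => L.upper hc ha) hc ρ hρ) (E := univ)
    (measure_ne_top _ _)
  rw [Measure.restrict_univ] at h2
  have h3 : Integrable (fun p : E n × E n => √(L.F p.1 c) ^ (1 - L.m)) L.V := by
    rw [← lintegral_ofReal_ne_top_iff_integrable (hr.pow_const _).aestronglyMeasurable
      (Eventually.of_forall fun p => Real.rpow_nonneg (Real.sqrt_nonneg _) _)]
    refine ne_top_of_le_ne_top ?_ h2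
    refine ENNReal.mul_ne_top ENNReal.ofReal_ne_top ?_
    exact ENNReal.rpow_ne_top_of_nonneg (by positivity) (measure_ne_top _ _)
  refine h3.mono' ?_ (Eventually.of_forall fun z => ?_)
  · have hd : Measurable fun z : E n × E n => L.ds c z.1 :=
      (((L.Fc_cont c).comp continuous_fst).measurable.const_mul 2).sqrt
    unfold kS
    exact (((measurable_const.div (measurable_const.add hd)).pow_const _).mul
      (hd.pow_const _)).aestronglyMeasurable
  · rw [Real.norm_of_nonneg (L.wsob_kS_nonneg hS c z.1), L.F_comm z.1 c]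
    exact L.wsob_kS_le hS c z.1

/-- The potential estimate in kernel form, from the potential estimate with the truncated
kernel. -/
theorem kernel_of_pot
    (hpot : ∃ C > 0, ∀ᵐ z₀ ∂L.V, ∀ Φ : E n → ℝ, ContDiff ℝ ∞ Φ → (∀ x, 0 ≤ Φ x) →
    ∀ S, L.Ad S → sg L.m * Φ z₀.1 ≤ L.Js Φ z₀.1 S +
      C * ∫ z, (Φ z.1 * L.ds z₀.1 z.1 + √(L.G Φ Φ z)) * L.kS S (L.ds z₀.1 z.1) ∂L.V) :
    ∃ C₁ C₂ : ℝ, 0 ≤ C₁ ∧ 0 ≤ C₂ ∧ ∀ᵐ p ∂L.V, ∀ Φ : E n → ℝ, ContDiff ℝ ∞ Φ → (∀ x, 0 ≤ Φ x) →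
      ENNReal.ofReal (Φ p.1) ≤
        ∫⁻ z, ENNReal.ofReal (C₁ * √(L.F p.1 z.1) ^ (1 - L.m)) *
          ENNReal.ofReal (√(L.G Φ Φ z) + Φ z.1) ∂L.V +
        ENNReal.ofReal (C₂ * ∫ z, Φ z.1 ∂L.V) := by
  obtain ⟨C, hC, h⟩ := hpot
  have hm0 := L.m_pos
  have hm3 := L.three_le
  have hk := L.k2_nonneg
  have hsg : 0 < sg L.m := potL_sg_pos hm0
  obtain ⟨M, hM0, hM⟩ : ∃ M : ℝ, 0 ≤ M ∧ ∀ c ∈ L.K, ∀ x ∈ L.K, L.F c x ≤ M := by
    have h1 : Continuous fun z : E n × E n => L.F z.1 z.2 := L.F_smooth.continuous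
    obtain ⟨B, hB⟩ :=
      (L.K_compact.prod L.K_compact).exists_bound_of_continuousOn h1.continuousOn
    refine ⟨|B|, abs_nonneg B, fun c hc x hx => ?_⟩
    exact (le_abs_self _).trans ((hB (c, x) ⟨hc, hx⟩).trans (le_abs_self B))
  set S : ℝ := 1 / (1 + L.k2) with hS
  have hS0 : 0 < S := by positivity
  have hS1 : S ≤ 1 := by
    rw [hS, div_le_one (by positivity)]
    linarith
  have hSk : L.k2 * S ≤ 1 := by
    rw [hS, mul_one_div, div_le_one (by positivity)]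
    linarith
  have hAd : L.Ad S := by
    refine ⟨hS0, hS1, ?_⟩
    calc L.k2 * S ^ 2 = (L.k2 * S) * S := by ring
      _ ≤ 1 * 1 := mul_le_mul hSk hS1 hS0.le zero_le_one
      _ = 1 := one_mul 1
  have hek : L.k2 * (S ^ 2 / 2) < 2 := by
    have := hAd.2.2
    linarith
  refine ⟨C * (√(2 * M) + 1) / sg L.m, √(2 / (S ^ 2 / 2)) ^ L.m / sg L.m, by positivity,
    by positivity, ?_⟩
  filter_upwards [h, L.V_supp] with p hp hpK Φ hΦ hΦ0
  have h1 := hp Φ hΦ hΦ0 S hAd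
  have hΦ1 : ContDiff ℝ 1 Φ := hΦ.of_le (by exact_mod_cast le_top)
  have hΦc : Continuous fun z : E n × E n => Φ z.1 := hΦ.continuous.comp continuous_fst
  -- the first term
  have h2 : L.Js Φ p.1 S ≤ √(2 / (S ^ 2 / 2)) ^ L.m * ∫ z, Φ z.1 ∂L.V := by
    have hw : ∀ x, L.ws p.1 S x ^ L.m ≤ √(2 / (S ^ 2 / 2)) ^ L.m := fun x =>
      Real.rpow_le_rpow (L.potL_ws_nonneg p.1 x) (L.w_le p.1 x (by positivity)) hm0.le
    unfold Js
    rw [← integral_const_mul]
    refine integral_mono (L.integrable_of_cont ?_) ((L.integrable_of_cont hΦc).const_mul _)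
      fun z => ?_
    · refine hΦc.mul (((L.potL_ws_cont hS0 p.1).comp continuous_fst).rpow_const fun z => Or.inr hm0.le)
    · simp only
      rw [mul_comm]
      exact mul_le_mul_of_nonneg_right (hw z.1) (hΦ0 _)
  -- the second term
  have h3 : ENNReal.ofReal (C * ∫ z, (Φ z.1 * L.ds p.1 z.1 + √(L.G Φ Φ z)) *
      L.kS S (L.ds p.1 z.1) ∂L.V) ≤ ENNReal.ofReal (sg L.m) *
      ∫⁻ z, ENNReal.ofReal (C * (√(2 * M) + 1) / sg L.m * √(L.F p.1 z.1) ^ (1 - L.m)) *
          ENNReal.ofReal (√(L.G Φ Φ z) + Φ z.1) ∂L.V := by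
    rw [← lintegral_const_mul' _ _ ENNReal.ofReal_ne_top, ← integral_const_mul]
    by_cases hi : Integrable (fun z => C * ((Φ z.1 * L.ds p.1 z.1 + √(L.G Φ Φ z)) *
      L.kS S (L.ds p.1 z.1))) L.V
    swap
    · rw [integral_undef hi, ENNReal.ofReal_zero]
      exact bot_le
    refine (L.ofReal_integral_le hi).trans ?_
    refine lintegral_mono_ae ?_
    filter_upwards [L.V_supp] with z hz
    have e0 : ∀ a b : ℝ, 0 ≤ a → ENNReal.ofReal (sg L.m) * (ENNReal.ofReal a * ENNReal.ofReal b) =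
        ENNReal.ofReal (sg L.m * a * b) := fun a b ha => by
      rw [ENNReal.ofReal_mul (mul_nonneg hsg.le ha), ENNReal.ofReal_mul hsg.le, mul_assoc]
    rw [e0 _ _ (by positivity)]
    refine ENNReal.ofReal_le_ofReal ?_
    have e1 : sg L.m * (C * (√(2 * M) + 1) / sg L.m * √(L.F p.1 z.1) ^ (1 - L.m)) =
        C * ((√(2 * M) + 1) * √(L.F p.1 z.1) ^ (1 - L.m)) := by
      field_simp
    rw [e1, mul_assoc]
    refine mul_le_mul_of_nonneg_left ?_ hC.le
    have hd0 : 0 ≤ L.ds p.1 z.1 := Real.sqrt_nonneg _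
    have hd1 : L.ds p.1 z.1 ≤ √(2 * M) :=
      Real.sqrt_le_sqrt (mul_le_mul_of_nonneg_left (hM _ hpK.1 _ hz.1) two_pos.le)
    have hk1 := L.wsob_kS_le hS0 p.1 z.1
    have hk0 := L.wsob_kS_nonneg hS0 p.1 z.1
    have h7 : Φ z.1 * L.ds p.1 z.1 + √(L.G Φ Φ z) ≤
        (√(2 * M) + 1) * (√(L.G Φ Φ z) + Φ z.1) := by
      have h8 := mul_le_mul_of_nonneg_left hd1 (hΦ0 z.1)
      have h9 : 0 ≤ √(2 * M) * √(L.G Φ Φ z) := by positivity
      have h10 := hΦ0 z.1
      nlinarith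
    calc (Φ z.1 * L.ds p.1 z.1 + √(L.G Φ Φ z)) * L.kS S (L.ds p.1 z.1)
        ≤ ((√(2 * M) + 1) * (√(L.G Φ Φ z) + Φ z.1)) * √(L.F p.1 z.1) ^ (1 - L.m) := by
          refine mul_le_mul h7 hk1 hk0 ?_
          have := hΦ0 z.1
          positivity
      _ = _ := by ring
  -- conclusion
  have h4 : 0 ≤ ∫ z, Φ z.1 ∂L.V := integral_nonneg fun z => hΦ0 _
  have hsg' : ENNReal.ofReal (sg L.m) ≠ 0 := by
    rw [Ne, ENNReal.ofReal_eq_zero, not_le]
    exact hsg
  have h5 : ENNReal.ofReal (sg L.m) * ENNReal.ofReal (Φ p.1) ≤ ENNReal.ofReal (sg L.m) *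
      (∫⁻ z, ENNReal.ofReal (C * (√(2 * M) + 1) / sg L.m * √(L.F p.1 z.1) ^ (1 - L.m)) *
          ENNReal.ofReal (√(L.G Φ Φ z) + Φ z.1) ∂L.V +
        ENNReal.ofReal (√(2 / (S ^ 2 / 2)) ^ L.m / sg L.m * ∫ z, Φ z.1 ∂L.V)) := by
    rw [← ENNReal.ofReal_mul hsg.le]
    refine (ENNReal.ofReal_le_ofReal h1).trans ?_
    refine ENNReal.ofReal_add_le.trans ?_
    rw [mul_add, add_comm]
    refine add_le_add h3 ?_
    rw [← ENNReal.ofReal_mul hsg.le]
    refine ENNReal.ofReal_le_ofReal (h2.trans (le_of_eq ?_))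
    field_simp
  exact (ENNReal.mul_le_mul_iff_right hsg' ENNReal.ofReal_ne_top).1 h5

/-- The Sobolev inequality from the potential estimate with the truncated kernel. -/
theorem sobolev_of_pot_kS
    (hpot : ∃ C > 0, ∀ᵐ z₀ ∂L.V, ∀ Φ : E n → ℝ, ContDiff ℝ ∞ Φ → (∀ x, 0 ≤ Φ x) →
    ∀ S, L.Ad S → sg L.m * Φ z₀.1 ≤ L.Js Φ z₀.1 S +
      C * ∫ z, (Φ z.1 * L.ds z₀.1 z.1 + √(L.G Φ Φ z)) * L.kS S (L.ds z₀.1 z.1) ∂L.V) :
    ∃ C > 0, ∀ u : E n → ℝ, ContDiff ℝ ∞ u → (∀ x, 0 ≤ u x) →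
      (∫ z, u z.1 ^ L.ps ∂L.V) ^ (2 / L.ps) ≤
        C * (∫ z, L.G u u z ∂L.V + ∫ z, u z.1 ^ 2 ∂L.V) := by
  obtain ⟨C₁, C₂, h1, h2, h3⟩ := L.kernel_of_pot hpot
  exact L.sobolev_of_pot (fun c hc a ha => L.upper hc ha) h1 h2 h3

/-- **The (non sharp) Sobolev inequality on the limit object.** -/
theorem sobolev : ∃ C > 0, ∀ u : E n → ℝ, ContDiff ℝ ∞ u → (∀ x, 0 ≤ u x) →
    (∫ z, u z.1 ^ L.ps ∂L.V) ^ (2 / L.ps) ≤
      C * (∫ z, L.G u u z ∂L.V + ∫ z, u z.1 ^ 2 ∂L.V) :=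
  L.sobolev_of_pot_kS (L.pot_of L.upper_density L.dens_bub L.wsob_kS_integrable)

/-- B4 of the skeleton -/
theorem wsob : ∃ C > 0, ∀ v : E n → ℝ, ContDiff ℝ ∞ v → (∀ x, 0 ≤ v x) →
    (∫ z, v z.1 ^ L.ps ∂L.V) ^ (2 / L.ps) ≤
      C * ((∫ z, L.G v v z ∂L.V) + ∫ z, v z.1 ^ 2 ∂L.V) :=
  L.sobolev

end Lim

end Vale.Agent.P219.End
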