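import Mathlib

open MeasureTheory Set Filter Topology
open scoped ENNReal NNReal Real

namespace Vale.Agent.P219.Mono

noncomputable section

variable {Z : Type*} [MeasurableSpace Z] {V : Measure Z}

/-- bounded measurable functions -/
def BM (f : Z → ℝ) : Prop := Measurable f ∧ ∃ C : ℝ, ∀ z, |f z| ≤ C

lemma BM.mul {f g : Z → ℝ} (hf : BM f) (hg : BM g) : BM (fun z => f z * g z) := by
  obtain ⟨h1, A, hA⟩ := hf
  obtain ⟨h2, B, hB⟩ := hg
  refine ⟨h1.mul h2, A * B, fun z => ?_⟩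
  rw [abs_mul]
  exact mul_le_mul (hA z) (hB z) (abs_nonneg _) ((abs_nonneg _).trans (hA z))

lemma BM.add {f g : Z → ℝ} (hf : BM f) (hg : BM g) : BM (fun z => f z + g z) := by
  obtain ⟨h1, A, hA⟩ := hf
  obtain ⟨h2, B, hB⟩ := hg
  exact ⟨h1.add h2, A + B, fun z => (abs_add_le _ _).trans (add_le_add (hA z) (hB z))⟩

lemma BM.sub {f g : Z → ℝ} (hf : BM f) (hg : BM g) : BM (fun z => f z - g z) := by
  obtain ⟨h1, A, hA⟩ := hf
  obtain ⟨h2, B, hB⟩ := hg
  exact ⟨h1.sub h2, A + B, fun z => (abs_sub _ _).trans (add_le_add (hA z) (hB z))⟩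

lemma BM.const (c : ℝ) : BM (fun _ : Z => c) := ⟨measurable_const, |c|, fun _ => le_rfl⟩

lemma BM.const_mul {f : Z → ℝ} (hf : BM f) (c : ℝ) : BM (fun z => c * f z) :=
  (BM.const c).mul hf

lemma BM.pow {f : Z → ℝ} (hf : BM f) (n : ℕ) : BM (fun z => f z ^ n) := by
  obtain ⟨h1, A, hA⟩ := hf
  refine ⟨h1.pow_const n, A ^ n, fun z => ?_⟩
  rw [abs_pow]
  exact pow_le_pow_left₀ (abs_nonneg _) (hA z) n

lemma BM.abs {f : Z → ℝ} (hf : BM f) : BM (fun z => |f z|) := by
  obtain ⟨h1, A, hA⟩ := hf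
  exact ⟨h1.abs, A, fun z => by rw [abs_abs]; exact hA z⟩

lemma BM.exp {f : Z → ℝ} (hf : BM f) (t : ℝ) : BM (fun z => Real.exp (-(t * f z))) := by
  obtain ⟨h1, A, hA⟩ := hf
  refine ⟨Real.measurable_exp.comp ((h1.const_mul t).neg), Real.exp (|t| * A), fun z => ?_⟩
  rw [Real.abs_exp]
  apply Real.exp_le_exp.2
  calc -(t * f z) ≤ |t * f z| := neg_le_abs _
    _ = |t| * |f z| := abs_mul _ _
    _ ≤ |t| * A := mul_le_mul_of_nonneg_left (hA z) (abs_nonneg t)

lemma BM.integrable [IsFiniteMeasure V] {f : Z → ℝ} (hf : BM f) : Integrable f V := by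
  obtain ⟨h1, A, hA⟩ := hf
  exact Integrable.of_bound (C := A) h1.aestronglyMeasurable
    (Eventually.of_forall fun z => by rw [Real.norm_eq_abs]; exact hA z)

/-- `∫ e^{-t r2} g` -/
def Lp (V : Measure Z) (r2 g : Z → ℝ) (t : ℝ) : ℝ := ∫ z, Real.exp (-(t * r2 z)) * g z ∂V

/-- normalised Gaussian integral `(t/π)^{m/2} ∫ e^{-t r2} g` -/
def Ig (V : Measure Z) (m : ℝ) (r2 g : Z → ℝ) (t : ℝ) : ℝ := (t / π) ^ (m / 2) * Lp V r2 g t

section basic

variable [IsFiniteMeasure V] {r2 g g' : Z → ℝ}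

lemma integrable_exp_mul (hr : BM r2) (hg : BM g) (t : ℝ) :
    Integrable (fun z => Real.exp (-(t * r2 z)) * g z) V := ((hr.exp t).mul hg).integrable

lemma hasDerivAt_Lp (hr : BM r2) (hg : BM g) (t : ℝ) :
    HasDerivAt (Lp V r2 g) (-(Lp V r2 (fun z => r2 z * g z) t)) t := by
  obtain ⟨hr1, R, hR⟩ := id hr
  obtain ⟨hg1, B, hB⟩ := id hg
  have hmain := hasDerivAt_integral_of_dominated_loc_of_deriv_le (μ := V)
    (F := fun t z => Real.exp (-(t * r2 z)) * g z)
    (F' := fun t z => -(Real.exp (-(t * r2 z)) * (r2 z * g z)))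
    (x₀ := t) (s := Metric.ball t 1) (bound := fun _ => Real.exp ((|t| + 1) * R) * (R * B))
    (Metric.ball_mem_nhds t one_pos)
    (Eventually.of_forall fun x => (integrable_exp_mul hr hg x).aestronglyMeasurable)
    (integrable_exp_mul hr hg t)
    (by
      exact (((Real.measurable_exp.comp ((hr1.const_mul t).neg)).mul
        (hr1.mul hg1)).neg).aestronglyMeasurable)
    (by
      refine Eventually.of_forall fun z x hx => ?_
      rw [norm_neg, norm_mul, Real.norm_eq_abs, Real.norm_eq_abs, Real.abs_exp, abs_mul]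
      have hR0 : 0 ≤ R := (abs_nonneg _).trans (hR z)
      have hx' : |x| ≤ |t| + 1 := by
        have h1 : |x - t| < 1 := by simpa [Real.dist_eq] using hx
        have h2 : |x| ≤ |x - t| + |t| := by
          simpa using abs_add_le (x - t) t
        linarith
      have h1 : Real.exp (-(x * r2 z)) ≤ Real.exp ((|t| + 1) * R) := by
        apply Real.exp_le_exp.2
        calc -(x * r2 z) ≤ |x * r2 z| := neg_le_abs _
          _ = |x| * |r2 z| := abs_mul _ _
          _ ≤ (|t| + 1) * R := mul_le_mul hx' (hR z) (abs_nonneg _) (by positivity)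
      have h2 : |r2 z| * |g z| ≤ R * B :=
        mul_le_mul (hR z) (hB z) (abs_nonneg _) hR0
      exact mul_le_mul h1 h2 (by positivity) (Real.exp_pos _).le)
    (integrable_const _)
    (by
      refine Eventually.of_forall fun z x _ => ?_
      have h1 : HasDerivAt (fun x : ℝ => -(x * r2 z)) (-(r2 z)) x := by
        have h0 := ((hasDerivAt_id x).mul_const (r2 z)).fun_neg
        simpa using h0
      have h2 := (h1.exp).mul_const (g z)
      refine h2.congr_deriv ?_
      ring)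
  have h2 := hmain.2
  rw [integral_neg] at h2
  exact h2

lemma continuous_Lp (hr : BM r2) (hg : BM g) : Continuous (Lp V r2 g) :=
  continuous_iff_continuousAt.2 fun t => (hasDerivAt_Lp hr hg t).continuousAt

omit [IsFiniteMeasure V] in
lemma Lp_nonneg (h0 : ∀ z, 0 ≤ g z) (t : ℝ) : 0 ≤ Lp V r2 g t :=
  integral_nonneg fun z => mul_nonneg (Real.exp_pos _).le (h0 z)

lemma Lp_mono (hr : BM r2) (hg : BM g) (hg' : BM g') (h : ∀ z, g z ≤ g' z) (t : ℝ) :
    Lp V r2 g t ≤ Lp V r2 g' t :=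
  integral_mono (integrable_exp_mul hr hg t) (integrable_exp_mul hr hg' t)
    fun z => mul_le_mul_of_nonneg_left (h z) (Real.exp_pos _).le

omit [IsFiniteMeasure V] in
lemma Lp_const_mul (c t : ℝ) : Lp V r2 (fun z => c * g z) t = c * Lp V r2 g t := by
  unfold Lp
  rw [← integral_const_mul]
  refine integral_congr_ae (Eventually.of_forall fun z => ?_)
  simp only; ring

lemma Lp_add (hr : BM r2) (hg : BM g) (hg' : BM g') (t : ℝ) :
    Lp V r2 (fun z => g z + g' z) t = Lp V r2 g t + Lp V r2 g' t := by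
  unfold Lp
  rw [← integral_add (integrable_exp_mul hr hg t) (integrable_exp_mul hr hg' t)]
  refine integral_congr_ae (Eventually.of_forall fun z => ?_)
  simp only; ring

lemma Lp_sub (hr : BM r2) (hg : BM g) (hg' : BM g') (t : ℝ) :
    Lp V r2 (fun z => g z - g' z) t = Lp V r2 g t - Lp V r2 g' t := by
  unfold Lp
  rw [← integral_sub (integrable_exp_mul hr hg t) (integrable_exp_mul hr hg' t)]
  refine integral_congr_ae (Eventually.of_forall fun z => ?_)
  simp only; ring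

end basic

/-- Assumptions: bounded measurable data on the (finite) measure space. -/
structure Dat (r2 b Φ G : Z → ℝ) : Prop where
  mr : BM r2
  mb : BM b
  mΦ : BM Φ
  mG : BM G
  r0 : ∀ z, 0 ≤ r2 z
  Φ0 : ∀ z, 0 ≤ Φ z

/-- The (one-sided) stationarity functional tested with the weight `Φ e^{-t r2}`. -/
def St (V : Measure Z) (m H : ℝ) (r2 b Φ G : Z → ℝ) (t : ℝ) : ℝ :=
  ∫ z, Real.exp (-(t * r2 z)) * (H * Φ z * b z - m * Φ z - G z
    + 2 * t * Φ z * (r2 z - b z ^ 2)) ∂V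

/-- right-hand side of the exact monotonicity formula -/
def Rh (V : Measure Z) (H : ℝ) (r2 b Φ G : Z → ℝ) (t : ℝ) : ℝ :=
  ∫ z, Real.exp (-(t * r2 z)) * (H * Φ z * b z - 2 * t * (Φ z * b z ^ 2) - G z) ∂V

section ident

variable [IsFiniteMeasure V] {m H : ℝ} {r2 b Φ G : Z → ℝ}

/-- decomposition of `Rh` -/
lemma Rh_eq (D : Dat r2 b Φ G) (t : ℝ) :
    Rh V H r2 b Φ G t = H * Lp V r2 (fun z => Φ z * b z) t
      - 2 * t * Lp V r2 (fun z => Φ z * b z ^ 2) t - Lp V r2 G t := by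
  have b1 : BM (fun z => Φ z * b z) := D.mΦ.mul D.mb
  have b2 : BM (fun z => Φ z * b z ^ 2) := D.mΦ.mul (D.mb.pow 2)
  have e : Rh V H r2 b Φ G t = Lp V r2 (fun z => H * (Φ z * b z)
      - (2 * t) * (Φ z * b z ^ 2) - G z) t := by
    unfold Rh Lp
    refine integral_congr_ae (Eventually.of_forall fun z => ?_)
    simp only; ring
  rw [e, Lp_sub (V := V) (g := fun z => H * (Φ z * b z) - (2 * t) * (Φ z * b z ^ 2)) D.mr
    ((b1.const_mul H).sub (b2.const_mul (2 * t))) D.mG t,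
    Lp_sub (V := V) (g := fun z => H * (Φ z * b z)) D.mr (b1.const_mul H)
      (b2.const_mul (2 * t)) t, Lp_const_mul, Lp_const_mul]

/-- `St = Rh - m L(Φ) + 2 t L(r2 Φ)` -/
lemma St_eq (D : Dat r2 b Φ G) (t : ℝ) :
    St V m H r2 b Φ G t = Rh V H r2 b Φ G t - m * Lp V r2 Φ t
      + 2 * t * Lp V r2 (fun z => r2 z * Φ z) t := by
  have b1 : BM (fun z => Φ z * b z) := D.mΦ.mul D.mb
  have b2 : BM (fun z => Φ z * b z ^ 2) := D.mΦ.mul (D.mb.pow 2)
  have b3 : BM (fun z => r2 z * Φ z) := D.mr.mul D.mΦ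
  have b4 : BM (fun z => H * (Φ z * b z) - (2 * t) * (Φ z * b z ^ 2)) :=
    (b1.const_mul H).sub (b2.const_mul (2 * t))
  have b5 : BM (fun z => H * (Φ z * b z) - (2 * t) * (Φ z * b z ^ 2) - G z) := b4.sub D.mG
  have b6 : BM (fun z => H * (Φ z * b z) - (2 * t) * (Φ z * b z ^ 2) - G z - m * Φ z) :=
    b5.sub (D.mΦ.const_mul m)
  have e : St V m H r2 b Φ G t = Lp V r2 (fun z => H * (Φ z * b z)
      - (2 * t) * (Φ z * b z ^ 2) - G z - m * Φ z + (2 * t) * (r2 z * Φ z)) t := by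
    unfold St Lp
    refine integral_congr_ae (Eventually.of_forall fun z => ?_)
    simp only; ring
  rw [e, Lp_add (V := V) (g := fun z => H * (Φ z * b z)
      - (2 * t) * (Φ z * b z ^ 2) - G z - m * Φ z) D.mr b6 (b3.const_mul (2 * t)) t,
    Lp_sub (V := V) (g := fun z => H * (Φ z * b z) - (2 * t) * (Φ z * b z ^ 2) - G z) D.mr b5
      (D.mΦ.const_mul m) t,
    Lp_sub (V := V) (g := fun z => H * (Φ z * b z) - (2 * t) * (Φ z * b z ^ 2)) D.mr
    b4 D.mG t,
    Lp_sub (V := V) (g := fun z => H * (Φ z * b z)) D.mr (b1.const_mul H)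
      (b2.const_mul (2 * t)) t, Lp_const_mul, Lp_const_mul, Lp_const_mul, Lp_const_mul,
    Rh_eq D t]

/-- derivative of the normalised Gaussian integral: exact monotonicity formula -/
lemma hasDerivAt_Ig (D : Dat r2 b Φ G) {t : ℝ} (ht : 0 < t) :
    HasDerivAt (Ig V m r2 Φ)
      ((1 / (2 * t)) * (t / π) ^ (m / 2) * (Rh V H r2 b Φ G t - St V m H r2 b Φ G t)) t := by
  have hpi := Real.pi_pos
  have htp : 0 < t / π := by positivity
  have e1 : HasDerivAt (fun s : ℝ => (s / π) ^ (m / 2))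
      ((m / 2) * (t / π) ^ (m / 2 - 1) * (1 / π)) t := by
    have h0 : HasDerivAt (fun s : ℝ => s / π) (1 / π) t := (hasDerivAt_id t).div_const π
    have := h0.rpow_const (p := m / 2) (Or.inl htp.ne')
    convert this using 1
    ring
  have e2 := hasDerivAt_Lp (V := V) D.mr D.mΦ t
  have e3 := e1.mul e2
  have e4 : (m / 2) * (t / π) ^ (m / 2 - 1) * (1 / π) = (m / (2 * t)) * (t / π) ^ (m / 2) := by
    rw [Real.rpow_sub_one htp.ne']
    field_simp
  rw [e4] at e3
  refine e3.congr_deriv ?_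
  rw [St_eq D t]
  field_simp
  ring

end ident

end

end Vale.Agent.P219.Mono
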