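import Vale.Agent.P219.End.Mono

open MeasureTheory Set Filter Topology
open scoped ENNReal NNReal Real

namespace Vale.Agent.P219.Mono

noncomputable section

variable {Z : Type*} [MeasurableSpace Z] {V : Measure Z}

section gron

variable [IsFiniteMeasure V] {m H : ℝ} {r2 b Φ G : Z → ℝ}

lemma Rh_le (D : Dat r2 b Φ G) {t : ℝ} (ht : 0 < t) :
    Rh V H r2 b Φ G t ≤ H ^ 2 / (8 * t) * Lp V r2 Φ t + Lp V r2 (fun z => |G z|) t := by
  have e : Rh V H r2 b Φ G t = Lp V r2 (fun z => H * (Φ z * b z)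
      - (2 * t) * (Φ z * b z ^ 2) - G z) t := by
    unfold Rh Lp
    refine integral_congr_ae (Eventually.of_forall fun z => ?_)
    simp only; ring
  have b1 : BM (fun z => Φ z * b z) := D.mΦ.mul D.mb
  have b2 : BM (fun z => Φ z * b z ^ 2) := D.mΦ.mul (D.mb.pow 2)
  have b4 : BM (fun z => H * (Φ z * b z) - (2 * t) * (Φ z * b z ^ 2)) :=
    (b1.const_mul H).sub (b2.const_mul (2 * t))
  have b5 : BM (fun z => H * (Φ z * b z) - (2 * t) * (Φ z * b z ^ 2) - G z) := b4.sub D.mG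
  have b6 : BM (fun z => H ^ 2 / (8 * t) * Φ z + |G z|) := (D.mΦ.const_mul _).add D.mG.abs
  rw [e, ← Lp_const_mul, ← Lp_add (V := V) D.mr (D.mΦ.const_mul _) D.mG.abs t]
  refine Lp_mono D.mr b5 b6 (fun z => ?_) t
  have h1 : H * b z - 2 * t * b z ^ 2 ≤ H ^ 2 / (8 * t) := by
    have h2 : H ^ 2 / (8 * t) - (H * b z - 2 * t * b z ^ 2)
        = 2 * t * (b z - H / (4 * t)) ^ 2 := by
      field_simp; ring
    have h3 : 0 ≤ 2 * t * (b z - H / (4 * t)) ^ 2 := by positivity
    linarith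
  have h4 : Φ z * (H * b z - 2 * t * b z ^ 2) ≤ Φ z * (H ^ 2 / (8 * t)) :=
    mul_le_mul_of_nonneg_left h1 (D.Φ0 z)
  have h5 : -(G z) ≤ |G z| := neg_le_abs _
  nlinarith [h4, h5]

/-- error density -/
def eps (V : Measure Z) (m : ℝ) (r2 G : Z → ℝ) (t : ℝ) : ℝ :=
  (1 / (2 * t)) * (t / π) ^ (m / 2) * Lp V r2 (fun z => |G z|) t

omit [IsFiniteMeasure V] in
lemma eps_nonneg {t : ℝ} (ht : 0 < t) : 0 ≤ eps V m r2 G t := by
  unfold eps
  have := Real.pi_pos
  have h2 : 0 ≤ Lp V r2 (fun z => |G z|) t := Lp_nonneg (fun z => abs_nonneg _) t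
  positivity

lemma eps_continuousOn (hr : BM r2) (hG : BM G) {t1 t2 : ℝ} (h1 : 0 < t1) :
    ContinuousOn (eps V m r2 G) (Icc t1 t2) := by
  have hpi := Real.pi_pos
  have c1 : ContinuousOn (fun t : ℝ => 1 / (2 * t)) (Icc t1 t2) := by
    refine ContinuousOn.div continuousOn_const (by fun_prop) fun t ht => ?_
    have : 0 < t := h1.trans_le ht.1
    positivity
  have c2 : ContinuousOn (fun t : ℝ => (t / π) ^ (m / 2)) (Icc t1 t2) := by
    refine ContinuousOn.rpow_const (by fun_prop) fun t ht => Or.inl ?_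
    have : 0 < t := h1.trans_le ht.1
    positivity
  exact (c1.mul c2).mul (continuous_Lp hr hG.abs).continuousOn

/-- Groenwall form of the monotonicity. -/
theorem Ig_le (D : Dat r2 b Φ G) (hst : ∀ t : ℝ, 0 < t → 0 ≤ St V m H r2 b Φ G t)
    {t1 t2 : ℝ} (h1 : 0 < t1) (h12 : t1 ≤ t2) :
    Ig V m r2 Φ t2 ≤ Real.exp (H ^ 2 / (16 * t1)) *
      (Ig V m r2 Φ t1 + ∫ t in t1..t2, eps V m r2 G t) := by
  have hpi := Real.pi_pos
  set F : ℝ → ℝ := fun t => Real.exp (H ^ 2 / 16 * t⁻¹) * Ig V m r2 Φ t with hF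
  set F' : ℝ → ℝ := fun t => Real.exp (H ^ 2 / 16 * t⁻¹) * (H ^ 2 / 16 * (-(t ^ 2)⁻¹)) *
      Ig V m r2 Φ t + Real.exp (H ^ 2 / 16 * t⁻¹) *
      ((1 / (2 * t)) * (t / π) ^ (m / 2) * (Rh V H r2 b Φ G t - St V m H r2 b Φ G t)) with hF'
  have hd : ∀ t : ℝ, 0 < t → HasDerivAt F (F' t) t := by
    intro t ht
    have e0 : HasDerivAt (fun t : ℝ => H ^ 2 / 16 * t⁻¹) (H ^ 2 / 16 * (-(t ^ 2)⁻¹)) t :=
      (hasDerivAt_inv ht.ne').const_mul _
    exact (e0.exp).mul (hasDerivAt_Ig D ht)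
  have hbound : ∀ t : ℝ, t1 ≤ t → F' t ≤ Real.exp (H ^ 2 / (16 * t1)) * eps V m r2 G t := by
    intro t ht
    have ht0 : 0 < t := h1.trans_le ht
    have hR := Rh_le (V := V) (H := H) D ht0
    have hS := hst t ht0
    have hw : 0 < (1 / (2 * t)) * (t / π) ^ (m / 2) := by positivity
    have h3 : (1 / (2 * t)) * (t / π) ^ (m / 2) * (Rh V H r2 b Φ G t - St V m H r2 b Φ G t)
        ≤ H ^ 2 / 16 * (t ^ 2)⁻¹ * Ig V m r2 Φ t + eps V m r2 G t := by
      calc (1 / (2 * t)) * (t / π) ^ (m / 2) * (Rh V H r2 b Φ G t - St V m H r2 b Φ G t)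
          ≤ (1 / (2 * t)) * (t / π) ^ (m / 2) *
            (H ^ 2 / (8 * t) * Lp V r2 Φ t + Lp V r2 (fun z => |G z|) t) :=
            mul_le_mul_of_nonneg_left (by linarith) hw.le
        _ = H ^ 2 / 16 * (t ^ 2)⁻¹ * Ig V m r2 Φ t + eps V m r2 G t := by
            unfold eps Ig
            field_simp
            ring
    have h4 : F' t ≤ Real.exp (H ^ 2 / 16 * t⁻¹) * eps V m r2 G t := by
      simp only [hF']
      have h5 := mul_le_mul_of_nonneg_left h3 (Real.exp_pos (H ^ 2 / 16 * t⁻¹)).le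
      nlinarith [h5]
    have h6 : Real.exp (H ^ 2 / 16 * t⁻¹) ≤ Real.exp (H ^ 2 / (16 * t1)) := by
      apply Real.exp_le_exp.2
      rw [div_mul_eq_div_div, div_eq_mul_inv (H ^ 2 / 16) t1]
      exact mul_le_mul_of_nonneg_left (inv_anti₀ h1 ht) (by positivity)
    exact h4.trans (mul_le_mul_of_nonneg_right h6 (eps_nonneg ht0))
  have hcont : ContinuousOn F (Icc t1 t2) := fun t ht =>
    (hd t (h1.trans_le ht.1)).continuousAt.continuousWithinAt
  have hint : IntegrableOn (fun t => Real.exp (H ^ 2 / (16 * t1)) * eps V m r2 G t)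
      (Icc t1 t2) :=
    (continuousOn_const.mul
      (eps_continuousOn (V := V) (m := m) D.mr D.mG h1)).integrableOn_Icc
  have hmain := intervalIntegral.sub_le_integral_of_hasDeriv_right_of_le h12 hcont
    (fun t ht => (hd t (h1.trans ht.1)).hasDerivWithinAt) hint
    (fun t ht => hbound t ht.1.le)
  rw [intervalIntegral.integral_const_mul] at hmain
  have hI0 : 0 ≤ Ig V m r2 Φ t2 := by
    unfold Ig
    have := Lp_nonneg (V := V) (r2 := r2) D.Φ0 t2
    have : 0 < t2 := h1.trans_le h12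
    positivity
  have h7 : Ig V m r2 Φ t2 ≤ F t2 := by
    simp only [hF]
    have : 1 ≤ Real.exp (H ^ 2 / 16 * t2⁻¹) := by
      apply Real.one_le_exp
      have : 0 < t2 := h1.trans_le h12
      positivity
    nlinarith
  have h8 : F t1 = Real.exp (H ^ 2 / (16 * t1)) * Ig V m r2 Φ t1 := by
    simp only [hF]
    congr 2
    field_simp
  rw [mul_add]
  linarith

/-- upper bound with weight one -/
theorem Ig_one_le {r2 b : Z → ℝ} (hr : BM r2) (hb : BM b) (h0 : ∀ z, 0 ≤ r2 z)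
    (hst : ∀ t : ℝ, 0 < t → 0 ≤ St V m H r2 b (fun _ => 1) (fun _ => 0) t)
    {t1 t2 : ℝ} (h1 : 0 < t1) (h12 : t1 ≤ t2) :
    Ig V m r2 (fun _ => 1) t2 ≤ Real.exp (H ^ 2 / (16 * t1)) * Ig V m r2 (fun _ => 1) t1 := by
  have D : Dat r2 b (fun _ : Z => (1:ℝ)) (fun _ => 0) :=
    ⟨hr, hb, BM.const 1, BM.const 0, h0, fun _ => zero_le_one⟩
  have h := Ig_le D hst h1 h12
  have e : ∀ t : ℝ, eps V m r2 (fun _ => (0:ℝ)) t = 0 := by
    intro t; simp [eps, Lp]
  simpa [e] using h

end gron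

section dens

variable [IsFiniteMeasure V] {m H : ℝ} {r2 b : Z → ℝ}

/-- upper density bound, all radii -/
theorem upper_density (hm : 0 ≤ m) (hr : BM r2) (hb : BM b) (h0 : ∀ z, 0 ≤ r2 z)
    (hst : ∀ t : ℝ, 0 < t → 0 ≤ St V m H r2 b (fun _ => 1) (fun _ => 0) t)
    {s : ℝ} (hs : 0 < s) :
    V.real {z | r2 z ≤ s ^ 2} ≤ Real.exp (1 + H ^ 2 / 16) * V.real univ * s ^ m := by
  have hpi := Real.pi_pos
  have hV0 : 0 ≤ V.real univ := measureReal_nonneg
  rcases le_total 1 s with h1s | hs1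
  · -- large radii
    have h1 : V.real {z | r2 z ≤ s ^ 2} ≤ V.real univ := measureReal_mono (subset_univ _)
    have h2 : 1 ≤ s ^ m := Real.one_le_rpow h1s hm
    have h3 : 1 ≤ Real.exp (1 + H ^ 2 / 16) := Real.one_le_exp (by positivity)
    calc V.real {z | r2 z ≤ s ^ 2} ≤ V.real univ := h1
      _ = 1 * V.real univ * 1 := by ring
      _ ≤ Real.exp (1 + H ^ 2 / 16) * V.real univ * s ^ m := by gcongr
  · set t : ℝ := (s ^ 2)⁻¹ with ht
    have ht1 : 1 ≤ t := by
      rw [ht]; exact (one_le_inv₀ (by positivity)).2 (pow_le_one₀ hs.le hs1)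
    have ht0 : 0 < t := by linarith
    have hI := Ig_one_le (V := V) (m := m) (H := H) hr hb h0 hst one_pos ht1
    have hmeas : MeasurableSet {z | r2 z ≤ s ^ 2} := measurableSet_le hr.1 measurable_const
    -- Chebyshev
    have h1 : Real.exp (-1) * V.real {z | r2 z ≤ s ^ 2} ≤ Lp V r2 (fun _ => 1) t := by
      unfold Lp
      have h2 : ∫ z, indicator {z | r2 z ≤ s ^ 2} (fun _ => Real.exp (-1)) z ∂V
          = Real.exp (-1) * V.real {z | r2 z ≤ s ^ 2} := by
        rw [integral_indicator hmeas, setIntegral_const, smul_eq_mul, mul_comm]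
      rw [← h2]
      refine integral_mono ((integrable_const _).indicator hmeas)
        (integrable_exp_mul hr (BM.const 1) t) fun z => ?_
      by_cases hz : r2 z ≤ s ^ 2
      · have : z ∈ {z | r2 z ≤ s ^ 2} := hz
        rw [indicator_of_mem this, mul_one]
        apply Real.exp_le_exp.2
        have : t * r2 z ≤ 1 := by
          rw [ht, inv_mul_le_iff₀ (by positivity)]; simpa using hz
        linarith
      · have : z ∉ {z | r2 z ≤ s ^ 2} := hz
        rw [indicator_of_notMem this]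
        have := Real.exp_pos (-(t * r2 z))
        simp only [mul_one]; exact this.le
    have h2 : Lp V r2 (fun _ => 1) t = (t / π) ^ (-(m / 2)) * Ig V m r2 (fun _ => 1) t := by
      unfold Ig
      rw [← mul_assoc, ← Real.rpow_add (by positivity)]
      simp
    have h3 : Ig V m r2 (fun _ => 1) 1 ≤ (1 / π) ^ (m / 2) * V.real univ := by
      unfold Ig Lp
      refine mul_le_mul_of_nonneg_left ?_ (by positivity)
      calc ∫ z, Real.exp (-(1 * r2 z)) * 1 ∂V ≤ ∫ _z, (1:ℝ) ∂V := by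
            refine integral_mono (integrable_exp_mul hr (BM.const 1) 1) (integrable_const _)
              fun z => ?_
            simp only [mul_one, one_mul]
            exact Real.exp_le_one_iff.2 (by linarith [h0 z])
        _ = V.real univ := by simp
    have h4 : (t / π) ^ (-(m / 2)) * (1 / π) ^ (m / 2) = s ^ m := by
      rw [Real.rpow_neg (by positivity), Real.div_rpow ht0.le hpi.le,
        Real.div_rpow zero_le_one hpi.le, Real.one_rpow, ht, Real.inv_rpow (by positivity),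
        ← Real.rpow_natCast s 2, ← Real.rpow_mul hs.le]
      have : ((2:ℕ):ℝ) * (m / 2) = m := by push_cast; ring
      rw [this]
      have hp2 : (0:ℝ) < π ^ (m / 2) := by positivity
      have hs2 : (0:ℝ) < s ^ m := by positivity
      field_simp
    have h5 : Real.exp (-1) * V.real {z | r2 z ≤ s ^ 2}
        ≤ Real.exp (H ^ 2 / 16) * V.real univ * s ^ m := by
      calc Real.exp (-1) * V.real {z | r2 z ≤ s ^ 2} ≤ Lp V r2 (fun _ => 1) t := h1
        _ = (t / π) ^ (-(m / 2)) * Ig V m r2 (fun _ => 1) t := h2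
        _ ≤ (t / π) ^ (-(m / 2)) * (Real.exp (H ^ 2 / (16 * 1)) *
            ((1 / π) ^ (m / 2) * V.real univ)) := by
            refine mul_le_mul_of_nonneg_left (hI.trans ?_) (by positivity)
            exact mul_le_mul_of_nonneg_left h3 (Real.exp_pos _).le
        _ = Real.exp (H ^ 2 / 16) * V.real univ * ((t / π) ^ (-(m / 2)) * (1 / π) ^ (m / 2)) := by
            rw [mul_one]; ring
        _ = Real.exp (H ^ 2 / 16) * V.real univ * s ^ m := by rw [h4]
    have h6 : V.real {z | r2 z ≤ s ^ 2}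
        = Real.exp 1 * (Real.exp (-1) * V.real {z | r2 z ≤ s ^ 2}) := by
      rw [← mul_assoc, ← Real.exp_add]; simp
    rw [h6, Real.exp_add]
    calc Real.exp 1 * (Real.exp (-1) * V.real {z | r2 z ≤ s ^ 2})
        ≤ Real.exp 1 * (Real.exp (H ^ 2 / 16) * V.real univ * s ^ m) :=
          mul_le_mul_of_nonneg_left h5 (Real.exp_pos _).le
      _ = _ := by ring

end dens

end

end Vale.Agent.P219.Mono
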