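import Mathlib

/-! P219, block End/Pisier: the sharp Maurey-Pisier inequality (exponent one) for the standard
Gaussian measure of a finite-dimensional inner product space. -/

set_option linter.unusedSectionVars false

namespace Vale.Agent.P219.End

open MeasureTheory ProbabilityTheory Real
open scoped ENNReal NNReal

/-- First absolute moment of the centred Gaussian law on the line. -/
theorem lintegral_abs_gaussianReal (v : ℝ≥0) :
    ∫⁻ t, ‖t‖ₑ ∂(gaussianReal 0 v) = ENNReal.ofReal (√(2 / π) * √v) := by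
  rcases eq_or_ne v 0 with hv | hv
  · subst hv
    simp [gaussianReal_zero_var]
  have hv0 : (0 : ℝ) < v := by exact_mod_cast pos_iff_ne_zero.2 hv
  rw [gaussianReal_of_var_ne_zero _ hv, lintegral_withDensity_eq_lintegral_mul _
    (measurable_gaussianPDF _ _) measurable_enorm]
  have h1 : ∀ t : ℝ, (gaussianPDF 0 v * (enorm : ℝ → ℝ≥0∞)) t
      = ENNReal.ofReal (gaussianPDFReal 0 v t * |t|) := by
    intro t
    rw [Pi.mul_apply, gaussianPDF, ← ofReal_norm, Real.norm_eq_abs,
      ← ENNReal.ofReal_mul (gaussianPDFReal_nonneg _ _ _)]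
  rw [lintegral_congr h1]
  have hb : (0 : ℝ) < (2 * v : ℝ)⁻¹ := by positivity
  have hform : ∀ t : ℝ, gaussianPDFReal 0 v t * |t|
      = (√(2 * π * v))⁻¹ * (fun s : ℝ => s ^ (1 : ℝ) * rexp (-(2 * v : ℝ)⁻¹ * s ^ (2 : ℝ))) |t| := by
    intro t
    simp only [gaussianPDFReal, sub_zero, Real.rpow_one, Real.rpow_two, sq_abs]
    have : -t ^ 2 / (2 * (v : ℝ)) = -(2 * (v : ℝ))⁻¹ * t ^ 2 := by
      field_simp
    rw [this]; ring
  have hint0 : IntegrableOn (fun s : ℝ => s ^ (1 : ℝ) * rexp (-(2 * v : ℝ)⁻¹ * s ^ (2 : ℝ)))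
      (Set.Ioi 0) := by
    have := integrableOn_rpow_mul_exp_neg_mul_rpow (p := 2) (s := 1) (b := (2 * v : ℝ)⁻¹)
      (by norm_num) (by norm_num) hb
    exact this
  have hint : Integrable (fun t : ℝ => (fun s : ℝ => s ^ (1 : ℝ) *
      rexp (-(2 * v : ℝ)⁻¹ * s ^ (2 : ℝ))) |t|) := by
    rw [← integrableOn_univ, ← Set.Iic_union_Ioi (a := (0 : ℝ)), integrableOn_union]
    constructor
    · rw [integrableOn_Iic_iff_integrableOn_Iio]
      have h2 : IntegrableOn (fun t : ℝ => (fun s : ℝ => s ^ (1 : ℝ) *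
          rexp (-(2 * v : ℝ)⁻¹ * s ^ (2 : ℝ))) (-t)) (Set.Iio 0) := by
        have h3 := (MeasurePreserving.integrableOn_comp_preimage
          (Measure.measurePreserving_neg (volume : Measure ℝ))
          (Homeomorph.neg ℝ).measurableEmbedding (f := fun s : ℝ => s ^ (1 : ℝ) *
          rexp (-(2 * v : ℝ)⁻¹ * s ^ (2 : ℝ))) (s := Set.Ioi 0)).2 hint0
        have h4 : (fun x : ℝ => -x) ⁻¹' Set.Ioi 0 = Set.Iio 0 := by
          ext x; simp
        rw [← h4]
        exact h3
      refine h2.congr_fun ?_ measurableSet_Iio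
      intro t ht
      simp only
      rw [abs_of_neg ht]
    · refine hint0.congr_fun ?_ measurableSet_Ioi
      intro t ht
      simp only
      rw [abs_of_pos ht]
  rw [← ofReal_integral_eq_lintegral_ofReal]
  · congr 1
    rw [integral_congr_ae (Filter.Eventually.of_forall hform), integral_const_mul,
      integral_comp_abs (f := fun s : ℝ => s ^ (1 : ℝ) * rexp (-(2 * v : ℝ)⁻¹ * s ^ (2 : ℝ))),
      integral_rpow_mul_exp_neg_mul_rpow (by norm_num) (by norm_num) hb]
    norm_num
    have e2 : √(2 : ℝ) * √2 = 2 := Real.mul_self_sqrt (by norm_num)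
    have e3 : √(v : ℝ) * √(v : ℝ) = v := Real.mul_self_sqrt hv0.le
    have e4 : 0 < √π := Real.sqrt_pos.2 Real.pi_pos
    have e5 : 0 < √(v : ℝ) := Real.sqrt_pos.2 hv0
    have e6 : 0 < √(2 : ℝ) := Real.sqrt_pos.2 (by norm_num)
    have e7 : ((v : ℝ)⁻¹ * (1 / 2)) ^ (-1 : ℝ) = 2 * (√(v : ℝ) * √(v : ℝ)) := by
      rw [Real.rpow_neg_one, e3]; field_simp
    rw [e7]
    have e8 : (√(v : ℝ))⁻¹ * ((√π)⁻¹ * (√2)⁻¹) * (2 * (2 * (√(v : ℝ) * √(v : ℝ)) * (1 / 2)))
        = (2 / √2) * ((√π)⁻¹ * √(v : ℝ)) := by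
      field_simp
    have e9 : 2 / √(2 : ℝ) = √2 := by
      rw [div_eq_iff e6.ne', e2]
    rw [e8, e9]
    field_simp
  · refine (hint.const_mul ((√(2 * π * v))⁻¹)).congr (Filter.Eventually.of_forall fun t => ?_)
    exact (hform t).symm
  · exact Filter.Eventually.of_forall fun t =>
      mul_nonneg (gaussianPDFReal_nonneg _ _ _) (abs_nonneg _)

variable {E : Type*} [NormedAddCommGroup E] [InnerProductSpace ℝ E] [FiniteDimensional ℝ E]
  [MeasurableSpace E] [BorelSpace E]

/-- First absolute moment of a linear form. -/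
theorem lintegral_abs_dual (L : StrongDual ℝ E) :
    ∫⁻ y, ‖L y‖ₑ ∂(stdGaussian E) = ENNReal.ofReal (√(2 / π) * ‖L‖) := by
  have h1 : ∫⁻ y, ‖L y‖ₑ ∂(stdGaussian E) = ∫⁻ t, ‖t‖ₑ ∂((stdGaussian E).map L) := by
    rw [lintegral_map measurable_enorm L.continuous.measurable]
  rw [h1, IsGaussian.map_eq_gaussianReal, integral_strongDual_stdGaussian,
    variance_dual_stdGaussian, lintegral_abs_gaussianReal]
  congr 2
  rw [Real.coe_toNNReal _ (by positivity), Real.sqrt_sq (norm_nonneg _)]

/-- **Maurey-Pisier inequality**, exponent one, sharp constant. -/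
theorem pisier_lintegral {f : E → ℝ} (hf : ContDiff ℝ 1 f) :
    ∫⁻ p, ‖f p.1 - f p.2‖ₑ ∂((stdGaussian E).prod (stdGaussian E))
      ≤ ENNReal.ofReal (√(π / 2)) * ∫⁻ x, ‖fderiv ℝ f x‖ₑ ∂(stdGaussian E) := by
  set γ := stdGaussian E with hγ
  have hfd : Continuous fun x => fderiv ℝ f x := hf.continuous_fderiv (by norm_num)
  set F : E × E → ℝ := fun p => fderiv ℝ f p.1 p.2 with hF
  have hFc : Continuous F := by
    have : Continuous fun p : E × E => (fderiv ℝ f p.1) p.2 :=
      (hfd.comp continuous_fst).clm_apply continuous_snd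
    exact this
  -- the arc
  have harc : ∀ p : E × E, ‖f p.1 - f p.2‖ₑ
      ≤ ∫⁻ θ in Set.Ioc (0 : ℝ) (π / 2), ‖F (ContinuousLinearMap.rotation θ p)‖ₑ := by
    intro p
    have hder : ∀ θ ∈ Set.uIcc 0 (π / 2),
        HasDerivAt (fun θ : ℝ => f (Real.cos θ • p.1 + Real.sin θ • p.2))
          (F (ContinuousLinearMap.rotation θ p)) θ := by
      intro θ _
      have h1 : HasDerivAt (fun θ : ℝ => Real.cos θ • p.1 + Real.sin θ • p.2)
          (-Real.sin θ • p.1 + Real.cos θ • p.2) θ :=
        ((Real.hasDerivAt_cos θ).smul_const p.1).add ((Real.hasDerivAt_sin θ).smul_const p.2)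
      have h2 : HasFDerivAt f (fderiv ℝ f (Real.cos θ • p.1 + Real.sin θ • p.2))
          (Real.cos θ • p.1 + Real.sin θ • p.2) :=
        (hf.differentiable (by norm_num) _).hasFDerivAt
      exact h2.comp_hasDerivAt θ h1
    have hcont : Continuous fun θ : ℝ => F (ContinuousLinearMap.rotation θ p) := by
      refine hFc.comp ?_
      simp only [ContinuousLinearMap.rotation_apply]
      fun_prop
    have hint : IntervalIntegrable (fun θ : ℝ => F (ContinuousLinearMap.rotation θ p)) volume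
        0 (π / 2) := hcont.intervalIntegrable _ _
    have hftc := intervalIntegral.integral_eq_sub_of_hasDerivAt hder hint
    have h3 : f p.1 - f p.2 = - ∫ θ in (0:ℝ)..(π / 2), F (ContinuousLinearMap.rotation θ p) := by
      rw [hftc]; simp
    rw [h3, enorm_neg, intervalIntegral.integral_of_le (by positivity)]
    exact enorm_integral_le_lintegral_enorm _
  calc ∫⁻ p, ‖f p.1 - f p.2‖ₑ ∂(γ.prod γ)
      ≤ ∫⁻ p, (∫⁻ θ in Set.Ioc (0 : ℝ) (π / 2), ‖F (ContinuousLinearMap.rotation θ p)‖ₑ)
          ∂(γ.prod γ) := lintegral_mono harc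
    _ = ∫⁻ θ in Set.Ioc (0 : ℝ) (π / 2), ∫⁻ p, ‖F (ContinuousLinearMap.rotation θ p)‖ₑ
          ∂(γ.prod γ) := by
        refine lintegral_lintegral_swap ?_
        refine Measurable.aemeasurable ?_
        have : Continuous fun q : (E × E) × ℝ => F (ContinuousLinearMap.rotation q.2 q.1) := by
          refine hFc.comp ?_
          simp only [ContinuousLinearMap.rotation_apply]
          fun_prop
        exact this.measurable.enorm
    _ = ∫⁻ θ in Set.Ioc (0 : ℝ) (π / 2), ∫⁻ p, ‖F p‖ₑ ∂(γ.prod γ) := by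
        refine lintegral_congr fun θ => ?_
        have hrot := IsGaussian.map_rotation_eq_self_of_forall_strongDual_eq_zero (μ := γ)
          (fun L => integral_strongDual_stdGaussian L) θ
        conv_rhs => rw [← hrot]
        rw [lintegral_map hFc.measurable.enorm (ContinuousLinearMap.rotation θ).continuous.measurable]
    _ = ENNReal.ofReal (π / 2) * ∫⁻ p, ‖F p‖ₑ ∂(γ.prod γ) := by
        rw [setLIntegral_const, Real.volume_Ioc, sub_zero, mul_comm]
    _ = ENNReal.ofReal (π / 2) * ∫⁻ x, ENNReal.ofReal (√(2 / π) * ‖fderiv ℝ f x‖) ∂γ := by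
        congr 1
        rw [lintegral_prod _ hFc.measurable.enorm.aemeasurable]
        exact lintegral_congr fun x => lintegral_abs_dual (fderiv ℝ f x)
    _ = ENNReal.ofReal (√(π / 2)) * ∫⁻ x, ‖fderiv ℝ f x‖ₑ ∂γ := by
        have h1 : ∀ x, ENNReal.ofReal (√(2 / π) * ‖fderiv ℝ f x‖)
            = ENNReal.ofReal (√(2 / π)) * ‖fderiv ℝ f x‖ₑ := by
          intro x
          rw [ENNReal.ofReal_mul (by positivity), ofReal_norm]
        rw [lintegral_congr h1, lintegral_const_mul _ hfd.measurable.enorm, ← mul_assoc,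
          ← ENNReal.ofReal_mul (by positivity)]
        congr 2
        have h2 : π / 2 = √(π / 2) * √(π / 2) := (Real.mul_self_sqrt (by positivity)).symm
        have h3 : √(π / 2) * √(2 / π) = 1 := by
          rw [← Real.sqrt_mul (by positivity)]
          have : π / 2 * (2 / π) = 1 := by field_simp
          rw [this, Real.sqrt_one]
        calc π / 2 * √(2 / π) = √(π / 2) * (√(π / 2) * √(2 / π)) := by
              rw [← mul_assoc, ← h2]
          _ = √(π / 2) := by rw [h3, mul_one]

/-- The mean oscillation of a function with values in `[0, 1]` from below. -/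
theorem osc_ge (μ : Measure E) [IsProbabilityMeasure μ] {f : E → ℝ} (hfc : Continuous f)
    (h0 : ∀ x, 0 ≤ f x) (h1 : ∀ x, f x ≤ 1) :
    ENNReal.ofReal (2 * (∫ x, f x ∂μ) * (1 - ∫ x, f x ∂μ) - 2 * ∫ x, f x * (1 - f x) ∂μ)
      ≤ ∫⁻ p, ‖f p.1 - f p.2‖ₑ ∂(μ.prod μ) := by
  have hfi : Integrable f μ := by
    refine Integrable.of_bound hfc.aestronglyMeasurable 1 (Filter.Eventually.of_forall fun x => ?_)
    rw [Real.norm_eq_abs, abs_of_nonneg (h0 x)]; exact h1 x
  have hgi : Integrable (fun x => f x * (1 - f x)) μ := by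
    refine Integrable.of_bound (hfc.mul (continuous_const.sub hfc)).aestronglyMeasurable 1
      (Filter.Eventually.of_forall fun x => ?_)
    rw [Real.norm_eq_abs, abs_of_nonneg (mul_nonneg (h0 x) (by linarith [h1 x]))]
    nlinarith [h0 x, h1 x]
  set p := ∫ x, f x ∂μ with hp
  have hc1 : Continuous fun q : E × E => f q.1 := hfc.comp continuous_fst
  have hc2 : Continuous fun q : E × E => f q.2 := hfc.comp continuous_snd
  have hbd : ∀ g : E × E → ℝ, Continuous g → (∀ q, |g q| ≤ 2) → Integrable g (μ.prod μ) := by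
    intro g hg hb
    exact Integrable.of_bound hg.aestronglyMeasurable 2 (Filter.Eventually.of_forall fun x => hb x)
  have hG : Integrable (fun q : E × E => f q.1 * (1 - f q.2) + f q.2 * (1 - f q.1)
      - 2 * (f q.1 * (1 - f q.1))) (μ.prod μ) := by
    refine hbd _ (by fun_prop) fun q => ?_
    have a1 := h0 q.1; have a2 := h1 q.1; have a3 := h0 q.2; have a4 := h1 q.2
    rw [abs_le]; constructor <;> nlinarith [mul_nonneg a1 a3, mul_nonneg a1 (by linarith : 0 ≤ 1 - f q.1),
      mul_nonneg (by linarith : 0 ≤ 1 - f q.1) (by linarith : 0 ≤ 1 - f q.2),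
      mul_nonneg a1 (by linarith : 0 ≤ 1 - f q.2), mul_nonneg a3 (by linarith : 0 ≤ 1 - f q.1)]
  have hval : ∫ q, (f q.1 * (1 - f q.2) + f q.2 * (1 - f q.1)
      - 2 * (f q.1 * (1 - f q.1))) ∂(μ.prod μ) = 2 * p * (1 - p) - 2 * ∫ x, f x * (1 - f x) ∂μ := by
    have i1 : Integrable (fun q : E × E => f q.1 * (1 - f q.2)) (μ.prod μ) :=
      hfi.mul_prod ((integrable_const (1:ℝ)).sub hfi)
    have i2 : Integrable (fun q : E × E => f q.2 * (1 - f q.1)) (μ.prod μ) := by
      have := ((integrable_const (1:ℝ)).sub hfi).mul_prod hfi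
      refine this.congr (Filter.Eventually.of_forall fun q => ?_)
      simp only [Pi.sub_apply]; ring
    have i3 : Integrable (fun q : E × E => f q.1 * (1 - f q.1)) (μ.prod μ) := by
      have := hgi.mul_prod (integrable_const (1:ℝ) (μ := μ))
      refine this.congr (Filter.Eventually.of_forall fun q => ?_)
      simp
    have v1 : ∫ q, f q.1 * (1 - f q.2) ∂(μ.prod μ) = p * (1 - p) := by
      rw [integral_prod_mul (f := f) (g := fun y => 1 - f y)]
      rw [integral_sub (integrable_const _) hfi]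
      simp [hp]
    have v2 : ∫ q, f q.2 * (1 - f q.1) ∂(μ.prod μ) = p * (1 - p) := by
      have : ∀ q : E × E, f q.2 * (1 - f q.1) = (fun y => 1 - f y) q.1 * f q.2 := by
        intro q; simp only; ring
      rw [integral_congr_ae (Filter.Eventually.of_forall this),
        integral_prod_mul (f := fun y => 1 - f y) (g := f),
        integral_sub (integrable_const _) hfi]
      simp [hp]; ring
    have v3 : ∫ q, f q.1 * (1 - f q.1) ∂(μ.prod μ) = ∫ x, f x * (1 - f x) ∂μ := by
      have : ∀ q : E × E, f q.1 * (1 - f q.1) = (fun y => f y * (1 - f y)) q.1 * (fun _ => (1:ℝ)) q.2 := by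
        intro q; simp only; ring
      rw [integral_congr_ae (Filter.Eventually.of_forall this),
        integral_prod_mul (f := fun y => f y * (1 - f y)) (g := fun _ => (1:ℝ))]
      simp
    have e1 := integral_sub (i1.add i2) (i3.const_mul 2)
    have e2 := integral_add i1 i2
    simp only [Pi.add_apply] at e1
    rw [e1, e2, integral_const_mul, v1, v2, v3]
    ring
  rw [← hval]
  have hA : Integrable (fun q : E × E => f q.1 - f q.2) (μ.prod μ) := by
    refine hbd _ (by fun_prop) fun q => ?_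
    have a1 := h0 q.1; have a2 := h1 q.1; have a3 := h0 q.2; have a4 := h1 q.2
    rw [abs_le]; constructor <;> linarith
  rw [← ofReal_integral_norm_eq_lintegral_enorm hA]
  refine ENNReal.ofReal_le_ofReal (integral_mono hG hA.norm fun q => ?_)
  have a1 := h0 q.1; have a2 := h1 q.1; have a3 := h0 q.2; have a4 := h1 q.2
  simp only [Real.norm_eq_abs]
  rcases le_total (f q.1) (f q.2) with h | h
  · rw [abs_of_nonpos (by linarith)]
    nlinarith
  · rw [abs_of_nonneg (by linarith)]
    nlinarith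

/-- The Gaussian density with centre `c` and variance `s ^ 2`. -/
noncomputable def gk (c : E) (s : ℝ) (z : E) : ℝ :=
  (2 * π * s ^ 2) ^ (-(Module.finrank ℝ E : ℝ) / 2) * rexp (-‖z - c‖ ^ 2 / (2 * s ^ 2))

theorem gk_nonneg (c : E) (s : ℝ) (z : E) : 0 ≤ gk c s z := by
  unfold gk; positivity

theorem gk_continuous (c : E) (s : ℝ) : Continuous (gk c s) := by
  unfold gk; fun_prop

theorem integral_gauss_sub {c : E} {b : ℝ} (F : E → ℂ) :
    ∫ z, F z * Complex.exp (-(b : ℂ) * ‖z - c‖ ^ 2)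
      = ∫ y, F (y + c) * Complex.exp (-(b : ℂ) * ‖y‖ ^ 2) := by
  rw [← integral_add_right_eq_self (fun z => F z * Complex.exp (-(b : ℂ) * ‖z - c‖ ^ 2)) c]
  simp

theorem gk_integral (c : E) {s : ℝ} (hs : 0 < s) : ∫ z, gk c s z = 1 := by
  unfold gk
  rw [integral_const_mul]
  have hb : (0 : ℝ) < 1 / (2 * s ^ 2) := by positivity
  have h1 : ∀ z : E, rexp (-‖z - c‖ ^ 2 / (2 * s ^ 2)) = (fun y => rexp (-(1 / (2 * s ^ 2)) * ‖y‖ ^ 2)) (z - c) := by
    intro z; congr 1; ring
  rw [integral_congr_ae (Filter.Eventually.of_forall h1), integral_sub_right_eq_self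
    (fun y : E => rexp (-(1 / (2 * s ^ 2)) * ‖y‖ ^ 2)) c,
    GaussianFourier.integral_rexp_neg_mul_sq_norm hb]
  have h2 : π / (1 / (2 * s ^ 2)) = 2 * π * s ^ 2 := by field_simp
  rw [h2, ← Real.rpow_add (by positivity)]
  have : -(Module.finrank ℝ E : ℝ) / 2 + (Module.finrank ℝ E : ℝ) / 2 = 0 := by ring
  rw [this, Real.rpow_zero]

theorem gk_integrable (c : E) {s : ℝ} (hs : 0 < s) : Integrable (gk c s) := by
  by_contra h
  have h1 := gk_integral c hs
  rw [integral_undef h] at h1
  exact zero_ne_one h1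

/-- The affine image of the standard Gaussian measure has the density `gk c s`. -/
theorem map_stdGaussian (c : E) {s : ℝ} (hs : 0 < s) :
    (stdGaussian E).map (fun x => c + s • x)
      = volume.withDensity (fun z => ENNReal.ofReal (gk c s z)) := by
  have hmeas : Measurable fun x : E => c + s • x := by fun_prop
  have : IsFiniteMeasure (volume.withDensity (fun z : E => ENNReal.ofReal (gk c s z))) :=
    isFiniteMeasure_withDensity_ofReal (gk_integrable c hs).2
  have : IsFiniteMeasure ((stdGaussian E).map (fun x => c + s • x)) := inferInstance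
  refine Measure.ext_of_charFun (funext fun t => ?_)
  have hL : charFun ((stdGaussian E).map (fun x => c + s • x)) t
      = Complex.exp (inner ℝ c t * Complex.I) * Complex.exp (-(s ^ 2 * ‖t‖ ^ 2 / 2 : ℝ)) := by
    rw [charFun_apply, integral_map hmeas.aemeasurable
      (by fun_prop : Continuous fun x : E => Complex.exp (inner ℝ x t * Complex.I)).aestronglyMeasurable]
    have h1 : ∀ x : E, Complex.exp (inner ℝ (c + s • x) t * Complex.I)
        = Complex.exp (inner ℝ c t * Complex.I) * Complex.exp (inner ℝ x (s • t) * Complex.I) := by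
      intro x
      rw [← Complex.exp_add, inner_add_left, inner_smul_left, inner_smul_right]
      congr 1
      push_cast
      simp
      ring
    rw [integral_congr_ae (Filter.Eventually.of_forall h1), integral_const_mul]
    congr 1
    rw [← charFun_apply, charFun_stdGaussian, norm_smul]
    congr 1
    rw [Real.norm_eq_abs, abs_of_pos hs]
    push_cast
    ring
  rw [hL, charFun_apply, integral_withDensity_eq_integral_toReal_smul
    (gk_continuous c s).measurable.ennreal_ofReal (Filter.Eventually.of_forall fun _ => ENNReal.ofReal_lt_top)]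
  have hb : (0 : ℝ) < 1 / (2 * s ^ 2) := by positivity
  have h2 : ∀ z : E, (ENNReal.ofReal (gk c s z)).toReal • Complex.exp (inner ℝ z t * Complex.I)
      = ((2 * π * s ^ 2) ^ (-(Module.finrank ℝ E : ℝ) / 2) : ℝ) *
        (Complex.exp (inner ℝ z t * Complex.I) *
          Complex.exp (-((1 / (2 * s ^ 2) : ℝ) : ℂ) * ‖z - c‖ ^ 2)) := by
    intro z
    rw [ENNReal.toReal_ofReal (gk_nonneg c s z), gk, Complex.real_smul]
    push_cast
    have : -(‖z - c‖ : ℂ) ^ 2 / (2 * (s : ℂ) ^ 2) = -(1 / (2 * (s : ℂ) ^ 2)) * (‖z - c‖ : ℂ) ^ 2 := by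
      ring
    rw [this]; ring
  rw [integral_congr_ae (Filter.Eventually.of_forall h2), integral_const_mul,
    integral_gauss_sub (fun z => Complex.exp (inner ℝ z t * Complex.I))]
  have h3 : ∀ y : E, Complex.exp (inner ℝ (y + c) t * Complex.I) *
      Complex.exp (-((1 / (2 * s ^ 2) : ℝ) : ℂ) * ‖y‖ ^ 2)
      = Complex.exp (inner ℝ c t * Complex.I) *
        Complex.exp (-((1 / (2 * s ^ 2) : ℝ) : ℂ) * ‖y‖ ^ 2 + Complex.I * inner ℝ t y) := by
    intro y
    rw [← Complex.exp_add, ← Complex.exp_add, inner_add_left, real_inner_comm t y]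
    congr 1
    push_cast
    ring
  rw [integral_congr_ae (Filter.Eventually.of_forall h3), integral_const_mul,
    GaussianFourier.integral_cexp_neg_mul_sq_norm_add (by rw [Complex.ofReal_re]; exact hb)]
  have hsC : (s : ℂ) ≠ 0 := by exact_mod_cast hs.ne'
  have e1 : (π : ℂ) / ((1 / (2 * s ^ 2) : ℝ) : ℂ) = ((2 * π * s ^ 2 : ℝ) : ℂ) := by
    push_cast; field_simp
  have e2 : ((Module.finrank ℝ E : ℂ) / 2) = ((Module.finrank ℝ E / 2 : ℝ) : ℂ) := by push_cast; ring
  have e3 : Complex.I ^ 2 * (‖t‖ : ℂ) ^ 2 / (4 * ((1 / (2 * s ^ 2) : ℝ) : ℂ))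
      = ((-(s ^ 2 * ‖t‖ ^ 2 / 2) : ℝ) : ℂ) := by
    rw [Complex.I_sq]; push_cast; field_simp; ring
  have e4 : (2 * π * s ^ 2 : ℝ) ^ (-(Module.finrank ℝ E : ℝ) / 2) * (2 * π * s ^ 2 : ℝ) ^ (Module.finrank ℝ E / 2 : ℝ) = 1 := by
    rw [← Real.rpow_add (by positivity)]
    have : -(Module.finrank ℝ E : ℝ) / 2 + (Module.finrank ℝ E : ℝ) / 2 = 0 := by ring
    rw [this, Real.rpow_zero]
  rw [e1, e2, e3, ← Complex.ofReal_cpow (by positivity), Complex.ofReal_neg]
  have e5 : (((2 * π * s ^ 2 : ℝ) ^ (-(Module.finrank ℝ E : ℝ) / 2) : ℝ) : ℂ) *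
      (((2 * π * s ^ 2 : ℝ) ^ (Module.finrank ℝ E / 2 : ℝ) : ℝ) : ℂ) = 1 := by
    exact_mod_cast e4
  linear_combination (-(Complex.exp (inner ℝ c t * Complex.I) *
    Complex.exp (-((s ^ 2 * ‖t‖ ^ 2 / 2 : ℝ) : ℂ)))) * e5

/-- Change of variables for nonnegative functions. -/
theorem lintegral_stdGaussian_affine (c : E) {s : ℝ} (hs : 0 < s) {g : E → ℝ≥0∞}
    (hg : Measurable g) :
    ∫⁻ x, g (c + s • x) ∂(stdGaussian E) = ∫⁻ z, g z * ENNReal.ofReal (gk c s z) := by
  have hmeas : Measurable fun x : E => c + s • x := by fun_prop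
  rw [← lintegral_map hg hmeas, map_stdGaussian c hs, lintegral_withDensity_eq_lintegral_mul _
    (gk_continuous c s).measurable.ennreal_ofReal hg]
  exact lintegral_congr fun z => by rw [Pi.mul_apply, mul_comm]

/-- Change of variables for real functions. -/
theorem integral_stdGaussian_affine (c : E) {s : ℝ} (hs : 0 < s) {g : E → ℝ}
    (hg : Continuous g) :
    ∫ x, g (c + s • x) ∂(stdGaussian E) = ∫ z, g z * gk c s z := by
  have hmeas : Measurable fun x : E => c + s • x := by fun_prop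
  rw [← integral_map hmeas.aemeasurable hg.aestronglyMeasurable, map_stdGaussian c hs,
    integral_withDensity_eq_integral_toReal_smul
    (gk_continuous c s).measurable.ennreal_ofReal
    (Filter.Eventually.of_forall fun _ => ENNReal.ofReal_lt_top)]
  refine integral_congr_ae (Filter.Eventually.of_forall fun z => ?_)
  simp only
  rw [ENNReal.toReal_ofReal (gk_nonneg c s z), smul_eq_mul, mul_comm]

/-- **Half mass gives density one.**  For `0 ≤ h ≤ 1` of class `C¹`, Gaussian mean `p` at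
centre `c` and scale `s`:  `4 p (1 - p) - 4 ∫ h (1 - h) K ≤ √(2 π) s ∫ |∇ h| K`. -/
theorem pisier_density {h : E → ℝ} (hh : ContDiff ℝ 1 h) (h0 : ∀ x, 0 ≤ h x) (h1 : ∀ x, h x ≤ 1)
    (c : E) {s : ℝ} (hs : 0 < s) :
    ENNReal.ofReal (4 * (∫ z, h z * gk c s z) * (1 - ∫ z, h z * gk c s z)
        - 4 * ∫ z, h z * (1 - h z) * gk c s z)
      ≤ ENNReal.ofReal (√(2 * π) * s) * ∫⁻ z, ‖fderiv ℝ h z‖ₑ * ENNReal.ofReal (gk c s z) := by
  set f : E → ℝ := fun x => h (c + s • x) with hf
  have hfC : ContDiff ℝ 1 f := by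
    refine hh.comp ?_
    fun_prop
  have hfd : ∀ x, fderiv ℝ f x = s • fderiv ℝ h (c + s • x) := by
    intro x
    have h2 : HasFDerivAt (fun x : E => c + s • x) (s • ContinuousLinearMap.id ℝ E) x :=
      ((hasFDerivAt_id x).const_smul s).const_add c
    have h3 : HasFDerivAt h (fderiv ℝ h (c + s • x)) (c + s • x) :=
      (hh.differentiable (by norm_num) _).hasFDerivAt
    have h4 := h3.comp x h2
    rw [hf, show (fun x => h (c + s • x)) = h ∘ (fun x => c + s • x) from rfl, h4.fderiv]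
    ext v
    simp
  have hp := pisier_lintegral hfC
  have ho := osc_ge (stdGaussian E) hfC.continuous (fun x => h0 _) (fun x => h1 _)
  have e1 : ∫ x, f x ∂(stdGaussian E) = ∫ z, h z * gk c s z :=
    integral_stdGaussian_affine c hs hh.continuous
  have e2 : ∫ x, f x * (1 - f x) ∂(stdGaussian E) = ∫ z, h z * (1 - h z) * gk c s z :=
    integral_stdGaussian_affine c hs (g := fun z => h z * (1 - h z))
      (hh.continuous.mul (continuous_const.sub hh.continuous))
  have e3 : ∫⁻ x, ‖fderiv ℝ f x‖ₑ ∂(stdGaussian E)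
      = ENNReal.ofReal s * ∫⁻ z, ‖fderiv ℝ h z‖ₑ * ENNReal.ofReal (gk c s z) := by
    have hm : Measurable fun z => ‖fderiv ℝ h z‖ₑ :=
      (hh.continuous_fderiv (by norm_num)).measurable.enorm
    rw [← lintegral_stdGaussian_affine c hs hm, ← lintegral_const_mul]
    · refine lintegral_congr fun x => ?_
      rw [hfd x, enorm_smul]
      congr 1
      rw [← ofReal_norm, Real.norm_eq_abs, abs_of_pos hs]
    · exact hm.comp (by fun_prop)
  rw [e1, e2] at ho
  rw [e3] at hp
  have h5 := ho.trans hp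
  have h6 : ENNReal.ofReal (4 * (∫ z, h z * gk c s z) * (1 - ∫ z, h z * gk c s z)
        - 4 * ∫ z, h z * (1 - h z) * gk c s z)
      = ENNReal.ofReal 2 * ENNReal.ofReal (2 * (∫ z, h z * gk c s z) * (1 - ∫ z, h z * gk c s z)
        - 2 * ∫ z, h z * (1 - h z) * gk c s z) := by
    rw [← ENNReal.ofReal_mul (by norm_num)]
    congr 1; ring
  rw [h6]
  refine (mul_le_mul_right h5 _).trans (le_of_eq ?_)
  rw [← mul_assoc, ← mul_assoc, ← ENNReal.ofReal_mul (by norm_num),
    ← ENNReal.ofReal_mul (by positivity)]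
  congr 2
  have h7 : √(2 * π) = 2 * √(π / 2) := by
    have : (2 * π : ℝ) = 2 ^ 2 * (π / 2) := by ring
    rw [this, Real.sqrt_mul (by norm_num), Real.sqrt_sq (by norm_num)]
  rw [h7]

end Vale.Agent.P219.End
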