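import Vale.Agent.P219.End.BubEps

/-!
# P219 / End : almost monotonicity of the bubble integral with the truncated kernel
-/

open MeasureTheory Set Metric Filter
open scoped ContDiff Topology

namespace Vale.Agent.P219.End

variable {n : ℕ}

/-- the truncated kernel -/
noncomputable def kk (m s d : ℝ) : ℝ := (s / (s + d)) ^ m * d ^ (1 - m)

theorem kk_nonneg {m s d : ℝ} (hs : 0 ≤ s) (hd : 0 ≤ d) : 0 ≤ kk m s d := by
  unfold kk
  positivity

theorem kk_zero {m : ℝ} (hm : 1 < m) (s : ℝ) : kk m s 0 = 0 := by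
  unfold kk
  rw [Real.zero_rpow (by linarith), mul_zero]

theorem hasDerivAt_kk {m s d : ℝ} (hm : 1 < m) (hs : 0 < s) (hd : 0 ≤ d) :
    HasDerivAt (fun s => kk m s d) (m * kk m s d * (d / (s * (s + d)))) s := by
  rcases hd.eq_or_lt with rfl | hd
  · rw [kk_zero hm, mul_zero, zero_mul]
    have : (fun s => kk m s 0) = fun _ => (0 : ℝ) := funext fun s => kk_zero hm s
    rw [this]
    exact hasDerivAt_const s 0
  have h1 : 0 < s + d := by linarith
  have h2 : 0 < s / (s + d) := div_pos hs h1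
  have h3 : HasDerivAt (fun s => s / (s + d)) (d / (s + d) ^ 2) s := by
    have h := (hasDerivAt_id s).fun_div ((hasDerivAt_id s).add_const d) (by simpa using h1.ne')
    refine h.congr_deriv ?_
    simp only [id_eq]
    ring
  have h4 := (h3.rpow_const (p := m) (Or.inl h2.ne')).mul_const (d ^ (1 - m))
  refine h4.congr_deriv ?_
  unfold kk
  rw [Real.rpow_sub_one h2.ne']
  have hs' := hs.ne'
  have h1' := h1.ne'
  generalize (s / (s + d)) ^ m = Q
  field_simp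

theorem kk_mono {m s t d : ℝ} (hm : 0 ≤ m) (hs : 0 ≤ s) (hst : s ≤ t) (hd : 0 ≤ d) :
    kk m s d ≤ kk m t d := by
  unfold kk
  refine mul_le_mul_of_nonneg_right ?_ (by positivity)
  refine Real.rpow_le_rpow (by positivity) ?_ hm
  rcases hs.eq_or_lt with rfl | hs
  · simp only [zero_div]
    positivity
  rw [div_le_div_iff₀ (by linarith) (by linarith)]
  nlinarith

/-- the bubble is at most `4 s / (s + d)^2` -/
theorem bub_le {k2 F s d : ℝ} (hk2 : 0 ≤ k2) (hF : 0 ≤ F) (hs : 0 < s) (hk : k2 * s ^ 2 ≤ 1)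
    (hd : d ^ 2 = 2 * F) (hd0 : 0 ≤ d) :
    √(s ^ 2 / 2 * (2 - k2 * (s ^ 2 / 2))) / (F + s ^ 2 / 2) ≤ 4 * s / (s + d) ^ 2 := by
  have h1 : √(s ^ 2 / 2 * (2 - k2 * (s ^ 2 / 2))) ≤ s := by
    refine Real.sqrt_le_iff.2 ⟨hs.le, ?_⟩
    have : 0 ≤ k2 * s ^ 4 := by positivity
    nlinarith
  have h2 : 0 < F + s ^ 2 / 2 := by positivity
  have h3 : 0 < s + d := by linarith
  rw [div_le_div_iff₀ h2 (by positivity)]
  have h4 : (s + d) ^ 2 ≤ 4 * (F + s ^ 2 / 2) := by nlinarith [sq_nonneg (s - d)]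
  calc √(s ^ 2 / 2 * (2 - k2 * (s ^ 2 / 2))) * (s + d) ^ 2 ≤ s * (4 * (F + s ^ 2 / 2)) :=
        mul_le_mul h1 h4 (by positivity) hs.le
    _ = 4 * s * (F + s ^ 2 / 2) := by ring

/-- (K1) -/
theorem bub_rpow_le {m w s d : ℝ} (hm : 1 ≤ m) (hw : 0 ≤ w) (hs : 0 < s) (hd : 0 < d)
    (h : w ≤ 4 * s / (s + d) ^ 2) : w ^ m ≤ 4 ^ m * kk m s d / (s + d) := by
  have h1 : 0 < s + d := by linarith
  have h2 : w ^ m ≤ (4 * s / (s + d) ^ 2) ^ m := Real.rpow_le_rpow hw h (by linarith)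
  have h3 : 4 * s / (s + d) ^ 2 = 4 * (s / (s + d)) * (s + d)⁻¹ := by
    field_simp
  have h4 : (4 * (s / (s + d)) * (s + d)⁻¹) ^ m =
      4 ^ m * (s / (s + d)) ^ m * (s + d) ^ (-m) := by
    rw [Real.mul_rpow (by positivity) (by positivity), Real.mul_rpow (by norm_num) (by positivity),
      Real.inv_rpow h1.le, Real.rpow_neg h1.le]
  have h5 : (s + d) ^ (-m) ≤ d ^ (1 - m) / (s + d) := by
    rw [le_div_iff₀ h1]
    have e : (s + d) ^ (-m) * (s + d) = (s + d) ^ (1 - m) := by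
      rw [← Real.rpow_add_one h1.ne']
      congr 1
      ring
    rw [e]
    exact Real.rpow_le_rpow_of_nonpos hd (by linarith) (by linarith)
  rw [h3, h4] at h2
  refine h2.trans ?_
  unfold kk
  calc 4 ^ m * (s / (s + d)) ^ m * (s + d) ^ (-m) ≤
      4 ^ m * (s / (s + d)) ^ m * (d ^ (1 - m) / (s + d)) :=
        mul_le_mul_of_nonneg_left h5 (by positivity)
    _ = 4 ^ m * ((s / (s + d)) ^ m * d ^ (1 - m)) / (s + d) := by ring

/-- (K2) -/
theorem bub_rpow_le2 {m w s d F : ℝ} (hm : 3 ≤ m) (hw : 0 ≤ w) (hs : 0 < s) (hd : 0 < d)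
    (hF : d ^ 2 = 2 * F) (h : w ≤ 4 * s / (s + d) ^ 2) :
    (F + s ^ 2 / 2) * w ^ m ≤ 4 ^ m / 2 * kk m s d * d ^ 2 / (s + d) := by
  have h1 : 0 < s + d := by linarith
  have h2 : w ^ m ≤ (4 * s / (s + d) ^ 2) ^ m := Real.rpow_le_rpow hw h (by linarith)
  have h3 : 4 * s / (s + d) ^ 2 = 4 * (s / (s + d)) * (s + d)⁻¹ := by
    field_simp
  have h4 : (4 * (s / (s + d)) * (s + d)⁻¹) ^ m =
      4 ^ m * (s / (s + d)) ^ m * (s + d) ^ (-m) := by
    rw [Real.mul_rpow (by positivity) (by positivity), Real.mul_rpow (by norm_num) (by positivity),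
      Real.inv_rpow h1.le, Real.rpow_neg h1.le]
  rw [h3, h4] at h2
  have h5 : (s + d) ^ (2 : ℝ) * (s + d) ^ (-m) ≤ d ^ (1 - m) * d ^ 2 / (s + d) := by
    rw [le_div_iff₀ h1]
    have e : (s + d) ^ (2 : ℝ) * (s + d) ^ (-m) * (s + d) = (s + d) ^ (3 - m) := by
      rw [← Real.rpow_add h1, ← Real.rpow_add_one h1.ne']
      congr 1
      ring
    have e2 : d ^ (1 - m) * d ^ 2 = d ^ (3 - m) := by
      rw [← Real.rpow_natCast d 2, ← Real.rpow_add hd]
      congr 1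
      push_cast
      ring
    rw [e, e2]
    exact Real.rpow_le_rpow_of_nonpos hd (by linarith) (by linarith)
  have h6 : F + s ^ 2 / 2 ≤ (s + d) ^ (2 : ℝ) / 2 := by
    rw [Real.rpow_two]
    nlinarith [mul_pos hs hd]
  have h7 : 0 ≤ F + s ^ 2 / 2 := by nlinarith [sq_nonneg d]
  calc (F + s ^ 2 / 2) * w ^ m ≤
      ((s + d) ^ (2 : ℝ) / 2) * (4 ^ m * (s / (s + d)) ^ m * (s + d) ^ (-m)) :=
        mul_le_mul h6 h2 (by positivity) (by positivity)
    _ = 4 ^ m / 2 * (s / (s + d)) ^ m * ((s + d) ^ (2 : ℝ) * (s + d) ^ (-m)) := by ring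
    _ ≤ 4 ^ m / 2 * (s / (s + d)) ^ m * (d ^ (1 - m) * d ^ 2 / (s + d)) :=
        mul_le_mul_of_nonneg_left h5 (by positivity)
    _ = 4 ^ m / 2 * kk m s d * d ^ 2 / (s + d) := by
        unfold kk
        ring

end Vale.Agent.P219.End
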