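import Vale.Agent.P219.End.BJs
import Vale.Agent.P219.End.PotA

/-!
# P219 / End : `J_Φ(p, s) + C ∫ ρ k_s` is nondecreasing in `s`
-/

open MeasureTheory Set Metric Filter
open scoped ContDiff Topology

namespace Vale.Agent.P219.End

variable {n : ℕ}

namespace Lim

variable (L : Lim n)

theorem potB_ds_sq (c x : E n) : L.ds c x ^ 2 = 2 * L.F c x :=
  Real.sq_sqrt (mul_nonneg two_pos.le (L.F_nonneg c x))

theorem potB_ds_nonneg (c x : E n) : 0 ≤ L.ds c x := Real.sqrt_nonneg _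

theorem potB_ds_cont (c : E n) : Continuous (L.ds c) := (continuous_const.mul (L.Fc_cont c)).sqrt

theorem potB_kS_eq (S d : ℝ) : L.kS S d = kk L.m S d := rfl

theorem potB_F_bound : ∃ B : ℝ, 0 ≤ B ∧ ∀ c ∈ L.K, ∀ x ∈ L.K, L.F c x ≤ B := by
  have h1 : Continuous fun z : E n × E n => L.F z.1 z.2 := L.F_smooth.continuous
  obtain ⟨B, hB⟩ := (L.K_compact.prod L.K_compact).exists_bound_of_continuousOn h1.continuousOn
  refine ⟨|B|, abs_nonneg B, fun c hc x hx => ?_⟩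
  exact (le_abs_self _).trans ((hB (c, x) ⟨hc, hx⟩).trans (le_abs_self B))

theorem potB_Ad_of_le {L : Lim n} {s S : ℝ} (h : L.Ad S) (hs : 0 < s) (hsS : s ≤ S) : L.Ad s := by
  refine ⟨hs, hsS.trans h.2.1, ?_⟩
  have h1 : s ^ 2 ≤ S ^ 2 := pow_le_pow_left₀ hs.le hsS 2
  exact (mul_le_mul_of_nonneg_left h1 L.k2_nonneg).trans h.2.2

/-- the weight `ρ = Φ d + |∇_S Φ|` -/
noncomputable def rhoP (Φ : E n → ℝ) (p : E n) (z : E n × E n) : ℝ :=
  Φ z.1 * L.ds p z.1 + √(L.G Φ Φ z)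

theorem rhoP_cont {Φ : E n → ℝ} (hΦ : ContDiff ℝ 1 Φ) (p : E n) : Continuous (L.rhoP Φ p) := by
  unfold rhoP
  exact ((hΦ.continuous.comp continuous_fst).mul ((L.potB_ds_cont p).comp continuous_fst)).add
    (L.G_cont hΦ hΦ).sqrt

theorem rhoP_nonneg {Φ : E n → ℝ} (h0 : ∀ x, 0 ≤ Φ x) (p : E n) (z : E n × E n) :
    0 ≤ L.rhoP Φ p z := add_nonneg (mul_nonneg (h0 _) (L.potB_ds_nonneg p _)) (Real.sqrt_nonneg _)

theorem rhoP_bound {Φ : E n → ℝ} (hΦ : ContDiff ℝ 1 Φ) (p : E n) :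
    ∃ R : ℝ, 0 ≤ R ∧ ∀ᵐ z ∂L.V, |L.rhoP Φ p z| ≤ R := by
  have hK : IsCompact (L.K ×ˢ sphere (0 : E n) 1) := L.K_compact.prod (isCompact_sphere 0 1)
  obtain ⟨C, hC⟩ := hK.exists_bound_of_continuousOn (L.rhoP_cont hΦ p).continuousOn
  refine ⟨|C|, abs_nonneg C, ?_⟩
  filter_upwards [L.V_supp] with z hz
  exact (hC z ⟨hz.1, by simpa using hz.2⟩).trans (le_abs_self C)

/-- the constant -/
noncomputable def cP (B : ℝ) : ℝ :=
  4 * 4 ^ L.m / (3 * L.m) * (L.H0 ^ 2 / (8 * L.m) + √(1 + L.k2 * B / 2))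

theorem cP_pos {B : ℝ} (hB : 0 ≤ B) : 0 < L.cP B := by
  have h1 := L.m_pos
  have h2 : 0 < √(1 + L.k2 * B / 2) := by
    apply Real.sqrt_pos.2
    have := mul_nonneg L.k2_nonneg hB
    linarith
  unfold cP
  positivity

/-- pointwise bound of the error -/
theorem potB_err_le {B : ℝ} {p : E n} {s : ℝ} (hs : L.Ad s) {Φ : E n → ℝ}
    (h0 : ∀ x, 0 ≤ Φ x) {z : E n × E n} (hFB : L.F p z.1 ≤ B) (hz : ‖z.2‖ = 1)
    (hd : 0 < L.ds p z.1) :
    1 / (s * (1 - L.k2 * s ^ 2 / 4)) * (Φ z.1 * L.ws p s z.1 ^ L.m * (L.H0 * L.nc p z -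
          2 * L.m * L.nc p z ^ 2 / (s ^ 2 + 2 * L.F p z.1)) -
        L.ws p s z.1 ^ L.m * L.G Φ (L.F p) z) ≤
      L.cP B * (L.rhoP Φ p z * (L.m * kk L.m s (L.ds p z.1) *
        (L.ds p z.1 / (s * (s + L.ds p z.1))))) := by
  obtain ⟨hs0, hs1, hs2⟩ := hs
  have hm := L.m_pos
  have hm3 := L.three_le
  have hF := L.F_nonneg p z.1
  have hε : 0 < s ^ 2 / 2 := by positivity
  have hk : L.k2 * (s ^ 2 / 2) < 2 := by linarith
  have hdd := L.potB_ds_sq p z.1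
  set d := L.ds p z.1 with hdef
  have hsd : 0 < s + d := by linarith
  have hw : 0 < L.ws p s z.1 := L.w_pos hε hk z.1
  have hwle : L.ws p s z.1 ≤ 4 * s / (s + d) ^ 2 := by
    have h := bub_le L.k2_nonneg hF hs0 hs2 hdd hd.le
    exact h
  have hK1 := bub_rpow_le (by linarith) hw.le hs0 hd hwle (m := L.m)
  have hK2 := bub_rpow_le2 hm3 hw.le hs0 hd hdd hwle
  have hkk : 0 ≤ kk L.m s d := kk_nonneg hs0.le hd.le
  -- the square
  have hsq : L.H0 * L.nc p z - 2 * L.m * L.nc p z ^ 2 / (s ^ 2 + 2 * L.F p z.1) ≤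
      L.H0 ^ 2 * (L.F p z.1 + s ^ 2 / 2) / (4 * L.m) := by
    have h1 : 0 < L.F p z.1 + s ^ 2 / 2 := by linarith
    have h2 : 0 < s ^ 2 + 2 * L.F p z.1 := by linarith
    rw [← sub_nonneg]
    have : L.H0 ^ 2 * (L.F p z.1 + s ^ 2 / 2) / (4 * L.m) - (L.H0 * L.nc p z -
        2 * L.m * L.nc p z ^ 2 / (s ^ 2 + 2 * L.F p z.1)) =
        L.m / (L.F p z.1 + s ^ 2 / 2) *
          (L.nc p z - L.H0 * (L.F p z.1 + s ^ 2 / 2) / (2 * L.m)) ^ 2 := by
      field_simp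
      ring
    rw [this]
    positivity
  -- the gradient term
  have hG : |L.G Φ (L.F p) z| ≤ √(L.G Φ Φ z) * (d * √(1 + L.k2 * B / 2)) := by
    have h1 : |L.G Φ (L.F p) z| ≤ √(L.G Φ Φ z) * √(L.G (L.F p) (L.F p) z) :=
      gv_abs_le hz.le _ _
    have h2 : L.G (L.F p) (L.F p) z ≤ (d * √(1 + L.k2 * B / 2)) ^ 2 := by
      rw [L.G_FF, mul_pow, hdd, Real.sq_sqrt (by
        have := mul_nonneg L.k2_nonneg (hF.trans hFB)
        linarith)]
      have h3 : L.k2 * L.F p z.1 ^ 2 ≤ L.F p z.1 * (L.k2 * B) := by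
        have := mul_le_mul_of_nonneg_left hFB (mul_nonneg L.k2_nonneg hF)
        nlinarith
      nlinarith [sq_nonneg (L.nc p z)]
    have h3 : √(L.G (L.F p) (L.F p) z) ≤ d * √(1 + L.k2 * B / 2) :=
      Real.sqrt_le_iff.2 ⟨by positivity, h2⟩
    exact h1.trans (mul_le_mul_of_nonneg_left h3 (Real.sqrt_nonneg _))
  have hg : 3 / 4 ≤ 1 - L.k2 * s ^ 2 / 4 := by linarith
  have hΦ0 := h0 z.1
  have hwm : 0 ≤ L.ws p s z.1 ^ L.m := by positivity
  set CF := √(1 + L.k2 * B / 2) with hCF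
  have hCF0 : 0 ≤ CF := Real.sqrt_nonneg _
  set Gr := √(L.G Φ Φ z) with hGr
  have hGr0 : 0 ≤ Gr := Real.sqrt_nonneg _
  -- the bracket
  have hbr : Φ z.1 * L.ws p s z.1 ^ L.m * (L.H0 * L.nc p z -
          2 * L.m * L.nc p z ^ 2 / (s ^ 2 + 2 * L.F p z.1)) -
        L.ws p s z.1 ^ L.m * L.G Φ (L.F p) z ≤
      4 ^ L.m * (kk L.m s d * d / (s + d)) *
        (L.H0 ^ 2 / (8 * L.m) * (Φ z.1 * d) + CF * Gr) := by
    have h1 : Φ z.1 * L.ws p s z.1 ^ L.m * (L.H0 * L.nc p z -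
          2 * L.m * L.nc p z ^ 2 / (s ^ 2 + 2 * L.F p z.1)) ≤
        4 ^ L.m * (kk L.m s d * d / (s + d)) * (L.H0 ^ 2 / (8 * L.m) * (Φ z.1 * d)) := by
      calc Φ z.1 * L.ws p s z.1 ^ L.m * (L.H0 * L.nc p z -
          2 * L.m * L.nc p z ^ 2 / (s ^ 2 + 2 * L.F p z.1)) ≤
          Φ z.1 * L.ws p s z.1 ^ L.m * (L.H0 ^ 2 * (L.F p z.1 + s ^ 2 / 2) / (4 * L.m)) :=
            mul_le_mul_of_nonneg_left hsq (by positivity)
        _ = Φ z.1 * (L.H0 ^ 2 / (4 * L.m)) *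
            ((L.F p z.1 + s ^ 2 / 2) * L.ws p s z.1 ^ L.m) := by ring
        _ ≤ Φ z.1 * (L.H0 ^ 2 / (4 * L.m)) * (4 ^ L.m / 2 * kk L.m s d * d ^ 2 / (s + d)) :=
            mul_le_mul_of_nonneg_left hK2 (by positivity)
        _ = 4 ^ L.m * (kk L.m s d * d / (s + d)) * (L.H0 ^ 2 / (8 * L.m) * (Φ z.1 * d)) := by
            field_simp
            ring
    have h2 : -(L.ws p s z.1 ^ L.m * L.G Φ (L.F p) z) ≤
        4 ^ L.m * (kk L.m s d * d / (s + d)) * (CF * Gr) := by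
      calc -(L.ws p s z.1 ^ L.m * L.G Φ (L.F p) z) ≤
          L.ws p s z.1 ^ L.m * |L.G Φ (L.F p) z| := by
            rw [← mul_neg]
            exact mul_le_mul_of_nonneg_left (neg_le_abs _) hwm
        _ ≤ (4 ^ L.m * kk L.m s d / (s + d)) * (Gr * (d * CF)) :=
            mul_le_mul hK1 hG (abs_nonneg _) (by positivity)
        _ = 4 ^ L.m * (kk L.m s d * d / (s + d)) * (CF * Gr) := by ring
    rw [mul_add]
    linarith
  have hrhs0 : 0 ≤ 4 ^ L.m * (kk L.m s d * d / (s + d)) *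
        (L.H0 ^ 2 / (8 * L.m) * (Φ z.1 * d) + CF * Gr) := by positivity
  have hinv : 1 / (s * (1 - L.k2 * s ^ 2 / 4)) ≤ 4 / 3 * (1 / s) := by
    rw [show 4 / 3 * (1 / s) = 1 / (s * (3 / 4)) by field_simp]
    exact one_div_le_one_div_of_le (by positivity) (mul_le_mul_of_nonneg_left hg hs0.le)
  have hinv0 : 0 ≤ 1 / (s * (1 - L.k2 * s ^ 2 / 4)) := by
    have : 0 < 1 - L.k2 * s ^ 2 / 4 := by linarith
    positivity
  have hlast : L.H0 ^ 2 / (8 * L.m) * (Φ z.1 * d) + CF * Gr ≤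
      (L.H0 ^ 2 / (8 * L.m) + CF) * L.rhoP Φ p z := by
    unfold rhoP
    rw [← hdef, ← hGr]
    have h1 : 0 ≤ L.H0 ^ 2 / (8 * L.m) := by positivity
    nlinarith [mul_nonneg h1 hGr0, mul_nonneg hCF0 (mul_nonneg hΦ0 hd.le)]
  calc _ ≤ 1 / (s * (1 - L.k2 * s ^ 2 / 4)) * (4 ^ L.m * (kk L.m s d * d / (s + d)) *
        (L.H0 ^ 2 / (8 * L.m) * (Φ z.1 * d) + CF * Gr)) := mul_le_mul_of_nonneg_left hbr hinv0
    _ ≤ 4 / 3 * (1 / s) * (4 ^ L.m * (kk L.m s d * d / (s + d)) *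
        (L.H0 ^ 2 / (8 * L.m) * (Φ z.1 * d) + CF * Gr)) := mul_le_mul_of_nonneg_right hinv hrhs0
    _ ≤ 4 / 3 * (1 / s) * (4 ^ L.m * (kk L.m s d * d / (s + d)) *
        ((L.H0 ^ 2 / (8 * L.m) + CF) * L.rhoP Φ p z)) := by
          refine mul_le_mul_of_nonneg_left (mul_le_mul_of_nonneg_left hlast ?_) (by positivity)
          positivity
    _ = _ := by
          unfold cP
          rw [← hCF]
          field_simp

/-- the potential `A(s) = ∫ ρ k_s` -/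
noncomputable def Apot (Φ : E n → ℝ) (p : E n) (s : ℝ) : ℝ :=
  ∫ z, L.rhoP Φ p z * L.kS s (L.ds p z.1) ∂L.V

theorem potB_kk_meas (s : ℝ) (p : E n) : Measurable fun z : E n × E n => kk L.m s (L.ds p z.1) := by
  have h1 : Measurable fun z : E n × E n => L.ds p z.1 :=
    ((L.potB_ds_cont p).comp continuous_fst).measurable
  unfold kk
  exact ((measurable_const.div (measurable_const.add h1)).pow_const _).mul (h1.pow_const _)

theorem hasDerivAt_Apot {p : E n} {s : ℝ} (hs : 0 < s)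
    (hkS : ∀ S : ℝ, 0 < S → Integrable (fun z => L.kS S (L.ds p z.1)) L.V) {Φ : E n → ℝ}
    (hΦ : ContDiff ℝ 1 Φ) :
    Integrable (fun z => L.rhoP Φ p z * (L.m * kk L.m s (L.ds p z.1) *
      (L.ds p z.1 / (s * (s + L.ds p z.1))))) L.V ∧
    HasDerivAt (L.Apot Φ p) (∫ z, L.rhoP Φ p z * (L.m * kk L.m s (L.ds p z.1) *
      (L.ds p z.1 / (s * (s + L.ds p z.1)))) ∂L.V) s := by
  have hm1 : 1 < L.m := by linarith [L.three_le]
  obtain ⟨R, hR0, hR⟩ := L.rhoP_bound hΦ p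
  have hρm : Measurable (L.rhoP Φ p) := (L.rhoP_cont hΦ p).measurable
  have hdm : Measurable fun z : E n × E n => L.ds p z.1 :=
    ((L.potB_ds_cont p).comp continuous_fst).measurable
  have hint : ∀ x : ℝ, 0 < x → Integrable (fun z => L.rhoP Φ p z * L.kS x (L.ds p z.1)) L.V := by
    intro x hx
    refine ((hkS x hx).norm.const_mul R).mono' ?_ ?_
    · exact (hρm.mul (L.potB_kk_meas x p)).aestronglyMeasurable
    · filter_upwards [hR] with z hz
      rw [norm_mul]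
      exact mul_le_mul_of_nonneg_right hz (norm_nonneg _)
  have hmain := hasDerivAt_integral_of_dominated_loc_of_deriv_le (μ := L.V)
    (F := fun s z => L.rhoP Φ p z * L.kS s (L.ds p z.1))
    (F' := fun s z => L.rhoP Φ p z * (L.m * kk L.m s (L.ds p z.1) *
      (L.ds p z.1 / (s * (s + L.ds p z.1)))))
    (x₀ := s) (s := ball s (s / 2))
    (bound := fun z => R * (L.m * L.kS (2 * s) (L.ds p z.1) * (2 / s)))
    (ball_mem_nhds s (by positivity))
    (by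
      filter_upwards [ball_mem_nhds s (half_pos hs)] with x hx
      exact (hρm.mul (L.potB_kk_meas x p)).aestronglyMeasurable)
    (hint s hs)
    (by
      refine (hρm.mul (((L.potB_kk_meas s p).const_mul L.m).mul ?_)).aestronglyMeasurable
      exact hdm.div ((hdm.const_add s).const_mul s))
    (by
      filter_upwards [hR] with z hz x hx
      have hx' : s / 2 < x ∧ x < 3 * s / 2 := by
        rw [Real.ball_eq_Ioo] at hx
        constructor <;> linarith [hx.1, hx.2]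
      have hd := L.potB_ds_nonneg p z.1
      have hx0 : 0 < x := by linarith
      have h1 : L.ds p z.1 / (x * (x + L.ds p z.1)) ≤ 2 / s := by
        rw [div_le_div_iff₀ (by positivity) hs]
        nlinarith
      have h2 : kk L.m x (L.ds p z.1) ≤ L.kS (2 * s) (L.ds p z.1) :=
        kk_mono L.m_pos.le hx0.le (by linarith) hd
      have h3 : 0 ≤ kk L.m x (L.ds p z.1) := kk_nonneg hx0.le hd
      have h4 : 0 ≤ L.ds p z.1 / (x * (x + L.ds p z.1)) := by positivity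
      have hm := L.m_pos
      rw [norm_mul]
      refine mul_le_mul hz ?_ (norm_nonneg _) hR0
      rw [Real.norm_eq_abs, abs_of_nonneg (by positivity)]
      exact mul_le_mul (mul_le_mul_of_nonneg_left h2 hm.le) h1 h4
        (mul_nonneg hm.le (h3.trans h2)))
    ((((hkS (2 * s) (by positivity)).const_mul L.m).mul_const (2 / s)).const_mul R)
    (by
      refine Eventually.of_forall fun z x hx => ?_
      have hx0 : 0 < x := by
        rw [Real.ball_eq_Ioo] at hx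
        linarith [hx.1]
      exact (hasDerivAt_kk hm1 hx0 (L.potB_ds_nonneg p z.1)).const_mul _)
  exact hmain

/-- `J + C A` has nonnegative derivative -/
theorem potB_deriv_nonneg {B : ℝ} {p : E n} (hp : p ∈ L.K) (hB : ∀ x ∈ L.K, L.F p x ≤ B)
    (hd : ∀ᵐ z ∂L.V, 0 < L.ds p z.1)
    (hkS : ∀ S : ℝ, 0 < S → Integrable (fun z => L.kS S (L.ds p z.1)) L.V) {Φ : E n → ℝ}
    (hΦ : ContDiff ℝ ∞ Φ) (h0 : ∀ x, 0 ≤ Φ x) {s : ℝ} (hs : L.Ad s) :
    ∃ D : ℝ, 0 ≤ D ∧ HasDerivAt (fun s => L.Js Φ p s + L.cP B * L.Apot Φ p s) D s := by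
  obtain ⟨hs0, hs1, hs2⟩ := id hs
  have hΦ1 : ContDiff ℝ 1 Φ := hΦ.of_le (by exact_mod_cast le_top)
  have hε : 0 < s ^ 2 / 2 := by positivity
  have hk : L.k2 * (s ^ 2 / 2) < 2 := by linarith
  obtain ⟨hI, hA⟩ := L.hasDerivAt_Apot hs0 hkS hΦ1
  have hJ := L.hasDerivAt_Js hs0 (by linarith) p hΦ
  refine ⟨_, ?_, hJ.add (hA.const_mul (L.cP B))⟩
  have hg : 0 < 1 - L.k2 * s ^ 2 / 4 := by linarith
  have hD : 0 ≤ L.Dl p (fun x => Φ x * L.ws p s x ^ L.m) := by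
    refine L.Dl_nonneg hp (L.wm_smooth hε hk hΦ le_rfl L.m) fun x => ?_
    exact mul_nonneg (h0 x) (Real.rpow_nonneg (L.w_pos hε hk x).le _)
  have cw : Continuous fun z : E n × E n => L.ws p s z.1 ^ L.m :=
    (L.w_rpow_smooth hε hk L.m).continuous.comp continuous_fst
  have cΦ : Continuous fun z : E n × E n => Φ z.1 := hΦ.continuous.comp continuous_fst
  have cF : Continuous fun z : E n × E n => L.F p z.1 := (L.Fc_cont p).comp continuous_fst
  have cn := L.nc_cont p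
  have i1 : Integrable (fun z : E n × E n => Φ z.1 * L.ws p s z.1 ^ L.m * (L.H0 * L.nc p z -
          2 * L.m * L.nc p z ^ 2 / (s ^ 2 + 2 * L.F p z.1))) L.V :=
    L.integrable_of_cont ((cΦ.mul cw).mul ((continuous_const.mul cn).sub
      ((continuous_const.mul (cn.pow 2)).div (continuous_const.add (continuous_const.mul cF))
        fun z => by
          have := L.F_nonneg p z.1
          positivity)))
  have i2 : Integrable (fun z : E n × E n => L.ws p s z.1 ^ L.m * L.G Φ (L.F p) z) L.V :=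
    L.integrable_of_cont (cw.mul (L.G_cont hΦ1 (L.Fc_smooth1 p)))
  have hcmp : 1 / (s * (1 - L.k2 * s ^ 2 / 4)) *
      ((∫ z, Φ z.1 * L.ws p s z.1 ^ L.m * (L.H0 * L.nc p z -
          2 * L.m * L.nc p z ^ 2 / (s ^ 2 + 2 * L.F p z.1)) ∂L.V) -
        ∫ z, L.ws p s z.1 ^ L.m * L.G Φ (L.F p) z ∂L.V) ≤
      L.cP B * ∫ z, L.rhoP Φ p z * (L.m * kk L.m s (L.ds p z.1) *
        (L.ds p z.1 / (s * (s + L.ds p z.1)))) ∂L.V := by
    rw [← integral_sub i1 i2, ← integral_const_mul, ← integral_const_mul]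
    refine integral_mono_ae ((i1.sub i2).const_mul _) (hI.const_mul _) ?_
    filter_upwards [L.V_supp, hd] with z hz hdz
    exact L.potB_err_le hs h0 (hB z.1 hz.1) hz.2 hdz
  have hpos : 0 ≤ 1 / (s * (1 - L.k2 * s ^ 2 / 4)) := by positivity
  have h1 := mul_nonneg hpos hD
  have e : 1 / (s * (1 - L.k2 * s ^ 2 / 4)) * (L.Dl p (fun x => Φ x * L.ws p s x ^ L.m) -
        (∫ z, Φ z.1 * L.ws p s z.1 ^ L.m * (L.H0 * L.nc p z -
          2 * L.m * L.nc p z ^ 2 / (s ^ 2 + 2 * L.F p z.1)) ∂L.V) +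
        ∫ z, L.ws p s z.1 ^ L.m * L.G Φ (L.F p) z ∂L.V) =
      1 / (s * (1 - L.k2 * s ^ 2 / 4)) * L.Dl p (fun x => Φ x * L.ws p s x ^ L.m) -
      1 / (s * (1 - L.k2 * s ^ 2 / 4)) *
      ((∫ z, Φ z.1 * L.ws p s z.1 ^ L.m * (L.H0 * L.nc p z -
          2 * L.m * L.nc p z ^ 2 / (s ^ 2 + 2 * L.F p z.1)) ∂L.V) -
        ∫ z, L.ws p s z.1 ^ L.m * L.G Φ (L.F p) z ∂L.V) := by ring
  rw [e]
  linarith

/-- **almost monotonicity** of the bubble integral, with the truncated kernel -/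
theorem Js_le {B : ℝ} {p : E n} (hp : p ∈ L.K) (hB0 : 0 ≤ B) (hB : ∀ x ∈ L.K, L.F p x ≤ B)
    (hd : ∀ᵐ z ∂L.V, 0 < L.ds p z.1)
    (hkS : ∀ S : ℝ, 0 < S → Integrable (fun z => L.kS S (L.ds p z.1)) L.V) {Φ : E n → ℝ}
    (hΦ : ContDiff ℝ ∞ Φ) (h0 : ∀ x, 0 ≤ Φ x) {s S : ℝ} (hs : 0 < s) (hsS : s ≤ S)
    (hS : L.Ad S) : L.Js Φ p s ≤ L.Js Φ p S + L.cP B * L.Apot Φ p S := by
  have hmono : MonotoneOn (fun s => L.Js Φ p s + L.cP B * L.Apot Φ p s) (Icc s S) := by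
    have hder : ∀ x ∈ Icc s S, ∃ D : ℝ, 0 ≤ D ∧
        HasDerivAt (fun s => L.Js Φ p s + L.cP B * L.Apot Φ p s) D x := by
      intro x hx
      exact L.potB_deriv_nonneg hp hB hd hkS hΦ h0 (potB_Ad_of_le hS (lt_of_lt_of_le hs hx.1) hx.2)
    refine monotoneOn_of_deriv_nonneg (convex_Icc s S) ?_ ?_ ?_
    · intro x hx
      obtain ⟨D, -, hD⟩ := hder x hx
      exact hD.continuousAt.continuousWithinAt
    · intro x hx
      obtain ⟨D, -, hD⟩ := hder x (interior_subset hx)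
      exact hD.differentiableAt.differentiableWithinAt
    · intro x hx
      obtain ⟨D, hD0, hD⟩ := hder x (interior_subset hx)
      rw [hD.deriv]
      exact hD0
  have h1 := hmono (left_mem_Icc.2 hsS) (right_mem_Icc.2 hsS) hsS
  have h2 : 0 ≤ L.cP B * L.Apot Φ p s := by
    refine mul_nonneg (L.cP_pos hB0).le (integral_nonneg fun z => ?_)
    exact mul_nonneg (L.rhoP_nonneg h0 p z) (kk_nonneg hs.le (L.potB_ds_nonneg p z.1))
  simp only at h1
  linarith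

end Lim

end Vale.Agent.P219.End
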