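import Mathlib

/-!
# P219 / End : the two kernel integrals of the potential estimate (pure calculus)
-/

open MeasureTheory Set
open scoped Topology

namespace Vale.Agent.P219.End

/-- `∫_{s₀}^S ((s/(s+d))^m)' ds ≤ (S/(S+d))^m` -/
theorem potK_ftc {m S s₀ d : ℝ} (h0 : 0 < s₀) (h : s₀ ≤ S) (hd : 0 < d) :
    ContinuousOn (fun s : ℝ => m * (s / (s + d)) ^ (m - 1) * (d / (s + d) ^ 2)) (uIcc s₀ S) ∧
    ∫ s in s₀..S, m * (s / (s + d)) ^ (m - 1) * (d / (s + d) ^ 2) ≤ (S / (S + d)) ^ m := by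
  have hI : uIcc s₀ S = Icc s₀ S := uIcc_of_le h
  have hpos : ∀ s ∈ uIcc s₀ S, 0 < s := by
    intro s hs
    rw [hI] at hs
    linarith [hs.1]
  have hc : ContinuousOn (fun s : ℝ => m * (s / (s + d)) ^ (m - 1) * (d / (s + d) ^ 2))
      (uIcc s₀ S) := by
    have h1 : ContinuousOn (fun s : ℝ => s / (s + d)) (uIcc s₀ S) := by
      refine continuousOn_id.div (by fun_prop) ?_
      intro s hs
      have := hpos s hs
      positivity
    refine (continuousOn_const.mul (h1.rpow_const ?_)).mul ?_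
    · intro s hs
      left
      have := hpos s hs
      positivity
    · refine continuousOn_const.div (by fun_prop) ?_
      intro s hs
      have := hpos s hs
      positivity
  refine ⟨hc, ?_⟩
  have hder : ∀ s ∈ uIcc s₀ S, HasDerivAt (fun s : ℝ => (s / (s + d)) ^ m)
      (m * (s / (s + d)) ^ (m - 1) * (d / (s + d) ^ 2)) s := by
    intro s hs
    have hs0 := hpos s hs
    have h1 : HasDerivAt (fun s : ℝ => s / (s + d)) (d / (s + d) ^ 2) s := by
      have h2 := (hasDerivAt_id s).div ((hasDerivAt_id s).add_const d) (by simp; positivity)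
      refine h2.congr_deriv ?_
      simp
    have h3 := h1.rpow_const (p := m) (Or.inl (by positivity))
    refine h3.congr_deriv ?_
    ring
  rw [intervalIntegral.integral_eq_sub_of_hasDerivAt hder (hc.intervalIntegrable)]
  have : 0 ≤ (s₀ / (s₀ + d)) ^ m := by positivity
  linarith

/-- `2 s / (s² + d²) ≤ 4 s / (s + d)²` -/
theorem potK_le {s d : ℝ} (hs : 0 < s) (hd : 0 < d) :
    2 * s / (s ^ 2 + d ^ 2) ≤ 4 * (s / (s + d)) / (s + d) := by
  rw [div_le_iff₀ (by positivity)]
  have e : 4 * (s / (s + d)) / (s + d) * (s ^ 2 + d ^ 2) =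
      4 * s * (s ^ 2 + d ^ 2) / (s + d) ^ 2 := by
    field_simp
  rw [e, le_div_iff₀ (by positivity)]
  nlinarith [mul_nonneg hs.le (sq_nonneg (s - d))]

theorem potK_cont {s₀ S d : ℝ} (a : ℝ) (h0 : 0 < s₀) (h : s₀ ≤ S) :
    ContinuousOn (fun s : ℝ => (2 * s / (s ^ 2 + d ^ 2)) ^ a) (uIcc s₀ S) := by
  have hI : uIcc s₀ S = Icc s₀ S := uIcc_of_le h
  have hpos : ∀ s ∈ uIcc s₀ S, 0 < s := by
    intro s hs
    rw [hI] at hs
    linarith [hs.1]
  refine ContinuousOn.rpow_const ?_ ?_
  · refine ContinuousOn.div (by fun_prop) (by fun_prop) ?_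
    intro s hs
    have := hpos s hs
    positivity
  · intro s hs
    left
    have := hpos s hs
    positivity

/-- K1: `∫_{s₀}^S (2s/(s²+d²))^m d/s ds ≤ (4^m/m) (S/(S+d))^m d^(1-m)` -/
theorem potK1 {m S s₀ d : ℝ} (hm : 1 ≤ m) (h0 : 0 < s₀) (h : s₀ ≤ S) (hd : 0 ≤ d) :
    ∫ s in s₀..S, (2 * s / (s ^ 2 + d ^ 2)) ^ m * (d / s) ≤
      4 ^ m / m * ((S / (S + d)) ^ m * d ^ (1 - m)) := by
  have hS : 0 < S := h0.trans_le h
  rcases hd.eq_or_lt with rfl | hd
  · simp only [zero_div, mul_zero, intervalIntegral.integral_zero]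
    positivity
  obtain ⟨hc, hi⟩ := potK_ftc (m := m) h0 h hd
  have hm0 : 0 < m := by linarith
  have hmono : ∫ s in s₀..S, (2 * s / (s ^ 2 + d ^ 2)) ^ m * (d / s) ≤
      ∫ s in s₀..S, 4 ^ m / m * d ^ (1 - m) *
        (m * (s / (s + d)) ^ (m - 1) * (d / (s + d) ^ 2)) := by
    refine intervalIntegral.integral_mono_on h ?_ ?_ ?_
    · refine ContinuousOn.intervalIntegrable ?_
      refine (potK_cont m h0 h).mul ?_
      refine continuousOn_const.div continuousOn_id ?_
      intro s hs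
      rw [uIcc_of_le h] at hs
      exact (h0.trans_le hs.1).ne'
    · exact (continuousOn_const.mul hc).intervalIntegrable
    · intro s hs
      have hs0 : 0 < s := h0.trans_le hs.1
      have hsd : 0 < s + d := by linarith
      have ha : 0 < s / (s + d) := by positivity
      have h1 : (2 * s / (s ^ 2 + d ^ 2)) ^ m ≤ (4 * (s / (s + d)) / (s + d)) ^ m :=
        Real.rpow_le_rpow (by positivity) (potK_le hs0 hd) hm0.le
      have h2 : (4 * (s / (s + d)) / (s + d)) ^ m =
          4 ^ m * (s / (s + d)) ^ m * (s + d) ^ (-m) := by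
        rw [Real.div_rpow (by positivity) hsd.le, Real.mul_rpow (by norm_num) ha.le,
          Real.rpow_neg hsd.le]
        rfl
      have h3 : (s / (s + d)) ^ m = (s / (s + d)) ^ (m - 1) * (s / (s + d)) := by
        rw [← Real.rpow_add_one ha.ne']
        congr 1
        ring
      have h4 : (s + d) ^ (-m) ≤ d ^ (1 - m) * (s + d)⁻¹ := by
        have e : (s + d) ^ (-m) = (s + d) ^ (1 - m) * (s + d)⁻¹ := by
          rw [← Real.rpow_neg_one, ← Real.rpow_add hsd]
          congr 1
          ring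
        rw [e]
        refine mul_le_mul_of_nonneg_right ?_ (by positivity)
        exact Real.rpow_le_rpow_of_nonpos hd (by linarith) (by linarith)
      calc (2 * s / (s ^ 2 + d ^ 2)) ^ m * (d / s)
          ≤ (4 ^ m * ((s / (s + d)) ^ (m - 1) * (s / (s + d))) * (s + d) ^ (-m)) * (d / s) := by
            rw [← h3, ← h2]
            exact mul_le_mul_of_nonneg_right h1 (by positivity)
        _ ≤ (4 ^ m * ((s / (s + d)) ^ (m - 1) * (s / (s + d))) * (d ^ (1 - m) * (s + d)⁻¹)) *
            (d / s) := by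
            refine mul_le_mul_of_nonneg_right ?_ (by positivity)
            exact mul_le_mul_of_nonneg_left h4 (by positivity)
        _ = 4 ^ m / m * d ^ (1 - m) * (m * (s / (s + d)) ^ (m - 1) * (d / (s + d) ^ 2)) := by
            field_simp
  refine hmono.trans ?_
  rw [intervalIntegral.integral_const_mul]
  have h5 : 4 ^ m / m * ((S / (S + d)) ^ m * d ^ (1 - m)) =
      4 ^ m / m * d ^ (1 - m) * (S / (S + d)) ^ m := by ring
  rw [h5]
  exact mul_le_mul_of_nonneg_left hi (by positivity)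

/-- K2: `∫_{s₀}^S (2s/(s²+d²))^(m-1) ds ≤ (4^(m-1)/m) d (S/(S+d))^m d^(1-m)` -/
theorem potK2 {m S s₀ d : ℝ} (hm : 3 ≤ m) (h0 : 0 < s₀) (h : s₀ ≤ S) (hd : 0 < d) :
    ∫ s in s₀..S, (2 * s / (s ^ 2 + d ^ 2)) ^ (m - 1) ≤
      4 ^ (m - 1) / m * (d * ((S / (S + d)) ^ m * d ^ (1 - m))) := by
  obtain ⟨hc, hi⟩ := potK_ftc (m := m) h0 h hd
  have hm0 : 0 < m := by linarith
  have hS : 0 < S := h0.trans_le h
  have hmono : ∫ s in s₀..S, (2 * s / (s ^ 2 + d ^ 2)) ^ (m - 1) ≤
      ∫ s in s₀..S, 4 ^ (m - 1) / m * (d * d ^ (1 - m)) *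
        (m * (s / (s + d)) ^ (m - 1) * (d / (s + d) ^ 2)) := by
    refine intervalIntegral.integral_mono_on h ?_ ?_ ?_
    · exact (potK_cont (m - 1) h0 h).intervalIntegrable
    · exact (continuousOn_const.mul hc).intervalIntegrable
    · intro s hs
      have hs0 : 0 < s := h0.trans_le hs.1
      have hsd : 0 < s + d := by linarith
      have ha : 0 < s / (s + d) := by positivity
      have h1 : (2 * s / (s ^ 2 + d ^ 2)) ^ (m - 1) ≤
          (4 * (s / (s + d)) / (s + d)) ^ (m - 1) :=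
        Real.rpow_le_rpow (by positivity) (potK_le hs0 hd) (by linarith)
      have h2 : (4 * (s / (s + d)) / (s + d)) ^ (m - 1) =
          4 ^ (m - 1) * (s / (s + d)) ^ (m - 1) * (s + d) ^ (1 - m) := by
        rw [Real.div_rpow (by positivity) hsd.le, Real.mul_rpow (by norm_num) ha.le,
          show (1 - m) = -(m - 1) by ring, Real.rpow_neg hsd.le]
        rfl
      have h4 : (s + d) ^ (1 - m) ≤ d ^ (1 - m) * d ^ 2 * ((s + d) ^ 2)⁻¹ := by
        have e : (s + d) ^ (1 - m) = (s + d) ^ (3 - m) * ((s + d) ^ 2)⁻¹ := by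
          rw [← Real.rpow_natCast, ← Real.rpow_neg hsd.le, ← Real.rpow_add hsd]
          congr 1
          push_cast
          ring
        have e' : d ^ (1 - m) * d ^ 2 = d ^ (3 - m) := by
          rw [← Real.rpow_natCast, ← Real.rpow_add hd]
          congr 1
          push_cast
          ring
        rw [e, e']
        refine mul_le_mul_of_nonneg_right ?_ (by positivity)
        exact Real.rpow_le_rpow_of_nonpos hd (by linarith) (by linarith)
      calc (2 * s / (s ^ 2 + d ^ 2)) ^ (m - 1)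
          ≤ 4 ^ (m - 1) * (s / (s + d)) ^ (m - 1) * (s + d) ^ (1 - m) := by
            rw [← h2]
            exact h1
        _ ≤ 4 ^ (m - 1) * (s / (s + d)) ^ (m - 1) * (d ^ (1 - m) * d ^ 2 * ((s + d) ^ 2)⁻¹) :=
            mul_le_mul_of_nonneg_left h4 (by positivity)
        _ = 4 ^ (m - 1) / m * (d * d ^ (1 - m)) *
            (m * (s / (s + d)) ^ (m - 1) * (d / (s + d) ^ 2)) := by
            field_simp
  refine hmono.trans ?_
  rw [intervalIntegral.integral_const_mul]
  have h5 : 4 ^ (m - 1) / m * (d * ((S / (S + d)) ^ m * d ^ (1 - m))) =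
      4 ^ (m - 1) / m * (d * d ^ (1 - m)) * (S / (S + d)) ^ m := by ring
  rw [h5]
  exact mul_le_mul_of_nonneg_left hi (by positivity)

end Vale.Agent.P219.End
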