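import Vale.Agent.P219.TPHR.Recenter
import Vale.Agent.P219.TPH.ModelH

/-! # Equality case: from a boundary at constant distance of a point to a model ball -/

open MeasureTheory Set Metric Filter Topology
open scoped ENNReal ContDiff

namespace Vale.Agent.P219.TPH

open Vale.Agent.P219.TP

variable {n : ℕ} (G : Geo n)

/-- An open bounded set whose frontier is at distance `R` of `c` is the geodesic ball. -/
theorem eq_ball_center {Ω : Set (E n)} (ho : IsOpen Ω) (hb : Bornology.IsBounded Ω)
    (hne : Ω.Nonempty) {c : E n} {R : ℝ} (hR : 0 < R)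
    (hfr : ∀ q ∈ frontier Ω, ‖G.lg c q‖ = R) : Ω = G.ex c '' ball 0 R := by
  set e : E n ≃ₜ E n := exHomeo G c with he
  have hev : ∀ v, e v = G.ex c v := fun v => rfl
  set W : Set (E n) := e ⁻¹' Ω with hW
  have hWo : IsOpen W := ho.preimage e.continuous
  have hWfr : frontier W ⊆ sphere 0 R := by
    intro v hv
    rw [hW, ← e.preimage_frontier] at hv
    have h1 := hfr (e v) hv
    rw [hev, G.lg_ex] at h1
    rwa [mem_sphere_zero_iff_norm]
  have hWne : W.Nonempty := by
    obtain ⟨y, hy⟩ := hne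
    refine ⟨e.symm y, ?_⟩
    rw [hW, mem_preimage, e.apply_symm_apply]
    exact hy
  have hWb : Bornology.IsBounded W := by
    have hc : IsCompact (closure Ω) := hb.isCompact_closure
    have hc2 : IsCompact (e.symm '' closure Ω) := hc.image e.symm.continuous
    refine hc2.isBounded.subset ?_
    intro v hv
    exact ⟨e v, subset_closure hv, e.symm_apply_apply v⟩
  have hconn : ∀ t : Set (E n), IsPreconnected t → (t ∩ W).Nonempty →
      Disjoint t (sphere 0 R) → t ⊆ W := by
    intro t ht h1 h2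
    refine ht.subset_left_of_subset_union hWo isClosed_closure.isOpen_compl
      (disjoint_compl_right_iff_subset.2 subset_closure) ?_ h1
    intro y hy
    by_cases hyW : y ∈ closure W
    · left
      by_contra hyn
      have : y ∈ frontier W := ⟨hyW, by rwa [hWo.interior_eq]⟩
      exact (Set.disjoint_left.1 h2) hy (hWfr this)
    · right; exact hyW
  have hWcb : W ⊆ closedBall 0 R := by
    intro v hv
    by_contra hout
    rw [mem_closedBall_zero_iff, not_le] at hout
    have hdpos : 0 < ‖v‖ := hR.trans hout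
    have hray : (fun t : ℝ => t • v) '' Ici 1 ⊆ W := by
      refine hconn _ (isPreconnected_Ici.image _ (by fun_prop)) ?_ ?_
      · refine ⟨v, ⟨1, self_mem_Ici, ?_⟩, hv⟩
        simp
      · rw [Set.disjoint_left]
        rintro _ ⟨t, ht, rfl⟩ hs
        rw [mem_sphere_zero_iff_norm, norm_smul, Real.norm_of_nonneg
          (zero_le_one.trans ht)] at hs
        have : ‖v‖ ≤ t * ‖v‖ := le_mul_of_one_le_left hdpos.le ht
        linarith
    obtain ⟨M, hM⟩ := hWb.exists_norm_le
    set t : ℝ := max 1 ((M + 1) / ‖v‖) with ht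
    have h1 := hM _ (hray ⟨t, mem_Ici.2 (le_max_left _ _), rfl⟩)
    have h2 : (M + 1) ≤ t * ‖v‖ := by
      rw [← div_le_iff₀ hdpos]; exact le_max_right _ _
    simp only at h1
    rw [norm_smul, Real.norm_of_nonneg (zero_le_one.trans (le_max_left _ _) : (0:ℝ) ≤ t)] at h1
    linarith
  have hWb' : W ⊆ ball 0 R := by
    rw [← interior_closedBall _ hR.ne']
    exact hWo.subset_interior_iff.2 hWcb
  have hWeq : W = ball 0 R := by
    refine Subset.antisymm hWb' (hconn _ (convex_ball _ _).isPreconnected ?_ ?_)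
    · obtain ⟨v, hv⟩ := hWne
      exact ⟨v, hWb' hv, hv⟩
    · rw [Set.disjoint_left]
      intro y h1 h2
      rw [mem_ball] at h1
      rw [mem_sphere] at h2
      linarith
  have hΩ : Ω = e '' ball 0 R := by
    rw [← hWeq, hW, e.image_preimage]
  exact hΩ

/-- The volume of a geodesic ball. -/
theorem vol_ex_ball (c : E n) (R : ℝ) : G.vol (G.ex c '' ball 0 R) =
    ∫⁻ v in ball (0 : E n) R, ENNReal.ofReal |(G.T c v).det| := by
  set e : E n ≃ₜ E n := exHomeo G c with he
  have hS : MeasurableSet (G.ex c '' ball 0 R) := by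
    have h1 : IsOpen (e '' ball 0 R) := e.isOpenMap _ isOpen_ball
    exact h1.measurableSet
  rw [← lintegral_indicator_one hS, G.lintegral_vol_ex c (measurable_one.indicator hS),
    ← lintegral_indicator isOpen_ball.measurableSet]
  refine lintegral_congr fun v => ?_
  by_cases hv : v ∈ ball (0 : E n) R
  · rw [indicator_of_mem hv, indicator_of_mem (mem_image_of_mem _ hv)]
    simp
  · rw [indicator_of_notMem hv, indicator_of_notMem, mul_zero]
    rintro ⟨w, hw, hwv⟩
    have h1 := congrArg (G.lg c) hwv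
    rw [G.lg_ex, G.lg_ex] at h1
    rw [h1] at hw
    exact hv hw

/-- If the volume of the ball is at most the integral of a lower bound of the Jacobian, the
Jacobian is equal to the lower bound. -/
theorem det_eq_of_vol {c : E n} {R : ℝ} {g : E n → ℝ} (hg0 : ∀ v, 0 ≤ g v)
    (hgc : ContinuousOn g (ball 0 R \ {0}))
    (hg : ∀ v ∈ ball (0 : E n) R \ {0}, g v ≤ |(G.T c v).det|)
    (hfin : ∫⁻ v in ball (0 : E n) R \ {0}, ENNReal.ofReal (g v) ≠ ⊤)
    (hvol : G.vol (G.ex c '' ball 0 R) ≤ ∫⁻ v in ball (0 : E n) R \ {0}, ENNReal.ofReal (g v)) :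
    ∀ v ∈ ball (0 : E n) R \ {0}, |(G.T c v).det| = g v := by
  have hU : IsOpen (ball (0 : E n) R \ {0}) := isOpen_ball.sdiff isClosed_singleton
  have hdc : Continuous fun v => |(G.T c v).det| := by
    have hT : Continuous fun v : E n => G.T c v :=
      G.T_smooth.continuous.comp (continuous_const.prodMk continuous_id)
    exact (ContinuousLinearMap.continuous_det.comp hT).abs
  rw [vol_ex_ball] at hvol
  have h1 : ∫⁻ v in ball (0 : E n) R \ {0}, ENNReal.ofReal |(G.T c v).det| ≤
      ∫⁻ v in ball (0 : E n) R \ {0}, ENNReal.ofReal (g v) :=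
    (lintegral_mono_set sdiff_subset).trans hvol
  have h2 : (fun v => ENNReal.ofReal (g v)) =ᵐ[volume.restrict (ball (0 : E n) R \ {0})]
      fun v => ENNReal.ofReal |(G.T c v).det| := by
    refine ae_eq_of_ae_le_of_lintegral_le ?_ hfin hdc.measurable.ennreal_ofReal.aemeasurable h1
    rw [Filter.EventuallyLE, ae_restrict_iff' hU.measurableSet]
    exact Eventually.of_forall fun v hv => ENNReal.ofReal_le_ofReal (hg v hv)
  have h3 := Measure.eqOn_open_of_ae_eq h2 hU
    (ENNReal.continuous_ofReal.comp_continuousOn hgc)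
    (ENNReal.continuous_ofReal.comp_continuousOn hdc.continuousOn)
  intro v hv
  have h4 := h3 hv
  simp only at h4
  exact ((ENNReal.ofReal_eq_ofReal_iff (hg0 v) (abs_nonneg _)).1 h4).symm

/-- Flat case. -/
theorem flat_center (hn : 1 ≤ n) {c : E n} {R : ℝ}
    (hvol : G.vol (G.ex c '' ball 0 R) ≤ volume (ball (0 : E n) R)) :
    ∀ v ∈ ball (0 : E n) R, ∀ z, ‖G.T c v z‖ = ‖z‖ := by
  have hne : Nonempty (Fin n) := ⟨⟨0, by omega⟩⟩
  intro v hv z
  by_cases hv0 : v = 0
  · rw [hv0, G.T_zero]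
  have h0 : volume (ball (0 : E n) R \ {0}) = volume (ball (0 : E n) R) :=
    measure_sdiff_null (measure_singleton _)
  have h1 := det_eq_of_vol G (c := c) (R := R) (g := fun _ => 1) (fun _ => zero_le_one)
    continuousOn_const (fun v _ => ?_) ?_ ?_ v ⟨hv, hv0⟩
  · exact isometry_of_det G c v h1 z
  · have h2 := curvh_det_le hn (B := ContinuousLinearMap.id ℝ (E n)) (C := G.T c v)
      (G.det_T_ne c v) (fun ξ => G.norm_le_T c v ξ)
    have h3 : (ContinuousLinearMap.id ℝ (E n)).det = 1 := LinearMap.det_id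
    rw [h3, abs_one] at h2
    exact h2
  · rw [ENNReal.ofReal_one, setLIntegral_one, h0]
    exact measure_ball_lt_top.ne
  · rw [ENNReal.ofReal_one, setLIntegral_one, h0]
    exact hvol

/-- The volume of a hyperbolic ball. -/
theorem lintegral_sinh_ball (hn : 1 ≤ n) {R : ℝ} (hR : 0 < R) :
    ∫⁻ v in ball (0 : E n) R \ {0}, ENNReal.ofReal ((Real.sinh ‖v‖ / ‖v‖) ^ (n - 1)) =
      ENNReal.ofReal (VR n 1 R) := by
  have hU : IsOpen (ball (0 : E n) R \ {0}) := isOpen_ball.sdiff isClosed_singleton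
  have hgm : Measurable fun v : E n => (Real.sinh ‖v‖ / ‖v‖) ^ (n - 1) := by fun_prop
  rw [← lintegral_indicator hU.measurableSet,
    polar hn (hgm.ennreal_ofReal.indicator hU.measurableSet)]
  have h1 : ∀ u : sphere (0 : E n) 1, ∫⁻ r in Ioi (0 : ℝ), ENNReal.ofReal (r ^ (n - 1)) *
      (ball (0 : E n) R \ {0}).indicator
        (fun v : E n => ENNReal.ofReal ((Real.sinh ‖v‖ / ‖v‖) ^ (n - 1))) (r • (u : E n)) =
      ENNReal.ofReal (∫ r in (0 : ℝ)..R, sn 1 r ^ (n - 1)) := by
    intro u
    have hu : ‖(u : E n)‖ = 1 := by simp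
    have h2 : ∫ r in (0 : ℝ)..R, sn 1 r ^ (n - 1) = ∫ r in Ioo (0 : ℝ) R,
        Real.sinh r ^ (n - 1) := by
      rw [intervalIntegral.integral_of_le hR.le, integral_Ioc_eq_integral_Ioo]
      simp only [bridge_sn]
    rw [h2, ofReal_integral_eq_lintegral_ofReal
      ((by fun_prop : Continuous fun r : ℝ => Real.sinh r ^ (n - 1)).continuousOn
        |>.integrableOn_compact isCompact_Icc |>.mono_set Ioo_subset_Icc_self)
      ((ae_restrict_iff' measurableSet_Ioo).2 (Eventually.of_forall fun r hr =>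
        pow_nonneg (Real.sinh_nonneg_iff.2 hr.1.le) _))]
    rw [← lintegral_indicator measurableSet_Ioi, ← lintegral_indicator measurableSet_Ioo]
    refine lintegral_congr fun r => ?_
    by_cases hr : r ∈ Ioo (0 : ℝ) R
    · have hmem : r • (u : E n) ∈ ball (0 : E n) R \ {0} := by
        refine ⟨?_, ?_⟩
        · rw [mem_ball_zero_iff, norm_smul, hu, mul_one, Real.norm_of_nonneg hr.1.le]
          exact hr.2
        · rw [mem_singleton_iff, ← norm_eq_zero, norm_smul, hu, mul_one,
            Real.norm_of_nonneg hr.1.le]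
          exact hr.1.ne'
      rw [indicator_of_mem hr, indicator_of_mem (mem_Ioi.2 hr.1), indicator_of_mem hmem,
        ← ENNReal.ofReal_mul (pow_nonneg hr.1.le _), norm_smul, hu, mul_one,
        Real.norm_of_nonneg hr.1.le, div_pow, mul_div_cancel₀ _ (pow_pos hr.1 _).ne']
    · rw [indicator_of_notMem hr]
      by_cases hr0 : r ∈ Ioi (0 : ℝ)
      · rw [indicator_of_mem hr0, indicator_of_notMem, mul_zero]
        rintro ⟨h3, -⟩
        rw [mem_ball_zero_iff, norm_smul, hu, mul_one, Real.norm_of_nonneg (le_of_lt hr0)] at h3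
        exact hr ⟨hr0, h3⟩
      · rw [indicator_of_notMem hr0]
  simp only [h1]
  rw [lintegral_const, VR, mul_comm (sig n), ENNReal.ofReal_mul]
  · congr 1
    unfold sig
    rw [ofReal_measureReal]
  · exact intervalIntegral.integral_nonneg hR.le fun r hr => by
      rw [bridge_sn]
      exact pow_nonneg (Real.sinh_nonneg_iff.2 hr.1) _

/-- Hyperbolic case. -/
theorem hyp_center (hn : 2 ≤ n) (hG : Curv G 1) {c : E n} {R : ℝ} (hR : 0 < R)
    (hvol : G.vol (G.ex c '' ball 0 R) ≤ ENNReal.ofReal (VR n 1 R)) :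
    ∀ v ∈ ball (0 : E n) R, v ≠ 0 → ∀ z, ‖G.T c v z‖ ^ 2 = mq v z := by
  intro v hv hv0 z
  have hpos : ∀ w : E n, w ≠ 0 → 0 < ‖w‖ ^ (n - 1) := fun w hw => pow_pos (norm_pos_iff.2 hw) _
  have h1 := det_eq_of_vol G (c := c) (R := R)
    (g := fun v => (Real.sinh ‖v‖ / ‖v‖) ^ (n - 1))
    (fun v => pow_nonneg (div_nonneg (Real.sinh_nonneg_iff.2 (norm_nonneg _)) (norm_nonneg _)) _)
    (fun v hv => ?_) (fun v hv => ?_) ?_ ?_ v ⟨hv, hv0⟩
  · refine model_of_det G hn hG c hv0 ?_ z
    rw [h1, div_pow, div_mul_cancel₀ _ (hpos v hv0).ne']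
  · have h2 : ‖v‖ ≠ 0 := norm_ne_zero_iff.2 hv.2
    have h3 : ContinuousAt (fun v : E n => Real.sinh ‖v‖ / ‖v‖) v :=
      (Real.continuous_sinh.comp continuous_norm).continuousAt.div continuous_norm.continuousAt h2
    exact (h3.pow _).continuousWithinAt
  · have h2 := sn_le_J (n := n) (by omega) zero_le_one hG (x := c) (v := v) hv.2
    rw [bridge_sn] at h2
    rw [div_pow, div_le_iff₀ (hpos v hv.2), mul_comm]
    exact h2
  · rw [lintegral_sinh_ball (by omega) hR]
    exact ENNReal.ofReal_ne_top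
  · rw [lintegral_sinh_ball (by omega) hR]
    exact hvol

end Vale.Agent.P219.TPH
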