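import Vale.Agent.P219.End.Gamma
import Vale.Agent.P219.TP.Moments

/-! # P219, all dimensions: `sg (n - 1)` is the area of the unit sphere `sig n` -/

namespace Vale.Agent.P219.End

theorem sg_eq_sig {n : ℕ} (hn : 2 ≤ n) : sg ((n : ℝ) - 1) = TP.sig n := by
  rw [sg_sub_one hn, TP.sig_eq_gamma (by omega)]

end Vale.Agent.P219.End
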