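import Vale.Agent.P219.TPH.Sn

/-! # P219: the entire function `shs`, `sinh x = x shs (x²)` -/

open MeasureTheory Set Metric Filter
open scoped ENNReal ContDiff Nat

namespace Vale.Agent.P219.End

/-- `shs s = ∑ sʲ/(2j+1)!`, so that `sinh x = x shs (x²)`. -/
noncomputable def shs (s : ℝ) : ℝ := ∑' j : ℕ, s ^ j / (2 * j + 1)!

/-- The power series of `shs`. -/
noncomputable def shsP : FormalMultilinearSeries ℝ ℝ ℝ :=
  FormalMultilinearSeries.ofScalars ℝ (fun j : ℕ => (((2 * j + 1)! : ℝ))⁻¹)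

theorem shsP_radius : shsP.radius = ⊤ := by
  refine FormalMultilinearSeries.ofScalars_radius_eq_top_of_tendsto _ _ ?_ ?_
  · exact Filter.Eventually.of_forall fun j => by positivity
  · have h : (fun n : ℕ => ‖(((2 * n.succ + 1)! : ℝ))⁻¹‖ / ‖(((2 * n + 1)! : ℝ))⁻¹‖) =
        fun n : ℕ => (((2 * (n : ℝ) + 3) * (2 * n + 2)))⁻¹ := by
      funext n
      rw [norm_inv, norm_inv, Real.norm_of_nonneg (by positivity),
        Real.norm_of_nonneg (by positivity)]
      have e : (2 * n.succ + 1)! = (2 * n + 3) * ((2 * n + 2) * (2 * n + 1)!) := by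
        have : 2 * n.succ + 1 = (2 * n + 2) + 1 := by omega
        rw [this, Nat.factorial_succ, Nat.factorial_succ]
      rw [e]
      push_cast
      have : ((2 * n + 1)! : ℝ) ≠ 0 := by positivity
      field_simp
    rw [h]
    refine tendsto_inv_atTop_zero.comp ?_
    refine tendsto_atTop_mono (f := fun n : ℕ => (n : ℝ)) (fun n => ?_)
      tendsto_natCast_atTop_atTop
    have : (0 : ℝ) ≤ n := Nat.cast_nonneg n
    nlinarith

theorem shs_eq (s : ℝ) : shs s = shsP.sum s := by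
  unfold shs shsP
  rw [FormalMultilinearSeries.sum]
  congr 1
  funext j
  rw [FormalMultilinearSeries.ofScalars_apply_eq]
  rw [smul_eq_mul, div_eq_mul_inv, mul_comm]

theorem contDiff_shs : ContDiff ℝ ∞ shs := by
  have h : shs = shsP.sum := funext shs_eq
  rw [h]
  have h1 : HasFPowerSeriesOnBall shsP.sum shsP 0 ⊤ := by
    rw [← shsP_radius]
    exact shsP.hasFPowerSeriesOnBall (by rw [shsP_radius]; exact ENNReal.zero_lt_top)
  have h2 : AnalyticOnNhd ℝ shsP.sum univ := by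
    intro x _
    exact h1.analyticOnNhd x (by simp)
  exact contDiffOn_univ.1 (h2.contDiffOn (by exact uniqueDiffOn_univ))

theorem shs_mul (x : ℝ) : x * shs (x ^ 2) = Real.sinh x := by
  have h := Real.hasSum_sinh x
  rw [← h.tsum_eq, shs, ← tsum_mul_left]
  congr 1
  funext j
  rw [pow_succ x (2 * j), pow_mul]
  ring

theorem shs_zero : shs 0 = 1 := by
  unfold shs
  rw [tsum_eq_single 0]
  · simp
  · intro j hj
    simp [hj]

theorem one_le_shs {s : ℝ} (hs : 0 ≤ s) : 1 ≤ shs s := by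
  rcases eq_or_lt_of_le hs with h | h
  · rw [← h, shs_zero]
  · have h1 := shs_mul (√s)
    rw [Real.sq_sqrt hs] at h1
    have h2 : 0 < √s := Real.sqrt_pos.2 h
    have h3 : √s ≤ Real.sinh √s := Real.self_le_sinh_iff.2 h2.le
    rw [← h1] at h3
    nlinarith

/-- `sn k r = r shs (k² r²)`. -/
theorem sn_eq_shs (k r : ℝ) : TPH.sn k r = r * shs (k ^ 2 * r ^ 2) := by
  unfold TPH.sn
  split_ifs with hk
  · rw [hk]
    simp [shs_zero]
  · rw [← mul_pow, div_eq_iff hk, ← shs_mul (k * r)]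
    ring

/-- `cs k r - 1 = k² (r²/2) shs(k² r²/4)²`. -/
theorem cs_eq_shs (k r : ℝ) :
    TPH.cs k r = 1 + k ^ 2 * (r ^ 2 / 2 * shs (k ^ 2 * r ^ 2 / 4) ^ 2) := by
  unfold TPH.cs
  have h1 : Real.cosh (k * r) = 1 + 2 * Real.sinh (k * r / 2) ^ 2 := by
    have := Real.cosh_two_mul (k * r / 2)
    rw [Real.cosh_sq] at this
    rw [show 2 * (k * r / 2) = k * r by ring] at this
    rw [this]; ring
  rw [h1, ← shs_mul, mul_pow, show (k * r / 2) ^ 2 = k ^ 2 * r ^ 2 / 4 by ring]
  ring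

end Vale.Agent.P219.End
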