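import Vale.Agent.P219.TP.PerContract
import Vale.Agent.P219.End.StFun

/-! # P219: existence of the contraction, general weights -/

open MeasureTheory Set Metric
open scoped ENNReal ContDiff

namespace Vale.Agent.P219.End

open Vale.Agent.P219.TP Vale.Agent.P219.TPH

variable {n : ℕ} (G : Geo n)

/-- Cut-off of a smooth rate. -/
theorem st_cutoff {u : E n → ℝ} (hu : ContDiff ℝ ∞ u) (hu0 : ∀ x, 0 ≤ u x) (L : ℝ) (p : E n) :
    ∃ M : ℝ, 0 ≤ M ∧ ∃ θ : E n → ℝ, ContDiff ℝ ∞ θ ∧ (∀ v, 0 ≤ θ v) ∧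
        (∀ v, ‖v‖ < L → θ v = u (G.ex p v)) ∧
        ∀ v v', ‖θ v • v - θ v' • v'‖ ≤ M * ‖v - v'‖ := by
  have hex : ContDiff ℝ ∞ (G.ex p) := G.ex_smooth.comp (contDiff_const.prodMk contDiff_id)
  have hth : ContDiff ℝ ∞ fun v => u (G.ex p v) := hu.comp hex
  let χ : ContDiffBump (0 : E n) := ⟨|L| + 1, |L| + 2, by positivity, by linarith⟩
  have hχ : ContDiff ℝ ∞ (χ : E n → ℝ) := χ.contDiff
  set g : E n → E n := fun z => (χ z * u (G.ex p z)) • z with hg
  have hgs : ContDiff ℝ ∞ g := (hχ.mul hth).smul contDiff_id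
  obtain ⟨C, hC⟩ := (isCompact_closedBall (0 : E n) (|L| + 2)).exists_bound_of_continuousOn
    (hgs.continuous_fderiv (by simp)).continuousOn
  refine ⟨max C 0, le_max_right _ _, fun v => χ v * u (G.ex p v), hχ.mul hth, fun v => ?_,
    fun v hv => ?_, ?_⟩
  · exact mul_nonneg χ.nonneg (hu0 _)
  · change χ v * u (G.ex p v) = u (G.ex p v)
    rw [χ.one_of_mem_closedBall, one_mul]
    rw [mem_closedBall, dist_zero_right]
    change ‖v‖ ≤ |L| + 1
    have := le_abs_self L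
    linarith
  · have hb : ∀ v : E n, ‖fderiv ℝ g v‖ ≤ max C 0 := by
      intro v
      by_cases hv : ‖v‖ ≤ |L| + 2
      · exact (hC v (by simpa using hv)).trans (le_max_left _ _)
      · rw [not_le] at hv
        have h0' : g =ᶠ[nhds v] fun _ => 0 := by
          have : {v : E n | |L| + 2 < ‖v‖} ∈ nhds v :=
            (isOpen_lt continuous_const continuous_norm).mem_nhds hv
          filter_upwards [this] with v' hv'
          simp only [hg]
          rw [χ.zero_of_le_dist, zero_mul, zero_smul]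
          rw [dist_zero_right]
          exact le_of_lt hv'
        rw [h0'.fderiv_eq, fderiv_fun_const]
        simp
    intro v v'
    exact Convex.norm_image_sub_le_of_norm_fderiv_le (s := (univ : Set (E n)))
      (f := g) (x := v') (y := v) (fun v _ => hgs.differentiable (by simp) v)
      (fun v _ => hb v) convex_univ (mem_univ _) (mem_univ _)

/-- For small `t` there is a diffeomorphism which is the contraction of rate `u` near the ball and
preserves the class. -/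
theorem st_exists_psi (o : E n) (ρ : ℝ) {p : E n} (hp : ‖G.lg o p‖ ≤ ρ) {u : E n → ℝ}
    (hu : ContDiff ℝ ∞ u) (hu0 : ∀ x, 0 ≤ u x) :
    ∃ t₀ : ℝ, 0 < t₀ ∧ ∀ t : ℝ, 0 ≤ t → t ≤ t₀ → ∃ (θ : E n → ℝ) (Ψ : E n ≃ₜ E n),
      (∀ v, ‖v‖ < 2 * ρ + 1 → θ v = u (G.ex p v)) ∧ (∀ x, Ψ x = G.rad θ p t x) ∧
      ContDiff ℝ ∞ Ψ ∧ ContDiff ℝ ∞ Ψ.symm ∧ ∀ h, G.Cls o ρ h → G.Cls o ρ (h ∘ Ψ.symm) := by
  obtain ⟨M, hM, θ, hθs, hθ0, hθe, hθL⟩ := st_cutoff G hu hu0 (2 * ρ + 1) p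
  obtain ⟨M', hM'⟩ := (isCompact_closedBall (0 : E n) (2 * ρ)).exists_bound_of_continuousOn
    hθs.continuous.continuousOn
  refine ⟨1 / (2 * (M + |M'| + 1)), by positivity, fun t ht0 ht => ?_⟩
  have ht4 : t * (2 * (M + |M'| + 1)) ≤ 1 := by
    rwa [le_div_iff₀ (by positivity)] at ht
  have hM'0 : 0 ≤ |M'| := abs_nonneg _
  have htM : |t| * M < 1 := by
    rw [abs_of_nonneg ht0]
    nlinarith [mul_nonneg ht0 hM, mul_nonneg ht0 hM'0]
  obtain ⟨Ψ, hΨ, hΨs, hΨs'⟩ := exists_diffeo_geo G hθs hM hθL htM p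
  have hΨ' : ∀ x, Ψ x = G.rad θ p t x := hΨ
  refine ⟨θ, Ψ, hθe, hΨ', hΨs, hΨs', fun h hh => cls_contract G hp (t := t) (θ := θ) ?_ hΨ' hΨs' hh⟩
  intro x hx
  have h1 : ‖G.lg p x‖ ≤ 2 * ρ := perc_norm_lg_le G hp hx
  have h3 := hM' (G.lg p x) (by simpa using h1)
  have h5 := hθ0 (G.lg p x)
  have h4 : θ (G.lg p x) ≤ |M'| := (le_abs_self _).trans (h3.trans (le_abs_self _))
  constructor
  · nlinarith [mul_nonneg ht0 hM, mul_nonneg ht0 hM'0, mul_le_mul_of_nonneg_left h4 ht0]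
  · nlinarith [mul_nonneg ht0 h5]

end Vale.Agent.P219.End
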