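import Vale.Agent.P219.TPH.VolH

/-! # P219: volume of a contracted function, general weights -/

open MeasureTheory Set Metric
open scoped ENNReal ContDiff

namespace Vale.Agent.P219.End

open Vale.Agent.P219.TP Vale.Agent.P219.TPH

variable {n : ℕ} (G : Geo n)

/-- `w X`, where `X = θ(lg p x) A(x)(-lg x p)`; `-X` is the initial velocity of `rad θ p t`. -/
noncomputable def stXf (θ : E n → ℝ) (p : E n) (x : E n) : E n :=
  (G.w x * θ (G.lg p x)) • G.A x (-G.lg x p)

/-- Euclidean divergence of `w X`. -/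
noncomputable def stDv (θ : E n → ℝ) (p : E n) (x : E n) : ℝ :=
  ∑ i, fderiv ℝ (stXf G θ p) x (EuclideanSpace.single i 1) i

/-- `rad` as a function of `(t, x)`. -/
noncomputable def stF (θ : E n → ℝ) (p : E n) (q : ℝ × E n) : E n := G.rad θ p q.1 q.2

/-- Inclusion of the last coordinate. -/
noncomputable def stI (n : ℕ) : E n →L[ℝ] ℝ × E n := ContinuousLinearMap.inr ℝ ℝ (E n)

theorem stI_apply (y : E n) : stI n y = (0, y) := rfl

theorem st_kappa (t : ℝ) (x : E n) :
    HasFDerivAt (fun y : E n => ((t, y) : ℝ × E n)) (stI n) x := by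
  have h := (stI n).hasFDerivAt (x := x)
  have h2 := h.const_add ((t, 0) : ℝ × E n)
  refine h2.congr_of_eventuallyEq (Filter.Eventually.of_forall fun y => ?_)
  change _ = (t, 0) + stI n y
  rw [stI_apply]
  simp

variable {θ : E n → ℝ}

theorem st_contDiff_Xf (hθ : ContDiff ℝ ∞ θ) (p : E n) : ContDiff ℝ ∞ (stXf G θ p) := by
  unfold stXf
  refine ContDiff.smul (G.w_smooth.mul (hθ.comp (ibp_contDiff_lg_left G p))) ?_
  exact G.A_smooth.clm_apply (ibp_contDiff_lg_right G p).neg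

theorem stF_smooth (hθ : ContDiff ℝ ∞ θ) (p : E n) : ContDiff ℝ ∞ (stF G θ p) := by
  have hlg : ContDiff ℝ ∞ (fun q : ℝ × E n => G.lg p q.2) :=
    (ibp_contDiff_lg_left G p).comp contDiff_snd
  have harg : ContDiff ℝ ∞ (fun q : ℝ × E n => (1 - q.1 * θ (G.lg p q.2)) • G.lg p q.2) :=
    (contDiff_const.sub (contDiff_fst.mul (hθ.comp hlg))).smul hlg
  exact G.ex_smooth.comp (contDiff_const.prodMk harg)

theorem stF_hasFDerivAt (hθ : ContDiff ℝ ∞ θ) (p : E n) (q : ℝ × E n) :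
    HasFDerivAt (stF G θ p) (fderiv ℝ (stF G θ p) q) q :=
  ((stF_smooth G hθ p).differentiable (by simp) q).hasFDerivAt

/-- The velocity at `t = 0`. -/
theorem st_velocity (hθ : ContDiff ℝ ∞ θ) (p y : E n) :
    fderiv ℝ (stF G θ p) (0, y) (1, 0) = -(θ (G.lg p y)) • G.A y (-G.lg y p) := by
  have h1 : HasDerivAt (fun s : ℝ => G.ex p (s • G.lg p y))
      (G.A (G.ex p ((1 : ℝ) • G.lg p y)) (G.V 1 p (G.lg p y))) 1 := G.ex_deriv 1 p (G.lg p y)
  rw [one_smul, G.ex_lg, G.lg_back'] at h1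
  have h2 : HasDerivAt (fun t : ℝ => 1 - t * θ (G.lg p y)) (-(θ (G.lg p y))) 0 := by
    have := ((hasDerivAt_id (0 : ℝ)).mul_const (θ (G.lg p y))).const_sub 1
    simpa using this
  have h3 : HasDerivAt (fun t : ℝ => stF G θ p (t, y))
      (-(θ (G.lg p y)) • G.A y (-G.lg y p)) 0 :=
    HasDerivAt.scomp_of_eq (0 : ℝ) h1 h2 (by simp)
  have hd := stF_hasFDerivAt G hθ p (0, y)
  have h4 : HasDerivAt (fun t : ℝ => ((t, y) : ℝ × E n)) (1, 0) 0 :=
    (hasDerivAt_id (0 : ℝ)).prodMk (hasDerivAt_const _ _)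
  have h5 := hd.comp_hasDerivAt (0 : ℝ) h4
  exact h5.unique h3

/-- `w(Ψ) det DΨ` as a function of `(t, x)`. -/
noncomputable def stf (θ : E n → ℝ) (p : E n) (q : ℝ × E n) : ℝ :=
  G.w (stF G θ p q) * ((fderiv ℝ (stF G θ p) q).comp (stI n)).det

theorem stf_smooth (hθ : ContDiff ℝ ∞ θ) (p : E n) : ContDiff ℝ ∞ (stf G θ p) := by
  have h1 := stF_smooth G hθ p
  have h2 : ContDiff ℝ ∞ (fderiv ℝ (stF G θ p)) := h1.fderiv_right (by simp)
  have h3 : ContDiff ℝ ∞ (fun q => (fderiv ℝ (stF G θ p) q).comp (stI n)) :=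
    h2.clm_comp contDiff_const
  exact (G.w_smooth.comp h1).mul (volExp_contDiff_det.comp h3)

theorem st_fderiv_rad (hθ : ContDiff ℝ ∞ θ) (p : E n) (t : ℝ) (x : E n) :
    fderiv ℝ (G.rad θ p t) x = (fderiv ℝ (stF G θ p) (t, x)).comp (stI n) := by
  have h := (stF_hasFDerivAt G hθ p (t, x)).comp x (st_kappa t x)
  exact h.fderiv

theorem st_rad_zero (θ : E n → ℝ) (p : E n) : G.rad θ p 0 = id := by
  funext x
  simp [Geo.rad, G.ex_lg]

theorem st_L_zero (hθ : ContDiff ℝ ∞ θ) (p x : E n) :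
    (fderiv ℝ (stF G θ p) (0, x)).comp (stI n) = ContinuousLinearMap.id ℝ (E n) := by
  rw [← st_fderiv_rad G hθ p 0 x, st_rad_zero, fderiv_id]

theorem stf_zero (hθ : ContDiff ℝ ∞ θ) (p x : E n) : stf G θ p (0, x) = G.w x := by
  rw [stf, st_L_zero G hθ p x]
  have h1 : stF G θ p (0, x) = x := by
    change G.rad θ p 0 x = x
    rw [st_rad_zero]
    rfl
  have h2 : (ContinuousLinearMap.id ℝ (E n)).det = 1 := by
    rw [ContinuousLinearMap.det, ContinuousLinearMap.coe_id, LinearMap.det_id]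
  rw [h1, h2, mul_one]

/-- The derivative in `t` at `t = 0`. -/
theorem st_dv (hθ : ContDiff ℝ ∞ θ) (p x : E n) :
    fderiv ℝ (stf G θ p) (0, x) (1, 0) = -stDv G θ p x := by
  have hF := stF_smooth G hθ p
  obtain ⟨B, hBdef⟩ : ∃ B, B = fderiv ℝ (fderiv ℝ (stF G θ p)) (0, x) := ⟨_, rfl⟩
  have hB : HasFDerivAt (fderiv ℝ (stF G θ p)) B (0, x) := by
    rw [hBdef]
    exact ((hF.fderiv_right (m := ∞) (by simp)).differentiable (by simp) (0, x)).hasFDerivAt
  have hsymm : ∀ v w, B v w = B w v := by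
    rw [hBdef]
    exact (hF.contDiffAt).isSymmSndFDerivAt (by
      rw [minSmoothness_of_isRCLikeNormedField]
      exact WithTop.coe_le_coe.2 (le_top : (2 : ℕ∞) ≤ ⊤))
  have hcurve : HasDerivAt (fun t : ℝ => ((t, x) : ℝ × E n)) (1, 0) 0 :=
    (hasDerivAt_id (0 : ℝ)).prodMk (hasDerivAt_const _ _)
  have hL : HasDerivAt (fun t : ℝ => (fderiv ℝ (stF G θ p) (t, x)).comp (stI n))
      ((B (1, 0)).comp (stI n)) 0 := by
    exact volExp_comp_deriv (stI n) (hB.comp_hasDerivAt (0 : ℝ) hcurve)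
  have hdet := volExp_hasDerivAt_det hL (st_L_zero G hθ p x)
  have hFx : stF G θ p (0, x) = x := by
    change G.rad θ p 0 x = x
    rw [st_rad_zero]
    rfl
  have hwd : ∀ y, HasFDerivAt G.w (fderiv ℝ G.w y) y := fun y =>
    (G.w_smooth.differentiable (by simp) y).hasFDerivAt
  have hw : HasDerivAt (fun t : ℝ => G.w (stF G θ p (t, x)))
      (fderiv ℝ G.w x (fderiv ℝ (stF G θ p) (0, x) (1, 0))) 0 := by
    have h1 := (stF_hasFDerivAt G hθ p (0, x)).comp_hasDerivAt (0 : ℝ) hcurve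
    have h2 := hwd (stF G θ p (0, x))
    have h3 := h2.comp_hasDerivAt (0 : ℝ) h1
    rw [hFx] at h3
    exact h3
  have hprod := hw.mul hdet
  have hf : HasDerivAt (fun t : ℝ => stf G θ p (t, x)) (fderiv ℝ (stf G θ p) (0, x) (1, 0)) 0 := by
    have h0 := ((stf_smooth G hθ p).differentiable (by simp) (0, x)).hasFDerivAt
    exact h0.comp_hasDerivAt (0 : ℝ) hcurve
  have e1 := hf.unique hprod
  rw [st_L_zero G hθ p x, hFx] at e1
  have hdid : (ContinuousLinearMap.id ℝ (E n)).det = 1 := by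
    rw [ContinuousLinearMap.det, ContinuousLinearMap.coe_id, LinearMap.det_id]
  rw [hdid, mul_one] at e1
  -- the velocity field
  have hX : ∀ y, stXf G θ p y = -(G.w y) • fderiv ℝ (stF G θ p) (0, y) (1, 0) := by
    intro y
    rw [st_velocity G hθ p y, stXf, smul_smul]
    congr 1
    ring
  have hV : HasFDerivAt (fun y : E n => fderiv ℝ (stF G θ p) (0, y) (1, 0))
      ((B.comp (stI n)).flip (1, 0)) x := by
    have h1 : HasFDerivAt (fun y : E n => fderiv ℝ (stF G θ p) (0, y))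
        (B.comp (stI n)) x := hB.comp x (st_kappa 0 x)
    exact volExp_apply_deriv h1 (1, 0)
  have hXd : HasFDerivAt (stXf G θ p) (-(G.w x) • ((B.comp (stI n)).flip (1, 0)) +
      (-(fderiv ℝ G.w x)).smulRight (fderiv ℝ (stF G θ p) (0, x) (1, 0))) x := by
    have h1 := (hwd x).neg.smul hV
    have h2 : stXf G θ p = fun y => -(G.w y) • fderiv ℝ (stF G θ p) (0, y) (1, 0) := funext hX
    rw [h2]
    exact h1
  obtain ⟨vel, hvel⟩ : ∃ vel, vel = fderiv ℝ (stF G θ p) (0, x) (1, 0) := ⟨_, rfl⟩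
  rw [← hvel] at e1 hXd
  have hsum : fderiv ℝ G.w x vel =
      ∑ i, fderiv ℝ G.w x (EuclideanSpace.single i 1) * vel i := by
    have h1 : vel = ∑ i, vel i • (EuclideanSpace.single i (1 : ℝ) : E n) := by
      have := (EuclideanSpace.basisFun (Fin n) ℝ).sum_repr vel
      simpa using this.symm
    conv_lhs => rw [h1]
    rw [map_sum]
    refine Finset.sum_congr rfl fun i _ => ?_
    rw [map_smul, smul_eq_mul, mul_comm]
  rw [e1, stDv, hXd.fderiv, hsum, Finset.mul_sum, ← Finset.sum_add_distrib,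
    ← Finset.sum_neg_distrib]
  refine Finset.sum_congr rfl fun i _ => ?_
  have h6 : B (1, 0) (stI n (EuclideanSpace.single i 1)) =
      B (stI n (EuclideanSpace.single i 1)) (1, 0) := hsymm _ _
  simp [h6]

/-- Expansion of the volume distortion of `rad`. -/
theorem st_vol_exp (hθ : ContDiff ℝ ∞ θ) (o : E n) (ρ : ℝ) (p : E n) :
    ∃ C t₀ : ℝ, 0 ≤ C ∧ 0 < t₀ ∧ ∀ x t, ‖G.lg o x‖ ≤ ρ → 0 ≤ t → t ≤ t₀ →
      G.w x - t * stDv G θ p x - C * t ^ 2 ≤
        G.w (G.rad θ p t x) * |(fderiv ℝ (G.rad θ p t) x).det| := by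
  obtain ⟨C, t₀, hC, ht₀, h⟩ := taylor_uniform isOpen_univ (stf_smooth G hθ p).contDiffOn
    (G.isCompact_gball o ρ) (fun z _ => mem_univ _)
  refine ⟨C, t₀, hC, ht₀, fun x t hx ht0 ht1 => ?_⟩
  have h1 := h x hx t ⟨ht0, ht1⟩
  rw [stf_zero G hθ p x, st_dv G hθ p x] at h1
  have h2 := (abs_le.1 h1).1
  have h3 : stf G θ p (t, x) ≤ G.w (G.rad θ p t x) * |(fderiv ℝ (G.rad θ p t) x).det| := by
    rw [st_fderiv_rad G hθ p t x]
    exact mul_le_mul_of_nonneg_left (le_abs_self _) (G.w_pos _).le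
  linarith

theorem st_continuous_dv (hθ : ContDiff ℝ ∞ θ) (p : E n) : Continuous (stDv G θ p) := by
  unfold stDv
  refine continuous_finsetSum _ fun i _ => ?_
  have h1 : Continuous fun x => fderiv ℝ (stXf G θ p) x (EuclideanSpace.single i 1) :=
    ((st_contDiff_Xf G hθ p).continuous_fderiv (by simp)).clm_apply continuous_const
  exact (EuclideanSpace.proj (𝕜 := ℝ) i).continuous.comp h1

/-- Bound of the divergence. -/
theorem st_dv_bound (hθ : ContDiff ℝ ∞ θ) (o : E n) (ρ : ℝ) (p : E n) :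
    ∃ C : ℝ, 0 ≤ C ∧ ∀ x, ‖G.lg o x‖ ≤ ρ → |stDv G θ p x| ≤ C * G.w x := by
  have hcont : ContinuousOn (fun x : E n => stDv G θ p x / G.w x) {x | ‖G.lg o x‖ ≤ ρ} :=
    ((st_continuous_dv G hθ p).div G.w_smooth.continuous fun z => (G.w_pos z).ne').continuousOn
  obtain ⟨C, hC⟩ := (G.isCompact_gball o ρ).exists_bound_of_continuousOn hcont
  refine ⟨max C 0, le_max_right _ _, fun x hx => ?_⟩
  have h1 := hC x hx
  rw [Real.norm_eq_abs, abs_div, abs_of_pos (G.w_pos x), div_le_iff₀ (G.w_pos x)] at h1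
  exact h1.trans (mul_le_mul_of_nonneg_right (le_max_left _ _) (G.w_pos x).le)

/-- Divergence theorem. -/
theorem st_ibp (hθ : ContDiff ℝ ∞ θ) (p : E n) {h : E n → ℝ} (hh : ContDiff ℝ 1 h)
    (hc : HasCompactSupport h) :
    ∫ x, h x * stDv G θ p x =
      ∫ x, θ (G.lg p x) * inner ℝ (G.lg x p) (G.D h x) ∂G.vol := by
  rw [ibp_integral_vol]
  have h1 := ibp_euclid (st_contDiff_Xf G hθ p) hh hc
  unfold stDv
  rw [h1, ← integral_neg]
  refine integral_congr_ae (Filter.Eventually.of_forall fun x => ?_)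
  simp only [stXf, Geo.D]
  rw [real_inner_comm, InnerProductSpace.toDual_symm_apply]
  simp only [map_smul, map_neg, smul_eq_mul, ContinuousLinearMap.comp_apply]
  ring

/-- Volume of `{h = 1}` under a radial contraction, general weight. -/
theorem st_vol (hθ : ContDiff ℝ ∞ θ) (o : E n) (ρ : ℝ) (p : E n) :
    ∃ C t₀ : ℝ, 0 ≤ C ∧ 0 < t₀ ∧ ∀ (t : ℝ) (h : E n → ℝ), 0 ≤ t → t ≤ t₀ → G.Cls o ρ h →
      ∀ Ψ : E n ≃ₜ E n, (∀ x, ‖G.lg o x‖ ≤ ρ → Ψ =ᶠ[nhds x] G.rad θ p t) →
      ContDiff ℝ ∞ Ψ → ContDiff ℝ ∞ Ψ.symm →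
      V1 G h - t * (∫ x, θ (G.lg p x) * inner ℝ (G.lg x p) (G.D h x) ∂G.vol) -
          C * t * G.vol.real {x | 0 < h x ∧ h x < 1} - C * t ^ 2 ≤ V1 G (h ∘ Ψ.symm) := by
  obtain ⟨C₁, t₁, hC₁, ht₁, hexp⟩ := st_vol_exp G hθ o ρ p
  obtain ⟨C₂, hC₂, hbd⟩ := st_dv_bound G hθ o ρ p
  set B : Set (E n) := {x | ‖G.lg o x‖ ≤ ρ} with hB
  have hBc : IsCompact B := G.isCompact_gball o ρ
  set C₃ : ℝ := (volume : Measure (E n)).real B with hC₃
  have hC₃0 : 0 ≤ C₃ := measureReal_nonneg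
  refine ⟨C₂ + C₁ * C₃, t₁, by positivity, ht₁, ?_⟩
  intro t h ht ht' hcls Ψ hΨ hΨs hΨs'
  have hc := vpc_hasCompactSupport G hcls
  have hcont := hcls.smooth.continuous
  have hhq0 : ∀ x, 0 ≤ volhChi h x := volhChi_nonneg h
  have hhq1 : ∀ x, volhChi h x ≤ 1 := volhChi_le_one h
  have hdvc := st_continuous_dv G hθ p
  have hwc := G.w_smooth.continuous
  -- the transformed integral
  have hfd : Continuous fun x => (fderiv ℝ Ψ x).det := by
    have : Continuous fun x => fderiv ℝ Ψ x := hΨs.continuous_fderiv (by simp)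
    exact ContinuousLinearMap.continuous_det.comp this
  have e1 : V1 G (h ∘ Ψ.symm) = ∫ x, volhChi h x * (G.w (Ψ x) * |(fderiv ℝ Ψ x).det|) := by
    rw [volh_V1 G (hcont.comp Ψ.symm.continuous), integral_vol_comp G hΨs, ibp_integral_vol]
    refine integral_congr_ae (Filter.Eventually.of_forall fun x => ?_)
    have hw := (G.w_pos x).ne'
    have hchi : volhChi (h ∘ Ψ.symm) (Ψ x) = volhChi h x := by
      unfold volhChi
      by_cases hx : h x = 1
      · rw [indicator_of_mem (show x ∈ {x | h x = 1} from hx), indicator_of_mem]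
        show h (Ψ.symm (Ψ x)) = 1
        rw [Homeomorph.symm_apply_apply]
        exact hx
      · rw [indicator_of_notMem (show x ∉ {x | h x = 1} from hx), indicator_of_notMem]
        intro hx'
        have h2 : h (Ψ.symm (Ψ x)) = 1 := hx'
        rw [Homeomorph.symm_apply_apply] at h2
        exact hx h2
    simp only [hchi]
    field_simp
  have e2 : V1 G h = ∫ x, volhChi h x * G.w x := by
    rw [volh_V1 G hcont, ibp_integral_vol]
    refine integral_congr_ae (Filter.Eventually.of_forall fun x => ?_)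
    simp only
    rw [mul_comm]
  have i1 : Integrable fun x => volhChi h x * (G.w (Ψ x) * |(fderiv ℝ Ψ x).det|) :=
    volh_integrable G hcls ((hwc.comp Ψ.continuous).mul hfd.abs)
  have i2 : Integrable fun x => volhChi h x * G.w x := volh_integrable G hcls hwc
  have i3 : Integrable fun x => volhChi h x * stDv G θ p x := volh_integrable G hcls hdvc
  have i4 : Integrable fun x => volhChi h x := by
    have := volh_integrable G hcls (f := fun _ => (1 : ℝ)) continuous_const
    simpa using this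
  have i5 : Integrable fun x => h x * stDv G θ p x :=
    (hcont.mul hdvc).integrable_of_hasCompactSupport hc.mul_right
  -- pointwise lower bound
  have hpt : ∀ x, volhChi h x * G.w x - t * (volhChi h x * stDv G θ p x) -
      C₁ * t ^ 2 * volhChi h x ≤ volhChi h x * (G.w (Ψ x) * |(fderiv ℝ Ψ x).det|) := by
    intro x
    by_cases hx : h x = 0
    · rw [volhChi_zero hx]; simp
    · have hxB : ‖G.lg o x‖ ≤ ρ := hcls.supp x hx
      have hev := hΨ x hxB
      have hf : fderiv ℝ Ψ x = fderiv ℝ (G.rad θ p t) x := Filter.EventuallyEq.fderiv_eq hev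
      have hv : Ψ x = G.rad θ p t x := hev.self_of_nhds
      have := hexp x t hxB ht ht'
      rw [hf, hv]
      have h2 := mul_le_mul_of_nonneg_left this (hhq0 x)
      linarith
  have hlow : V1 G h - t * (∫ x, volhChi h x * stDv G θ p x) -
      C₁ * t ^ 2 * (∫ x, volhChi h x) ≤ V1 G (h ∘ Ψ.symm) := by
    have i23 : Integrable fun x => volhChi h x * G.w x - t * (volhChi h x * stDv G θ p x) :=
      i2.sub (i3.const_mul t)
    have i24 : Integrable fun x => C₁ * t ^ 2 * volhChi h x := i4.const_mul _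
    rw [e1, e2, ← integral_const_mul, ← integral_const_mul, ← integral_sub i2 (i3.const_mul t),
      ← integral_sub i23 i24]
    exact integral_mono (i23.sub i24) i1 hpt
  -- the error terms
  have hvolB : ∫ x, volhChi h x ≤ C₃ := by
    have hBm : MeasurableSet B := hBc.measurableSet
    have i6 : Integrable (B.indicator fun _ : E n => (1 : ℝ)) := by
      rw [integrable_indicator_iff hBm]
      exact integrableOn_const hBc.measure_lt_top.ne
    have e3 : ∫ x, (B.indicator fun _ : E n => (1 : ℝ)) x = C₃ := by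
      rw [integral_indicator hBm, hC₃]
      simp
    rw [← e3]
    refine integral_mono i4 i6 fun x => ?_
    by_cases hx : h x = 0
    · simp only [volhChi_zero hx]
      exact indicator_nonneg (fun _ _ => zero_le_one) x
    · have hxB : x ∈ B := hcls.supp x hx
      simp only [indicator_of_mem hxB]
      exact hhq1 x
  set S : Set (E n) := {x | 0 < h x ∧ h x < 1} with hS
  have hSm : MeasurableSet S :=
    ((isOpen_lt continuous_const hcont).inter (isOpen_lt hcont continuous_const)).measurableSet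
  have hSB : S ⊆ B := fun x hx => hcls.supp x hx.1.ne'
  have i7 : Integrable (S.indicator fun x => C₂ * G.w x) := by
    rw [integrable_indicator_iff hSm]
    exact ((continuous_const.mul hwc).continuousOn.integrableOn_compact hBc).mono_set hSB
  have e4 : ∫ x, (S.indicator fun x => C₂ * G.w x) x = C₂ * G.vol.real S := by
    have : (S.indicator fun x => C₂ * G.w x) = fun x => G.w x * S.indicator (fun _ => C₂) x := by
      funext x
      by_cases hx : x ∈ S
      · simp only [indicator_of_mem hx]; ring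
      · simp only [indicator_of_notMem hx]; ring
    rw [this, ← ibp_integral_vol, integral_indicator hSm]
    simp [mul_comm]
  have hdiff : (∫ x, volhChi h x * stDv G θ p x) - (∫ x, h x * stDv G θ p x) ≤
      C₂ * G.vol.real S := by
    rw [← integral_sub i3 i5, ← e4]
    refine integral_mono (i3.sub i5) i7 fun x => ?_
    simp only
    by_cases hx : x ∈ S
    · rw [indicator_of_mem hx]
      have hb := hbd x (hSB hx)
      have h1 : volhChi h x * stDv G θ p x - h x * stDv G θ p x ≤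
          |volhChi h x - h x| * |stDv G θ p x| := by
        rw [← abs_mul, ← sub_mul]
        exact le_abs_self _
      have h2 : |volhChi h x - h x| ≤ 1 := by
        rw [abs_le]
        constructor
        · linarith [hhq0 x, hcls.le_one x]
        · linarith [hhq1 x, hcls.nonneg x]
      calc _ ≤ |volhChi h x - h x| * |stDv G θ p x| := h1
        _ ≤ 1 * |stDv G θ p x| := mul_le_mul_of_nonneg_right h2 (abs_nonneg _)
        _ ≤ C₂ * G.w x := by rw [one_mul]; exact hb
    · rw [indicator_of_notMem hx]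
      have hx' : h x = 0 ∨ h x = 1 := by
        by_contra hcon
        push Not at hcon
        exact hx ⟨lt_of_le_of_ne (hcls.nonneg x) (Ne.symm hcon.1),
          lt_of_le_of_ne (hcls.le_one x) hcon.2⟩
      rcases hx' with hx' | hx'
      · rw [volhChi_zero hx', hx']; simp
      · rw [volhChi_one hx', hx']; simp
  have hibp := st_ibp G hθ p hcls.smooth hc
  have hV : 0 ≤ G.vol.real S := measureReal_nonneg
  have f1 : t * (∫ x, volhChi h x * stDv G θ p x) ≤
      t * (∫ x, θ (G.lg p x) * inner ℝ (G.lg x p) (G.D h x) ∂G.vol) +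
        t * (C₂ * G.vol.real S) := by
    rw [← hibp, ← mul_add]
    exact mul_le_mul_of_nonneg_left (by linarith) ht
  have f2 : C₁ * t ^ 2 * (∫ x, volhChi h x) ≤ C₁ * t ^ 2 * C₃ :=
    mul_le_mul_of_nonneg_left hvolB (by positivity)
  have f3 : 0 ≤ C₁ * C₃ * t * G.vol.real S := by positivity
  have f4 : 0 ≤ C₂ * t ^ 2 := by positivity
  nlinarith [hlow, f1, f2, f3, f4]

/-- Volume of `{h = 1}` under the contraction of rate `u` towards `p`. -/
theorem fv_vol (o : E n) (ρ : ℝ) {p : E n} (hp : ‖G.lg o p‖ ≤ ρ) {u : E n → ℝ}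
    (hu : ContDiff ℝ ∞ u) :
    ∃ C t₀ : ℝ, 0 ≤ C ∧ 0 < t₀ ∧ ∀ (t : ℝ) (h : E n → ℝ), 0 ≤ t → t ≤ t₀ → G.Cls o ρ h →
      ∀ θ : E n → ℝ, (∀ v, ‖v‖ < 2 * ρ + 1 → θ v = u (G.ex p v)) → ∀ Ψ : E n ≃ₜ E n,
      (∀ x, Ψ x = G.rad θ p t x) → ContDiff ℝ ∞ Ψ → ContDiff ℝ ∞ Ψ.symm →
      V1 G h - t * (∫ x, u x * inner ℝ (G.lg x p) (G.D h x) ∂G.vol) -
          C * t * G.vol.real {x | 0 < h x ∧ h x < 1} - C * t ^ 2 ≤ V1 G (h ∘ Ψ.symm) := by
  have hex : ContDiff ℝ ∞ (G.ex p) := G.ex_smooth.comp (contDiff_const.prodMk contDiff_id)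
  have hθ0 : ContDiff ℝ ∞ fun v => u (G.ex p v) := hu.comp hex
  obtain ⟨C, t₀, hC, ht₀, h1⟩ := st_vol G hθ0 o ρ p
  refine ⟨C, t₀, hC, ht₀, fun t h ht ht' hcls θ hθ Ψ hΨ hΨs hΨs' => ?_⟩
  have h2 := h1 t h ht ht' hcls Ψ (fun x hx => by
    have hpx := vpc_norm_lg_le G hp hx
    have ho : IsOpen {y | ‖G.lg p y‖ < 2 * ρ + 1} :=
      isOpen_lt (ibp_contDiff_lg_left G p).continuous.norm continuous_const
    filter_upwards [ho.mem_nhds (show ‖G.lg p x‖ < 2 * ρ + 1 by linarith)] with y hy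
    rw [hΨ y]
    unfold Geo.rad
    rw [hθ _ hy]) hΨs hΨs'
  simp only [G.ex_lg] at h2
  exact h2

end Vale.Agent.P219.End
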