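import Vale.Agent.P219.End.StKapB
import Vale.Agent.P219.End.StVol
import Vale.Agent.P219.End.StPsi
import Vale.Agent.P219.End.FvPerB
import Vale.Agent.P219.SA.Pass

/-! # P219: one-sided first variation for the fields `ψ ∇F_c`, and stationarity of the limit -/

open MeasureTheory Set Metric Filter Topology
open scoped ENNReal ContDiff

namespace Vale.Agent.P219.End

open Vale.Agent.P219.TP Vale.Agent.P219.TPH
open Vale.Agent.P219.SA (Var MinSeq IsLim stat_pass)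

variable {n : ℕ} (G : Geo n) (k : ℝ)

/-- The perimeter integrand. -/
noncomputable def stA (c : E n) (ψ : E n → ℝ) (z : E n × E n) : ℝ :=
  ((n : ℝ) - 1) * (1 + k ^ 2 * Fk G k c z.1) * ψ z.1 +
    (inner ℝ (G.D ψ z.1) (G.D (Fk G k c) z.1) -
      inner ℝ (G.D ψ z.1) z.2 * inner ℝ (G.D (Fk G k c) z.1) z.2)

/-- The volume integrand. -/
noncomputable def stB (c : E n) (ψ : E n → ℝ) (z : E n × E n) : ℝ :=
  ψ z.1 * inner ℝ (G.D (Fk G k c) z.1) z.2

/-- The rate of contraction. -/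
noncomputable def stU (c : E n) (ψ : E n → ℝ) (x : E n) : ℝ :=
  ψ x * shs (k ^ 2 * ‖G.lg c x‖ ^ 2)

theorem stU_smooth (c : E n) {ψ : E n → ℝ} (hψ : ContDiff ℝ ∞ ψ) :
    ContDiff ℝ ∞ (stU G k c ψ) := by
  have h1 : ContDiff ℝ ∞ (G.lg c) := G.lg_smooth.comp (contDiff_const.prodMk contDiff_id)
  have h2 : ContDiff ℝ ∞ fun x : E n => k ^ 2 * ‖G.lg c x‖ ^ 2 :=
    contDiff_const.mul ((contDiff_norm_sq ℝ).comp h1)
  have h3 : ContDiff ℝ ∞ fun x : E n => shs (k ^ 2 * ‖G.lg c x‖ ^ 2) := contDiff_shs.comp h2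
  exact hψ.mul h3

theorem stU_nonneg (c : E n) {ψ : E n → ℝ} (hψ : ∀ x, 0 ≤ ψ x) (x : E n) :
    0 ≤ stU G k c ψ x :=
  mul_nonneg (hψ x) (zero_le_one.trans (one_le_shs (by positivity)))

theorem st_D_cont {u : E n → ℝ} (hu : ContDiff ℝ ∞ u) : Continuous (G.D u) :=
  perc_D_cont G (hu.of_le (by exact_mod_cast le_top))

theorem stA_cont (c : E n) {ψ : E n → ℝ} (hψ : ContDiff ℝ ∞ ψ) : Continuous (stA G k c ψ) := by
  have h1 : Continuous fun z : E n × E n => G.D ψ z.1 := (st_D_cont G hψ).comp continuous_fst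
  have h2 : Continuous fun z : E n × E n => G.D (Fk G k c) z.1 :=
    (st_D_cont G (Fk_smooth' G k c)).comp continuous_fst
  have h3 : Continuous fun z : E n × E n => Fk G k c z.1 :=
    (Fk_smooth' G k c).continuous.comp continuous_fst
  have h4 : Continuous fun z : E n × E n => ψ z.1 := hψ.continuous.comp continuous_fst
  exact ((continuous_const.mul (continuous_const.add (continuous_const.mul h3))).mul h4).add
    ((h1.inner h2).sub ((h1.inner continuous_snd).mul (h2.inner continuous_snd)))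

theorem stB_cont (c : E n) {ψ : E n → ℝ} (hψ : ContDiff ℝ ∞ ψ) : Continuous (stB G k c ψ) := by
  have h2 : Continuous fun z : E n × E n => G.D (Fk G k c) z.1 :=
    (st_D_cont G (Fk_smooth' G k c)).comp continuous_fst
  have h4 : Continuous fun z : E n × E n => ψ z.1 := hψ.continuous.comp continuous_fst
  exact h4.mul (h2.inner continuous_snd)

theorem stB_eq (c : E n) (ψ h : E n → ℝ) (x : E n) :
    stU G k c ψ x * inner ℝ (G.lg x c) (G.D h x) = stB G k c ψ (x, nrm G h x) * ‖G.D h x‖ := by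
  have h1 : inner ℝ (G.lg x c) (G.D h x) = -(‖G.D h x‖ * inner ℝ (G.lg x c) (nrm G h x)) := by
    conv_lhs => rw [D_eq_nrm G h x]
    rw [inner_neg_right, real_inner_smul_right]
  have h2 : inner ℝ (G.D (Fk G k c) x) (nrm G h x) =
      -(shs (k ^ 2 * ‖G.lg c x‖ ^ 2)) * inner ℝ (G.lg x c) (nrm G h x) := by
    rw [D_Fk, real_inner_smul_left]
  simp only [stB, stU]
  rw [h1, h2]
  ring

theorem stA_eq (c : E n) {ψ : E n → ℝ} (hψ : ContDiff ℝ ∞ ψ) (h : E n → ℝ) {x : E n}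
    (hx : x ≠ c) : kapU G k (stU G k c ψ) c x (G.D h x) =
      stA G k c ψ (x, nrm G h x) * ‖G.D h x‖ := by
  have h0 : (stU G k c ψ) = fun x => ψ x * shs (k ^ 2 * ‖G.lg c x‖ ^ 2) := rfl
  rw [h0, st_kap G k c hψ hx]
  simp only [stA, nrm, inner_neg_right, real_inner_smul_right]
  rcases eq_or_ne (G.D h x) 0 with hN | hN
  · simp [hN]
  · have hN0 : ‖G.D h x‖ ≠ 0 := norm_ne_zero_iff.2 hN
    field_simp
    ring

/-- First variation of perimeter and volume for the contraction `-ψ ∇F_c`. -/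
theorem st_var (hn : 2 ≤ n) {k : ℝ} (hk : 0 ≤ k) (hG : MonoSn G k) (o : E n) {ρ : ℝ} {c : E n}
    (hc : ‖G.lg o c‖ ≤ ρ) {ψ : E n → ℝ} (hψ : ContDiff ℝ ∞ ψ) (hψ0 : ∀ x, 0 ≤ ψ x) :
    Var G o ρ (stA G k c ψ) (stB G k c ψ) := by
  have hu := stU_smooth G k c hψ
  have hu0 := stU_nonneg G k c hψ0
  obtain ⟨C₁, t₁, hC₁, ht₁, h₁⟩ := fv_per G hn hk hG o hc hu hu0
  obtain ⟨C₂, t₂, hC₂, ht₂, h₂⟩ := fv_vol G o ρ hc hu
  obtain ⟨t₃, ht₃, h₃⟩ := st_exists_psi G o ρ hc hu hu0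
  refine ⟨C₁ + C₂, min t₁ (min t₂ t₃), by positivity, by positivity, fun h hh t ht0 ht => ?_⟩
  obtain ⟨θ, Ψ, hθ, hΨ, hΨs, hΨs', hcls⟩ :=
    h₃ t ht0 (ht.trans ((min_le_right _ _).trans (min_le_right _ _)))
  have e1 := h₁ t h ht0 (ht.trans (min_le_left _ _)) hh θ hθ Ψ hΨ hΨs hΨs'
  have e2 := h₂ t h ht0 (ht.trans ((min_le_right _ _).trans (min_le_left _ _))) hh θ hθ Ψ hΨ
    hΨs hΨs'
  have hae : ∀ᵐ x ∂G.vol, x ≠ c := by
    have hac : G.vol ≪ volume := withDensity_absolutelyContinuous _ _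
    refine hac.ae_le ?_
    have : Nonempty (Fin n) := ⟨⟨0, by omega⟩⟩
    exact compl_mem_ae_iff.mpr (measure_singleton c)
  have e3 : ∫ x, kapU G k (stU G k c ψ) c x (G.D h x) ∂G.vol =
      ∫ x, stA G k c ψ (x, nrm G h x) * ‖G.D h x‖ ∂G.vol :=
    integral_congr_ae (hae.mono fun x hx => stA_eq G k c hψ h hx)
  have e4 : ∫ x, stU G k c ψ x * inner ℝ (G.lg x c) (G.D h x) ∂G.vol =
      ∫ x, stB G k c ψ (x, nrm G h x) * ‖G.D h x‖ ∂G.vol :=
    integral_congr_ae (Filter.Eventually.of_forall fun x => stB_eq G k c ψ h x)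
  rw [e3] at e1
  rw [e4] at e2
  have hper : 0 ≤ G.per h := integral_nonneg fun _ => norm_nonneg _
  have hvol : 0 ≤ G.vol.real {x | 0 < h x ∧ h x < 1} := measureReal_nonneg
  refine ⟨h ∘ Ψ.symm, hcls h hh, ?_, ?_⟩
  · have : 0 ≤ C₂ * t ^ 2 * G.per h := by positivity
    linarith [show (C₁ + C₂) * t ^ 2 * G.per h = C₁ * t ^ 2 * G.per h + C₂ * t ^ 2 * G.per h by
      ring]
  · have h3 : 0 ≤ C₁ * t * G.vol.real {x | 0 < h x ∧ h x < 1} := by positivity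
    have h4 : 0 ≤ C₁ * t ^ 2 := by positivity
    linarith [show (C₁ + C₂) * t * G.vol.real {x | 0 < h x ∧ h x < 1} =
      C₁ * t * G.vol.real {x | 0 < h x ∧ h x < 1} + C₂ * t * G.vol.real {x | 0 < h x ∧ h x < 1} by
      ring, show (C₁ + C₂) * t ^ 2 = C₁ * t ^ 2 + C₂ * t ^ 2 by ring]

theorem st_integrable {o : E n} {ρ : ℝ} {U : Ultrafilter ℕ} {h : ℕ → E n → ℝ}
    {V : Measure (E n × E n)} (hV : IsLim G o ρ U h V) {f : E n × E n → ℝ} (hf : Continuous f) :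
    Integrable f V := by
  have := hV.fin
  obtain ⟨C, hC⟩ := (isCompact_KS G o ρ).exists_bound_of_continuousOn hf.continuousOn
  refine Integrable.of_bound hf.aestronglyMeasurable C ?_
  have h1 : ∀ᵐ z ∂V, z ∈ KS G o ρ := by
    rw [ae_iff]
    exact hV.supp
  exact h1.mono fun z hz => hC z hz

/-- **Stationarity of the limit** in the form of `Lim.stat`. -/
theorem st_stat (hn : 2 ≤ n) {k : ℝ} (hk : 0 ≤ k) (hG : MonoSn G k) {o : E n} {ρ : ℝ}
    {I : ℝ → ℝ} {J Vs H : ℝ} {U : Ultrafilter ℕ}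
    {h : ℕ → E n → ℝ} {V : Measure (E n × E n)} (hImono : MonotoneOn I (Ici 0)) (hVs : 0 < Vs)
    (hH : 0 ≤ H) (hId : HasStrictDerivAt I H Vs) (hm : MinSeq G o ρ I J Vs U h)
    (hV : IsLim G o ρ U h V) {c : E n}
    (hc : ‖G.lg o c‖ ≤ ρ) {ψ : E n → ℝ} (hψ : ContDiff ℝ ∞ ψ) (hψ0 : ∀ x, 0 ≤ ψ x) :
    0 ≤ ∫ z, (H * ψ z.1 * inner ℝ (G.D (Fk G k c) z.1) z.2 -
      ((n : ℝ) - 1) * (1 + k ^ 2 * Fk G k c z.1) * ψ z.1 -
      (inner ℝ (G.D ψ z.1) (G.D (Fk G k c) z.1) -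
        inner ℝ (G.D ψ z.1) z.2 * inner ℝ (G.D (Fk G k c) z.1) z.2)) ∂V := by
  have h1 := stat_pass G hImono hVs hH hId hm hV (stA_cont G k c hψ).continuousOn
    (stB_cont G k c hψ).continuousOn (st_var G hn hk hG o hc hψ hψ0)
  have i1 := st_integrable G hV (stA_cont G k c hψ)
  have i2 := st_integrable G hV (stB_cont G k c hψ)
  rw [← integral_const_mul, ← integral_sub (i2.const_mul H) i1] at h1
  refine h1.trans (le_of_eq (integral_congr_ae (Filter.Eventually.of_forall fun z => ?_)))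
  simp only [stA, stB]
  ring

end Vale.Agent.P219.End
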