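import Vale.Agent.P219.TP.AreaElem
import Vale.Agent.P219.TPH.CurvH

/-! # P219: exact first order of the area element of a radial contraction, general weights -/

open MeasureTheory Set Metric
open scoped ENNReal ContDiff

namespace Vale.Agent.P219.End

open Vale.Agent.P219.TP Vale.Agent.P219.TPH

variable {n : ℕ}

/-- Area element, exact form. -/
theorem st_area_linear (hn : 2 ≤ n) {B : E n →L[ℝ] E n} (hB : B.det ≠ 0) {e ζ N y : E n}
    {α β : ℝ} (he : ‖e‖ = 1) (hζ : inner ℝ e ζ = 0) (hα : 0 < α) (hβ : 0 < β)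
    (hBξ : ∀ ξ, ‖B ξ‖ ^ 2 ≤ (α * inner ℝ e ξ - inner ℝ ζ ξ) ^ 2 +
      β ^ 2 * (‖ξ‖ ^ 2 - inner ℝ e ξ ^ 2))
    (hy : ∀ ξ, inner ℝ y (B ξ) = inner ℝ N ξ) :
    |B.det| * ‖y‖ ≤ β ^ (n - 2) * √(β ^ 2 * inner ℝ e N ^ 2 +
      α ^ 2 * (‖N‖ ^ 2 - inner ℝ e N ^ 2) + 2 * α * inner ℝ e N * inner ℝ N ζ +
      inner ℝ e N ^ 2 * ‖ζ‖ ^ 2) := by
  set C := linAlgC e ζ α β with hC
  have hCd : C.det = α * β ^ (n - 1) := linAlgC_det hn he hζ hβ
  have hee : inner ℝ e e = 1 := by rw [real_inner_self_eq_norm_sq, he, one_pow]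
  have hζe : inner ℝ ζ e = 0 := by rw [real_inner_comm]; exact hζ
  have hCn : ∀ ξ, ‖C ξ‖ ^ 2 = (α * inner ℝ e ξ - inner ℝ ζ ξ) ^ 2 +
      β ^ 2 * (‖ξ‖ ^ 2 - inner ℝ e ξ ^ 2) := by
    intro ξ
    rw [hC, linAlgC_apply e ζ α hβ]
    have hee' : inner ℝ ξ e = inner ℝ e ξ := real_inner_comm _ _
    rw [← real_inner_self_eq_norm_sq, ← real_inner_self_eq_norm_sq ξ]
    simp only [inner_add_left, inner_add_right, inner_sub_left, inner_sub_right,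
      real_inner_smul_left, real_inner_smul_right, hee, hee']
    ring
  set Ne := inner ℝ e N with hNe
  set Np : E n := N - Ne • e with hNp
  have heNp : inner ℝ e Np = 0 := by
    rw [hNp, inner_sub_right, real_inner_smul_right, hee, mul_one, sub_self]
  have hNpe : inner ℝ Np e = 0 := by rw [real_inner_comm]; exact heNp
  set z : E n := (Ne / α) • e + β⁻¹ • (Np + (Ne / α) • ζ) with hz
  have hzC : ∀ ξ, inner ℝ z (C ξ) = inner ℝ N ξ := by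
    intro ξ
    rw [hC, linAlgC_apply e ζ α hβ, hz]
    have h1 : inner ℝ N ξ = Ne * inner ℝ e ξ + inner ℝ Np ξ := by
      rw [hNp, inner_sub_left, real_inner_smul_left]
      ring
    rw [h1]
    simp only [inner_add_left, inner_add_right, inner_sub_right,
      real_inner_smul_left, real_inner_smul_right, hee, hζe, hNpe]
    field_simp
    ring
  have h1 := det_mul_norm_le hB (C := C) (by rw [hCd]; positivity) (fun ξ => by
    have h2 := hBξ ξ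
    rw [← hCn] at h2
    exact (pow_le_pow_iff_left₀ (norm_nonneg _) (norm_nonneg _) (by norm_num)).1 h2) hy hzC
  refine h1.trans ?_
  rw [hCd, abs_of_pos (by positivity)]
  have hNpn : ‖Np‖ ^ 2 = ‖N‖ ^ 2 - Ne ^ 2 := by
    rw [← real_inner_self_eq_norm_sq, ← real_inner_self_eq_norm_sq, hNp]
    have hee' : inner ℝ N e = Ne := real_inner_comm _ _
    simp only [inner_sub_left, inner_sub_right, real_inner_smul_left, real_inner_smul_right, hee,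
      hee', ← hNe]
    ring
  have hNpζ : inner ℝ Np ζ = inner ℝ N ζ := by
    rw [hNp, inner_sub_left, real_inner_smul_left, hζ, mul_zero, sub_zero]
  have hzn : (α * β * ‖z‖) ^ 2 = β ^ 2 * Ne ^ 2 + α ^ 2 * (‖N‖ ^ 2 - Ne ^ 2) +
      2 * α * Ne * inner ℝ N ζ + Ne ^ 2 * ‖ζ‖ ^ 2 := by
    rw [← hNpn, ← hNpζ, mul_pow, ← real_inner_self_eq_norm_sq z, ← real_inner_self_eq_norm_sq Np,
      ← real_inner_self_eq_norm_sq ζ, hz]
    have hζζ : inner ℝ ζ Np = inner ℝ Np ζ := real_inner_comm _ _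
    simp only [inner_add_left, inner_add_right, real_inner_smul_left, real_inner_smul_right, hee,
      hζe, hNpe, heNp, hζ, hζζ]
    field_simp
    ring
  have hfin : α * β * ‖z‖ ≤ √(β ^ 2 * Ne ^ 2 + α ^ 2 * (‖N‖ ^ 2 - Ne ^ 2) +
      2 * α * Ne * inner ℝ N ζ + Ne ^ 2 * ‖ζ‖ ^ 2) := by
    apply Real.le_sqrt_of_sq_le
    rw [hzn]
  obtain ⟨m, rfl⟩ : ∃ m, n = m + 2 := ⟨n - 2, by omega⟩
  have e1 : m + 2 - 1 = m + 1 := by omega
  have e2 : m + 2 - 2 = m := by omega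
  rw [e1, e2, pow_succ]
  calc α * (β ^ m * β) * ‖z‖ = β ^ m * (α * β * ‖z‖) := by ring
    _ ≤ _ := mul_le_mul_of_nonneg_left hfin (by positivity)

variable (G : Geo n)

/-- The outward radial unit vector at `x`, in the frame. -/
noncomputable def stE (p x : E n) : E n := -(‖G.lg p x‖⁻¹ • G.lg x p)

/-- The function `θ ∘ lg p`. -/
noncomputable def stX (θ : E n → ℝ) (p : E n) (y : E n) : ℝ := θ (G.lg p y)

theorem stE_norm {p x : E n} (hx : x ≠ p) : ‖stE G p x‖ = 1 := by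
  have h0 : ‖G.lg p x‖ ≠ 0 := by
    rw [norm_ne_zero_iff, Ne, G.lg_eq_zero]
    exact fun h => hx h.symm
  rw [stE, norm_neg, norm_smul, norm_inv, norm_norm, G.norm_lg_comm x p, inv_mul_cancel₀ h0]

theorem stE_smul {p x : E n} (hx : x ≠ p) : ‖G.lg p x‖ • stE G p x = -G.lg x p := by
  have h0 : ‖G.lg p x‖ ≠ 0 := by
    rw [norm_ne_zero_iff, Ne, G.lg_eq_zero]
    exact fun h => hx h.symm
  rw [stE, smul_neg, smul_smul, mul_inv_cancel₀ h0, one_smul]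

theorem st_D_comp {θ : E n → ℝ} {p x : E n} (hθ : DifferentiableAt ℝ θ (G.lg p x))
    {Ti : E n →L[ℝ] E n} (hTi : ∀ ξ, G.T p (G.lg p x) (Ti ξ) = ξ) (ξ : E n) :
    inner ℝ (G.D (stX G θ p) x) ξ = fderiv ℝ θ (G.lg p x) (Ti ξ) := by
  have hx : G.ex p (G.lg p x) = x := G.ex_lg p x
  have h2 : G.A x ξ = fderiv ℝ (G.ex p) (G.lg p x) (Ti ξ) := by
    rw [← G.T_spec, hx, hTi]
  have h3 : fderiv ℝ (G.lg p) x (G.A x ξ) = Ti ξ := by
    have h4 := G.fderiv_lg p (G.lg p x) (Ti ξ)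
    rw [hx] at h4
    rw [h2, h4]
  rw [G.inner_D]
  have h5 : HasFDerivAt (stX G θ p) ((fderiv ℝ θ (G.lg p x)).comp (fderiv ℝ (G.lg p) x)) x :=
    hθ.hasFDerivAt.comp x (G.differentiable_lg_ae p x).hasFDerivAt
  rw [h5.fderiv, ContinuousLinearMap.comp_apply, h3]

theorem st_area_elem (hn : 2 ≤ n) {k : ℝ} (hk : 0 ≤ k) (hG : Curv G k) {θ : E n → ℝ} {p x : E n}
    {t : ℝ} (hx : x ≠ p) (hθ : DifferentiableAt ℝ θ (G.lg p x))
    (hs0 : 0 < 1 - t * θ (G.lg p x)) (hs1 : 1 - t * θ (G.lg p x) ≤ 1)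
    (hα : 0 < 1 - t * (θ (G.lg p x) + inner ℝ (G.D (stX G θ p) x) (-G.lg x p)))
    {N y : E n}
    (hy : ∀ ξ η, G.A (G.rad θ p t x) η = fderiv ℝ (G.rad θ p t) x (G.A x ξ) →
      inner ℝ y η = inner ℝ N ξ) {α β : ℝ} {e ζ : E n}
    (hαd : α = 1 - t * (θ (G.lg p x) + inner ℝ (G.D (stX G θ p) x) (-G.lg x p)))
    (hβd : β = sn k ((1 - t * θ (G.lg p x)) * ‖G.lg p x‖) / sn k ‖G.lg p x‖)
    (hed : e = stE G p x)
    (hζd : ζ = t • (‖G.lg p x‖ • G.D (stX G θ p) x -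
      inner ℝ (G.D (stX G θ p) x) (-G.lg x p) • e)) :
    G.w (G.rad θ p t x) * |(fderiv ℝ (G.rad θ p t) x).det| * ‖y‖ ≤
      G.w x * (β ^ (n - 2) * √(β ^ 2 * inner ℝ e N ^ 2 +
      α ^ 2 * (‖N‖ ^ 2 - inner ℝ e N ^ 2) + 2 * α * inner ℝ e N * inner ℝ N ζ +
      inner ℝ e N ^ 2 * ‖ζ‖ ^ 2)) := by
  have hTvv0 : G.T p (G.lg p x) (G.lg p x) = -G.lg x p := by
    rw [G.T_self, G.lg_back']
  have he : ‖e‖ = 1 := by rw [hed]; exact stE_norm G hx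
  have hev : ‖G.lg p x‖ • e = -G.lg x p := by rw [hed]; exact stE_smul G hx
  set v : E n := G.lg p x with hvdef
  have hv : v ≠ 0 := by
    rw [hvdef, Ne, G.lg_eq_zero]
    exact fun h => hx h.symm
  have hr : 0 < ‖v‖ := norm_pos_iff.2 hv
  have hr0 : ‖v‖ ≠ 0 := hr.ne'
  have hsr : 0 < sn k ‖v‖ := sn_pos hk hr
  have hβ : 0 < β := by
    rw [hβd]
    exact div_pos (sn_pos hk (mul_pos hs0 hr)) hsr
  obtain ⟨Ti, hTi1, hTi2⟩ := G.exists_T_inv p v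
  have hD : ∀ ξ, inner ℝ (G.D (stX G θ p) x) ξ = fderiv ℝ θ v (Ti ξ) := fun ξ =>
    st_D_comp G hθ hTi2 ξ
  set Dχ : E n := G.D (stX G θ p) x with hDχ
  -- the frame matrix
  set B : E n →L[ℝ] E n := G.radB θ p t v Ti with hBdef
  have hBapp : ∀ ξ, B ξ = G.T p ((1 - t * θ v) • v) (radF θ t v (Ti ξ)) := fun ξ => rfl
  have hAB : ∀ ξ, G.A (G.rad θ p t x) (B ξ) = fderiv ℝ (G.rad θ p t) x (G.A x ξ) :=
    fun ξ => G.fderiv_rad hθ hTi2 ξ
  have hB2 := fun ξ => G.norm_radB (p := p) hv hs0.ne' (Ti ξ)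
  have hT2 : ∀ ξ, ‖ξ‖ ^ 2 = (inner ℝ v (Ti ξ) / ‖v‖) ^ 2 +
      ‖G.T p v (Ti ξ - (inner ℝ v (Ti ξ) / ‖v‖ ^ 2) • v)‖ ^ 2 := fun ξ => by
    have := G.pyth (p := p) (z := Ti ξ) hv
    rwa [hTi2] at this
  have hperp : ∀ z : E n, inner ℝ v (z - (inner ℝ v z / ‖v‖ ^ 2) • v) = 0 := fun z => by
    rw [inner_sub_right, real_inner_smul_right, real_inner_self_eq_norm_sq]
    field_simp
    ring
  have hTiR : Ti (-G.lg x p) = v := by rw [← hTvv0, hTi1]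
  have hDv : inner ℝ Dχ (-G.lg x p) = fderiv ℝ θ v v := by rw [hD, hTiR]
  have hα' : 0 < α := by rw [hαd]; exact hα
  have hαv : α = 1 - t * (θ v + fderiv ℝ θ v v) := by rw [hαd, hDv]
  -- injectivity
  have hBdet : B.det ≠ 0 := by
    refine det_ne_of_inj fun ξ hξ => ?_
    have h1 := hB2 ξ
    rw [← hBapp, hξ, norm_zero] at h1
    have h2 : ‖G.T p ((1 - t * θ v) • v)
        (Ti ξ - (inner ℝ v (Ti ξ) / ‖v‖ ^ 2) • v)‖ ^ 2 = 0 := by
      have h3 := sq_nonneg ((1 - t * (θ v + fderiv ℝ θ v v)) * (inner ℝ v (Ti ξ) / ‖v‖) -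
        t * ‖v‖ * fderiv ℝ θ v (Ti ξ - (inner ℝ v (Ti ξ) / ‖v‖ ^ 2) • v))
      have h4 := sq_nonneg (‖G.T p ((1 - t * θ v) • v)
        (Ti ξ - (inner ℝ v (Ti ξ) / ‖v‖ ^ 2) • v)‖)
      have h5 : 0 < (1 - t * θ v) ^ 2 := by positivity
      nlinarith
    have h3 : Ti ξ - (inner ℝ v (Ti ξ) / ‖v‖ ^ 2) • v = 0 :=
      G.T_inj _ _ (norm_eq_zero.1 (pow_eq_zero_iff (two_ne_zero)|>.1 h2))
    rw [h3, map_zero, map_zero, norm_zero, mul_zero, sub_zero] at h1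
    have h4 : (1 - t * (θ v + fderiv ℝ θ v v)) * (inner ℝ v (Ti ξ) / ‖v‖) = 0 := by
      have h5 : ((1 - t * (θ v + fderiv ℝ θ v v)) * (inner ℝ v (Ti ξ) / ‖v‖)) ^ 2 = 0 := by
        linarith
      exact pow_eq_zero_iff (two_ne_zero) |>.1 h5
    have h5 : inner ℝ v (Ti ξ) = 0 := by
      rcases mul_eq_zero.1 h4 with h | h
      · rw [← hαv] at h
        exact absurd h hα'.ne'
      · rcases div_eq_zero_iff.1 h with h | h
        · exact h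
        · exact absurd h hr0
    rw [h5, zero_div, zero_smul, sub_zero] at h3
    rw [← hTi2 ξ, h3, map_zero]
  -- the vectors
  have heξ : ∀ ξ, inner ℝ e ξ = inner ℝ v (Ti ξ) / ‖v‖ := fun ξ => by
    have h1 : ‖v‖ * inner ℝ e ξ = inner ℝ v (Ti ξ) := by
      rw [← real_inner_smul_left, hev, ← hTvv0, ← G.gauss p v (Ti ξ), hTi2]
    rw [← h1]
    field_simp
  have hTie : Ti e = ‖v‖⁻¹ • v := by
    have h1 : e = ‖v‖⁻¹ • (-G.lg x p) := by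
      rw [← hev, smul_smul, inv_mul_cancel₀ hr0, one_smul]
    rw [h1, map_smul, hTiR]
  have hDe : ‖v‖ * inner ℝ Dχ e = fderiv ℝ θ v v := by
    rw [hD, hTie, map_smul, smul_eq_mul]
    field_simp
  have hee : inner ℝ e e = 1 := by rw [real_inner_self_eq_norm_sq, he, one_pow]
  have heζ : inner ℝ e ζ = 0 := by
    rw [hζd, real_inner_smul_right, inner_sub_right, real_inner_smul_right,
      real_inner_smul_right, hee, real_inner_comm, hDv, hDe]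
    ring
  have hζξ : ∀ ξ, inner ℝ ζ ξ = t * ‖v‖ *
      fderiv ℝ θ v (Ti ξ - (inner ℝ v (Ti ξ) / ‖v‖ ^ 2) • v) := fun ξ => by
    rw [hζd, real_inner_smul_left, inner_sub_left, real_inner_smul_left, real_inner_smul_left,
      hD, hDv, map_sub, map_smul, smul_eq_mul, heξ]
    field_simp
  have hBξ : ∀ ξ, ‖B ξ‖ ^ 2 ≤ (α * inner ℝ e ξ -
      inner ℝ ζ ξ) ^ 2 + β ^ 2 * (‖ξ‖ ^ 2 - inner ℝ e ξ ^ 2) := by
    intro ξ
    have h1 := hG.mono_sn p v (Ti ξ - (inner ℝ v (Ti ξ) / ‖v‖ ^ 2) • v) (1 - t * θ v)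
      (hperp (Ti ξ)) hs0 hs1
    have h2 : (1 - t * θ v) * ‖G.T p ((1 - t * θ v) • v)
        (Ti ξ - (inner ℝ v (Ti ξ) / ‖v‖ ^ 2) • v)‖ ≤
        β * ‖G.T p v (Ti ξ - (inner ℝ v (Ti ξ) / ‖v‖ ^ 2) • v)‖ := by
      rw [hβd, div_mul_eq_mul_div, le_div_iff₀ hsr]
      linarith
    have h3 := pow_le_pow_left₀ (mul_nonneg hs0.le (norm_nonneg _)) h2 2
    rw [mul_pow, mul_pow] at h3
    rw [hBapp, hB2 ξ, hζξ, hαv, heξ, hT2 ξ]
    have h4 : (inner ℝ v (Ti ξ) / ‖v‖) ^ 2 +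
      ‖G.T p v (Ti ξ - (inner ℝ v (Ti ξ) / ‖v‖ ^ 2) • v)‖ ^ 2 - (inner ℝ v (Ti ξ) / ‖v‖) ^ 2 =
      ‖G.T p v (Ti ξ - (inner ℝ v (Ti ξ) / ‖v‖ ^ 2) • v)‖ ^ 2 := by ring
    rw [h4]
    linarith
  have hyB : ∀ ξ, inner ℝ y (B ξ) = inner ℝ N ξ := fun ξ => hy ξ (B ξ) (hAB ξ)
  have hmain := st_area_linear hn hBdet he heζ hα' hβ hBξ hyB
  -- determinants
  have hw : G.w (G.rad θ p t x) * |(fderiv ℝ (G.rad θ p t) x).det| = G.w x * |B.det| :=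
    Geo.w_det_rad G hAB
  rw [hw, mul_assoc]
  exact mul_le_mul_of_nonneg_left hmain (G.w_pos x).le

end Vale.Agent.P219.End
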