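import Vale.Agent.P219.End.StArea
import Vale.Agent.P219.End.StFun

/-! # P219: the potential `F_c = (cosh (k r) - 1) / k²` of a Cartan-Hadamard geometry -/

open MeasureTheory Set Metric
open scoped ENNReal ContDiff

namespace Vale.Agent.P219.End

open Vale.Agent.P219.TP Vale.Agent.P219.TPH

variable {n : ℕ} (G : Geo n) (k : ℝ)

/-- `Φ(s) = (cosh (k √s) - 1) / k²`. -/
noncomputable def stPhi (s : ℝ) : ℝ := s / 2 * shs (k ^ 2 * s / 4) ^ 2

/-- `F_c(x) = (cosh (k r) - 1) / k²`, `r = |lg c x|`. -/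
noncomputable def Fk (c x : E n) : ℝ := stPhi k (‖G.lg c x‖ ^ 2)

theorem contDiff_stPhi : ContDiff ℝ ∞ (stPhi k) :=
  (contDiff_id.div_const _).mul ((contDiff_shs.comp
    ((contDiff_const.mul contDiff_id).div_const _)).pow 2)

theorem cs_eq_stPhi (r : ℝ) : cs k r = 1 + k ^ 2 * stPhi k (r ^ 2) := by
  rw [cs_eq_shs, stPhi]

theorem stPhi_zero (s : ℝ) : stPhi 0 s = s / 2 := by
  simp [stPhi, shs_zero]

theorem hasDerivAt_stPhi {s : ℝ} (hs : 0 ≤ s) :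
    HasDerivAt (stPhi k) (shs (k ^ 2 * s) / 2) s := by
  by_cases hk : k = 0
  · have h1 : stPhi k = fun s => s / 2 := by
      funext u
      rw [hk, stPhi_zero]
    rw [h1, hk]
    have := (hasDerivAt_id s).div_const 2
    simpa [shs_zero] using this
  rcases eq_or_lt_of_le hs with h0 | h0
  · subst h0
    have h1 : HasDerivAt (fun u : ℝ => u / 2) (1 / 2) 0 := (hasDerivAt_id (0 : ℝ)).div_const 2
    have h2 : ContDiff ℝ ∞ fun u : ℝ => shs (k ^ 2 * u / 4) ^ 2 := (contDiff_shs.comp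
      ((contDiff_const.mul contDiff_id).div_const _)).pow 2
    have h3 := (h2.differentiable (by simp) (0 : ℝ)).hasDerivAt
    have h4 := h1.mul h3
    refine h4.congr_deriv ?_
    simp [shs_zero]
  · have h1 : (stPhi k) =ᶠ[nhds s] fun u => (cs k (√u) - 1) / k ^ 2 := by
      filter_upwards [lt_mem_nhds h0] with u hu
      rw [cs_eq_stPhi, Real.sq_sqrt hu.le]
      field_simp
      ring
    have h2 : HasDerivAt (fun u : ℝ => √u) (1 / (2 * √s)) s := Real.hasDerivAt_sqrt h0.ne'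
    have h3 : HasDerivAt (fun u : ℝ => cs k (√u)) (k ^ 2 * sn k (√s) * (1 / (2 * √s))) s :=
      (hasDerivAt_cs k (√s)).comp s h2
    have h4 := (h3.sub_const 1).div_const (k ^ 2)
    refine (h4.congr_of_eventuallyEq h1).congr_deriv ?_
    have hs' : √s ≠ 0 := (Real.sqrt_pos.2 h0).ne'
    rw [sn_eq_shs, Real.sq_sqrt h0.le]
    field_simp

theorem Fk_smooth : ContDiff ℝ ∞ fun z : E n × E n => Fk G k z.1 z.2 := by
  have h : ContDiff ℝ ∞ fun z : E n × E n => ‖G.lg z.1 z.2‖ ^ 2 := G.lg_smooth.norm_sq ℝ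
  have h2 := (contDiff_stPhi k).comp h
  exact h2

theorem Fk_smooth' (c : E n) : ContDiff ℝ ∞ (Fk G k c) := by
  have h1 : ContDiff ℝ ∞ (fun x : E n => ((c, x) : E n × E n)) :=
    contDiff_const.prodMk contDiff_id
  have h2 : ContDiff ℝ ∞ (fun x : E n => Fk G k (c, x).1 (c, x).2) := (Fk_smooth G k).comp h1
  exact h2

theorem stPhi_nonneg {s : ℝ} (hs : 0 ≤ s) : 0 ≤ stPhi k s := by
  unfold stPhi
  positivity

theorem stPhi_pos {s : ℝ} (hs : 0 < s) : 0 < stPhi k s := by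
  unfold stPhi
  have : 0 < shs (k ^ 2 * s / 4) := one_pos.trans_le (one_le_shs (by positivity))
  positivity

theorem Fk_nonneg (c x : E n) : 0 ≤ Fk G k c x := stPhi_nonneg k (by positivity)

theorem Fk_self (c : E n) : Fk G k c c = 0 := by
  simp [Fk, G.lg_self, stPhi]

theorem Fk_comm (c x : E n) : Fk G k c x = Fk G k x c := by
  rw [Fk, Fk, G.norm_lg_comm]

theorem Fk_pos (c x : E n) (h : c ≠ x) : 0 < Fk G k c x := by
  refine stPhi_pos k ?_
  have h1 : G.lg c x ≠ 0 := fun h0 => h (G.lg_eq_zero.1 h0)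
  positivity

/-- `1 + k² F = cosh (k r)`. -/
theorem one_add_Fk (c x : E n) : 1 + k ^ 2 * Fk G k c x = cs k ‖G.lg c x‖ := by
  rw [cs_eq_stPhi, Fk]

/-- Gradient of the squared distance. -/
theorem st_D_normsq (c x : E n) :
    G.D (fun y => ‖G.lg c y‖ ^ 2) x = -(2 : ℝ) • G.lg x c := by
  obtain ⟨Ti, hTi1, hTi2⟩ := G.exists_T_inv c (G.lg c x)
  refine ext_inner_right ℝ fun ξ => ?_
  have hθ : HasFDerivAt (fun v : E n => ‖v‖ ^ 2) ((2 : ℝ) • innerSL ℝ (G.lg c x)) (G.lg c x) := by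
    have h0 := (hasStrictFDerivAt_norm_sq (G.lg c x)).hasFDerivAt
    rw [two_smul ℕ] at h0
    rw [two_smul ℝ]
    exact h0
  have h1 := st_D_comp G (θ := fun v : E n => ‖v‖ ^ 2) (p := c) (x := x) hθ.differentiableAt
    hTi2 ξ
  have h2 : G.D (fun y => ‖G.lg c y‖ ^ 2) x = G.D (stX G (fun v : E n => ‖v‖ ^ 2) c) x := rfl
  have hTvv0 : G.T c (G.lg c x) (G.lg c x) = -G.lg x c := by
    rw [G.T_self, G.lg_back']
  rw [h2, h1, hθ.fderiv]
  have h3 : inner ℝ (G.lg c x) (Ti ξ) = inner ℝ (-G.lg x c) ξ := by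
    rw [← hTvv0, ← G.gauss c (G.lg c x) (Ti ξ), hTi2]
  have h4 : ((2 : ℝ) • innerSL ℝ (G.lg c x)) (Ti ξ) = 2 * inner ℝ (G.lg c x) (Ti ξ) := by
    simp
  rw [h4, h3, real_inner_smul_left, inner_neg_left]
  ring

/-- Chain rule for the frame gradient. -/
theorem st_D_comp_real {f : ℝ → ℝ} {f' : ℝ} {u : E n → ℝ} {x : E n} (hf : HasDerivAt f f' (u x))
    (hu : DifferentiableAt ℝ u x) : G.D (fun y => f (u y)) x = f' • G.D u x := by
  refine ext_inner_right ℝ fun ξ => ?_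
  rw [real_inner_smul_left, G.inner_D, G.inner_D]
  have h1 : HasFDerivAt (fun y => f (u y)) (f' • fderiv ℝ u x) x :=
    hf.comp_hasFDerivAt x hu.hasFDerivAt
  rw [h1.fderiv]
  rfl

/-- Product rule for the frame gradient. -/
theorem st_D_mul {u v : E n → ℝ} {x : E n} (hu : DifferentiableAt ℝ u x)
    (hv : DifferentiableAt ℝ v x) :
    G.D (fun y => u y * v y) x = u x • G.D v x + v x • G.D u x := by
  refine ext_inner_right ℝ fun ξ => ?_
  rw [inner_add_left, real_inner_smul_left, real_inner_smul_left, G.inner_D, G.inner_D, G.inner_D]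
  have h1 := (hu.hasFDerivAt.mul hv.hasFDerivAt).fderiv
  have h2 : fderiv ℝ (fun y => u y * v y) x = u x • fderiv ℝ v x + v x • fderiv ℝ u x := h1
  rw [h2]
  simp

/-- The gradient of `F_c`. -/
theorem D_Fk (c x : E n) :
    G.D (Fk G k c) x = -(shs (k ^ 2 * ‖G.lg c x‖ ^ 2)) • G.lg x c := by
  have h1 : DifferentiableAt ℝ (fun y => ‖G.lg c y‖ ^ 2) x :=
    (((ContDiff.norm_sq ℝ (G.lg_smooth.comp (contDiff_const.prodMk contDiff_id)) :
      ContDiff ℝ ∞ fun y => ‖G.lg c y‖ ^ 2)).differentiable (by simp)) x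
  have h2 := st_D_comp_real G (f := stPhi k) (u := fun y => ‖G.lg c y‖ ^ 2) (x := x)
    (hasDerivAt_stPhi k (by positivity)) h1
  have h3 : G.D (Fk G k c) x = G.D (fun y => stPhi k (‖G.lg c y‖ ^ 2)) x := rfl
  rw [h3, h2, st_D_normsq, smul_smul]
  congr 1
  ring

/-- The norm of the gradient of `F_c` is `sn k r`. -/
theorem norm_D_Fk (c x : E n) : ‖G.D (Fk G k c) x‖ = sn k ‖G.lg c x‖ := by
  rw [D_Fk, norm_smul, norm_neg, Real.norm_of_nonneg
    (zero_le_one.trans (one_le_shs (by positivity))), G.norm_lg_comm x c, sn_eq_shs]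
  ring

theorem sn_sq_stPhi (r : ℝ) :
    sn k r ^ 2 = 2 * stPhi k (r ^ 2) + k ^ 2 * stPhi k (r ^ 2) ^ 2 := by
  by_cases hk : k = 0
  · rw [hk, stPhi_zero, sn_eq_shs]
    simp only [ne_eq, OfNat.ofNat_ne_zero, not_false_eq_true, zero_pow, zero_mul, shs_zero]
    ring
  · have h1 := cs_sq k r
    rw [cs_eq_stPhi] at h1
    have hk2 : k ^ 2 ≠ 0 := pow_ne_zero 2 hk
    have h2 : k ^ 2 * sn k r ^ 2 =
        k ^ 2 * (2 * stPhi k (r ^ 2) + k ^ 2 * stPhi k (r ^ 2) ^ 2) := by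
      linear_combination -h1
    exact mul_left_cancel₀ hk2 h2

theorem grad_Fk (c x : E n) :
    ‖G.D (Fk G k c) x‖ ^ 2 = 2 * Fk G k c x + k ^ 2 * Fk G k c x ^ 2 := by
  rw [norm_D_Fk, sn_sq_stPhi, Fk]

/-- `√F = √2 sn k (r / 2)` -/
theorem sqrt_Fk {k : ℝ} (hk : 0 ≤ k) (c x : E n) :
    √(Fk G k c x) = √2 * sn k (‖G.lg c x‖ / 2) := by
  have h0 : 0 ≤ sn k (‖G.lg c x‖ / 2) := by
    rcases eq_or_lt_of_le (norm_nonneg (G.lg c x)) with h | h
    · rw [← h]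
      simp [sn_zero]
    · exact (sn_pos hk (by positivity)).le
  have h1 : Fk G k c x = (√2 * sn k (‖G.lg c x‖ / 2)) ^ 2 := by
    rw [mul_pow, Real.sq_sqrt (by norm_num), Fk, stPhi, sn_eq_shs]
    rw [show k ^ 2 * (‖G.lg c x‖ / 2) ^ 2 = k ^ 2 * ‖G.lg c x‖ ^ 2 / 4 by ring]
    ring
  rw [h1, Real.sqrt_sq (by positivity)]

/-- `√(1 + k² F / 2) = cs k (r / 2)` -/
theorem sqrt_one_add_Fk (c x : E n) :
    √(1 + k ^ 2 * Fk G k c x / 2) = cs k (‖G.lg c x‖ / 2) := by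
  have h1 : 1 + k ^ 2 * Fk G k c x / 2 = cs k (‖G.lg c x‖ / 2) ^ 2 := by
    rw [cs_sq, Fk, stPhi, sn_eq_shs]
    rw [show k ^ 2 * (‖G.lg c x‖ / 2) ^ 2 = k ^ 2 * ‖G.lg c x‖ ^ 2 / 4 by ring]
    ring
  rw [h1, Real.sqrt_sq (zero_le_one.trans (one_le_cs _ _))]

theorem sn_add (a b : ℝ) : sn k (a + b) = sn k a * cs k b + cs k a * sn k b := by
  unfold sn cs
  split_ifs with hk
  · simp [hk]
  · rw [mul_add, Real.sinh_add]
    ring

/-- Triangle inequality. -/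
theorem Fk_tri {k : ℝ} (hk : 0 ≤ k) (c p x : E n) :
    √(Fk G k c x) ≤ √(Fk G k p x) * √(1 + k ^ 2 * Fk G k c p / 2) +
      √(1 + k ^ 2 * Fk G k p x / 2) * √(Fk G k c p) := by
  rw [sqrt_Fk G hk, sqrt_Fk G hk, sqrt_Fk G hk, sqrt_one_add_Fk, sqrt_one_add_Fk]
  have h1 : ‖G.lg c x‖ ≤ ‖G.lg p x‖ + ‖G.lg c p‖ := by
    have h3 := G.lg_nonexp c x p
    have h4 : ‖G.lg c x‖ ≤ ‖G.lg c x - G.lg c p‖ + ‖G.lg c p‖ := by
      calc ‖G.lg c x‖ = ‖(G.lg c x - G.lg c p) + G.lg c p‖ := by rw [sub_add_cancel]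
        _ ≤ _ := norm_add_le _ _
    rw [G.norm_lg_comm x p] at h3
    linarith
  have h2 : sn k (‖G.lg c x‖ / 2) ≤ sn k (‖G.lg p x‖ / 2 + ‖G.lg c p‖ / 2) :=
    (sn_strictMono hk).monotone (by linarith)
  rw [sn_add] at h2
  have h3 := mul_le_mul_of_nonneg_left h2 (Real.sqrt_nonneg 2)
  linarith

end Vale.Agent.P219.End
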