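import Vale.Agent.P219.End.FvKap
import Vale.Agent.P219.End.StF

/-! # Comparison of the two versions of the potential (`chi` and `shs`) -/

open MeasureTheory Set Metric
open scoped ENNReal ContDiff

namespace Vale.Agent.P219.End

open Vale.Agent.P219.TP Vale.Agent.P219.TPH

variable {n : ℕ} (G : Geo n) (k : ℝ)

theorem shs_eq_chi (r : ℝ) : shs (k ^ 2 * r ^ 2) = chi k (r ^ 2) := by
  by_cases hr : r = 0
  · rw [hr, zero_pow two_ne_zero, mul_zero, shs_zero, chi_zero]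
  · have h1 := sn_eq_shs k r
    rw [sn_eq_chi] at h1
    exact (mul_left_cancel₀ hr h1).symm

theorem Fk_eq_FG (c x : E n) : Fk G k c x = FG G k c x := by
  unfold Fk FG stPhi ff
  have h1 := shs_eq_chi k (‖G.lg c x‖ / 2)
  have e1 : k ^ 2 * ‖G.lg c x‖ ^ 2 / 4 = k ^ 2 * (‖G.lg c x‖ / 2) ^ 2 := by ring
  have e2 : ‖G.lg c x‖ ^ 2 / 4 = (‖G.lg c x‖ / 2) ^ 2 := by ring
  rw [e1, h1, e2]

theorem Fk_eq_FG' (c : E n) : Fk G k c = FG G k c := funext (Fk_eq_FG G k c)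

theorem rateF_eq (ψ : E n → ℝ) (c : E n) :
    (fun x => ψ x * shs (k ^ 2 * ‖G.lg c x‖ ^ 2)) = rateF G k ψ c := by
  funext x
  rw [rateF, shs_eq_chi]

/-- The perimeter density in terms of `Fk`. -/
theorem hkap {k : ℝ} (hk : 0 ≤ k) {ψ : E n → ℝ} (hψ : ContDiff ℝ ∞ ψ) (c : E n) (h : E n → ℝ)
    (x : E n) (hx : x ≠ c) :
    kapU G k (fun x => ψ x * shs (k ^ 2 * ‖G.lg c x‖ ^ 2)) c x (G.D h x) =
      (((n : ℝ) - 1) * (1 + k ^ 2 * Fk G k c x) * ψ x +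
        (inner ℝ (G.D ψ x) (G.D (Fk G k c) x) -
          inner ℝ (G.D ψ x) (nrm G h x) * inner ℝ (G.D (Fk G k c) x) (nrm G h x))) *
        ‖G.D h x‖ := by
  rw [rateF_eq, kapU_eq_aF G hk hψ hx, Fk_eq_FG']
  rfl

end Vale.Agent.P219.End
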