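import Vale.Agent.P219.End.StF
import Vale.Agent.P219.End.FvPer

/-! # P219: the perimeter integrand for the fields `ψ ∇F_c` -/

open MeasureTheory Set Metric Filter Topology
open scoped ENNReal ContDiff

namespace Vale.Agent.P219.End

open Vale.Agent.P219.TP Vale.Agent.P219.TPH

variable {n : ℕ} (G : Geo n) (k : ℝ)

theorem hasDerivAt_shs_sq {s : ℝ} (hs : 0 < s) :
    HasDerivAt (fun s => shs (k ^ 2 * s)) ((cs k (√s) - shs (k ^ 2 * s)) / (2 * s)) s := by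
  have h1 : (fun s => shs (k ^ 2 * s)) =ᶠ[nhds s] fun u => sn k (√u) / √u := by
    filter_upwards [lt_mem_nhds hs] with u hu
    have hu' : √u ≠ 0 := (Real.sqrt_pos.2 hu).ne'
    rw [sn_eq_shs, Real.sq_sqrt hu.le]
    field_simp
  have h2 : HasDerivAt (fun u : ℝ => √u) (1 / (2 * √s)) s := Real.hasDerivAt_sqrt hs.ne'
  have hs' : √s ≠ 0 := (Real.sqrt_pos.2 hs).ne'
  have h3 : HasDerivAt (fun u : ℝ => sn k (√u)) (cs k (√s) * (1 / (2 * √s))) s :=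
    (hasDerivAt_sn k (√s)).comp s h2
  have h4 := h3.div h2 hs'
  refine (h4.congr_of_eventuallyEq h1).congr_deriv ?_
  rw [sn_eq_shs, Real.sq_sqrt hs.le]
  have e1 : √s * √s = s := Real.mul_self_sqrt hs.le
  generalize √s = r at hs' e1 ⊢
  subst e1
  field_simp

theorem st_kap (c : E n) {ψ : E n → ℝ} (hψ : ContDiff ℝ ∞ ψ) {x : E n} (hx : x ≠ c) (N : E n) :
    kapU G k (fun x => ψ x * shs (k ^ 2 * ‖G.lg c x‖ ^ 2)) c x N =
      ((n : ℝ) - 1) * (1 + k ^ 2 * Fk G k c x) * ψ x * ‖N‖ +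
      inner ℝ (G.D ψ x) (G.D (Fk G k c) x) * ‖N‖ -
      inner ℝ (G.D (Fk G k c) x) N * inner ℝ (G.D ψ x) N / ‖N‖ := by
  have hr0 : ‖G.lg c x‖ ≠ 0 := by
    rw [norm_ne_zero_iff, Ne, G.lg_eq_zero]
    exact fun h => hx h.symm
  have hr : 0 < ‖G.lg c x‖ := lt_of_le_of_ne (norm_nonneg _) (Ne.symm hr0)
  have hlg : ContDiff ℝ ∞ (G.lg c) := G.lg_smooth.comp (contDiff_const.prodMk contDiff_id)
  have hsq : DifferentiableAt ℝ (fun y => ‖G.lg c y‖ ^ 2) x :=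
    (((contDiff_norm_sq ℝ).comp hlg : ContDiff ℝ ∞ fun y => ‖G.lg c y‖ ^ 2).differentiable
      (by simp)) x
  have hS : ContDiff ℝ ∞ fun y : E n => shs (k ^ 2 * ‖G.lg c y‖ ^ 2) := by
    have h2 : ContDiff ℝ ∞ fun x : E n => k ^ 2 * ‖G.lg c x‖ ^ 2 :=
      contDiff_const.mul ((contDiff_norm_sq ℝ).comp hlg)
    exact contDiff_shs.comp h2
  have hDS : G.D (fun y => shs (k ^ 2 * ‖G.lg c y‖ ^ 2)) x =
      ((cs k ‖G.lg c x‖ - shs (k ^ 2 * ‖G.lg c x‖ ^ 2)) / ‖G.lg c x‖ ^ 2) • (-G.lg x c) := by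
    have h1 := st_D_comp_real G (f := fun s => shs (k ^ 2 * s)) (u := fun y => ‖G.lg c y‖ ^ 2)
      (x := x) (hasDerivAt_shs_sq k (by positivity)) hsq
    rw [h1, st_D_normsq, Real.sqrt_sq hr.le, smul_smul, smul_neg, ← neg_smul]
    congr 1
    field_simp
  have hDu := st_D_mul G (hψ.differentiable (by simp) x) (hS.differentiable (by simp) x)
  rw [hDS] at hDu
  have hna : ‖G.lg x c‖ = ‖G.lg c x‖ := G.norm_lg_comm x c
  have hsnS : sn k ‖G.lg c x‖ = ‖G.lg c x‖ * shs (k ^ 2 * ‖G.lg c x‖ ^ 2) := sn_eq_shs _ _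
  have hS0 : shs (k ^ 2 * ‖G.lg c x‖ ^ 2) ≠ 0 :=
    (one_pos.trans_le (one_le_shs (by positivity))).ne'
  have hq : shs (k ^ 2 * ‖G.lg c x‖ ^ 2) * qct k ‖G.lg c x‖ = cs k ‖G.lg c x‖ := by
    rw [qct, hsnS]
    field_simp
  rw [kapU, hDu, D_Fk, one_add_Fk]
  have haa : inner ℝ (G.lg x c) (G.lg x c) = ‖G.lg c x‖ ^ 2 := by
    rw [real_inner_self_eq_norm_sq, hna]
  simp only [inner_add_left, real_inner_smul_left, inner_neg_left, inner_neg_right, haa,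
    real_inner_smul_right]
  generalize inner ℝ (G.D ψ x) (G.lg x c) = p1
  generalize inner ℝ (G.D ψ x) N = p2
  generalize inner ℝ (G.lg x c) N = p3
  generalize shs (k ^ 2 * ‖G.lg c x‖ ^ 2) = S at hS0 hq ⊢
  generalize qct k ‖G.lg c x‖ = q at hq ⊢
  generalize cs k ‖G.lg c x‖ = C at hq ⊢
  generalize ψ x = f
  subst hq
  rcases eq_or_ne N 0 with hN | hN
  · simp [hN]
  · have hN0 : ‖N‖ ≠ 0 := norm_ne_zero_iff.2 hN
    field_simp
    ring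

end Vale.Agent.P219.End
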