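import Vale.Agent.P219.End.Bub
import Vale.Agent.P219.End.Ident2

/-!
# P219 / End : the error half of `sup_bound` (leaf B5b)

Tonelli, the average of the kernel and the smallness of the defect.
-/

open MeasureTheory Set Metric
open scoped ENNReal ContDiff Topology

namespace Vale.Agent.P219.End.Lim

variable {n : ℕ} (L : Lim n)

theorem sb_eps {s : ℝ} (hs : L.Ad s) : 0 < s ^ 2 / 2 ∧ L.k2 * (s ^ 2 / 2) < 2 := by
  have h1 : 0 < s ^ 2 / 2 := by have := hs.1; positivity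
  refine ⟨h1, ?_⟩
  have := hs.2.2
  linarith

theorem sb_ws_pos {s : ℝ} (hs : L.Ad s) (c x : E n) : 0 < L.ws c s x :=
  L.w_pos (L.sb_eps hs).1 (L.sb_eps hs).2 x

theorem sb_ws_smooth {s : ℝ} (hs : L.Ad s) (c : E n) : ContDiff ℝ ∞ (L.ws c s) :=
  L.w_smooth (L.sb_eps hs).1

theorem sb_wsp_smooth {s : ℝ} (hs : L.Ad s) (c : E n) (a : ℝ) :
    ContDiff ℝ ∞ fun x => L.ws c s x ^ a :=
  L.w_rpow_smooth (L.sb_eps hs).1 (L.sb_eps hs).2 a

theorem sb_gs_smooth {s : ℝ} (hs : L.Ad s) (c : E n) {u : E n → ℝ} (hu : SP u) :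
    ContDiff ℝ ∞ (L.gs c s u) :=
  hu.1.div (L.sb_wsp_smooth hs c _) fun x => (Real.rpow_pos_of_pos (L.sb_ws_pos hs c x) _).ne'

theorem sb_gs_pos {s : ℝ} (hs : L.Ad s) (c : E n) {u : E n → ℝ} (hu : SP u) (x : E n) :
    0 < L.gs c s u x :=
  div_pos (hu.2 x) (Real.rpow_pos_of_pos (L.sb_ws_pos hs c x) _)

/-- `g² w^(m-2) = u²` -/
theorem sb_gs_sq {s : ℝ} (hs : L.Ad s) (c : E n) (u : E n → ℝ) (x : E n) :
    L.gs c s u x ^ 2 * L.ws c s x ^ (L.m - 2) = u x ^ 2 := by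
  have hw := L.sb_ws_pos hs c x
  have h : L.ws c s x ^ (L.m - 2) = (L.ws c s x ^ ((L.m - 2) / 2)) ^ 2 := by
    rw [← Real.rpow_natCast, ← Real.rpow_mul hw.le]
    norm_num
  rw [h]
  unfold gs
  have h2 := (Real.rpow_pos_of_pos hw ((L.m - 2) / 2)).ne'
  field_simp

/-- `g² w^m = u² w²` -/
theorem sb_gs_sq' {s : ℝ} (hs : L.Ad s) (c : E n) (u : E n → ℝ) (x : E n) :
    L.gs c s u x ^ 2 * L.ws c s x ^ L.m = u x ^ 2 * L.ws c s x ^ 2 := by
  have hw := L.sb_ws_pos hs c x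
  rw [← L.sb_gs_sq hs c u x]
  have h : L.ws c s x ^ L.m = L.ws c s x ^ (L.m - 2) * L.ws c s x ^ 2 := by
    rw [← Real.rpow_natCast (L.ws c s x) 2, ← Real.rpow_add hw]
    norm_num
  rw [h]
  ring

theorem sb_ds_comm (c x : E n) : L.ds c x = L.ds x c := by
  unfold ds
  rw [L.F_comm]

theorem sb_ds_nonneg (c x : E n) : 0 ≤ L.ds c x := Real.sqrt_nonneg _

theorem sb_ds_cont : Continuous fun p : E n × E n => L.ds p.1 p.2 :=
  (continuous_const.mul L.F_smooth.continuous).sqrt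

theorem sb_kS_nonneg {S d : ℝ} (hS : 0 ≤ S) (hd : 0 ≤ d) : 0 ≤ L.kS S d := by
  unfold kS
  have h1 : 0 ≤ S / (S + d) := by positivity
  exact mul_nonneg (Real.rpow_nonneg h1 _) (Real.rpow_nonneg hd _)

theorem sb_kS_meas (S : ℝ) : Measurable fun d : ℝ => L.kS S d := by
  unfold kS
  have h1 : Measurable fun d : ℝ => S / (S + d) := by fun_prop
  exact (h1.pow_const _).mul (measurable_id.pow_const _)

/-- statement B3d of the skeleton -/
def KInt : Prop := ∀ c : E n, c ∈ L.K → ∀ S : ℝ, 0 < S →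
  Integrable (fun z : E n × E n => L.kS S (L.ds c z.1)) L.V

/-- statement B3f of the skeleton -/
def KAvg : Prop := ∀ N Λ : ℝ, 1 ≤ N → 1 ≤ Λ → ∃ C > 0, ∀ c ∈ L.K, ∀ s : ℝ, 0 < s →
    L.Ad (Λ * s) → ∀ x ∈ L.K,
    (∫ z in {z | L.ds c z.1 ≤ N * s}, L.kS (Λ * s) (L.ds z.1 x) ∂L.V
      ≤ C * s ^ L.m * L.ws c s x ^ (L.m - 1)) ∧
    ∫ z in {z | L.ds c z.1 ≤ N * s}, L.ds z.1 x * L.kS (Λ * s) (L.ds z.1 x) ∂L.V
      ≤ C * s ^ L.m * L.ws c s x ^ (L.m - 2)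

/-- the gradient of `g` is small -/
theorem sb_grad {s : ℝ} (hs : L.Ad s) {c : E n} (hc : c ∈ L.K) {u : E n → ℝ}
    (hu : SP u) {δ : ℝ} (hD : L.Def c (s ^ 2 / 2) u ≤ δ) :
    ∫ z, L.ws c s z.1 ^ (L.m - 2) * L.G (L.gs c s u) (L.gs c s u) z ∂L.V ≤
      L.m * (L.m - 2) / 4 * δ := by
  have h := L.d1_le hc (L.sb_eps hs).1 (L.sb_eps hs).2 hu.1
  have hm := L.m_pos
  have hm2 := L.m_sub_pos
  exact h.trans (mul_le_mul_of_nonneg_left hD (by positivity))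

theorem sb_G_sq {g : E n → ℝ} (hg : ContDiff ℝ 1 g) (z : E n × E n) :
    L.G (fun x => g x ^ 2) (fun x => g x ^ 2) z = 4 * g z.1 ^ 2 * L.G g g z := by
  have h : D L.A (fun x => g x ^ 2) z.1 = (2 * g z.1) • D L.A g z.1 :=
    D_comp (f := fun t => t ^ 2) (by simpa using hasDerivAt_pow 2 (g z.1))
      (hg.differentiable (by norm_num) _)
  show gv _ _ _ = 4 * g z.1 ^ 2 * gv _ _ _
  rw [h, gv_smul_left, gv_smul_right]
  ring

theorem sb_sqrt_G {g : E n → ℝ} (hg : ContDiff ℝ 1 g) (h0 : ∀ x, 0 ≤ g x) (z : E n × E n) :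
    √(L.G (fun x => g x ^ 2) (fun x => g x ^ 2) z) = 2 * g z.1 * √(L.G g g z) := by
  rw [L.sb_G_sq hg z, Real.sqrt_mul (by positivity), show 4 * g z.1 ^ 2 = (2 * g z.1) ^ 2 by ring,
    Real.sqrt_sq (by have := h0 z.1; positivity)]

/-- the integrand of the error -/
noncomputable def erk (S : ℝ) (g : E n → ℝ) (z₀ z : E n × E n) : ℝ :=
  (g z.1 ^ 2 * L.ds z₀.1 z.1 + √(L.G (fun x => g x ^ 2) (fun x => g x ^ 2) z)) *
    L.kS S (L.ds z₀.1 z.1)

theorem erk_meas (S : ℝ) {g : E n → ℝ} (hg : ContDiff ℝ ∞ g) :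
    Measurable fun p : (E n × E n) × (E n × E n) => L.erk S g p.1 p.2 := by
  have h1 : Continuous fun p : (E n × E n) × (E n × E n) => L.ds p.1.1 p.2.1 :=
    L.sb_ds_cont.comp ((continuous_fst.comp continuous_fst).prodMk
      (continuous_fst.comp continuous_snd))
  have h2 : Continuous fun p : (E n × E n) × (E n × E n) => g p.2.1 ^ 2 :=
    (hg.continuous.comp (continuous_fst.comp continuous_snd)).pow 2
  have hg1 : ContDiff ℝ 1 fun x => g x ^ 2 := (hg.pow 2).of_le one_le_inf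
  have h3 : Continuous fun p : (E n × E n) × (E n × E n) =>
      √(L.G (fun x => g x ^ 2) (fun x => g x ^ 2) p.2) :=
    ((L.G_cont hg1 hg1).comp continuous_snd).sqrt
  have h4 := (L.sb_kS_meas S).comp h1.measurable
  exact ((h2.mul h1).add h3).measurable.mul h4

end Vale.Agent.P219.End.Lim
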