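import Vale.Agent.P219.End.SupBd2

/-!
# P219 / End : the error half of `sup_bound` (leaf B5b), in the form used by `SupBd.lean`
-/

open MeasureTheory Set Metric
open scoped ENNReal ContDiff Topology

namespace Vale.Agent.P219.End.Lim

variable {n : ℕ} (L : Lim n)

theorem sb_Ad_of {Λ s : ℝ} (hΛ : 1 ≤ Λ) (hs : 0 < s) (h : L.Ad (Λ * s)) : L.Ad s := by
  have h1 : s ≤ Λ * s := le_mul_of_one_le_left hs.le hΛ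
  refine ⟨hs, h1.trans h.2.1, ?_⟩
  have h2 : s ^ 2 ≤ (Λ * s) ^ 2 := pow_le_pow_left₀ hs.le h1 2
  exact (mul_le_mul_of_nonneg_left h2 L.k2_nonneg).trans h.2.2

theorem sup_err_of (hint : L.KInt) (havg : L.KAvg) (N Λ B : ℝ) (hN : 1 ≤ N) (hΛ : 1 ≤ Λ) :
    ∃ C > 0, ∀ c ∈ L.K, ∀ s : ℝ, 0 < s → L.Ad (Λ * s) → ∀ u : E n → ℝ, SP u →
    ∀ δ : ℝ, 0 < δ → δ ≤ 1 → L.Def c (s ^ 2 / 2) u ≤ δ →
    (∫ z, u z.1 ^ 2 ∂L.V) ≤ δ → (∫ z, u z.1 ^ 2 * L.ws c s z.1 ^ 2 ∂L.V) ≤ B →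
    IntegrableOn (fun p => ∫ z, (L.gs c s u z.1 ^ 2 * L.ds p.1 z.1 +
      √(L.G (fun x => L.gs c s u x ^ 2) (fun x => L.gs c s u x ^ 2) z)) *
        L.kS (Λ * s) (L.ds p.1 z.1) ∂L.V) {p | L.ds c p.1 ≤ N * s} L.V ∧
    ∫ p in {p | L.ds c p.1 ≤ N * s}, (∫ z, (L.gs c s u z.1 ^ 2 * L.ds p.1 z.1 +
      √(L.G (fun x => L.gs c s u x ^ 2) (fun x => L.gs c s u x ^ 2) z)) *
        L.kS (Λ * s) (L.ds p.1 z.1) ∂L.V) ∂L.V ≤ C * √δ * s ^ L.m := by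
  obtain ⟨C, hC, h⟩ := L.sup_err hint havg N Λ B hN hΛ
  exact ⟨C, hC, fun c hc s hs hA u hu δ h0 h1 hD hR hB =>
    h c hc s hs hA (L.sb_Ad_of hΛ hs hA) u hu δ h0 h1 hD hR hB⟩

end Vale.Agent.P219.End.Lim
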