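import Vale.Agent.P219.End.BubAlg
import Vale.Agent.P219.End.LayerCake

/-! # P219 / End : integrability of the kernel and tail of the bubble from the growth of the measure -/

open MeasureTheory Set Metric
open scoped ENNReal ContDiff Topology

namespace Vale.Agent.P219.End

variable {n : ℕ}

namespace Lim

variable (L : Lim n)

theorem gr_of {C : ℝ} (hC : 0 < C) (c : E n)
    (h : ∀ s : ℝ, 0 < s → L.V.real {z | L.ds c z.1 ≤ s} ≤ C * s ^ L.m) :
    Cake.Gr L.V (fun z => L.ds c z.1) C L.m := by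
  have := L.V_fin
  refine ⟨((L.ds_cont c).comp continuous_fst).measurable, fun z => L.ds_nonneg c z.1, hC.le, fun t ht => ?_⟩
  have h1 := h t ht
  rw [Measure.real] at h1
  exact (ENNReal.le_ofReal_iff_toReal_le (measure_ne_top _ _) (by positivity)).2 h1

/-- B3d from the growth -/
theorem kS_integrable_of {C : ℝ} (hC : 0 < C) {c : E n}
    (h : ∀ s : ℝ, 0 < s → L.V.real {z | L.ds c z.1 ≤ s} ≤ C * s ^ L.m) {S : ℝ} (hS : 0 < S) :
    Integrable (fun z => L.kS S (L.ds c z.1)) L.V := by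
  have hm := L.three_le
  have hgr := L.gr_of hC c h
  have h1 := Cake.lint_kr hgr (by linarith) hS
  have h2 : (fun z : E n × E n => L.kS S (L.ds c z.1)) = fun z => Cake.kr L.m S (L.ds c z.1) := rfl
  rw [h2]
  exact ⟨((Cake.kr_meas L.m S).comp hgr.meas).aestronglyMeasurable,
    (hasFiniteIntegral_iff_ofReal (f := fun z : E n × E n => Cake.kr L.m S (L.ds c z.1))
      (Filter.Eventually.of_forall fun z => Cake.kr_nonneg hS.le (L.ds_nonneg c z.1))).2
      (h1.trans_lt ENNReal.ofReal_lt_top)⟩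

/-- integral of the power cut off -/
theorem lint_cut {m C T : ℝ} (hm : 1 ≤ m) (hC : 0 ≤ C) (hT : 0 < T) :
    ∫⁻ t in Ioi (0 : ℝ), ENNReal.ofReal ((max t T) ^ (-(2 * m))) * ENNReal.ofReal (C * m * t ^ (m - 1)) ≤
      ENNReal.ofReal (2 * C * T ^ (-m)) := by
  have hsplit : (Ioi (0 : ℝ)) = Ioc 0 T ∪ Ioi T := (Ioc_union_Ioi_eq_Ioi hT.le).symm
  rw [hsplit, lintegral_union measurableSet_Ioi (by
    rw [Set.disjoint_left]
    intro x hx hx'
    exact absurd hx.2 (not_le.2 hx'))]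
  have e1 : ∫⁻ t in Ioc 0 T, ENNReal.ofReal ((max t T) ^ (-(2 * m))) * ENNReal.ofReal (C * m * t ^ (m - 1)) =
      ENNReal.ofReal (C * T ^ (-m)) := by
    rw [setLIntegral_congr_fun (g := fun t => ENNReal.ofReal (T ^ (-(2 * m))) * ENNReal.ofReal (C * m * t ^ (m - 1)))
      measurableSet_Ioc (fun t ht => by
        show ENNReal.ofReal ((max t T) ^ (-(2 * m))) * _ = _
        rw [max_eq_right ht.2])]
    rw [lintegral_const_mul _ (by fun_prop), Cake.lint_pow hC hm hT.le, ← ENNReal.ofReal_mul (by positivity)]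
    congr 1
    have : T ^ (-(2 * m)) * T ^ m = T ^ (-m) := by
      rw [← Real.rpow_add hT]
      congr 1
      ring
    calc T ^ (-(2 * m)) * (C * T ^ m) = C * (T ^ (-(2 * m)) * T ^ m) := by ring
      _ = _ := by rw [this]
  have hm1 : -m - 1 < -1 := by linarith
  have e2 : ∫⁻ t in Ioi T, ENNReal.ofReal ((max t T) ^ (-(2 * m))) * ENNReal.ofReal (C * m * t ^ (m - 1)) =
      ENNReal.ofReal (C * T ^ (-m)) := by
    rw [setLIntegral_congr_fun (g := fun t => ENNReal.ofReal (C * m * t ^ (-m - 1))) measurableSet_Ioi (fun t ht => by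
        have ht' : T < t := ht
        have ht0 : 0 < t := hT.trans ht'
        show ENNReal.ofReal ((max t T) ^ (-(2 * m))) * _ = _
        rw [max_eq_left ht'.le, ← ENNReal.ofReal_mul (by positivity)]
        congr 1
        have : t ^ (-(2 * m)) * t ^ (m - 1) = t ^ (-m - 1) := by
          rw [← Real.rpow_add ht0]
          congr 1
          ring
        calc t ^ (-(2 * m)) * (C * m * t ^ (m - 1)) = C * m * (t ^ (-(2 * m)) * t ^ (m - 1)) := by ring
          _ = _ := by rw [this])]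
    rw [← ofReal_integral_eq_lintegral_ofReal ((integrableOn_Ioi_rpow_of_lt hm1 hT).const_mul _)
      ((ae_restrict_iff' measurableSet_Ioi).2 (ae_of_all _ fun t ht => by
        have ht0 : (0 : ℝ) < t := hT.trans ht
        show (0 : ℝ) ≤ C * m * t ^ (-m - 1)
        positivity)), integral_const_mul, integral_Ioi_rpow_of_lt hm1 hT]
    congr 1
    have h1 : -m - 1 + 1 = -m := by ring
    rw [h1]
    field_simp
  rw [e1, e2, ← ENNReal.ofReal_add (by positivity) (by positivity)]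
  exact ENNReal.ofReal_le_ofReal (le_of_eq (by ring))

/-- pointwise bound far from the centre -/
theorem ws_far {c : E n} {s : ℝ} (hs : L.Ad s) {x : E n} {T : ℝ} (hT : 0 < T) (hx : T < L.ds c x) :
    L.ws c s x ^ L.m ≤ (2 * s) ^ L.m * (max (L.ds c x) T) ^ (-(2 * L.m)) := by
  have hm := L.three_le
  have hs0 : 0 < s := hs.1
  have hd : 0 < L.ds c x := hT.trans hx
  rw [max_eq_left hx.le]
  have h1 : L.ws c s x ≤ 2 * s / L.ds c x ^ 2 :=
    (L.ws_bounds hs c x).2.1.trans (div_le_div_of_nonneg_left (by positivity) (by positivity)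
      (by nlinarith [sq_nonneg s]))
  have h2 : (L.ds c x ^ 2) ^ L.m = L.ds c x ^ (2 * L.m) := by
    rw [Real.rpow_mul hd.le, Real.rpow_two]
  calc L.ws c s x ^ L.m ≤ (2 * s / L.ds c x ^ 2) ^ L.m :=
        Real.rpow_le_rpow (L.ws_bounds hs c x).1.le h1 (by linarith)
    _ = (2 * s) ^ L.m * L.ds c x ^ (-(2 * L.m)) := by
        rw [Real.div_rpow (by positivity) (by positivity), h2, Real.rpow_neg hd.le, div_eq_mul_inv]

/-- B3g from the growth -/
theorem tail_of {C : ℝ} (hC : 0 < C) {c : E n}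
    (h : ∀ s : ℝ, 0 < s → L.V.real {z | L.ds c z.1 ≤ s} ≤ C * s ^ L.m) {s : ℝ} (hs : L.Ad s) {N : ℝ} (hN : 1 ≤ N) :
    ∫ z in {z | N * s < L.ds c z.1}, L.ws c s z.1 ^ L.m ∂L.V ≤ 2 ^ (L.m + 1) * C * N ^ (-L.m) := by
  have := L.V_fin
  have hm := L.three_le
  have hs0 : 0 < s := hs.1
  have hT : 0 < N * s := by positivity
  have hgr := L.gr_of hC c h
  have hws : Continuous fun z : E n × E n => L.ws c s z.1 ^ L.m :=
    (L.ws_smooth hs c L.m).continuous.comp continuous_fst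
  have hmeas : MeasurableSet {z : E n × E n | N * s < L.ds c z.1} :=
    measurableSet_lt measurable_const hgr.meas
  have hφ : AntitoneOn (fun t : ℝ => (max t (N * s)) ^ (-(2 * L.m))) (Ioi 0) := by
    intro a ha b hb hab
    exact Real.rpow_le_rpow_of_nonpos (lt_max_of_lt_right hT) (max_le_max_right _ hab) (by linarith)
  have hφm : Measurable (fun t : ℝ => (max t (N * s)) ^ (-(2 * L.m))) := by fun_prop
  have e1 : ∫⁻ z in {z | N * s < L.ds c z.1}, ENNReal.ofReal (L.ws c s z.1 ^ L.m) ∂L.V ≤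
      ∫⁻ z, ENNReal.ofReal ((2 * s) ^ L.m) *
          ENNReal.ofReal ((max (L.ds c z.1) (N * s)) ^ (-(2 * L.m))) ∂L.V := by
    refine (setLIntegral_mono' hmeas fun z hz => ?_).trans (setLIntegral_le_lintegral _ _)
    rw [← ENNReal.ofReal_mul (by positivity)]
    exact ENNReal.ofReal_le_ofReal (L.ws_far hs hT hz)
  have hmm : Measurable fun z : E n × E n => ENNReal.ofReal ((max (L.ds c z.1) (N * s)) ^ (-(2 * L.m))) :=
    ENNReal.measurable_ofReal.comp (hφm.comp hgr.meas)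
  have e2 : ∫⁻ z, ENNReal.ofReal ((2 * s) ^ L.m) *
          ENNReal.ofReal ((max (L.ds c z.1) (N * s)) ^ (-(2 * L.m))) ∂L.V =
      ENNReal.ofReal ((2 * s) ^ L.m) *
          ∫⁻ z, ENNReal.ofReal ((max (L.ds c z.1) (N * s)) ^ (-(2 * L.m))) ∂L.V :=
    lintegral_const_mul _ hmm
  have e3 : ∫⁻ z, ENNReal.ofReal ((max (L.ds c z.1) (N * s)) ^ (-(2 * L.m))) ∂L.V ≤
      ENNReal.ofReal (2 * C * (N * s) ^ (-L.m)) :=
    (Cake.lint_le hgr (by linarith) hφ (fun t _ => Real.rpow_nonneg (le_max_of_le_right hT.le) _) hφm).trans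
      (lint_cut (by linarith) hC.le hT)
  have e4 : ENNReal.ofReal ((2 * s) ^ L.m) * ENNReal.ofReal (2 * C * (N * s) ^ (-L.m)) =
      ENNReal.ofReal (2 ^ (L.m + 1) * C * N ^ (-L.m)) := by
    rw [← ENNReal.ofReal_mul (by positivity)]
    congr 1
    have h1 : (s : ℝ) ^ L.m * s ^ (-L.m) = 1 := by
      rw [← Real.rpow_add hs0]
      simp
    rw [Real.mul_rpow (by norm_num) hs0.le, Real.mul_rpow (by linarith) hs0.le, Real.rpow_add (by norm_num),
      Real.rpow_one]
    calc (2 : ℝ) ^ L.m * s ^ L.m * (2 * C * (N ^ (-L.m) * s ^ (-L.m)))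
        = 2 ^ L.m * 2 * C * N ^ (-L.m) * (s ^ L.m * s ^ (-L.m)) := by ring
      _ = _ := by rw [h1, mul_one]
  have e5 : ∫ z in {z | N * s < L.ds c z.1}, L.ws c s z.1 ^ L.m ∂L.V =
      (∫⁻ z in {z | N * s < L.ds c z.1}, ENNReal.ofReal (L.ws c s z.1 ^ L.m) ∂L.V).toReal :=
    integral_eq_lintegral_of_nonneg_ae (Filter.Eventually.of_forall fun z =>
      Real.rpow_nonneg (L.ws_bounds hs c z.1).1.le _) hws.aestronglyMeasurable
  have e6 : ∫⁻ z in {z | N * s < L.ds c z.1}, ENNReal.ofReal (L.ws c s z.1 ^ L.m) ∂L.V ≤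
      ENNReal.ofReal (2 ^ (L.m + 1) * C * N ^ (-L.m)) := by
    rw [← e4]
    exact e1.trans (e2.le.trans (mul_le_mul_right e3 _))
  rw [e5]
  exact ENNReal.toReal_le_of_le_ofReal (by positivity) e6

end Lim

end Vale.Agent.P219.End
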