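import Vale.Agent.P219.End.Basic

/-!
# P219 / End : dimension three (`m = 2`)

For surfaces (`m = 2`) the inequality `sg 2 ≤ (H₀²/4 - k2) V(univ)` follows at once from one-sided
stationarity with `ψ = 1/(F_p + ε)` at one point `p` of density at least one.
-/

open MeasureTheory Set Metric
open scoped ContDiff

namespace Vale.Agent.P219.End

variable {n : ℕ}

theorem two_alg {ψ F ε k2 H nc ff : ℝ} (hψ : ψ * (F + ε) = 1) (hf : ff = 2 * F + k2 * F ^ 2) :
    H * ψ * nc - 2 * (1 + k2 * F) * ψ - (-(ψ ^ 2) * (ff - nc ^ 2)) =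
      (H ^ 2 / 4 - k2) - (H / 2 - nc * ψ) ^ 2 - ε * (2 - k2 * ε) * ψ ^ 2 := by
  have hF : ψ * F = 1 - ψ * ε := by linarith
  have h2 : ψ ^ 2 * F = ψ - ψ ^ 2 * ε := by
    calc ψ ^ 2 * F = ψ * (ψ * F) := by ring
      _ = _ := by rw [hF]; ring
  have h3 : ψ ^ 2 * F ^ 2 = (1 - ψ * ε) ^ 2 := by
    rw [← hF]
    ring
  rw [hf]
  have e1 : ψ ^ 2 * (2 * F + k2 * F ^ 2) = 2 * (ψ - ψ ^ 2 * ε) + k2 * (1 - ψ * ε) ^ 2 := by
    rw [← h2, ← h3]
    ring
  have e2 : (1 + k2 * F) * ψ = ψ + k2 * (1 - ψ * ε) := by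
    rw [← hF]
    ring
  calc _ = H * ψ * nc - 2 * ((1 + k2 * F) * ψ) + ψ ^ 2 * (2 * F + k2 * F ^ 2) -
        ψ ^ 2 * nc ^ 2 := by ring
    _ = _ := by
      rw [e1, e2]
      ring

/-- The case `m = 2`. -/
theorem main_two {k2 H0 : ℝ} {A : E n → E n →L[ℝ] E n} {F : E n → E n → ℝ} {K : Set (E n)}
    {V : Measure (E n × E n)} [IsFiniteMeasure V] (hA : Continuous A)
    (hFs : ContDiff ℝ ∞ fun z : E n × E n => F z.1 z.2) (hF0 : ∀ c x, 0 ≤ F c x)
    (grad : ∀ c x, ‖D A (F c) x‖ ^ 2 = 2 * F c x + k2 * F c x ^ 2)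
    (hK : IsCompact K) (hV : ∀ᵐ z ∂V, z.1 ∈ K ∧ ‖z.2‖ = 1) {p : E n}
    (stat : ∀ ψ : E n → ℝ, ContDiff ℝ ∞ ψ → (∀ x, 0 ≤ ψ x) →
      0 ≤ ∫ z, (H0 * ψ z.1 * inner ℝ (D A (F p) z.1) z.2 -
        2 * (1 + k2 * F p z.1) * ψ z.1 - Gam A ψ (F p) z) ∂V)
    (dens : ∀ e > 0, ∃ ε₀ > 0, ∀ ε, 0 < ε → ε < ε₀ →
      sg 2 - e ≤ ∫ z, bub k2 (F p) ε z.1 ^ (2 : ℝ) ∂V) :
    sg 2 ≤ (H0 ^ 2 / 4 - k2) * V.real univ := by
  have hint : ∀ {f : E n × E n → ℝ}, Continuous f → Integrable f V := by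
    intro f hf
    have hK' : IsCompact (K ×ˢ sphere (0 : E n) 1) := hK.prod (isCompact_sphere 0 1)
    obtain ⟨C, hC⟩ := hK'.exists_bound_of_continuousOn hf.continuousOn
    refine Integrable.of_bound hf.aestronglyMeasurable C ?_
    filter_upwards [hV] with z hz
    exact hC z ⟨hz.1, by simpa using hz.2⟩
  have hFp : ContDiff ℝ ∞ (F p) := hFs.comp (contDiff_const.prodMk contDiff_id)
  have hFp1 : ContDiff ℝ 1 (F p) := hFp.of_le (by exact_mod_cast le_top)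
  refine le_of_forall_pos_le_add fun e he => ?_
  obtain ⟨ε₀, hε₀, hd⟩ := dens e he
  -- a small `ε` with `k2 ε ≤ 2`
  obtain ⟨ε, hε, hε1, hε2⟩ : ∃ ε, 0 < ε ∧ ε < ε₀ ∧ k2 * ε < 2 := by
    refine ⟨min (ε₀ / 2) (1 / (|k2| + 1)), by positivity,
      (min_le_left _ _).trans_lt (by linarith), ?_⟩
    have h1 : min (ε₀ / 2) (1 / (|k2| + 1)) ≤ 1 / (|k2| + 1) := min_le_right _ _
    have h2 : 0 < min (ε₀ / 2) (1 / (|k2| + 1)) := by positivity
    calc k2 * min (ε₀ / 2) (1 / (|k2| + 1)) ≤ |k2| * (1 / (|k2| + 1)) :=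
          mul_le_mul (le_abs_self _) h1 h2.le (abs_nonneg _)
      _ < 2 := by
          rw [mul_one_div, div_lt_iff₀ (by positivity)]
          linarith [abs_nonneg k2]
  have hp : ∀ x, 0 < F p x + ε := fun x => by linarith [hF0 p x]
  set ψ : E n → ℝ := fun x => (F p x + ε)⁻¹ with hψdef
  have hψ : ContDiff ℝ ∞ ψ := (hFp.add contDiff_const).inv fun x => (hp x).ne'
  have hψ1 : ContDiff ℝ 1 ψ := hψ.of_le (by exact_mod_cast le_top)
  have hψF : ∀ x, ψ x * (F p x + ε) = 1 := fun x => inv_mul_cancel₀ (hp x).ne'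
  have hDψ : ∀ x, D A ψ x = (-(ψ x ^ 2)) • D A (F p) x := by
    intro x
    have h := ((hasDerivAt_id (F p x)).add_const ε).inv (hp x).ne'
    refine D_comp (A := A) (u := F p) (f := fun t : ℝ => (t + ε)⁻¹) ?_
      (hFp1.differentiable (by norm_num) x)
    refine (h.congr_deriv ?_).congr_of_eventuallyEq ?_
    · simp only [id, hψdef]
      rw [inv_pow, neg_div, one_div]
    · exact Filter.Eventually.of_forall fun f => by simp
  have hst := stat ψ hψ fun x => (inv_pos.2 (hp x)).le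
  -- the pointwise identity
  have hpt : ∀ z : E n × E n, H0 * ψ z.1 * inner ℝ (D A (F p) z.1) z.2 -
        2 * (1 + k2 * F p z.1) * ψ z.1 - Gam A ψ (F p) z =
      (H0 ^ 2 / 4 - k2) - (H0 / 2 - inner ℝ (D A (F p) z.1) z.2 * ψ z.1) ^ 2 -
        bub k2 (F p) ε z.1 ^ (2 : ℝ) := by
    intro z
    have hG : Gam A ψ (F p) z =
        -(ψ z.1 ^ 2) * (‖D A (F p) z.1‖ ^ 2 - inner ℝ (D A (F p) z.1) z.2 ^ 2) := by
      rw [Gam_eq, hDψ, gv_smul_left, gv_self]
    have hb : bub k2 (F p) ε z.1 ^ (2 : ℝ) = ε * (2 - k2 * ε) * ψ z.1 ^ 2 := by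
      have h2 : bub k2 (F p) ε z.1 ^ (2 : ℝ) = bub k2 (F p) ε z.1 ^ 2 := by
        exact_mod_cast Real.rpow_natCast (bub k2 (F p) ε z.1) 2
      rw [h2]
      unfold bub
      rw [div_pow, Real.sq_sqrt (mul_pos hε (by linarith)).le, hψdef]
      simp only
      rw [inv_pow, div_eq_mul_inv]
    rw [hG, hb]
    exact two_alg (hψF z.1) (grad p z.1)
  have hcn : Continuous fun z : E n × E n => inner ℝ (D A (F p) z.1) z.2 :=
    ((D_continuous hA hFp1).comp continuous_fst).inner continuous_snd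
  have hcψ : Continuous fun z : E n × E n => ψ z.1 := hψ.continuous.comp continuous_fst
  have hcb : Continuous fun z : E n × E n => bub k2 (F p) ε z.1 ^ (2 : ℝ) := by
    have : Continuous fun z : E n × E n => bub k2 (F p) ε z.1 := by
      unfold bub
      exact continuous_const.div ((hFp.continuous.comp continuous_fst).add continuous_const)
        fun z => (hp z.1).ne'
    exact this.rpow_const fun z => Or.inr (by norm_num)
  have i1 : Integrable (fun _ : E n × E n => H0 ^ 2 / 4 - k2) V := integrable_const _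
  have i2 : Integrable (fun z : E n × E n =>
      (H0 / 2 - inner ℝ (D A (F p) z.1) z.2 * ψ z.1) ^ 2) V :=
    hint ((continuous_const.sub (hcn.mul hcψ)).pow 2)
  have i3 := hint hcb
  have i12 : Integrable (fun z : E n × E n => (H0 ^ 2 / 4 - k2) -
      (H0 / 2 - inner ℝ (D A (F p) z.1) z.2 * ψ z.1) ^ 2) V := i1.sub i2
  simp only [hpt] at hst
  rw [integral_sub i12 i3, integral_sub i1 i2, integral_const, smul_eq_mul] at hst
  have h2 : 0 ≤ ∫ z, (H0 / 2 - inner ℝ (D A (F p) z.1) z.2 * ψ z.1) ^ 2 ∂V :=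
    integral_nonneg fun z => sq_nonneg _
  have h3 := hd ε hε hε1
  have h4 : (H0 ^ 2 / 4 - k2) * V.real univ = V.real univ * (H0 ^ 2 / 4 - k2) := mul_comm _ _
  linarith

end Vale.Agent.P219.End
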