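import Vale.Agent.P219.End.WSob2

/-! P219, block (W) = L4: weak (non sharp) Michael-Simon-Sobolev inequality from the
representation (P), the upper density (D) and smooth truncation.  helper895. -/

namespace Vale.Agent.P219.End.WSob

open MeasureTheory Set ENNReal
open scoped ContDiff

variable {Z : Type*} [MeasurableSpace Z]

/-- weak type `(1, m/(m-1))` for one function. -/
lemma weak (m : ℝ) (hm : 2 ≤ m) (μ : Measure Z) [IsFiniteMeasure μ]
    (r : Z → Z → ℝ) (hr : Measurable (Function.uncurry r)) (hr0 : ∀ p x, 0 ≤ r p x)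
    (C0 C1 : ℝ≥0∞)
    (hD : ∀ᵐ y ∂μ, ∀ s : ℝ, 0 < s → μ {p | r p y < s} ≤ C0 * ENNReal.ofReal (s ^ m))
    (E : Set Z) (f : Z → ℝ≥0∞) (g : Z → ℝ≥0∞) (hg : Measurable g) (t F : ℝ≥0∞)
    (hE : MeasurableSet E) (ht : ∀ x ∈ E, t ≤ f x)
    (hf : ∀ᵐ p ∂μ, f p ≤ C1 * (∫⁻ z, ENNReal.ofReal (r p z ^ (1 - m)) * g z ∂μ + F)) :
    t * μ E ^ (1 - 1/m) ≤
      C1 * ((C0 * ENNReal.ofReal m + 1) * ∫⁻ z, g z ∂μ + μ E ^ (1 - 1/m) * F) := by
  have hm0 : (0:ℝ) < m := by linarith
  have hinv : 1/m ≤ 1/2 := by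
    rw [div_le_div_iff₀ hm0 (by norm_num)]; linarith
  have hinv0 : 0 < 1/m := by positivity
  by_cases hE0 : μ E = 0
  · rw [hE0, ENNReal.zero_rpow_of_pos (by linarith)]; simp
  have hEt : μ E ≠ ⊤ := measure_ne_top _ _
  have hkm : Measurable (fun q : Z × Z => ENNReal.ofReal (r q.1 q.2 ^ (1 - m)) * g q.2) := by
    have h1 : Measurable (fun q : Z × Z => r q.1 q.2) := hr
    exact ((h1.pow_const _).ennreal_ofReal).mul (hg.comp measurable_snd)
  have h1 : t * μ E ≤ C1 * ((C0 * ENNReal.ofReal m + 1) * μ E ^ (1/m) * ∫⁻ z, g z ∂μ + μ E * F) := by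
    calc t * μ E = ∫⁻ _ in E, t ∂μ := by rw [setLIntegral_const]
      _ ≤ ∫⁻ p in E, C1 * (∫⁻ z, ENNReal.ofReal (r p z ^ (1 - m)) * g z ∂μ + F) ∂μ := by
          refine lintegral_mono_ae ?_
          filter_upwards [ae_restrict_of_ae hf, ae_restrict_mem hE] with p hp hpE
          exact (ht p hpE).trans hp
      _ = C1 * (∫⁻ p in E, ∫⁻ z, ENNReal.ofReal (r p z ^ (1 - m)) * g z ∂μ ∂μ
            + F * μ E) := by
          rw [lintegral_const_mul _ ((hkm.lintegral_prod_right').add_const F),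
            lintegral_add_right _ measurable_const, setLIntegral_const]
      _ = C1 * (∫⁻ z, ∫⁻ p in E, ENNReal.ofReal (r p z ^ (1 - m)) * g z ∂μ ∂μ
            + F * μ E) := by
          rw [lintegral_lintegral_swap hkm.aemeasurable]
      _ ≤ C1 * (∫⁻ z, (C0 * ENNReal.ofReal m + 1) * μ E ^ (1/m) * g z ∂μ + F * μ E) := by
          refine mul_le_mul_right (add_le_add ?_ le_rfl) _
          refine lintegral_mono_ae ?_
          filter_upwards [hD] with z hz
          have hrz : Measurable (fun p => r p z) :=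
            hr.comp (measurable_id.prodMk measurable_const)
          have hrm : Measurable (fun p => ENNReal.ofReal (r p z ^ (1 - m))) :=
            (hrz.pow_const _).ennreal_ofReal
          rw [lintegral_mul_const _ hrm]
          gcongr
          exact kernel_set μ (fun p => r p z) hrz (fun p => hr0 p _) m hm C0
            (fun s hs => hz s hs) E
      _ = _ := by
          rw [lintegral_const_mul _ hg, mul_comm F]
  have e1 : t * μ E = (t * μ E ^ (1 - 1/m)) * μ E ^ (1/m) := by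
    rw [mul_assoc, ← ENNReal.rpow_add _ _ hE0 hEt, sub_add_cancel, ENNReal.rpow_one]
  have e2 : C1 * ((C0 * ENNReal.ofReal m + 1) * μ E ^ (1/m) * ∫⁻ z, g z ∂μ + μ E * F)
      = (C1 * ((C0 * ENNReal.ofReal m + 1) * ∫⁻ z, g z ∂μ + μ E ^ (1 - 1/m) * F))
        * μ E ^ (1/m) := by
    have : μ E = μ E ^ (1 - 1/m) * μ E ^ (1/m) := by
      rw [← ENNReal.rpow_add _ _ hE0 hEt, sub_add_cancel, ENNReal.rpow_one]
    conv_lhs => rw [show μ E * F = (μ E ^ (1 - 1/m) * μ E ^ (1/m)) * F by rw [← this]]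
    ring
  rw [e1, e2] at h1
  have h0 : μ E ^ (1/m) ≠ 0 := by
    simp only [ne_eq, ENNReal.rpow_eq_zero_iff, hE0, hEt, false_and, or_self, not_false_iff]
  have hT : μ E ^ (1/m) ≠ ⊤ := ENNReal.rpow_ne_top_of_nonneg hinv0.le hEt
  exact (ENNReal.mul_le_mul_iff_left h0 hT).1 h1

/-- the basic smooth truncation: `0` for `s ≤ 1`, `1` for `s ≥ 2`. -/
noncomputable def th (s : ℝ) : ℝ := Real.smoothTransition (s - 1)

lemma th_contDiff : ContDiff ℝ ∞ th :=
  Real.smoothTransition.contDiff.comp (contDiff_id.sub contDiff_const)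

lemma th_mono : Monotone th := fun a b h =>
  Real.smoothTransition.monotone (by linarith)

lemma th_nonneg (s : ℝ) : 0 ≤ th s := Real.smoothTransition.nonneg _
lemma th_le_one (s : ℝ) : th s ≤ 1 := Real.smoothTransition.le_one _
lemma th_zero {s : ℝ} (h : s ≤ 1) : th s = 0 :=
  Real.smoothTransition.zero_of_nonpos (by linarith)
lemma th_one {s : ℝ} (h : 2 ≤ s) : th s = 1 :=
  Real.smoothTransition.one_of_one_le (by linarith)

lemma th_deriv_nonneg (s : ℝ) : 0 ≤ deriv th s := th_mono.deriv_nonneg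

lemma th_deriv_zero {s : ℝ} (h : s ≤ 1 ∨ 2 ≤ s) : deriv th s = 0 := by
  have hc : Continuous (deriv th) := th_contDiff.continuous_deriv (by norm_num)
  rcases h with h | h
  · have h1 : ∀ x < (1:ℝ), deriv th x = 0 := by
      intro x hx
      have : th =ᶠ[nhds x] fun _ => 0 := by
        filter_upwards [Iio_mem_nhds hx] with y hy using th_zero (le_of_lt hy)
      rw [this.deriv_eq]; simp
    rcases h.lt_or_eq with h | h
    · exact h1 s h
    · have hcl : s ∈ closure (Iio (1:ℝ)) := by rw [closure_Iio]; exact h.le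
      have : closure (Iio (1:ℝ)) ⊆ {x | deriv th x = 0} :=
        closure_minimal (fun x hx => h1 x hx) (isClosed_eq hc continuous_const)
      exact this hcl
  · have h1 : ∀ x > (2:ℝ), deriv th x = 0 := by
      intro x hx
      have : th =ᶠ[nhds x] fun _ => 1 := by
        filter_upwards [Ioi_mem_nhds hx] with y hy using th_one (le_of_lt hy)
      rw [this.deriv_eq]; simp
    rcases h.lt_or_eq with h | h
    · exact h1 s h
    · have hcl : s ∈ closure (Ioi (2:ℝ)) := by rw [closure_Ioi]; exact h.le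
      have : closure (Ioi (2:ℝ)) ⊆ {x | deriv th x = 0} :=
        closure_minimal (fun x hx => h1 x hx) (isClosed_eq hc continuous_const)
      exact this hcl

lemma th_deriv_bdd : ∃ c : ℝ, 0 < c ∧ ∀ s, deriv th s ≤ c := by
  have hc : Continuous (deriv th) := th_contDiff.continuous_deriv (by norm_num)
  obtain ⟨c, hc'⟩ := (isCompact_Icc (a := (1:ℝ)) (b := 2)).bddAbove_image hc.continuousOn
  refine ⟨max c 1, by positivity, fun s => ?_⟩
  by_cases h : s ≤ 1 ∨ 2 ≤ s
  · rw [th_deriv_zero h]; positivity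
  · push Not at h
    exact (hc' ⟨s, ⟨h.1.le, h.2.le⟩, rfl⟩).trans (le_max_left _ _)

/-- scaled truncation `t θ(s/t)`. -/
noncomputable def tht (t s : ℝ) : ℝ := t * th (s / t)

lemma tht_contDiff (t : ℝ) : ContDiff ℝ ∞ (tht t) :=
  contDiff_const.mul (th_contDiff.comp (contDiff_id.div_const t))

lemma tht_mono {t : ℝ} (ht : 0 < t) : Monotone (tht t) := fun a b h => by
  unfold tht
  have := th_mono (div_le_div_of_nonneg_right h ht.le)
  gcongr

lemma tht_deriv {t : ℝ} (ht : 0 < t) (s : ℝ) : deriv (tht t) s = deriv th (s / t) := by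
  have hd : HasDerivAt th (deriv th (s/t)) (s/t) :=
    ((th_contDiff.differentiable (by norm_num)) _).hasDerivAt
  have h2 : HasDerivAt (fun y : ℝ => y / t) (1 / t) s := (hasDerivAt_id s).div_const t
  have h3 : HasDerivAt (tht t) (t * (deriv th (s/t) * (1/t))) s :=
    (HasDerivAt.comp s (h₂ := th) (h := fun y : ℝ => y / t) hd h2).const_mul t
  rw [h3.deriv]; field_simp

/-- **Weak Michael-Simon-Sobolev inequality, abstract form** (block (W) of P219). -/
theorem wsob (m : ℝ) (hm : 3 ≤ m) (μ : Measure Z) [IsFiniteMeasure μ]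
    (r : Z → Z → ℝ) (hr : Measurable (Function.uncurry r)) (hr0 : ∀ p x, 0 ≤ r p x)
    (C0 C1 : ℝ≥0∞)
    (hD : ∀ᵐ y ∂μ, ∀ s : ℝ, 0 < s → μ {p | r p y < s} ≤ C0 * ENNReal.ofReal (s ^ m))
    (c : ℝ) (hc : ∀ s, deriv th s ≤ c)
    (u : Z → ℝ) (hu : Measurable u) (hu0 : ∀ x, 0 ≤ u x) (T : ℝ) (hT : 0 < T)
    (huT : ∀ᵐ x ∂μ, u x < T)
    (G : Z → ℝ) (hG : Measurable G) (hG0 : ∀ z, 0 ≤ G z)
    (hP : ∀ θ : ℝ → ℝ, ContDiff ℝ ∞ θ → Monotone θ → (∀ s, 0 ≤ θ s) →
      (∃ ε > 0, ∀ s ≤ ε, θ s = 0) → (∃ B, ∀ s, θ s ≤ B ∧ deriv θ s ≤ B) →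
      ∀ᵐ p ∂μ, ENNReal.ofReal (θ (u p)) ≤
        C1 * (∫⁻ z, ENNReal.ofReal (r p z ^ (1 - m)) *
            ENNReal.ofReal (deriv θ (u z) * G z + θ (u z)) ∂μ
          + ∫⁻ x, ENNReal.ofReal (θ (u x)) ∂μ)) :
    (∫⁻ x, ENNReal.ofReal (u x) ^ (2 * m / (m - 2)) ∂μ) ^ (1 - 2/m) ≤
      16 * (2 ^ (2 * (m - 1) / (m - 2)) * C1 *
        ((C0 * ENNReal.ofReal m + 1) * (ENNReal.ofReal c + 1) + μ univ ^ (1 - 1/m))) ^ 2
      * (∫⁻ z, ENNReal.ofReal (G z) ^ 2 ∂μ + ∫⁻ x, ENNReal.ofReal (u x) ^ 2 ∂μ) := by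
  have hm0 : (0:ℝ) < m := by linarith
  have hm2 : (0:ℝ) < m - 2 := by linarith
  have hinv : 1/m ≤ 1/3 := by
    rw [div_le_div_iff₀ hm0 (by norm_num)]; linarith
  have hinv0 : 0 < 1/m := by positivity
  set q : ℝ := 2 * m / (m - 2) with hq
  have hq1 : 1 ≤ q := by rw [hq, le_div_iff₀ hm2]; linarith
  have hq0 : 0 < q := by linarith
  -- sequences
  set t : ℕ → ℝ := fun j => T / 2 ^ j with htd
  have htpos : ∀ j, 0 < t j := fun j => by simp only [htd]; positivity
  have ht2 : ∀ j, t j = 2 * t (j+1) := fun j => by simp only [htd, pow_succ]; field_simp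
  set a : ℕ → ℝ≥0∞ := fun j => μ {x | t j ≤ u x} with had
  set A : ℕ → Set Z := fun j => {z | t (j+1) ≤ u z ∧ u z < t j} with hAd
  set D : ℕ → ℝ≥0∞ := fun j => ∫⁻ z in A j, ENNReal.ofReal (G z) ^ 2 ∂μ with hDd
  set b : ℕ → ℝ≥0∞ := fun j => ENNReal.ofReal (t j) ^ q * a j with hbd
  set e : ℕ → ℝ≥0∞ := fun j => ENNReal.ofReal (t j) ^ (2:ℝ) * a j with hed
  set M : ℝ≥0∞ := μ univ ^ (1 - 1/m) with hM
  set C2 : ℝ≥0∞ := C0 * ENNReal.ofReal m + 1 with hC2
  have hAm : ∀ j, MeasurableSet (A j) := fun j =>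
    (measurableSet_le measurable_const hu).inter
      (measurableSet_lt hu measurable_const)
  have hEm : ∀ j, MeasurableSet {x | t j ≤ u x} := fun j =>
    measurableSet_le measurable_const hu
  -- the recursion
  have hrec : ∀ j, ENNReal.ofReal (t (j+1)) * a j ^ (1 - 1/m) ≤
      C1 * (C2 * (ENNReal.ofReal c * (D j ^ (1/2:ℝ) * a (j+1) ^ (1/2:ℝ))
          + ENNReal.ofReal (t (j+1)) * a (j+1))
        + M * (ENNReal.ofReal (t (j+1)) * a (j+1))) := by
    intro j
    have htp := htpos (j+1)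
    have hfm : ∀ᵐ p ∂μ, ENNReal.ofReal (tht (t (j+1)) (u p)) ≤
        C1 * (∫⁻ z, ENNReal.ofReal (r p z ^ (1 - m)) *
          ENNReal.ofReal (deriv (tht (t (j+1))) (u z) * G z + tht (t (j+1)) (u z)) ∂μ
          + ∫⁻ x, ENNReal.ofReal (tht (t (j+1)) (u x)) ∂μ) := by
      exact hP (tht (t (j+1))) (tht_contDiff _) (tht_mono htp)
        (fun s => mul_nonneg htp.le (th_nonneg _))
        ⟨t (j+1), htp, fun s hs => by
          unfold tht; rw [th_zero ((div_le_one htp).2 hs), mul_zero]⟩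
        ⟨max (t (j+1)) c, fun s => ⟨(by
          unfold tht
          exact ((mul_le_mul_of_nonneg_left (th_le_one _) htp.le).trans_eq (mul_one _)).trans
            (le_max_left _ _)), by
          rw [tht_deriv htp]; exact (hc _).trans (le_max_right _ _)⟩⟩
    have hgm : Measurable fun z => ENNReal.ofReal (deriv (tht (t (j+1))) (u z) * G z
        + tht (t (j+1)) (u z)) :=
      ((((measurable_deriv _).comp hu).mul hG).add
        ((tht_contDiff (t (j+1))).continuous.measurable.comp hu)).ennreal_ofReal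
    have hw := weak m (by linarith) μ r hr hr0 C0 C1 hD {x | t j ≤ u x} _ _ hgm
      (ENNReal.ofReal (t (j+1))) _ (hEm j) (fun x hx => by
        refine ENNReal.ofReal_le_ofReal ?_
        unfold tht
        rw [th_one, mul_one]
        rw [le_div_iff₀ htp, ← ht2 j]; exact hx) hfm
    refine hw.trans ?_
    have hFle : ∫⁻ x, ENNReal.ofReal (tht (t (j+1)) (u x)) ∂μ
        ≤ ENNReal.ofReal (t (j+1)) * a (j+1) := by
      calc ∫⁻ x, ENNReal.ofReal (tht (t (j+1)) (u x)) ∂μ
          ≤ ∫⁻ x, ({x | t (j+1) ≤ u x}).indicator (fun _ => ENNReal.ofReal (t (j+1))) x ∂μ := by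
            refine lintegral_mono fun x => ?_
            by_cases hx : t (j+1) ≤ u x
            · rw [indicator_of_mem (show x ∈ {x | t (j+1) ≤ u x} from hx)]
              refine ENNReal.ofReal_le_ofReal ?_
              unfold tht
              exact (mul_le_mul_of_nonneg_left (th_le_one _) htp.le).trans_eq (mul_one _)
            · unfold tht
              rw [th_zero ((div_le_one htp).2 (not_le.1 hx).le), mul_zero, ENNReal.ofReal_zero]
              exact zero_le
        _ = _ := by rw [lintegral_indicator (hEm (j+1)), setLIntegral_const]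
    have hgle0 : ∫⁻ z, ENNReal.ofReal (deriv (tht (t (j+1))) (u z) * G z) ∂μ
        ≤ ENNReal.ofReal c * (D j ^ (1/2:ℝ) * a (j+1) ^ (1/2:ℝ)) := by
      have hVA : μ (A j) ≤ a (j+1) := measure_mono fun z hz => hz.1
      calc ∫⁻ z, ENNReal.ofReal (deriv (tht (t (j+1))) (u z) * G z) ∂μ
          ≤ ∫⁻ z, (A j).indicator (fun z => ENNReal.ofReal c * ENNReal.ofReal (G z)) z ∂μ := by
            refine lintegral_mono fun z => ?_
            rw [tht_deriv htp]
            by_cases hz : z ∈ A j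
            · rw [indicator_of_mem hz, ENNReal.ofReal_mul (th_deriv_nonneg _)]
              exact mul_le_mul' (ENNReal.ofReal_le_ofReal (hc _)) le_rfl
            · have : deriv th (u z / t (j+1)) = 0 := by
                apply th_deriv_zero
                have hz' : ¬ (t (j+1) ≤ u z ∧ u z < t j) := hz
                rw [not_and_or, not_le, not_lt] at hz'
                rcases hz' with hz | hz
                · exact Or.inl ((div_le_one htp).2 hz.le)
                · right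
                  rw [le_div_iff₀ htp, ← ht2 j]; exact hz
              rw [this, zero_mul, ENNReal.ofReal_zero]; exact zero_le
        _ = ENNReal.ofReal c * ∫⁻ z in A j, ENNReal.ofReal (G z) ∂μ := by
            rw [lintegral_indicator (hAm j), lintegral_const_mul _ hG.ennreal_ofReal]
        _ ≤ ENNReal.ofReal c * (D j ^ (1/2:ℝ) * a (j+1) ^ (1/2:ℝ)) := by
            gcongr
            have hH := ENNReal.lintegral_mul_le_Lp_mul_Lq (μ.restrict (A j))
              (p := 2) (q := 2) (by constructor <;> norm_num)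
              (f := fun z => ENNReal.ofReal (G z)) (g := fun _ => 1)
              hG.ennreal_ofReal.aemeasurable aemeasurable_const
            simp only [Pi.mul_apply, mul_one, ENNReal.one_rpow, lintegral_const,
              Measure.restrict_apply_univ, one_mul] at hH
            refine hH.trans ?_
            gcongr
            refine le_of_eq (lintegral_congr fun z => ?_)
            simp [ENNReal.rpow_ofNat]
    have hgle : ∫⁻ z, ENNReal.ofReal (deriv (tht (t (j+1))) (u z) * G z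
          + tht (t (j+1)) (u z)) ∂μ
        ≤ ENNReal.ofReal c * (D j ^ (1/2:ℝ) * a (j+1) ^ (1/2:ℝ))
          + ENNReal.ofReal (t (j+1)) * a (j+1) := by
      calc _ ≤ ∫⁻ z, (ENNReal.ofReal (deriv (tht (t (j+1))) (u z) * G z)
            + ENNReal.ofReal (tht (t (j+1)) (u z))) ∂μ := lintegral_mono fun z =>
              ENNReal.ofReal_add_le
        _ = ∫⁻ z, ENNReal.ofReal (deriv (tht (t (j+1))) (u z) * G z) ∂μ
            + ∫⁻ z, ENNReal.ofReal (tht (t (j+1)) (u z)) ∂μ := by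
              rw [lintegral_add_left]
              exact (((measurable_deriv _).comp hu).mul hG).ennreal_ofReal
        _ ≤ _ := add_le_add hgle0 hFle
    gcongr
    · exact ENNReal.rpow_le_rpow (measure_mono (subset_univ _)) (by linarith)
  -- the recursion for b
  have hK : ∀ j, b j ^ (1 - 1/m) ≤
      (2 ^ (2 * (m - 1) / (m - 2)) * C1 * (C2 * (ENNReal.ofReal c + 1) + M))
      * (D j ^ (1/2:ℝ) + e (j+1) ^ (1/2:ℝ)) * b (j+1) ^ (1/2:ℝ) := by
    intro j
    set τ : ℝ≥0∞ := ENNReal.ofReal (t (j+1)) with hτ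
    have hτ0 : τ ≠ 0 := by rw [hτ, ne_eq, ENNReal.ofReal_eq_zero, not_le]; exact htpos _
    have hτT : τ ≠ ⊤ := ENNReal.ofReal_ne_top
    have hp : 0 ≤ 1 - 1/m := by linarith
    have e0 : ENNReal.ofReal (t j) = 2 * τ := by
      rw [ht2 j, ENNReal.ofReal_mul (by norm_num), ENNReal.ofReal_ofNat]
    have hqe : q * (1 - 1/m) = 2 * (m - 1) / (m - 2) := by
      rw [hq]; field_simp
    have hqe2 : q * (1 - 1/m) = q / 2 + 1 := by
      rw [hq]; field_simp; ring
    have e1 : b j ^ (1 - 1/m) = 2 ^ (2 * (m - 1) / (m - 2)) *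
        (τ ^ (q/2) * (τ * a j ^ (1 - 1/m))) := by
      simp only [hbd]
      rw [e0, ENNReal.mul_rpow_of_nonneg _ _ hp, ← ENNReal.rpow_mul, hqe,
        ENNReal.mul_rpow_of_nonneg _ _ (by rw [← hqe]; positivity), ← hqe, hqe2,
        ENNReal.rpow_add (x := τ) _ _ hτ0 hτT, ENNReal.rpow_one]
      ring
    have e2 : τ ^ (q/2) * a (j+1) ^ (1/2:ℝ) = b (j+1) ^ (1/2:ℝ) := by
      simp only [hbd]
      rw [ENNReal.mul_rpow_of_nonneg _ _ (by norm_num), ← ENNReal.rpow_mul]
      congr 2; ring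
    have e3 : τ ^ (q/2) * (τ * a (j+1)) = e (j+1) ^ (1/2:ℝ) * b (j+1) ^ (1/2:ℝ) := by
      rw [← e2]
      simp only [hed]
      rw [ENNReal.mul_rpow_of_nonneg _ _ (by norm_num), ← ENNReal.rpow_mul]
      have h5 : (2:ℝ) * (1/2) = 1 := by norm_num
      rw [h5, ENNReal.rpow_one]
      have h6 : a (j+1) = a (j+1) ^ (1/2:ℝ) * a (j+1) ^ (1/2:ℝ) := by
        rw [← ENNReal.rpow_add_of_nonneg _ _ (by norm_num) (by norm_num)]
        norm_num
      conv_lhs => rw [h6]
      ring
    rw [e1]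
    calc 2 ^ (2 * (m - 1) / (m - 2)) * (τ ^ (q/2) * (τ * a j ^ (1 - 1/m)))
        ≤ 2 ^ (2 * (m - 1) / (m - 2)) * (τ ^ (q/2) *
          (C1 * (C2 * (ENNReal.ofReal c * (D j ^ (1/2:ℝ) * a (j+1) ^ (1/2:ℝ)) + τ * a (j+1))
          + M * (τ * a (j+1))))) := by
          exact mul_le_mul_right (mul_le_mul_right (hrec j) _) _
      _ = 2 ^ (2 * (m - 1) / (m - 2)) * C1 *
          (C2 * ENNReal.ofReal c * (D j ^ (1/2:ℝ) * (τ ^ (q/2) * a (j+1) ^ (1/2:ℝ)))
          + (C2 + M) * (τ ^ (q/2) * (τ * a (j+1)))) := by ring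
      _ = 2 ^ (2 * (m - 1) / (m - 2)) * C1 *
          (C2 * ENNReal.ofReal c * (D j ^ (1/2:ℝ) * b (j+1) ^ (1/2:ℝ))
          + (C2 + M) * (e (j+1) ^ (1/2:ℝ) * b (j+1) ^ (1/2:ℝ))) := by rw [e2, e3]
      _ ≤ 2 ^ (2 * (m - 1) / (m - 2)) * C1 *
          ((C2 * (ENNReal.ofReal c + 1) + M) * (D j ^ (1/2:ℝ) * b (j+1) ^ (1/2:ℝ))
          + (C2 * (ENNReal.ofReal c + 1) + M) * (e (j+1) ^ (1/2:ℝ) * b (j+1) ^ (1/2:ℝ))) := by
          gcongr
          · calc C2 * ENNReal.ofReal c ≤ C2 * (ENNReal.ofReal c + 1) := by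
                  gcongr; exact le_self_add
              _ ≤ _ := le_self_add
          · calc C2 = C2 * 1 := (mul_one _).symm
              _ ≤ C2 * (ENNReal.ofReal c + 1) := by gcongr; exact le_add_self
      _ = _ := by ring
  -- sums
  have hDsum : ∑' j, D j ≤ ∫⁻ z, ENNReal.ofReal (G z) ^ 2 ∂μ := by
    have hdisj : Pairwise (Function.onFun Disjoint A) := by
      have hanti : ∀ i j, i ≤ j → t j ≤ t i := fun i j hij => by
        simp only [htd]; gcongr; norm_num
      intro i j hij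
      rw [Function.onFun, Set.disjoint_left]
      intro z hzi hzj
      have hzi' : t (i+1) ≤ u z ∧ u z < t i := hzi
      have hzj' : t (j+1) ≤ u z ∧ u z < t j := hzj
      rcases lt_or_gt_of_ne hij with h | h
      · have := hanti (i+1) j h
        linarith [hzi'.1, hzj'.2]
      · have := hanti (j+1) i h
        linarith [hzj'.1, hzi'.2]
    rw [hDd, ← lintegral_iUnion hAm hdisj]
    exact setLIntegral_le_lintegral _ _
  have hsumform : ∀ α : ℝ, 1 ≤ α → ∑' j, ENNReal.ofReal (t j) ^ α * a j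
      = ∫⁻ x, ∑' j : ℕ, (if T / 2 ^ j ≤ u x then ENNReal.ofReal (T / 2 ^ j) ^ α else 0) ∂μ := by
    intro α hα
    rw [lintegral_tsum]
    · refine tsum_congr fun j => ?_
      have : (fun x => (if T / 2 ^ j ≤ u x then ENNReal.ofReal (T / 2 ^ j) ^ α else 0))
          = ({x | t j ≤ u x}).indicator (fun _ => ENNReal.ofReal (t j) ^ α) := by
        ext x
        by_cases hx : t j ≤ u x
        · rw [indicator_of_mem (show x ∈ {x | t j ≤ u x} from hx), if_pos hx]
        · rw [indicator_of_notMem (show x ∉ {x | t j ≤ u x} from hx), if_neg hx]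
      rw [this, lintegral_indicator (hEm j), setLIntegral_const]
    · intro j
      exact (Measurable.ite (hEm j) measurable_const measurable_const).aemeasurable
  have hesum : ∑' j, e j ≤ 2 * ∫⁻ x, ENNReal.ofReal (u x) ^ 2 ∂μ := by
    simp only [hed]
    rw [hsumform 2 (by norm_num), ← lintegral_const_mul' _ _ (by norm_num)]
    refine lintegral_mono fun x => ?_
    refine (dyadic_upper T hT 2 (by norm_num) (u x) (hu0 x)).trans_eq ?_
    simp [ENNReal.rpow_ofNat]
  have hbsum : ∑' j, b j ≤ 2 * ∫⁻ x, ENNReal.ofReal (u x) ^ q ∂μ := by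
    simp only [hbd]
    rw [hsumform q hq1, ← lintegral_const_mul' _ _ (by norm_num)]
    exact lintegral_mono fun x => dyadic_upper T hT q hq1 (u x) (hu0 x)
  have hfin : ∑' j, b j ≠ ⊤ := by
    refine ne_top_of_le_ne_top ?_ hbsum
    refine ENNReal.mul_ne_top (by norm_num) ?_
    refine ne_top_of_le_ne_top (b := ENNReal.ofReal T ^ q * μ univ) ?_ ?_
    · exact ENNReal.mul_ne_top (ENNReal.rpow_ne_top_of_nonneg hq0.le ENNReal.ofReal_ne_top)
        (measure_ne_top _ _)
    · rw [← lintegral_const]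
      refine lintegral_mono_ae ?_
      filter_upwards [huT] with x hx
      exact ENNReal.rpow_le_rpow (ENNReal.ofReal_le_ofReal hx.le) hq0.le
  have hmain := recursion m hm b D e _ hfin hK
  have hexp : 0 ≤ 1 - 2/m := by
    have : 2/m = 2 * (1/m) := by ring
    rw [this]; linarith
  have hlow : ∫⁻ x, ENNReal.ofReal (u x) ^ q ∂μ ≤ 2 ^ q * ∑' j, b j := by
    simp only [hbd]
    rw [hsumform q hq1, ← lintegral_const_mul' _ _
      (ENNReal.rpow_ne_top_of_nonneg hq0.le (by norm_num))]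
    refine lintegral_mono_ae ?_
    filter_upwards [huT] with x hx
    exact dyadic_lower T hT q hq1 (u x) (hu0 x) hx
  have hqm : q * (1 - 2/m) = 2 := by
    rw [hq]; field_simp
  calc (∫⁻ x, ENNReal.ofReal (u x) ^ q ∂μ) ^ (1 - 2/m)
      ≤ (2 ^ q * ∑' j, b j) ^ (1 - 2/m) := ENNReal.rpow_le_rpow hlow hexp
    _ = 4 * (∑' j, b j) ^ (1 - 2/m) := by
        rw [ENNReal.mul_rpow_of_nonneg _ _ hexp, ← ENNReal.rpow_mul, hqm]
        congr 1
        rw [ENNReal.rpow_ofNat]; norm_num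
    _ ≤ 4 * (2 * (2 ^ (2 * (m - 1) / (m - 2)) * C1 * (C2 * (ENNReal.ofReal c + 1) + M)) ^ 2
        * (∑' j, D j + ∑' j, e j)) := by gcongr
    _ ≤ 4 * (2 * (2 ^ (2 * (m - 1) / (m - 2)) * C1 * (C2 * (ENNReal.ofReal c + 1) + M)) ^ 2
        * (2 * ∫⁻ z, ENNReal.ofReal (G z) ^ 2 ∂μ + 2 * ∫⁻ x, ENNReal.ofReal (u x) ^ 2 ∂μ)) := by
        gcongr
        exact hDsum.trans (le_mul_of_one_le_left' (by norm_num))
    _ = _ := by ring

end Vale.Agent.P219.End.WSob
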