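import Mathlib

/-! P219, block (W): the kernel `r^{1-m}` against a measure with upper density.
helper895. -/

namespace Vale.Agent.P219.End.WSob

open MeasureTheory Set ENNReal

variable {X : Type*} [MeasurableSpace X]

/-- `∫_{ρ<δ} ρ^{1-m} dμ ≤ C0 m δ` when `μ{ρ<s} ≤ C0 s^m`. -/
lemma kernel_near (μ : Measure X) (ρ : X → ℝ) (hρ : Measurable ρ)
    (h0 : ∀ x, 0 ≤ ρ x) (m : ℝ) (hm : 2 ≤ m) (C0 : ℝ≥0∞)
    (hD : ∀ s : ℝ, 0 < s → μ {x | ρ x < s} ≤ C0 * ENNReal.ofReal (s ^ m))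
    (δ : ℝ) (hδ : 0 < δ) :
    ∫⁻ x in {x | ρ x < δ}, ENNReal.ofReal (ρ x ^ (1 - m)) ∂μ
      ≤ C0 * ENNReal.ofReal m * ENNReal.ofReal δ := by
  have hm1 : (0:ℝ) < m - 1 := by linarith
  have hSm : MeasurableSet {x | ρ x < δ} := measurableSet_lt hρ measurable_const
  rw [lintegral_eq_lintegral_meas_lt (μ.restrict {x | ρ x < δ})
    (Filter.Eventually.of_forall fun x => Real.rpow_nonneg (h0 x) _)
    (hρ.pow_const _).aemeasurable]
  -- the two bounds
  have hb1 : ∀ t : ℝ, (μ.restrict {x | ρ x < δ}) {x | t < ρ x ^ (1 - m)}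
      ≤ C0 * ENNReal.ofReal (δ ^ m) := fun t =>
    ((measure_mono (subset_univ _)).trans (by
      rw [Measure.restrict_apply_univ])).trans (hD δ hδ)
  have hb2 : ∀ t : ℝ, 0 < t → (μ.restrict {x | ρ x < δ}) {x | t < ρ x ^ (1 - m)}
      ≤ C0 * ENNReal.ofReal (t ^ (-m / (m - 1))) := by
    intro t ht
    have hs : 0 < t ^ (-(1:ℝ) / (m - 1)) := Real.rpow_pos_of_pos ht _
    have h1 : (μ.restrict {x | ρ x < δ}) {x | t < ρ x ^ (1 - m)}
        ≤ μ {x | ρ x < t ^ (-(1:ℝ) / (m - 1))} := by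
      refine (Measure.restrict_apply_le _ _).trans (measure_mono ?_)
      intro x hx
      change t < ρ x ^ (1 - m) at hx
      change ρ x < t ^ (-(1:ℝ) / (m - 1))
      have hpos : 0 < ρ x := by
        rcases (h0 x).lt_or_eq with h | h
        · exact h
        · rw [← h, Real.zero_rpow (by linarith)] at hx
          linarith
      have h3 : (ρ x ^ (1 - m)) ^ (-(1:ℝ) / (m - 1)) < t ^ (-(1:ℝ) / (m - 1)) :=
        Real.rpow_lt_rpow_of_neg ht hx (by
          rw [neg_div]; exact neg_neg_of_pos (by positivity))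
      have h4 : (ρ x ^ (1 - m)) ^ (-(1:ℝ) / (m - 1)) = ρ x := by
        rw [← Real.rpow_mul hpos.le]
        have : (1 - m) * (-(1:ℝ) / (m - 1)) = 1 := by field_simp; ring
        rw [this, Real.rpow_one]
      rwa [h4] at h3
    refine h1.trans ((hD _ hs).trans_eq ?_)
    congr 2
    rw [← Real.rpow_mul ht.le]
    congr 1; ring
  set a : ℝ := δ ^ (1 - m) with ha
  have ha0 : 0 < a := Real.rpow_pos_of_pos hδ _
  have hsplit : Ioi (0:ℝ) = Ioc 0 a ∪ Ioi a := (Ioc_union_Ioi_eq_Ioi ha0.le).symm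
  rw [hsplit]
  refine (lintegral_union_le _ _ _).trans ?_
  have hI1 : ∫⁻ t in Ioc 0 a, (μ.restrict {x | ρ x < δ}) {x | t < ρ x ^ (1 - m)}
      ≤ C0 * ENNReal.ofReal δ := by
    calc _ ≤ ∫⁻ t in Ioc 0 a, C0 * ENNReal.ofReal (δ ^ m) := lintegral_mono fun t => hb1 t
      _ = C0 * ENNReal.ofReal (δ ^ m) * ENNReal.ofReal a := by
          rw [setLIntegral_const, Real.volume_Ioc, sub_zero]
      _ = C0 * ENNReal.ofReal δ := by
          rw [mul_assoc, ← ENNReal.ofReal_mul (Real.rpow_nonneg hδ.le _)]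
          congr 2
          rw [ha, ← Real.rpow_add hδ]
          simp
  have hI2 : ∫⁻ t in Ioi a, (μ.restrict {x | ρ x < δ}) {x | t < ρ x ^ (1 - m)}
      ≤ C0 * ENNReal.ofReal ((m - 1) * δ) := by
    calc _ ≤ ∫⁻ t in Ioi a, C0 * ENNReal.ofReal (t ^ (-m / (m - 1))) :=
          setLIntegral_mono' measurableSet_Ioi fun t ht => hb2 t (ha0.trans ht)
      _ = C0 * ∫⁻ t in Ioi a, ENNReal.ofReal (t ^ (-m / (m - 1))) := by
          rw [lintegral_const_mul _ (by fun_prop)]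
      _ = C0 * ENNReal.ofReal ((m - 1) * δ) := by
          have hexp : -m / (m - 1) < -1 := by
            rw [div_lt_iff₀ hm1]; linarith
          rw [← ofReal_integral_eq_lintegral_ofReal
            (integrableOn_Ioi_rpow_of_lt hexp ha0)
            ((ae_restrict_iff' measurableSet_Ioi).2 (Filter.Eventually.of_forall
              fun t ht => Real.rpow_nonneg (ha0.le.trans (le_of_lt ht)) _)),
            integral_Ioi_rpow_of_lt hexp ha0]
          congr 2
          have e1 : -m / (m - 1) + 1 = -(1:ℝ) / (m - 1) := by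
            field_simp; ring
          rw [e1]
          have e2 : a ^ (-(1:ℝ) / (m - 1)) = δ := by
            rw [ha, ← Real.rpow_mul hδ.le]
            have : (1 - m) * (-(1:ℝ) / (m - 1)) = 1 := by field_simp; ring
            rw [this, Real.rpow_one]
          rw [e2]
          field_simp
  refine (add_le_add hI1 hI2).trans_eq ?_
  rw [← mul_add, ← ENNReal.ofReal_add hδ.le (by positivity), mul_assoc]
  congr 1
  have : δ + (m - 1) * δ = m * δ := by ring
  rw [this, ENNReal.ofReal_mul (by linarith)]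

/-- `∫_E ρ^{1-m} dμ ≤ (C0 m + 1) μ(E)^{1/m}`. -/
lemma kernel_set (μ : Measure X) [IsFiniteMeasure μ] (ρ : X → ℝ) (hρ : Measurable ρ)
    (h0 : ∀ x, 0 ≤ ρ x) (m : ℝ) (hm : 2 ≤ m) (C0 : ℝ≥0∞)
    (hD : ∀ s : ℝ, 0 < s → μ {x | ρ x < s} ≤ C0 * ENNReal.ofReal (s ^ m))
    (E : Set X) :
    ∫⁻ x in E, ENNReal.ofReal (ρ x ^ (1 - m)) ∂μ
      ≤ (C0 * ENNReal.ofReal m + 1) * μ E ^ ((1:ℝ) / m) := by
  have hmpos : (0:ℝ) < m := by linarith
  by_cases hE : μ E = 0
  · rw [Measure.restrict_eq_zero.2 hE]; simp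
  set δ : ℝ := (μ E).toReal ^ ((1:ℝ) / m) with hδd
  have hEpos : 0 < (μ E).toReal := ENNReal.toReal_pos hE (measure_ne_top _ _)
  have hδ : 0 < δ := Real.rpow_pos_of_pos hEpos _
  have hδm : ENNReal.ofReal δ = μ E ^ ((1:ℝ) / m) := by
    rw [hδd, ← ENNReal.ofReal_rpow_of_pos hEpos, ENNReal.ofReal_toReal (measure_ne_top _ _)]
  have hδm' : μ E = ENNReal.ofReal (δ ^ m) := by
    rw [hδd, ← Real.rpow_mul ENNReal.toReal_nonneg, one_div,
      inv_mul_cancel₀ hmpos.ne', Real.rpow_one, ENNReal.ofReal_toReal (measure_ne_top _ _)]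
  have hSm : MeasurableSet {x | ρ x < δ} := measurableSet_lt hρ measurable_const
  have hpt : ∀ x, ENNReal.ofReal (ρ x ^ (1 - m))
      ≤ ({x | ρ x < δ}).indicator (fun x => ENNReal.ofReal (ρ x ^ (1 - m))) x
        + ENNReal.ofReal (δ ^ (1 - m)) := by
    intro x
    by_cases hx : ρ x < δ
    · rw [indicator_of_mem (show x ∈ {x | ρ x < δ} from hx)]
      exact le_self_add
    · refine le_add_left (ENNReal.ofReal_le_ofReal ?_)
      exact Real.rpow_le_rpow_of_nonpos hδ (not_lt.1 hx) (by linarith)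
  calc ∫⁻ x in E, ENNReal.ofReal (ρ x ^ (1 - m)) ∂μ
      ≤ ∫⁻ x in E, (({x | ρ x < δ}).indicator
          (fun x => ENNReal.ofReal (ρ x ^ (1 - m))) x
          + ENNReal.ofReal (δ ^ (1 - m))) ∂μ := lintegral_mono hpt
    _ = (∫⁻ x in E, ({x | ρ x < δ}).indicator
          (fun x => ENNReal.ofReal (ρ x ^ (1 - m))) x ∂μ)
        + ENNReal.ofReal (δ ^ (1 - m)) * μ E := by
          rw [lintegral_add_right _ measurable_const, setLIntegral_const]
    _ ≤ (∫⁻ x, ({x | ρ x < δ}).indicator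
          (fun x => ENNReal.ofReal (ρ x ^ (1 - m))) x ∂μ)
        + ENNReal.ofReal (δ ^ (1 - m)) * μ E := by
          gcongr; exact Measure.restrict_le_self
    _ ≤ C0 * ENNReal.ofReal m * ENNReal.ofReal δ + ENNReal.ofReal δ := by
          rw [lintegral_indicator hSm]
          refine add_le_add (kernel_near μ ρ hρ h0 m hm C0 hD δ hδ) (le_of_eq ?_)
          rw [hδm', ← ENNReal.ofReal_mul (Real.rpow_nonneg hδ.le _)]
          congr 1
          rw [← Real.rpow_add hδ]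
          simp
    _ = (C0 * ENNReal.ofReal m + 1) * μ E ^ ((1:ℝ) / m) := by
          rw [← hδm]; ring

end Vale.Agent.P219.End.WSob
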