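import Vale.Agent.P219.End.WSob1

/-! P219, block (W): dyadic sequences.  helper895. -/

namespace Vale.Agent.P219.End.WSob

open MeasureTheory Set ENNReal

/-- Cauchy-Schwarz for series in `ℝ≥0∞`. -/
lemma tsum_cs (f g : ℕ → ℝ≥0∞) :
    ∑' j, f j ^ (1/2:ℝ) * g j ^ (1/2:ℝ) ≤ (∑' j, f j) ^ (1/2:ℝ) * (∑' j, g j) ^ (1/2:ℝ) := by
  refine ENNReal.tsum_le_of_sum_range_le fun n => ?_
  have h := ENNReal.inner_le_Lp_mul_Lq (Finset.range n) (fun j => f j ^ (1/2:ℝ))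
    (fun j => g j ^ (1/2:ℝ)) (p := 2) (q := 2) (by constructor <;> norm_num)
  refine h.trans ?_
  have e : ∀ F : ℕ → ℝ≥0∞, ∑ i ∈ Finset.range n, (F i ^ (1/2:ℝ)) ^ (2:ℝ)
      = ∑ i ∈ Finset.range n, F i := fun F => Finset.sum_congr rfl fun i _ => by
    rw [← ENNReal.rpow_mul]; norm_num
  rw [e, e]
  gcongr <;> exact ENNReal.sum_le_tsum _

/-- the abstract recursion: `b j ^ (1-1/m) ≤ K (D j ^ 1/2 + e (j+1) ^ 1/2) b (j+1) ^ 1/2`. -/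
lemma recursion (m : ℝ) (hm : 3 ≤ m) (b D e : ℕ → ℝ≥0∞) (K : ℝ≥0∞)
    (hS : ∑' j, b j ≠ ∞)
    (h : ∀ j, b j ^ (1 - 1/m) ≤
      K * ((D j) ^ (1/2:ℝ) + (e (j+1)) ^ (1/2:ℝ)) * (b (j+1)) ^ (1/2:ℝ)) :
    (∑' j, b j) ^ (1 - 2/m) ≤ 2 * K ^ 2 * (∑' j, D j + ∑' j, e j) := by
  have hm0 : (0:ℝ) < m := by linarith
  have hinv : 1/m ≤ 1/3 := by
    rw [div_le_div_iff₀ hm0 (by norm_num)]; linarith
  have hinv0 : 0 < 1/m := by positivity
  have h2 : 2/m = 2 * (1/m) := by ring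
  set S := ∑' j, b j with hSd
  by_cases hS0 : S = 0
  · rw [hS0, ENNReal.zero_rpow_of_pos (by rw [h2]; linarith)]
    exact zero_le
  have hbS : ∀ j, b j ≤ S := fun j => ENNReal.le_tsum j
  have hj : ∀ j, b j ≤ S ^ (1/m) * (K * ((D j) ^ (1/2:ℝ) * (b (j+1)) ^ (1/2:ℝ)
      + (e (j+1)) ^ (1/2:ℝ) * (b (j+1)) ^ (1/2:ℝ))) := by
    intro j
    have e1 : b j = b j ^ (1/m) * b j ^ (1 - 1/m) := by
      rw [← ENNReal.rpow_add_of_nonneg _ _ hinv0.le (by linarith)]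
      rw [add_sub_cancel, ENNReal.rpow_one]
    calc b j = b j ^ (1/m) * b j ^ (1 - 1/m) := e1
      _ ≤ S ^ (1/m) * (K * ((D j) ^ (1/2:ℝ) + (e (j+1)) ^ (1/2:ℝ)) * (b (j+1)) ^ (1/2:ℝ)) :=
          mul_le_mul' (ENNReal.rpow_le_rpow (hbS j) hinv0.le) (h j)
      _ = _ := by ring
  have hshift : ∀ f : ℕ → ℝ≥0∞, ∑' j, f (j+1) ≤ ∑' j, f j := fun f =>
    ENNReal.tsum_comp_le_tsum_of_injective (add_left_injective 1) f
  have hsum : S ≤ S ^ (1/m) * (K * (((∑' j, D j) ^ (1/2:ℝ) + (∑' j, e j) ^ (1/2:ℝ))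
      * S ^ (1/2:ℝ))) := by
    calc S = ∑' j, b j := hSd
      _ ≤ ∑' j, S ^ (1/m) * (K * ((D j) ^ (1/2:ℝ) * (b (j+1)) ^ (1/2:ℝ)
          + (e (j+1)) ^ (1/2:ℝ) * (b (j+1)) ^ (1/2:ℝ))) := ENNReal.tsum_le_tsum hj
      _ = S ^ (1/m) * (K * (∑' j, (D j) ^ (1/2:ℝ) * (b (j+1)) ^ (1/2:ℝ)
          + ∑' j, (e (j+1)) ^ (1/2:ℝ) * (b (j+1)) ^ (1/2:ℝ))) := by
          rw [ENNReal.tsum_mul_left, ENNReal.tsum_mul_left, ENNReal.tsum_add]
      _ ≤ S ^ (1/m) * (K * ((∑' j, D j) ^ (1/2:ℝ) * S ^ (1/2:ℝ)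
          + (∑' j, e j) ^ (1/2:ℝ) * S ^ (1/2:ℝ))) := by
          gcongr
          · refine (tsum_cs D (fun j => b (j+1))).trans ?_
            gcongr
            exact hshift b
          · exact (tsum_cs (fun j => e (j+1)) (fun j => b (j+1))).trans
              (mul_le_mul' (ENNReal.rpow_le_rpow (hshift e) (by norm_num))
                (ENNReal.rpow_le_rpow (hshift b) (by norm_num)))
      _ = _ := by ring
  -- divide
  set Q := (∑' j, D j) ^ (1/2:ℝ) + (∑' j, e j) ^ (1/2:ℝ) with hQ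
  have hα : 0 < 1/2 - 1/m := by linarith
  have hdiv : S ^ (1/2 - 1/m) ≤ K * Q := by
    have e1 : S = S ^ (1/2 - 1/m) * S ^ (1/2 + 1/m) := by
      rw [← ENNReal.rpow_add _ _ hS0 hS]
      have : (1/2 - 1/m) + (1/2 + 1/m) = 1 := by ring
      rw [this, ENNReal.rpow_one]
    have e2 : S ^ (1/m) * (K * (Q * S ^ (1/2:ℝ))) = (K * Q) * S ^ (1/2 + 1/m) := by
      rw [ENNReal.rpow_add _ _ hS0 hS]; ring
    rw [e2] at hsum
    have h0 : S ^ (1/2 + 1/m) ≠ 0 := by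
      simp only [ne_eq, ENNReal.rpow_eq_zero_iff, hS0, hS, false_and, or_self, not_false_iff]
    have h1 : S ^ (1/2 + 1/m) ≠ ∞ := ENNReal.rpow_ne_top_of_nonneg (by positivity) hS
    have h3 : S ^ (1/2 - 1/m) * S ^ (1/2 + 1/m) ≤ (K * Q) * S ^ (1/2 + 1/m) := by
      rw [← e1]; exact hsum
    exact (ENNReal.mul_le_mul_iff_left h0 h1).1 h3
  have hsq : (S ^ (1/2 - 1/m)) ^ 2 ≤ (K * Q) ^ 2 := by gcongr
  have e3 : (S ^ (1/2 - 1/m)) ^ 2 = S ^ (1 - 2/m) := by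
    rw [← ENNReal.rpow_natCast, ← ENNReal.rpow_mul]
    congr 1; push_cast; ring
  rw [e3] at hsq
  refine hsq.trans ?_
  rw [mul_pow, mul_comm 2, mul_assoc]
  gcongr
  -- (x^(1/2) + y^(1/2))^2 ≤ 2 (x + y)
  have hx : ∀ x : ℝ≥0∞, (x ^ (1/2:ℝ)) ^ 2 = x := fun x => by
    rw [← ENNReal.rpow_natCast, ← ENNReal.rpow_mul]; norm_num
  have hpm := ENNReal.rpow_add_le_mul_rpow_add_rpow ((∑' j, D j) ^ (1/2:ℝ))
    ((∑' j, e j) ^ (1/2:ℝ)) (p := 2) (by norm_num)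
  norm_num at hpm
  rw [hQ]
  have h4 : ((∑' j, D j) ^ (1/2:ℝ) + (∑' j, e j) ^ (1/2:ℝ)) ^ 2
      ≤ 2 * (((∑' j, D j) ^ (1/2:ℝ)) ^ 2 + ((∑' j, e j) ^ (1/2:ℝ)) ^ 2) := by
    have := hpm
    simpa [ENNReal.rpow_ofNat] using this
  rw [hx, hx] at h4
  exact h4

/-- geometric sums along the dyadic sequence `T / 2^j`. -/
lemma dyadic_upper (T : ℝ) (hT : 0 < T) (α : ℝ) (hα : 1 ≤ α) (x : ℝ) (hx0 : 0 ≤ x) :
    ∑' j : ℕ, (if T / 2 ^ j ≤ x then ENNReal.ofReal (T / 2 ^ j) ^ α else 0)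
      ≤ 2 * ENNReal.ofReal x ^ α := by
  by_cases hex : ∃ j : ℕ, T / 2 ^ j ≤ x
  swap
  · push Not at hex
    have : ∀ j : ℕ, (if T / 2 ^ j ≤ x then ENNReal.ofReal (T / 2 ^ j) ^ α else 0) = 0 :=
      fun j => if_neg (not_le.2 (hex j))
    simp [this]
  classical
  set J := Nat.find hex with hJ
  have hJx : T / 2 ^ J ≤ x := Nat.find_spec hex
  -- tail after J
  have hzero : ∀ j < J, (if T / 2 ^ j ≤ x then ENNReal.ofReal (T / 2 ^ j) ^ α else 0) = 0 :=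
    fun j hj => if_neg (Nat.find_min hex hj)
  rw [← ENNReal.summable.sum_add_tsum_nat_add' (f := fun j : ℕ =>
    (if T / 2 ^ j ≤ x then ENNReal.ofReal (T / 2 ^ j) ^ α else 0)) (k := J)]
  rw [Finset.sum_eq_zero (fun j hj => hzero j (Finset.mem_range.1 hj)), zero_add]
  have hterm : ∀ i : ℕ, (if T / 2 ^ (i + J) ≤ x then ENNReal.ofReal (T / 2 ^ (i + J)) ^ α else 0)
      ≤ ENNReal.ofReal x ^ α * (2⁻¹ : ℝ≥0∞) ^ i := by
    intro i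
    have hle : ENNReal.ofReal (T / 2 ^ (i + J)) ^ α ≤ ENNReal.ofReal x ^ α * (2⁻¹ : ℝ≥0∞) ^ i := by
      have e1 : T / 2 ^ (i + J) = (T / 2 ^ J) * (2⁻¹) ^ i := by
        rw [pow_add, inv_pow]; field_simp
      have h1 : ENNReal.ofReal (T / 2 ^ (i + J)) ≤ ENNReal.ofReal x * (2⁻¹ : ℝ≥0∞) ^ i := by
        rw [e1, ENNReal.ofReal_mul (by positivity)]
        refine mul_le_mul' (ENNReal.ofReal_le_ofReal hJx) (le_of_eq ?_)
        rw [ENNReal.ofReal_pow (by positivity), ENNReal.ofReal_inv_of_pos (by norm_num)]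
        norm_num
      refine (ENNReal.rpow_le_rpow h1 (by linarith)).trans ?_
      rw [ENNReal.mul_rpow_of_nonneg _ _ (by linarith)]
      gcongr
      have h2 : ((2⁻¹ : ℝ≥0∞) ^ i) ≤ 1 := pow_le_one₀ zero_le (by
        rw [ENNReal.inv_le_one]; norm_num)
      calc ((2⁻¹ : ℝ≥0∞) ^ i) ^ α ≤ ((2⁻¹ : ℝ≥0∞) ^ i) ^ (1:ℝ) :=
            ENNReal.rpow_le_rpow_of_exponent_ge h2 hα
        _ = _ := ENNReal.rpow_one _
    split_ifs
    · exact hle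
    · exact zero_le
  refine (ENNReal.tsum_le_tsum hterm).trans ?_
  rw [ENNReal.tsum_mul_left, ENNReal.tsum_geometric]
  rw [mul_comm 2]
  gcongr
  rw [ENNReal.one_sub_inv_two, inv_inv]

/-- lower bound: `x^α ≤ 2^α Σ`. -/
lemma dyadic_lower (T : ℝ) (hT : 0 < T) (α : ℝ) (hα : 1 ≤ α) (x : ℝ) (hx0 : 0 ≤ x)
    (hxT : x < T) :
    ENNReal.ofReal x ^ α ≤ 2 ^ α *
      ∑' j : ℕ, (if T / 2 ^ j ≤ x then ENNReal.ofReal (T / 2 ^ j) ^ α else 0) := by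
  rcases hx0.eq_or_lt with h0 | hpos
  · rw [← h0, ENNReal.ofReal_zero, ENNReal.zero_rpow_of_pos (by linarith)]
    exact zero_le
  have hex : ∃ j : ℕ, T / 2 ^ j ≤ x := by
    obtain ⟨j, hj⟩ := pow_unbounded_of_one_lt (T / x) (by norm_num : (1:ℝ) < 2)
    refine ⟨j, ?_⟩
    rw [div_lt_iff₀ hpos] at hj
    rw [div_le_iff₀ (by positivity)]
    nlinarith
  classical
  set J := Nat.find hex with hJ
  have hJx : T / 2 ^ J ≤ x := Nat.find_spec hex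
  have hJ1 : 1 ≤ J := by
    by_contra hcon
    have : J = 0 := by omega
    rw [this] at hJx; simp at hJx; linarith
  have hprev : x < T / 2 ^ (J - 1) := by
    have := Nat.find_min hex (m := J - 1) (by omega)
    exact not_le.1 this
  have hx2 : x ≤ 2 * (T / 2 ^ J) := by
    have e : T / 2 ^ (J - 1) = 2 * (T / 2 ^ J) := by
      obtain ⟨i, hi⟩ : ∃ i, J = i + 1 := ⟨J - 1, by omega⟩
      rw [hi]; simp only [Nat.add_sub_cancel]; rw [pow_succ]; field_simp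
    linarith
  have h1 : ENNReal.ofReal x ^ α ≤ 2 ^ α * ENNReal.ofReal (T / 2 ^ J) ^ α := by
    rw [← ENNReal.mul_rpow_of_nonneg _ _ (by linarith : (0:ℝ) ≤ α)]
    refine ENNReal.rpow_le_rpow ?_ (by linarith)
    refine (ENNReal.ofReal_le_ofReal hx2).trans_eq ?_
    rw [ENNReal.ofReal_mul (by norm_num)]; norm_num
  refine h1.trans ?_
  gcongr
  have h2 := ENNReal.le_tsum (f := fun j : ℕ =>
    (if T / 2 ^ j ≤ x then ENNReal.ofReal (T / 2 ^ j) ^ α else 0)) J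
  simp only [if_pos hJx] at h2
  exact h2

end Vale.Agent.P219.End.WSob
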