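import Vale.Agent.P219.End.WSob

/-! P219, block (W) = L4: the real-valued form.  helper895. -/

namespace Vale.Agent.P219.End.WSob

open MeasureTheory Set ENNReal
open scoped ContDiff

variable {Z : Type*} [MeasurableSpace Z]

/-- a bound for the derivative of the basic truncation. -/
noncomputable def cth : ℝ := Classical.choose th_deriv_bdd
lemma cth_pos : 0 < cth := (Classical.choose_spec th_deriv_bdd).1
lemma cth_spec (s : ℝ) : deriv th s ≤ cth := (Classical.choose_spec th_deriv_bdd).2 s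

/-- the constant of the weak Sobolev inequality. -/
noncomputable def Cs (m C0 C1 M : ℝ) : ℝ :=
  16 * (2 ^ (2 * (m - 1) / (m - 2)) * C1 *
        ((C0 * m + 1) * (cth + 1) + M ^ (1 - 1/m))) ^ 2

lemma Cs_nonneg (m C0 C1 M : ℝ) : 0 ≤ Cs m C0 C1 M := by
  unfold Cs; positivity

lemma ofReal_integral_le {Y : Type*} [MeasurableSpace Y] (ν : Measure Y) (f : Y → ℝ)
    (hf : 0 ≤ᵐ[ν] f) : ENNReal.ofReal (∫ y, f y ∂ν) ≤ ∫⁻ y, ENNReal.ofReal (f y) ∂ν := by
  by_cases h : Integrable f ν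
  · rw [ofReal_integral_eq_lintegral_ofReal h hf]
  · rw [integral_undef h]; simp

/-- **Weak Michael-Simon-Sobolev inequality, real form.** -/
theorem wsob_real (m : ℝ) (hm : 3 ≤ m) (μ : Measure Z) [IsFiniteMeasure μ]
    (r : Z → Z → ℝ) (hr : Measurable (Function.uncurry r)) (hr0 : ∀ p x, 0 ≤ r p x)
    (C0 C1 : ℝ) (hC0 : 0 ≤ C0) (hC1 : 0 ≤ C1)
    (hD : ∀ᵐ y ∂μ, ∀ s : ℝ, 0 < s → μ.real {p | r p y < s} ≤ C0 * s ^ m)
    (u : Z → ℝ) (hu : Measurable u) (hu0 : ∀ x, 0 ≤ u x) (T : ℝ) (hT : 0 < T)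
    (huT : ∀ᵐ x ∂μ, u x < T)
    (G : Z → ℝ) (hG : Measurable G) (hG0 : ∀ z, 0 ≤ G z) (hG2 : Integrable (fun z => G z ^ 2) μ)
    (hP : ∀ θ : ℝ → ℝ, ContDiff ℝ ∞ θ → Monotone θ → (∀ s, 0 ≤ θ s) →
      (∃ ε > 0, ∀ s ≤ ε, θ s = 0) → (∃ B, ∀ s, θ s ≤ B ∧ deriv θ s ≤ B) →
      ∀ᵐ p ∂μ, ENNReal.ofReal (θ (u p)) ≤
        ENNReal.ofReal C1 * (∫⁻ z, ENNReal.ofReal (r p z ^ (1 - m)) *
            ENNReal.ofReal (deriv θ (u z) * G z + θ (u z)) ∂μ
          + ∫⁻ x, ENNReal.ofReal (θ (u x)) ∂μ)) :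
    (∫ x, u x ^ (2 * m / (m - 2)) ∂μ) ^ (1 - 2/m) ≤
      Cs m C0 C1 (μ.real univ) * (∫ z, G z ^ 2 ∂μ + ∫ x, u x ^ 2 ∂μ) := by
  have hm0 : (0:ℝ) < m := by linarith
  have hm2 : (0:ℝ) < m - 2 := by linarith
  have hinv : 1/m ≤ 1/3 := by
    rw [div_le_div_iff₀ hm0 (by norm_num)]; linarith
  have hexp : 0 ≤ 1 - 2/m := by
    have : 2/m = 2 * (1/m) := by ring
    rw [this]; linarith
  have hq0 : 0 ≤ 2 * m / (m - 2) := by positivity
  have hM0 : 0 ≤ μ.real univ := measureReal_nonneg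
  have hmain := wsob m hm μ r hr hr0 (ENNReal.ofReal C0) (ENNReal.ofReal C1)
    (by
      filter_upwards [hD] with y hy s hs
      rw [← ENNReal.ofReal_mul hC0, ← ofReal_measureReal]
      exact ENNReal.ofReal_le_ofReal (hy s hs)) cth cth_spec u hu hu0 T hT huT G hG hG0 hP
  -- translate
  have hui : Integrable (fun x => u x ^ (2 * m / (m - 2))) μ := by
    refine Integrable.of_bound (C := T ^ (2 * m / (m - 2)))
      (hu.pow_const _).aestronglyMeasurable ?_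
    filter_upwards [huT] with x hx
    rw [Real.norm_of_nonneg (Real.rpow_nonneg (hu0 x) _)]
    exact Real.rpow_le_rpow (hu0 x) hx.le hq0
  have hu2 : Integrable (fun x => u x ^ 2) μ := by
    refine Integrable.of_bound (C := T ^ 2)
      (hu.pow_const _).aestronglyMeasurable ?_
    filter_upwards [huT] with x hx
    rw [Real.norm_of_nonneg (by positivity)]
    exact pow_le_pow_left₀ (hu0 x) hx.le 2
  have e1 : ∫⁻ x, ENNReal.ofReal (u x) ^ (2 * m / (m - 2)) ∂μ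
      = ENNReal.ofReal (∫ x, u x ^ (2 * m / (m - 2)) ∂μ) := by
    rw [ofReal_integral_eq_lintegral_ofReal hui
      (Filter.Eventually.of_forall fun x => Real.rpow_nonneg (hu0 x) _)]
    exact lintegral_congr fun x => ENNReal.ofReal_rpow_of_nonneg (hu0 x) hq0
  have e2 : ∫⁻ x, ENNReal.ofReal (u x) ^ 2 ∂μ = ENNReal.ofReal (∫ x, u x ^ 2 ∂μ) := by
    rw [ofReal_integral_eq_lintegral_ofReal hu2
      (Filter.Eventually.of_forall fun x => by positivity)]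
    exact lintegral_congr fun x => (ENNReal.ofReal_pow (hu0 x) 2).symm
  have e3 : ∫⁻ z, ENNReal.ofReal (G z) ^ 2 ∂μ = ENNReal.ofReal (∫ z, G z ^ 2 ∂μ) := by
    rw [ofReal_integral_eq_lintegral_ofReal hG2
      (Filter.Eventually.of_forall fun x => by positivity)]
    exact lintegral_congr fun x => (ENNReal.ofReal_pow (hG0 x) 2).symm
  have i1 : 0 ≤ ∫ x, u x ^ (2 * m / (m - 2)) ∂μ :=
    integral_nonneg fun x => Real.rpow_nonneg (hu0 x) _
  have i2 : 0 ≤ ∫ x, u x ^ 2 ∂μ := integral_nonneg fun x => by positivity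
  have i3 : 0 ≤ ∫ z, G z ^ 2 ∂μ := integral_nonneg fun x => by positivity
  rw [e1, e2, e3, ENNReal.ofReal_rpow_of_nonneg i1 hexp, ← ENNReal.ofReal_add i3 i2] at hmain
  have hmu : μ univ ^ (1 - 1/m) = ENNReal.ofReal (μ.real univ ^ (1 - 1/m)) := by
    rw [← ENNReal.ofReal_rpow_of_nonneg hM0 (by linarith), ofReal_measureReal]
  have hcst : 16 * (2 ^ (2 * (m - 1) / (m - 2)) * ENNReal.ofReal C1 *
        ((ENNReal.ofReal C0 * ENNReal.ofReal m + 1) * (ENNReal.ofReal cth + 1)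
          + μ univ ^ (1 - 1/m))) ^ 2 = ENNReal.ofReal (Cs m C0 C1 (μ.real univ)) := by
    unfold Cs
    have hcp := cth_pos
    have hMr : 0 ≤ μ.real univ ^ (1 - 1/m) := Real.rpow_nonneg hM0 _
    have h2r : (0:ℝ) ≤ 2 ^ (2 * (m - 1) / (m - 2)) := by positivity
    have e4 : (2:ℝ≥0∞) ^ (2 * (m - 1) / (m - 2))
        = ENNReal.ofReal ((2:ℝ) ^ (2 * (m - 1) / (m - 2))) := by
      rw [← ENNReal.ofReal_rpow_of_pos (by norm_num), ENNReal.ofReal_ofNat]
    rw [ENNReal.ofReal_mul (by norm_num), ENNReal.ofReal_pow (by positivity),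
      ENNReal.ofReal_mul (by positivity), ENNReal.ofReal_mul h2r,
      ENNReal.ofReal_add (by positivity) hMr, ENNReal.ofReal_mul (by positivity),
      ENNReal.ofReal_add (by positivity) (by norm_num), ENNReal.ofReal_mul hC0,
      ENNReal.ofReal_add hcp.le (by norm_num),
      ENNReal.ofReal_one, ENNReal.ofReal_ofNat, e4, hmu]
  have hfinal : ENNReal.ofReal ((∫ x, u x ^ (2 * m / (m - 2)) ∂μ) ^ (1 - 2/m))
      ≤ ENNReal.ofReal (Cs m C0 C1 (μ.real univ) * (∫ z, G z ^ 2 ∂μ + ∫ x, u x ^ 2 ∂μ)) := by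
    refine hmain.trans ?_
    rw [ENNReal.ofReal_mul (Cs_nonneg _ _ _ _), ← hcst]
  exact (ENNReal.ofReal_le_ofReal_iff (mul_nonneg (Cs_nonneg _ _ _ _) (add_nonneg i3 i2))).1 hfinal

end Vale.Agent.P219.End.WSob
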