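import Vale.Agent.P219.End.Bub
import Vale.Agent.P219.End.WSobR

/-!
# P219 / End : weak (non sharp) Sobolev inequality on the limit object (B4)

helper895.
-/

open MeasureTheory Set Metric
open scoped ENNReal ContDiff Topology

namespace Vale.Agent.P219.End

variable {n : ℕ}

theorem wsobL_sg_pos {m : ℝ} (hm : 0 < m) : 0 < sg m := by
  unfold sg
  have h1 := Real.Gamma_pos_of_pos (show 0 < m / 2 by positivity)
  have h2 := Real.Gamma_pos_of_pos hm
  have h3 := Real.pi_pos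
  positivity

namespace Lim

variable (L : Lim n)

/-- a fixed admissible scale -/
noncomputable def wsobLS : ℝ := 1 / (1 + L.k2)

theorem wsobLS_ad : L.Ad L.wsobLS := by
  have h := L.k2_nonneg
  have h1 : 0 < 1 + L.k2 := by linarith
  refine ⟨by unfold wsobLS; positivity, ?_, ?_⟩
  · unfold wsobLS
    rw [div_le_one h1]
    linarith
  · unfold wsobLS
    rw [div_pow, ← mul_div_assoc, div_le_one (by positivity)]
    nlinarith

theorem wsobL_ws_nonneg {s : ℝ} (c x : E n) : 0 ≤ L.ws c s x := by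
  unfold ws w bub
  exact div_nonneg (Real.sqrt_nonneg _) (by have := L.F_nonneg c x; positivity)

theorem wsobL_ws_le {s : ℝ} (hs : 0 < s) (c x : E n) : L.ws c s x ≤ 2 / s := by
  unfold ws w bub
  have h1 : √(s ^ 2 / 2 * (2 - L.k2 * (s ^ 2 / 2))) ≤ s := by
    refine Real.sqrt_le_iff.2 ⟨hs.le, ?_⟩
    have : 0 ≤ L.k2 * (s ^ 2 / 2) := mul_nonneg L.k2_nonneg (by positivity)
    nlinarith [sq_nonneg s]
  have h2 : s ^ 2 / 2 ≤ L.F c x + s ^ 2 / 2 := by linarith [L.F_nonneg c x]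
  calc √(s ^ 2 / 2 * (2 - L.k2 * (s ^ 2 / 2))) / (L.F c x + s ^ 2 / 2)
      ≤ s / (s ^ 2 / 2) := div_le_div₀ hs.le h1 (by positivity) h2
    _ = 2 / s := by field_simp

theorem wsobL_ds_cont : Continuous fun q : E n × E n => L.ds q.1 q.2 := by
  unfold ds
  exact Real.continuous_sqrt.comp (continuous_const.mul L.F_smooth.continuous)

theorem wsobL_ds_comm (c x : E n) : L.ds c x = L.ds x c := by
  unfold ds
  rw [L.F_comm]

theorem wsobL_ds_nonneg (c x : E n) : 0 ≤ L.ds c x := Real.sqrt_nonneg _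

theorem wsobL_kS_nonneg {S d : ℝ} (hS : 0 < S) (hd : 0 ≤ d) : 0 ≤ L.kS S d := by
  unfold kS
  positivity

theorem wsobL_kS_le {S d : ℝ} (hS : 0 < S) (hd : 0 ≤ d) : L.kS S d ≤ d ^ (1 - L.m) := by
  unfold kS
  have h1 : (S / (S + d)) ^ L.m ≤ 1 := by
    refine Real.rpow_le_one (by positivity) ?_ L.m_pos.le
    rw [div_le_one (by positivity)]
    linarith
  exact mul_le_of_le_one_left (Real.rpow_nonneg hd _) h1

theorem wsobL_ds_bdd : ∃ B : ℝ, 1 ≤ B ∧ ∀ c ∈ L.K, ∀ x ∈ L.K, L.ds c x ≤ B := by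
  obtain ⟨B, hB⟩ := (L.K_compact.prod L.K_compact).exists_bound_of_continuousOn
    L.wsobL_ds_cont.continuousOn
  refine ⟨max B 1, le_max_right _ _, fun c hc x hx => ?_⟩
  have := hB (c, x) ⟨hc, hx⟩
  exact (le_abs_self _).trans (this.trans (le_max_left _ _))

/-- chain rule for `√ G` -/
theorem wsobL_sqrt_G {θ : ℝ → ℝ} (hθ : ContDiff ℝ ∞ θ) (hθ' : ∀ s, 0 ≤ deriv θ s)
    {v : E n → ℝ} (hv : ContDiff ℝ ∞ v) (z : E n × E n) :
    √(L.G (fun x => θ (v x)) (fun x => θ (v x)) z) = deriv θ (v z.1) * √(L.G v v z) := by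
  have e : L.G (fun x => θ (v x)) (fun x => θ (v x)) z =
      deriv θ (v z.1) ^ 2 * L.G v v z := by
    have hd : HasDerivAt θ (deriv θ (v z.1)) (v z.1) :=
      (hθ.differentiable (by norm_num) _).hasDerivAt
    show gv _ _ _ = _ * gv _ _ _
    rw [D_comp hd (hv.differentiable (by norm_num) _), gv_smul_left, gv_smul_right]
    ring
  rw [e, Real.sqrt_mul (sq_nonneg _), Real.sqrt_sq (hθ' _)]

/-- B4, from the upper density and the potential estimate -/
theorem wsob_of
    (hup : ∃ C > 0, (∀ c ∈ L.K, ∀ s : ℝ, 0 < s → L.V.real {z | L.ds c z.1 ≤ s} ≤ C * s ^ L.m) ∧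
      ∀ c ∈ L.K, ∀ s : ℝ, L.Ad s → ∫ z, L.ws c s z.1 ^ L.m ∂L.V ≤ C)
    (hpot : ∃ C > 0, ∀ᵐ z₀ ∂L.V, ∀ Φ : E n → ℝ, ContDiff ℝ ∞ Φ → (∀ x, 0 ≤ Φ x) →
      ∀ S, L.Ad S → sg L.m * Φ z₀.1 ≤ L.Js Φ z₀.1 S +
        C * ∫ z, (Φ z.1 * L.ds z₀.1 z.1 + √(L.G Φ Φ z)) * L.kS S (L.ds z₀.1 z.1) ∂L.V) :
    ∃ C > 0, ∀ v : E n → ℝ, ContDiff ℝ ∞ v → (∀ x, 0 ≤ v x) →
      (∫ z, v z.1 ^ L.ps ∂L.V) ^ (2 / L.ps) ≤
        C * ((∫ z, L.G v v z ∂L.V) + ∫ z, v z.1 ^ 2 ∂L.V) := by
  obtain ⟨C0, hC0, hD, -⟩ := hup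
  obtain ⟨Cp, hCp, hP⟩ := hpot
  obtain ⟨B, hB1, hB⟩ := L.wsobL_ds_bdd
  have hm3 := L.three_le
  have hm0 := L.m_pos
  have hm2 := L.m_sub_pos
  have hsg : 0 < sg L.m := wsobL_sg_pos hm0
  set S : ℝ := L.wsobLS with hSdef
  have hSad : L.Ad S := L.wsobLS_ad
  have hS0 : 0 < S := hSad.1
  set W : ℝ := (2 / S) ^ L.m with hW
  have hW0 : 0 ≤ W := by positivity
  set C1 : ℝ := (W + Cp * B) / sg L.m with hC1def
  have hB0 : 0 < B := by linarith
  have hC1 : 0 ≤ C1 := by positivity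
  refine ⟨WSob.Cs L.m C0 C1 (L.V.real univ) + 1, by
    linarith [WSob.Cs_nonneg L.m C0 C1 (L.V.real univ)], ?_⟩
  intro v hv hv0
  have hv1 : ContDiff ℝ 1 v := hv.of_le (by exact_mod_cast le_top)
  have hGc : Continuous (L.G v v) := L.G_cont hv1 hv1
  obtain ⟨T, hT⟩ : ∃ T : ℝ, 0 < T ∧ ∀ x ∈ L.K, v x < T := by
    obtain ⟨T, hT⟩ := L.K_compact.exists_bound_of_continuousOn hv.continuous.continuousOn
    refine ⟨max T 0 + 1, by positivity, fun x hx => ?_⟩
    have h1 := (le_abs_self _).trans (hT x hx)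
    have h2 := le_max_left T 0
    linarith
  have hmain := WSob.wsob_real L.m hm3 L.V (fun p z => L.ds p.1 z.1)
    (by
      have : Continuous fun q : (E n × E n) × (E n × E n) => L.ds q.1.1 q.2.1 :=
        L.wsobL_ds_cont.comp ((continuous_fst.comp continuous_fst).prodMk
          (continuous_fst.comp continuous_snd))
      exact this.measurable)
    (fun p x => L.wsobL_ds_nonneg _ _) C0 C1 hC0.le hC1
    (by
      filter_upwards [L.V_supp] with y hy s hs
      refine le_trans (measureReal_mono ?_ (measure_ne_top _ _)) (hD y.1 hy.1 s hs)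
      intro p hp
      have hp' : L.ds p.1 y.1 < s := hp
      rw [L.wsobL_ds_comm] at hp'
      exact hp'.le)
    (fun z => v z.1) (hv.continuous.comp continuous_fst).measurable (fun z => hv0 _) T hT.1
    (by
      filter_upwards [L.V_supp] with y hy
      exact hT.2 _ hy.1)
    (fun z => √(L.G v v z)) (Real.continuous_sqrt.comp hGc).measurable
    (fun z => Real.sqrt_nonneg _)
    (L.integrable_of_cont ((Real.continuous_sqrt.comp hGc).pow 2))
    (by
      intro θ hθ hθm hθ0 _ _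
      have hθd : ∀ s, 0 ≤ deriv θ s := fun s => hθm.deriv_nonneg
      filter_upwards [hP, L.V_supp] with p hp hpK
      have hΦ : ContDiff ℝ ∞ fun x => θ (v x) := hθ.comp hv
      have h1 := hp (fun x => θ (v x)) hΦ (fun x => hθ0 _) S hSad
      -- first term
      have a1 : ENNReal.ofReal (L.Js (fun x => θ (v x)) p.1 S) ≤
          ENNReal.ofReal W * ∫⁻ x, ENNReal.ofReal (θ (v x.1)) ∂L.V := by
        unfold Js
        refine (WSob.ofReal_integral_le _ _ (Filter.Eventually.of_forall fun z =>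
          mul_nonneg (hθ0 _) (Real.rpow_nonneg (L.wsobL_ws_nonneg _ _) _))).trans ?_
        rw [← lintegral_const_mul' _ _ ENNReal.ofReal_ne_top]
        refine lintegral_mono fun z => ?_
        rw [← ENNReal.ofReal_mul hW0]
        refine ENNReal.ofReal_le_ofReal ?_
        rw [mul_comm]
        refine mul_le_mul_of_nonneg_right ?_ (hθ0 _)
        exact Real.rpow_le_rpow (L.wsobL_ws_nonneg _ _) (L.wsobL_ws_le hS0 _ _) hm0.le
      -- second term
      have a2 : ENNReal.ofReal (∫ z, (θ (v z.1) * L.ds p.1 z.1 +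
            √(L.G (fun x => θ (v x)) (fun x => θ (v x)) z)) * L.kS S (L.ds p.1 z.1) ∂L.V) ≤
          ENNReal.ofReal B * ∫⁻ z, ENNReal.ofReal (L.ds p.1 z.1 ^ (1 - L.m)) *
            ENNReal.ofReal (deriv θ (v z.1) * √(L.G v v z) + θ (v z.1)) ∂L.V := by
        refine (WSob.ofReal_integral_le _ _ (Filter.Eventually.of_forall fun z =>
          mul_nonneg (add_nonneg (mul_nonneg (hθ0 _) (L.wsobL_ds_nonneg _ _))
            (Real.sqrt_nonneg _)) (L.wsobL_kS_nonneg hS0 (L.wsobL_ds_nonneg _ _)))).trans ?_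
        rw [← lintegral_const_mul' _ _ ENNReal.ofReal_ne_top]
        refine lintegral_mono_ae ?_
        filter_upwards [L.V_supp] with z hz
        have hd0 := L.wsobL_ds_nonneg p.1 z.1
        have hd1 := hB p.1 hpK.1 z.1 hz.1
        have hr0 : 0 ≤ L.ds p.1 z.1 ^ (1 - L.m) := Real.rpow_nonneg hd0 _
        have hθv := hθ0 (v z.1)
        have hθd' := hθd (v z.1)
        have hsq := Real.sqrt_nonneg (L.G v v z)
        rw [L.wsobL_sqrt_G hθ hθd hv, ← ENNReal.ofReal_mul hr0, ← ENNReal.ofReal_mul hB0.le]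
        refine ENNReal.ofReal_le_ofReal ?_
        have b1 : θ (v z.1) * L.ds p.1 z.1 + deriv θ (v z.1) * √(L.G v v z) ≤
            B * (deriv θ (v z.1) * √(L.G v v z) + θ (v z.1)) := by
          have c1 : θ (v z.1) * L.ds p.1 z.1 ≤ θ (v z.1) * B :=
            mul_le_mul_of_nonneg_left hd1 hθv
          have c2 : 0 ≤ (B - 1) * (deriv θ (v z.1) * √(L.G v v z)) :=
            mul_nonneg (by linarith) (mul_nonneg hθd' hsq)
          linarith
        calc (θ (v z.1) * L.ds p.1 z.1 + deriv θ (v z.1) * √(L.G v v z)) *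
              L.kS S (L.ds p.1 z.1)
            ≤ (B * (deriv θ (v z.1) * √(L.G v v z) + θ (v z.1))) *
              L.ds p.1 z.1 ^ (1 - L.m) :=
              mul_le_mul b1 (L.wsobL_kS_le hS0 hd0) (L.wsobL_kS_nonneg hS0 hd0)
                (by positivity)
          _ = _ := by ring
      -- conclusion
      have h2 : θ (v p.1) ≤ (1 / sg L.m) * (L.Js (fun x => θ (v x)) p.1 S +
          Cp * ∫ z, (θ (v z.1) * L.ds p.1 z.1 +
            √(L.G (fun x => θ (v x)) (fun x => θ (v x)) z)) * L.kS S (L.ds p.1 z.1) ∂L.V) := by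
        rw [one_div, ← div_eq_inv_mul, le_div_iff₀ hsg, mul_comm]
        exact h1
      refine (ENNReal.ofReal_le_ofReal h2).trans ?_
      rw [ENNReal.ofReal_mul (by positivity)]
      refine (mul_le_mul_right ENNReal.ofReal_add_le _).trans ?_
      rw [ENNReal.ofReal_mul hCp.le]
      set X : ℝ≥0∞ := ∫⁻ x, ENNReal.ofReal (θ (v x.1)) ∂L.V with hX
      set Y : ℝ≥0∞ := ∫⁻ z, ENNReal.ofReal (L.ds p.1 z.1 ^ (1 - L.m)) *
            ENNReal.ofReal (deriv θ (v z.1) * √(L.G v v z) + θ (v z.1)) ∂L.V with hY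
      have hC1e : ENNReal.ofReal C1 = ENNReal.ofReal (1 / sg L.m) *
          (ENNReal.ofReal W + ENNReal.ofReal Cp * ENNReal.ofReal B) := by
        rw [hC1def, div_eq_mul_one_div, mul_comm, ENNReal.ofReal_mul (by positivity),
          ENNReal.ofReal_add hW0 (by positivity), ENNReal.ofReal_mul hCp.le]
      rw [hC1e, mul_assoc]
      refine mul_le_mul_right ?_ _
      calc ENNReal.ofReal (L.Js (fun x => θ (v x)) p.1 S) + ENNReal.ofReal Cp * ENNReal.ofReal
            (∫ z, (θ (v z.1) * L.ds p.1 z.1 +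
              √(L.G (fun x => θ (v x)) (fun x => θ (v x)) z)) * L.kS S (L.ds p.1 z.1) ∂L.V)
          ≤ ENNReal.ofReal W * X + ENNReal.ofReal Cp * (ENNReal.ofReal B * Y) :=
            add_le_add a1 (mul_le_mul_right a2 _)
        _ ≤ (ENNReal.ofReal W + ENNReal.ofReal Cp * ENNReal.ofReal B) * (Y + X) := by
            have e : (ENNReal.ofReal W + ENNReal.ofReal Cp * ENNReal.ofReal B) * (Y + X) =
                (ENNReal.ofReal W * X + ENNReal.ofReal Cp * (ENNReal.ofReal B * Y)) +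
                (ENNReal.ofReal W * Y + ENNReal.ofReal Cp * (ENNReal.ofReal B * X)) := by ring
            rw [e]
            exact le_self_add)
  -- translate
  have e1 : 2 / L.ps = 1 - 2 / L.m := by
    unfold ps
    field_simp
  have e2 : ∫ z, √(L.G v v z) ^ 2 ∂L.V = ∫ z, L.G v v z ∂L.V := by
    refine L.integral_congr_of fun z _ hz => ?_
    exact Real.sq_sqrt (L.G_self_nonneg v hz)
  rw [e1, ← e2]
  refine hmain.trans ?_
  have i2 : 0 ≤ ∫ z, v z.1 ^ 2 ∂L.V := integral_nonneg fun x => by positivity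
  have i3 : 0 ≤ ∫ z, √(L.G v v z) ^ 2 ∂L.V := integral_nonneg fun x => by positivity
  exact mul_le_mul_of_nonneg_right (by linarith) (by linarith)

end Lim

end Vale.Agent.P219.End
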